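import Crest.Agent.R339.Q.Defs

/-!
# Row 339, part Q: bounded measurable functions, even sets, the symplectic form
-/

set_option autoImplicit false

namespace Crest.Agent.R339

open MeasureTheory ProbabilityTheory Filter Topology Crest.MathPhysics.SpinGlass
open scoped InnerProductSpace ComplexConjugate

section bm
variable {K : ℕ}

theorem BM.const (c : ℂ) : BM (fun _ : Lab K => c) := ⟨measurable_const, ‖c‖, fun _ => le_rfl⟩
theorem BM.mul {g h : Lab K → ℂ} (hg : BM g) (hh : BM h) : BM (g * h) := by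
  obtain ⟨h1, C, hC⟩ := hg
  obtain ⟨h2, D, hD⟩ := hh
  exact ⟨h1.mul h2, C * D, fun x => (norm_mul_le _ _).trans
    (mul_le_mul (hC x) (hD x) (norm_nonneg _) ((norm_nonneg _).trans (hC x)))⟩
theorem BM.add {g h : Lab K → ℂ} (hg : BM g) (hh : BM h) : BM (g + h) := by
  obtain ⟨h1, C, hC⟩ := hg
  obtain ⟨h2, D, hD⟩ := hh
  exact ⟨h1.add h2, C + D, fun x => (norm_add_le _ _).trans (add_le_add (hC x) (hD x))⟩
theorem BM.sub {g h : Lab K → ℂ} (hg : BM g) (hh : BM h) : BM (g - h) := by
  obtain ⟨h1, C, hC⟩ := hg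
  obtain ⟨h2, D, hD⟩ := hh
  exact ⟨h1.sub h2, C + D, fun x => (norm_sub_le _ _).trans (add_le_add (hC x) (hD x))⟩
theorem BM.neg {g : Lab K → ℂ} (hg : BM g) : BM (-g) := by
  obtain ⟨h1, C, hC⟩ := hg
  exact ⟨h1.neg, C, fun x => (norm_neg _).trans_le (hC x)⟩
theorem BM.conj {g : Lab K → ℂ} (hg : BM g) : BM (fun x => conj (g x)) := by
  obtain ⟨h1, C, hC⟩ := hg
  exact ⟨Complex.continuous_conj.measurable.comp h1, C, fun x => by simpa using hC x⟩
theorem BM.sum {ι : Type} (s : Finset ι) {g : ι → Lab K → ℂ} (hg : ∀ i ∈ s, BM (g i)) :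
    BM (∑ i ∈ s, g i) :=
  Finset.sum_induction g BM (fun _ _ => BM.add) (BM.const 0) hg
theorem BM.indicator {E : Set (Lab K)} (hE : MeasurableSet E) {g : Lab K → ℂ} (hg : BM g) :
    BM (E.indicator g) := by
  obtain ⟨h1, C, hC⟩ := hg
  exact ⟨h1.indicator hE, C, fun x => (norm_indicator_le_norm_self _ _).trans (hC x)⟩
theorem BM.ofReal {g : Lab K → ℝ} (hg : Measurable g) {C : ℝ} (hC : ∀ x, |g x| ≤ C) :
    BM (fun x => (g x : ℂ)) :=
  ⟨Complex.measurable_ofReal.comp hg, C, fun x => by simpa using hC x⟩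
theorem BM.expI {κ : Lab K → ℝ} (hκ : Measurable κ) :
    BM (fun x => Complex.exp (Complex.I * (κ x : ℂ))) :=
  ⟨by fun_prop, 1, fun x => (Complex.norm_exp_I_mul_ofReal _).le⟩
theorem BM.cos {κ : Lab K → ℝ} (hκ : Measurable κ) :
    BM (fun x => ((Real.cos (κ x) : ℝ) : ℂ)) :=
  BM.ofReal hκ.cos fun _ => Real.abs_cos_le_one _
theorem BM.sin {κ : Lab K → ℝ} (hκ : Measurable κ) :
    BM (fun x => ((Real.sin (κ x) : ℝ) : ℂ)) :=
  BM.ofReal hκ.sin fun _ => Real.abs_sin_le_one _
theorem measurable_sign0 : Measurable (fun x : Lab K => Real.sign (x 0)) := by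
  unfold Real.sign
  exact Measurable.ite (measurableSet_lt (measurable_pi_apply 0) measurable_const) measurable_const
    (Measurable.ite (measurableSet_lt measurable_const (measurable_pi_apply 0)) measurable_const
      measurable_const)
theorem BM.sign : BM (fun x : Lab K => ((Real.sign (x 0) : ℝ) : ℂ)) :=
  BM.ofReal measurable_sign0 (C := 1) fun x => by
    rcases Real.sign_apply_eq (x 0) with h | h | h <;> simp [h]
theorem BM.integrable {g : Lab K → ℂ} (hg : BM g) : Integrable g (gL K) := by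
  obtain ⟨h1, C, hC⟩ := hg
  exact Integrable.of_bound h1.aestronglyMeasurable C (Eventually.of_forall hC)
theorem ae_ne_zero0 : ∀ᵐ x ∂gL K, x 0 ≠ 0 := by
  have := nullSingletonClass_gaussianReal (μ := 0) (v := 1) one_ne_zero
  exact Measure.ae_eval_ne (fun _ : Fin (K + 1) => gaussianReal 0 1) 0 0
/-- odd functions have mean zero -/
theorem integral_odd {g : Lab K → ℝ} (hodd : ∀ x, g (-x) = -g x) : ∫ x, g x ∂gL K = 0 := by
  have h : MeasurePreserving (MeasurableEquiv.neg (Lab K)) (gL K) (gL K) :=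
    measurePreserving_pi _ _ (f := fun _ x => -x) fun _ =>
      ⟨measurable_neg, gaussianReal_map_neg.trans (by rw [neg_zero])⟩
  have := h.integral_comp' g
  simp only [MeasurableEquiv.neg_apply, hodd, integral_neg] at this
  linarith
theorem measurePreserving_neg_gL : MeasurePreserving (fun x : Lab K => -x) (gL K) (gL K) :=
  measurePreserving_pi _ _ (f := fun _ x => -x) fun _ =>
    ⟨measurable_neg, gaussianReal_map_neg.trans (by rw [neg_zero])⟩

theorem EvS.univ (M : ℕ) : EvS M (Set.univ : Set (Lab K)) :=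
  ⟨MeasurableSet.univ, fun _ => Iff.rfl, fun _ _ _ => rfl⟩
theorem EvS.compl {M : ℕ} {A : Set (Lab K)} (h : EvS M A) : EvS M Aᶜ :=
  ⟨h.1.compl, fun x => (h.2.1 x).not, fun x x' hx => congrArg Not (h.2.2 x x' hx)⟩
theorem EvS.inter {M : ℕ} {A B : Set (Lab K)} (h : EvS M A) (h' : EvS M B) : EvS M (A ∩ B) :=
  ⟨h.1.inter h'.1, fun x => (h.2.1 x).and (h'.2.1 x),
    fun x x' hx => congrArg₂ And (h.2.2 x x' hx) (h'.2.2 x x' hx)⟩
theorem EvS.union {M : ℕ} {A B : Set (Lab K)} (h : EvS M A) (h' : EvS M B) : EvS M (A ∪ B) :=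
  ⟨h.1.union h'.1, fun x => (h.2.1 x).or (h'.2.1 x),
    fun x x' hx => congrArg₂ Or (h.2.2 x x' hx) (h'.2.2 x x' hx)⟩
theorem EvS.diff {M : ℕ} {A B : Set (Lab K)} (h : EvS M A) (h' : EvS M B) : EvS M (A \ B) :=
  h.inter h'.compl
/-- `c · 1_E` is even of level `M` -/
theorem EvS.br_ind {M : ℕ} {E : Set (Lab K)} (h : EvS M E) (c : ℝ) :
    BR M (E.indicator fun _ => c) ∧ ∀ x, E.indicator (fun _ => c) (-x) = E.indicator (fun _ => c) x := by
  classical
  refine ⟨⟨measurable_const.indicator h.1,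
    ⟨‖c‖, fun x => norm_indicator_le_norm_self (fun _ => c) x⟩, fun x x' hx => ?_⟩, fun x => ?_⟩
  · have : x ∈ E ↔ x' ∈ E := (h.2.2 x x' hx).to_iff
    simp only [Set.indicator_apply, this]
  · simp only [Set.indicator_apply, h.2.1 x]
/-- `c · σ · 1_E` is odd of level `M ≥ 1` -/
theorem EvS.br_sign {M : ℕ} (hM : 1 ≤ M) {E : Set (Lab K)} (h : EvS M E) (c : ℝ) :
    BR M (E.indicator fun x => c * Real.sign (x 0)) ∧
      ∀ x, E.indicator (fun x => c * Real.sign (x 0)) (-x) =
        -E.indicator (fun x => c * Real.sign (x 0)) x := by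
  classical
  refine ⟨⟨(measurable_sign0.const_mul c).indicator h.1, ⟨|c|, fun x =>
    (norm_indicator_le_norm_self (fun x : Lab K => c * Real.sign (x 0)) x).trans ?_⟩,
    fun x x' hx => ?_⟩, fun x => ?_⟩
  · rcases Real.sign_apply_eq (x 0) with h | h | h <;> simp [h]
  · have : x ∈ E ↔ x' ∈ E := (h.2.2 x x' hx).to_iff
    simp only [Set.indicator_apply, this, hx 0 hM]
  · simp only [Set.indicator_apply, h.2.1 x, Pi.neg_apply, Real.sign_neg]
    split_ifs <;> simp
theorem Lev.append {M : ℕ} {w w' : List (Layer K)} (h : Lev M w) (h' : Lev M w') : Lev M (w ++ w') :=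
  fun L hL => (List.mem_append.1 hL).elim (h L) (h' L)
theorem Lev.take {M : ℕ} {w : List (Layer K)} (h : Lev M w) (k : ℕ) : Lev M (w.take k) :=
  fun L hL => h L (List.mem_of_mem_take hL)
theorem Lev.mono {M M' : ℕ} {w : List (Layer K)} (h : Lev M w) (hM : M ≤ M') : Lev M' w :=
  fun L hL i hi => h L hL i (hM.trans hi)
end bm

section om
variable {KK : Type} [NormedAddCommGroup KK] [InnerProductSpace ℂ KK]
theorem om_self (y : KK) : om y y = 0 := inner_self_im (𝕜 := ℂ) y
theorem om_swap (y y' : KK) : om y' y = -om y y' := inner_im_symm (𝕜 := ℂ) y' y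
theorem om_add_left (y y' u : KK) : om (y + y') u = om y u + om y' u := by
  simp [om, inner_add_left]
theorem om_add_right (y u u' : KK) : om y (u + u') = om y u + om y u' := by
  simp [om, inner_add_right]
theorem om_sub_left (y y' u : KK) : om (y - y') u = om y u - om y' u := by
  simp [om, inner_sub_left]
theorem om_sub_right (y u u' : KK) : om y (u - u') = om y u - om y u' := by
  simp [om, inner_sub_right]
theorem om_neg_left (y u : KK) : om (-y) u = -om y u := by
  simp [om, inner_neg_left]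
theorem om_neg_right (y u : KK) : om y (-u) = -om y u := by
  simp [om, inner_neg_right]
theorem om_smul_left (c : ℝ) (y u : KK) : om (c • y) u = c * om y u := by
  rw [om, om, ← Complex.coe_smul, inner_smul_left]
  simp
theorem om_smul_right (c : ℝ) (y u : KK) : om y (c • u) = c * om y u := by
  rw [om, om, ← Complex.coe_smul, inner_smul_right]
  simp
theorem om_zero_left (u : KK) : om 0 u = 0 := by simp [om]
theorem om_zero_right (u : KK) : om u 0 = 0 := by simp [om]
theorem abs_om_le (y u : KK) : |om y u| ≤ ‖y‖ * ‖u‖ :=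
  (Complex.abs_im_le_norm _).trans (norm_inner_le_norm _ _)
theorem abs_om_le_norm_inner (y u : KK) : |om y u| ≤ ‖⟪y, u⟫_ℂ‖ := Complex.abs_im_le_norm _
theorem om_eq_zero_of_inner {y u : KK} (h : ⟪y, u⟫_ℂ = 0) : om y u = 0 := by simp [om, h]
end om

end Crest.Agent.R339
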