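import Crest.Agent.R339.Q.Alg0

/-!
# Row 339, part Q: multiplication operators, fibred unitaries
-/

set_option autoImplicit false

namespace Crest.Agent.R339

open MeasureTheory ProbabilityTheory Filter Topology Crest.MathPhysics.SpinGlass
open scoped InnerProductSpace ComplexConjugate

namespace Model

variable {K : ℕ} {I : Iamp K} {H KK : Type} [NormedAddCommGroup H] [InnerProductSpace ℂ H]
  [CompleteSpace H] [NormedAddCommGroup KK] [InnerProductSpace ℂ KK] (m : Model I H KK)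

theorem mul_one' : m.mul (fun _ => 1) = 1 := by rw [m.mul_const, one_smul]
theorem mul_zero' : m.mul (fun _ => 0) = 0 := by rw [m.mul_const, zero_smul]
theorem mul_neg {g : Lab K → ℂ} (hg : BM g) : m.mul (-g) = -m.mul g := by
  have h := m.mul_add (-g) g hg.neg hg
  rw [neg_add_cancel, show (0 : Lab K → ℂ) = fun _ => 0 from rfl, m.mul_zero'] at h
  exact eq_neg_of_add_eq_zero_left h.symm
theorem mul_sub {g h : Lab K → ℂ} (hg : BM g) (hh : BM h) : m.mul (g - h) = m.mul g - m.mul h := by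
  rw [sub_eq_add_neg, m.mul_add g (-h) hg hh.neg, m.mul_neg hh, sub_eq_add_neg]
theorem mul_smul (c : ℂ) {g : Lab K → ℂ} (hg : BM g) : m.mul (fun x => c * g x) = c • m.mul g := by
  have h := m.mul_mul (fun _ => c) g (BM.const c) hg
  rw [m.mul_const, smul_mul_assoc, one_mul] at h
  exact h
theorem mul_sum {ι : Type} (s : Finset ι) {g : ι → Lab K → ℂ} (hg : ∀ i ∈ s, BM (g i)) :
    m.mul (∑ i ∈ s, g i) = ∑ i ∈ s, m.mul (g i) := by
  classical
  induction s using Finset.induction_on with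
  | empty => exact m.mul_zero'
  | insert a s ha ih =>
    rw [Finset.sum_insert ha, Finset.sum_insert ha,
      m.mul_add _ _ (hg a (Finset.mem_insert_self _ _))
        (BM.sum s fun i hi => hg i (Finset.mem_insert_of_mem hi)),
      ih fun i hi => hg i (Finset.mem_insert_of_mem hi)]
theorem mul_comm' {g h : Lab K → ℂ} (hg : BM g) (hh : BM h) : Commute (m.mul g) (m.mul h) := by
  change m.mul g * m.mul h = m.mul h * m.mul g
  rw [← m.mul_mul g h hg hh, ← m.mul_mul h g hh hg, mul_comm]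
theorem inner_vac_mul {g : Lab K → ℂ} (hg : BM g) : ⟪m.vac, m.mul g m.vac⟫_ℂ = ∫ x, g x ∂gL K := by
  have h := m.vac_W g hg 0 (Submodule.zero_mem _)
  simpa [m.W_zero] using h
/-- multiplication operators on vectors `U Ω` have the `L²` norm -/
theorem norm_mul_fib_sq {U : H →L[ℂ] H} (hU : m.Fib U) {g : Lab K → ℂ} (hg : BM g) :
    ‖m.mul g (U m.vac)‖ ^ 2 = ∫ x, ‖g x‖ ^ 2 ∂gL K := by
  have h1 : m.mul g (U m.vac) = U (m.mul g m.vac) :=
    (congrArg (fun A : H →L[ℂ] H => A m.vac) (hU.2 g hg).eq).symm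
  have h2 : ‖U (m.mul g m.vac)‖ = ‖m.mul g m.vac‖ :=
    ContinuousLinearMap.norm_map_of_mem_unitary hU.1 _
  have h3 : ⟪m.mul g m.vac, m.mul g m.vac⟫_ℂ = ∫ x, ((‖g x‖ ^ 2 : ℝ) : ℂ) ∂gL K := by
    rw [← ContinuousLinearMap.adjoint_inner_right, ← ContinuousLinearMap.star_eq_adjoint,
      m.mul_star g hg, ← mul_apply_eq_comp, ← m.mul_mul _ _ hg.conj hg,
      m.inner_vac_mul (hg.conj.mul hg)]
    congr 1
    funext x
    simp [Complex.conj_mul']
  rw [integral_complex_ofReal, inner_self_eq_norm_sq_to_K] at h3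
  rw [h1, h2]
  apply Complex.ofReal_injective
  rw [← h3]
  simp

theorem Cen.one : m.Cen 1 :=
  fun _ _ => Commute.one_left _
theorem Cen.zero : m.Cen 0 :=
  fun _ _ => Commute.zero_left _
theorem cen_mul {g : Lab K → ℂ} (hg : BM g) : m.Cen (m.mul g) :=
  fun _ hh => m.mul_comm' hg hh
theorem cen_X : m.Cen m.X :=
  m.X_mul
theorem cen_Z : m.Cen m.Z :=
  m.Z_mul
theorem cen_Y : m.Cen m.Y :=
  fun g hg => ((m.X_mul g hg).mul_left (m.Z_mul g hg)).smul_left _
theorem cen_W (y : KK) : m.Cen (m.W y) :=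
  m.W_mul y
theorem cen_Sg : m.Cen m.Sg :=
  m.cen_mul BM.sign
theorem cen_P {E : Set (Lab K)} (hE : MeasurableSet E) : m.Cen (m.P E) :=
  m.cen_mul (BM.indicator hE (BM.const 1))
variable {m}
theorem Cen.mul {A A' : H →L[ℂ] H} (h : m.Cen A) (h' : m.Cen A') : m.Cen (A * A') :=
  fun g hg => (h g hg).mul_left (h' g hg)
theorem Cen.add {A A' : H →L[ℂ] H} (h : m.Cen A) (h' : m.Cen A') : m.Cen (A + A') :=
  fun g hg => (h g hg).add_left (h' g hg)
theorem Cen.sub {A A' : H →L[ℂ] H} (h : m.Cen A) (h' : m.Cen A') : m.Cen (A - A') :=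
  fun g hg => (h g hg).sub_left (h' g hg)
theorem Cen.neg {A : H →L[ℂ] H} (h : m.Cen A) : m.Cen (-A) :=
  fun g hg => (h g hg).neg_left
theorem Cen.smul {A : H →L[ℂ] H} (h : m.Cen A) (c : ℂ) : m.Cen (c • A) :=
  fun g hg => (h g hg).smul_left c
theorem Cen.rsmul {A : H →L[ℂ] H} (h : m.Cen A) (c : ℝ) : m.Cen (c • A) :=
  fun g hg => (h g hg).smul_left c
theorem Cen.star {A : H →L[ℂ] H} (h : m.Cen A) : m.Cen (star A) := by
  intro g hg
  have h1 := (h _ hg.conj).star_star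
  rw [m.mul_star _ hg.conj] at h1
  simpa using h1
theorem Cen.sum {ι : Type} (s : Finset ι) {A : ι → H →L[ℂ] H} (h : ∀ i ∈ s, m.Cen (A i)) :
    m.Cen (∑ i ∈ s, A i) :=
  fun g hg => Commute.sum_left s _ _ fun i hi => h i hi g hg
theorem Cen.commute_P {A : H →L[ℂ] H} (h : m.Cen A) {E : Set (Lab K)} (hE : MeasurableSet E) :
    Commute A (m.P E) :=
  h _ (BM.indicator hE (BM.const 1))
theorem Cen.commute_Sg {A : H →L[ℂ] H} (h : m.Cen A) : Commute A m.Sg :=
  h _ BM.sign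
theorem Cen.commute_ph {A : H →L[ℂ] H} (h : m.Cen A) {κ : Lab K → ℝ} (hκ : Measurable κ) :
    Commute A (m.ph κ) :=
  h _ (BM.expI hκ)
theorem Fib.mul {U V : H →L[ℂ] H} (h : m.Fib U) (h' : m.Fib V) : m.Fib (U * V) :=
  ⟨mul_mem h.1 h'.1, h.2.mul h'.2⟩
theorem Fib.star {U : H →L[ℂ] H} (h : m.Fib U) : m.Fib (star U) :=
  ⟨Unitary.star_mem h.1, h.2.star⟩
theorem Fib.star_mul_self {U : H →L[ℂ] H} (h : m.Fib U) : Star.star U * U = 1 :=
  h.1.1
theorem Fib.mul_star_self {U : H →L[ℂ] H} (h : m.Fib U) : U * Star.star U = 1 :=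
  h.1.2
theorem Fib.norm_apply {U : H →L[ℂ] H} (h : m.Fib U) (v : H) : ‖U v‖ = ‖v‖ :=
  ContinuousLinearMap.norm_map_of_mem_unitary h.1 v
theorem Fib.norm_le {U : H →L[ℂ] H} (h : m.Fib U) : ‖U‖ ≤ 1 :=
  ContinuousLinearMap.opNorm_le_bound _ zero_le_one fun v => by rw [h.norm_apply, one_mul]
theorem Fib.inner_apply {U : H →L[ℂ] H} (h : m.Fib U) (u v : H) : ⟪U u, U v⟫_ℂ = ⟪u, v⟫_ℂ :=
  ContinuousLinearMap.inner_map_map_of_mem_unitary h.1 u v
theorem Fib.smul {U : H →L[ℂ] H} (h : m.Fib U) {c : ℂ} (hc : ‖c‖ = 1) : m.Fib (c • U) := by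
  have h1 : (starRingEnd ℂ) c * c = 1 := by
    rw [Complex.conj_mul', hc]; simp
  refine ⟨⟨?_, ?_⟩, h.2.smul c⟩
  · rw [star_smul, smul_mul_smul_comm, h.star_mul_self, Complex.star_def, h1, one_smul]
  · rw [star_smul, smul_mul_smul_comm, h.mul_star_self, Complex.star_def, mul_comm, h1, one_smul]
variable (m)
theorem fib_one : m.Fib 1 :=
  ⟨one_mem _, Cen.one m⟩
theorem fib_ph {κ : Lab K → ℝ} (hκ : Measurable κ) : m.Fib (m.ph κ) := by
  have key : ∀ x, conj (Complex.exp (Complex.I * (κ x : ℂ))) *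
      Complex.exp (Complex.I * (κ x : ℂ)) = 1 := by
    intro x
    rw [← Complex.exp_conj, ← Complex.exp_add]
    simp
  refine ⟨⟨?_, ?_⟩, m.cen_mul (BM.expI hκ)⟩
  · rw [ph, m.mul_star _ (BM.expI hκ), ← m.mul_mul _ _ (BM.expI hκ).conj (BM.expI hκ), ← m.mul_one']
    congr 1
    funext x
    exact key x
  · rw [ph, m.mul_star _ (BM.expI hκ), ← m.mul_mul _ _ (BM.expI hκ) (BM.expI hκ).conj, ← m.mul_one']
    congr 1
    funext x
    exact (mul_comm _ _).trans (key x)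
theorem ph_add {κ κ' : Lab K → ℝ} (hκ : Measurable κ) (hκ' : Measurable κ') :
    m.ph (κ + κ') = m.ph κ * m.ph κ' := by
  rw [ph, ph, ph, ← m.mul_mul _ _ (BM.expI hκ) (BM.expI hκ')]
  congr 1
  funext x
  simp [_root_.mul_add, Complex.exp_add]
theorem ph_zero : m.ph 0 = 1 := by
  rw [ph, ← m.mul_one']
  congr 1
  funext x
  simp
theorem ph_const (c : ℝ) : m.ph (fun _ => c) = Complex.exp (Complex.I * (c : ℂ)) • (1 : H →L[ℂ] H) := by
  rw [ph, m.mul_const]
theorem star_ph {κ : Lab K → ℝ} (hκ : Measurable κ) : star (m.ph κ) = m.ph (-κ) := by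
  rw [ph, ph, m.mul_star _ (BM.expI hκ)]
  congr 1
  funext x
  rw [← Complex.exp_conj]
  simp
theorem P_mul_ph {E : Set (Lab K)} (hE : MeasurableSet E) {κ : Lab K → ℝ} (hκ : Measurable κ) {c : ℝ}
    (hc : ∀ x ∈ E, κ x = c) : m.P E * m.ph κ = Complex.exp (Complex.I * (c : ℂ)) • m.P E := by
  rw [P, ph, ← m.mul_mul _ _ (BM.indicator hE (BM.const 1)) (BM.expI hκ),
    ← m.mul_smul _ (BM.indicator hE (BM.const 1))]
  congr 1
  funext x
  by_cases hx : x ∈ E
  · simp [hx, hc x hx]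
  · simp [hx]

end Model

end Crest.Agent.R339
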