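import Crest.Agent.R339.Q.Alg1

/-!
# Row 339, part Q: projections on label sets
-/

set_option autoImplicit false

namespace Crest.Agent.R339

open MeasureTheory ProbabilityTheory Filter Topology Crest.MathPhysics.SpinGlass
open scoped InnerProductSpace ComplexConjugate

namespace Model

variable {K : ℕ} {I : Iamp K} {H KK : Type} [NormedAddCommGroup H] [InnerProductSpace ℂ H]
  [CompleteSpace H] [NormedAddCommGroup KK] [InnerProductSpace ℂ KK] (m : Model I H KK)

private theorem bmI {E : Set (Lab K)} (hE : MeasurableSet E) :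
    BM (E.indicator fun _ => (1 : ℂ)) := BM.indicator hE (BM.const 1)

theorem P_star {E : Set (Lab K)} (hE : MeasurableSet E) : star (m.P E) = m.P E := by
  unfold P
  rw [m.mul_star _ (bmI hE)]
  congr 1
  funext x
  by_cases hx : x ∈ E <;> simp [hx]
theorem P_mul_P {A B : Set (Lab K)} (hA : MeasurableSet A) (hB : MeasurableSet B) :
    m.P A * m.P B = m.P (A ∩ B) := by
  unfold P
  rw [← m.mul_mul _ _ (bmI hA) (bmI hB)]
  congr 1
  funext x
  by_cases hx : x ∈ A <;> by_cases hx' : x ∈ B <;> simp [hx, hx']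
theorem P_univ : m.P Set.univ = 1 := by
  unfold P
  rw [Set.indicator_univ, m.mul_one']
theorem P_empty : m.P ∅ = 0 := by
  unfold P
  rw [Set.indicator_empty]
  exact m.mul_zero'
theorem P_idem {A : Set (Lab K)} (hA : MeasurableSet A) : m.P A * m.P A = m.P A := by
  rw [m.P_mul_P hA hA, Set.inter_self]
theorem P_mul_of_disjoint {A B : Set (Lab K)} (hA : MeasurableSet A) (hB : MeasurableSet B)
    (h : Disjoint A B) : m.P A * m.P B = 0 := by
  rw [m.P_mul_P hA hB, h.inter_eq, m.P_empty]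
theorem P_mul_of_subset {A B : Set (Lab K)} (hA : MeasurableSet A) (hB : MeasurableSet B)
    (h : A ⊆ B) : m.P A * m.P B = m.P A := by
  rw [m.P_mul_P hA hB, Set.inter_eq_left.2 h]
theorem P_add_compl {A : Set (Lab K)} (hA : MeasurableSet A) : m.P A + m.P Aᶜ = 1 := by
  unfold P
  rw [← m.mul_add _ _ (bmI hA) (bmI hA.compl), Set.indicator_self_add_compl, m.mul_one']
theorem P_union {A B : Set (Lab K)} (hA : MeasurableSet A) (hB : MeasurableSet B) (h : Disjoint A B) :
    m.P (A ∪ B) = m.P A + m.P B := by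
  unfold P
  rw [← m.mul_add _ _ (bmI hA) (bmI hB), Set.indicator_union_of_disjoint h]
  rfl
theorem P_iUnion {ι : Type} [Fintype ι] {T : ι → Set (Lab K)} (hT : ∀ i, MeasurableSet (T i))
    (h : Pairwise fun i i' => Disjoint (T i) (T i')) : m.P (⋃ i, T i) = ∑ i, m.P (T i) := by
  classical
  have key : ∀ s : Finset ι, m.P (⋃ i ∈ s, T i) = ∑ i ∈ s, m.P (T i) := by
    intro s
    induction s using Finset.induction_on with
    | empty => simpa using m.P_empty
    | insert a s ha ih =>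
      rw [Finset.set_biUnion_insert, Finset.sum_insert ha, m.P_union (hT a)
        (Finset.measurableSet_biUnion s fun i _ => hT i), ih]
      exact Set.disjoint_iUnion₂_right.2 fun i hi => h (by rintro rfl; exact ha hi)
  simpa using key Finset.univ
theorem norm_P_le {A : Set (Lab K)} (hA : MeasurableSet A) : ‖m.P A‖ ≤ 1 := by
  refine m.mul_norm _ 1 (bmI hA).1 fun x => ?_
  by_cases hx : x ∈ A <;> simp [hx]
theorem norm_P_apply_le {A : Set (Lab K)} (hA : MeasurableSet A) (v : H) : ‖m.P A v‖ ≤ ‖v‖ := by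
  exact ((m.P A).le_opNorm v).trans (mul_le_of_le_one_left (norm_nonneg _) (m.norm_P_le hA))
theorem norm_P_fib {U : H →L[ℂ] H} (hU : m.Fib U) {A : Set (Lab K)} (hA : MeasurableSet A) :
    ‖m.P A (U m.vac)‖ = Real.sqrt ((gL K).real A) := by
  have h := m.norm_mul_fib_sq hU (bmI hA)
  have e : (fun x => ‖A.indicator (fun _ => (1 : ℂ)) x‖ ^ 2) = A.indicator (1 : Lab K → ℝ) := by
    funext x
    by_cases hx : x ∈ A <;> simp [hx]
  rw [e, integral_indicator_one hA] at h
  rw [← h, Real.sqrt_sq (norm_nonneg _)]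
  rfl
theorem inner_P_P {A B : Set (Lab K)} (hA : MeasurableSet A) (hB : MeasurableSet B) (h : Disjoint A B)
    (u v : H) : ⟪m.P A u, m.P B v⟫_ℂ = 0 := by
  have h1 : ⟪m.P A u, m.P B v⟫_ℂ = ⟪u, (m.P A * m.P B) v⟫_ℂ := by
    conv_lhs => rw [← m.P_star hA, ContinuousLinearMap.star_eq_adjoint]
    exact ContinuousLinearMap.adjoint_inner_left _ _ _
  rw [h1, m.P_mul_of_disjoint hA hB h]
  simp
theorem inner_P_left {A : Set (Lab K)} (hA : MeasurableSet A) (u v : H) :
    ⟪m.P A u, v⟫_ℂ = ⟪u, m.P A v⟫_ℂ := by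
  conv_lhs => rw [← m.P_star hA, ContinuousLinearMap.star_eq_adjoint]
  exact ContinuousLinearMap.adjoint_inner_left _ _ _
theorem norm_sum_P_sq {ι : Type} (s : Finset ι) {T : ι → Set (Lab K)} (hT : ∀ i, MeasurableSet (T i))
    (h : Pairwise fun i i' => Disjoint (T i) (T i')) (v : ι → H) :
    ‖∑ i ∈ s, m.P (T i) (v i)‖ ^ 2 = ∑ i ∈ s, ‖m.P (T i) (v i)‖ ^ 2 := by
  classical
  induction s using Finset.induction_on with
  | empty => simp
  | insert a s ha ih =>
    rw [Finset.sum_insert ha, Finset.sum_insert ha, ← ih, sq, sq, sq]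
    refine norm_add_sq_eq_norm_sq_add_norm_sq_of_inner_eq_zero (𝕜 := ℂ) _ _ ?_
    rw [inner_sum]
    exact Finset.sum_eq_zero fun i hi =>
      m.inner_P_P (hT a) (hT i) (h (by rintro rfl; exact ha hi)) _ _
theorem sum_real_le_one {ι : Type} (s : Finset ι) {T : ι → Set (Lab K)} (hT : ∀ i, MeasurableSet (T i))
    (h : Pairwise fun i i' => Disjoint (T i) (T i')) : ∑ i ∈ s, (gL K).real (T i) ≤ 1 := by
  rw [← measureReal_biUnion_finset (fun i _ j _ hij => h hij) (fun i _ => hT i)]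
  exact measureReal_le_one
/-- if every piece is bounded by `c √γ(T i)` the sum is bounded by `c` -/
theorem norm_sum_P_le {ι : Type} (s : Finset ι) {T : ι → Set (Lab K)} (hT : ∀ i, MeasurableSet (T i))
    (h : Pairwise fun i i' => Disjoint (T i) (T i')) (v : ι → H) {c : ℝ} (hc : 0 ≤ c)
    (hv : ∀ i ∈ s, ‖m.P (T i) (v i)‖ ≤ c * Real.sqrt ((gL K).real (T i))) :
    ‖∑ i ∈ s, m.P (T i) (v i)‖ ≤ c := by
  refine (pow_le_pow_iff_left₀ (norm_nonneg _) hc two_ne_zero).1 ?_
  rw [m.norm_sum_P_sq s hT h]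
  calc ∑ i ∈ s, ‖m.P (T i) (v i)‖ ^ 2 ≤ ∑ i ∈ s, c ^ 2 * (gL K).real (T i) :=
        Finset.sum_le_sum fun i hi => by
          rw [← Real.sq_sqrt (measureReal_nonneg (μ := gL K) (s := T i)), ← mul_pow]
          exact pow_le_pow_left₀ (norm_nonneg _) (hv i hi) 2
    _ ≤ c ^ 2 := by
        rw [← Finset.mul_sum]
        exact mul_le_of_le_one_right (sq_nonneg _) (sum_real_le_one s hT h)
/-- Bessel form of the same bound -/
theorem sum_inner_P_le {ι : Type} (s : Finset ι) {T : ι → Set (Lab K)} (hT : ∀ i, MeasurableSet (T i))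
    (h : Pairwise fun i i' => Disjoint (T i) (T i')) (v : ι → H) {c : ℝ} (hc : 0 ≤ c)
    (hv : ∀ i ∈ s, ‖m.P (T i) (v i)‖ ≤ c * Real.sqrt ((gL K).real (T i))) (y : KK) :
    ∑ i ∈ s, ‖⟪y, m.j (m.P (T i) (v i))⟫_ℂ‖ ≤ c * ‖y‖ := by
  choose θ hθ1 hθ using fun i => RCLike.exists_norm_eq_mul_self (⟪y, m.j (m.P (T i) (v i))⟫_ℂ)
  have h1 := m.norm_sum_P_le s hT h (fun i => θ i • v i) hc fun i hi => by
    rw [map_smul, norm_smul, hθ1, one_mul]
    exact hv i hi
  have h2 : ((∑ i ∈ s, ‖⟪y, m.j (m.P (T i) (v i))⟫_ℂ‖ : ℝ) : ℂ) =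
      ⟪y, m.j (∑ i ∈ s, m.P (T i) (θ i • v i))⟫_ℂ := by
    rw [map_sum, inner_sum]
    push_cast
    refine Finset.sum_congr rfl fun i _ => ?_
    rw [map_smul, map_smul, inner_smul_right]
    exact hθ i
  have h3 := norm_inner_le_norm (𝕜 := ℂ) y (m.j (∑ i ∈ s, m.P (T i) (θ i • v i)))
  rw [← h2, Complex.norm_real, LinearIsometry.norm_map] at h3
  refine (le_abs_self _).trans (h3.trans ?_)
  rw [mul_comm]
  exact mul_le_mul_of_nonneg_right h1 (norm_nonneg _)
theorem fib_block2 {A : Set (Lab K)} (hA : MeasurableSet A) {U V : H →L[ℂ] H} (hU : m.Fib U)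
    (hV : m.Fib V) : m.Fib (m.P A * U + m.P Aᶜ * V) := by
  have hAc := hA.compl
  have c1 := (hU.2.commute_P hA).eq
  have c2 := (hV.2.commute_P hAc).eq
  have e1 := m.P_idem hA
  have e2 := m.P_idem hAc
  have e3 := m.P_mul_of_disjoint hA hAc disjoint_compl_right
  have e4 := m.P_mul_of_disjoint hAc hA disjoint_compl_left
  have e5 := m.P_add_compl hA
  refine ⟨⟨?_, ?_⟩, ((m.cen_P hA).mul hU.2).add ((m.cen_P hAc).mul hV.2)⟩
  · rw [star_add, star_mul, star_mul, m.P_star hA, m.P_star hAc]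
    calc (star U * m.P A + star V * m.P Aᶜ) * (m.P A * U + m.P Aᶜ * V)
        = star U * (m.P A * m.P A) * U + star U * (m.P A * m.P Aᶜ) * V +
          star V * (m.P Aᶜ * m.P A) * U + star V * (m.P Aᶜ * m.P Aᶜ) * V := by noncomm_ring
      _ = star U * U * m.P A + star V * V * m.P Aᶜ := by
        rw [e1, e2, e3, e4, mul_assoc, mul_assoc (star V) (m.P Aᶜ), ← c1, ← c2]
        noncomm_ring
      _ = 1 := by rw [hU.star_mul_self, hV.star_mul_self, one_mul, one_mul, e5]
  · rw [← c1, ← c2, star_add, star_mul, star_mul, m.P_star hA, m.P_star hAc]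
    calc (U * m.P A + V * m.P Aᶜ) * (m.P A * star U + m.P Aᶜ * star V)
        = U * (m.P A * m.P A) * star U + U * (m.P A * m.P Aᶜ) * star V +
          V * (m.P Aᶜ * m.P A) * star U + V * (m.P Aᶜ * m.P Aᶜ) * star V := by noncomm_ring
      _ = m.P A * (U * star U) + m.P Aᶜ * (V * star V) := by
        rw [e1, e2, e3, e4, c1, c2]
        noncomm_ring
      _ = 1 := by rw [hU.mul_star_self, hV.mul_star_self, mul_one, mul_one, e5]
theorem fib_block3 {A B : Set (Lab K)} (hA : MeasurableSet A) (hB : MeasurableSet B) (h : Disjoint A B)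
    {U V : H →L[ℂ] H} (hU : m.Fib U) (hV : m.Fib V) :
    m.Fib (m.P A * U + m.P B * V + m.P (A ∪ B)ᶜ) := by
  have h1 := m.fib_block2 hA hU (m.fib_block2 hB hV m.fib_one)
  have e1 : Aᶜ ∩ B = B := Set.inter_eq_right.2 h.symm.subset_compl_right
  rw [_root_.mul_add, ← mul_assoc, mul_one, m.P_mul_P hA.compl hB, m.P_mul_P hA.compl hB.compl, e1,
    ← Set.compl_union, ← add_assoc] at h1
  exact h1
theorem fib_block4 {A B C : Set (Lab K)} (hA : MeasurableSet A) (hB : MeasurableSet B)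
    (hC : MeasurableSet C) (h : Disjoint A B) (h' : Disjoint A C) (h'' : Disjoint B C)
    {U V V' : H →L[ℂ] H} (hU : m.Fib U) (hV : m.Fib V) (hV' : m.Fib V') :
    m.Fib (m.P A * U + m.P B * V + m.P C * V' + m.P (A ∪ B ∪ C)ᶜ) := by
  have h1 := m.fib_block2 hA hU (m.fib_block3 hB hC h'' hV hV')
  have e1 : Aᶜ ∩ B = B := Set.inter_eq_right.2 h.symm.subset_compl_right
  have e2 : Aᶜ ∩ C = C := Set.inter_eq_right.2 h'.symm.subset_compl_right
  rw [_root_.mul_add, _root_.mul_add, ← mul_assoc, ← mul_assoc, m.P_mul_P hA.compl hB, m.P_mul_P hA.compl hC,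
    m.P_mul_P hA.compl (hB.union hC).compl, e1, e2, ← Set.compl_union, ← Set.union_assoc,
    ← add_assoc, ← add_assoc] at h1
  exact h1
/-- two operators commuting with the labels agree if they agree on the blocks of a partition -/
theorem ext_block4 {A B C : Set (Lab K)} (hA : MeasurableSet A) (hB : MeasurableSet B)
    (hC : MeasurableSet C) (h : Disjoint A B) (h' : Disjoint A C) (h'' : Disjoint B C)
    {U V : H →L[ℂ] H} (h1 : m.P A * U = m.P A * V) (h2 : m.P B * U = m.P B * V)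
    (h3 : m.P C * U = m.P C * V) (h4 : m.P (A ∪ B ∪ C)ᶜ * U = m.P (A ∪ B ∪ C)ᶜ * V) : U = V := by
  have e := m.P_add_compl ((hA.union hB).union hC)
  rw [m.P_union (hA.union hB) hC (Set.disjoint_union_left.2 ⟨h', h''⟩), m.P_union hA hB h] at e
  rw [← one_mul U, ← one_mul V, ← e]
  simp only [add_mul, h1, h2, h3, h4]

end Model

end Crest.Agent.R339
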