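import Crest.Agent.R339.Q.Alg2

/-!
# Row 339, part Q: Pauli matrices, axes, Heisenberg vectors
-/

set_option autoImplicit false

namespace Crest.Agent.R339

open MeasureTheory ProbabilityTheory Filter Topology Crest.MathPhysics.SpinGlass
open scoped InnerProductSpace ComplexConjugate

namespace Model

variable {K : ℕ} {I : Iamp K} {H KK : Type} [NormedAddCommGroup H] [InnerProductSpace ℂ H]
  [CompleteSpace H] [NormedAddCommGroup KK] [InnerProductSpace ℂ KK] (m : Model I H KK)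

theorem alg3_XXZ (A : H →L[ℂ] H) : m.X * (m.X * A) = A := by rw [← mul_assoc, m.X_sq, one_mul]
theorem alg3_ZZX (A : H →L[ℂ] H) : m.Z * (m.Z * A) = A := by rw [← mul_assoc, m.Z_sq, one_mul]
theorem alg3_ZXA (A : H →L[ℂ] H) : m.Z * (m.X * A) = -(m.X * (m.Z * A)) := by
  rw [← mul_assoc, m.ZX, neg_mul, mul_assoc]
omit m in
theorem alg3_sa {A : H →L[ℂ] H} (hA : star A = A) (u v : H) : ⟪A u, v⟫_ℂ = ⟪u, A v⟫_ℂ := by
  conv_lhs => rw [← hA, ContinuousLinearMap.star_eq_adjoint]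
  exact ContinuousLinearMap.adjoint_inner_left _ _ _
theorem Y_star : star m.Y = m.Y := by
  rw [Y, star_smul, star_mul, m.X_star, m.Z_star, m.ZX]
  simp
theorem Y_sq : m.Y * m.Y = 1 := by
  rw [Y, smul_mul_assoc, mul_smul_comm, smul_smul, mul_assoc, alg3_ZXA, m.Z_sq, mul_one, _root_.mul_neg,
    m.X_sq]
  simp
theorem XY : m.X * m.Y = Complex.I • m.Z := by
  rw [Y, mul_smul_comm, alg3_XXZ]
theorem YX : m.Y * m.X = -(Complex.I • m.Z) := by
  rw [Y, smul_mul_assoc, mul_assoc, m.ZX, _root_.mul_neg, alg3_XXZ, smul_neg]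
theorem YZ : m.Y * m.Z = Complex.I • m.X := by
  rw [Y, smul_mul_assoc, mul_assoc, m.Z_sq, mul_one]
theorem ZY : m.Z * m.Y = -(Complex.I • m.X) := by
  rw [Y, mul_smul_comm, alg3_ZXA, m.Z_sq, mul_one, smul_neg]
theorem ZX' : m.Z * m.X = Complex.I • m.Y := by
  rw [Y, smul_smul, m.ZX]
  simp
theorem XZ : m.X * m.Z = -(Complex.I • m.Y) := by
  rw [Y, smul_smul]
  simp
theorem Y_W (y : KK) : Commute m.Y (m.W y) := by
  exact ((m.X_W y).mul_left (m.Z_W y)).smul_left _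
theorem Y_vac : m.Y m.vac = -(Complex.I • m.Z m.vac) := by
  have h : m.X * m.Z = -(m.Z * m.X) := by rw [m.ZX, neg_neg]
  rw [Y, h]
  simp [m.X_vac]
theorem Sg_star : star m.Sg = m.Sg := by
  rw [Sg, m.mul_star _ BM.sign]
  simp
theorem Sg_sq : m.Sg * m.Sg = 1 := by
  rw [Sg, ← m.mul_mul _ _ BM.sign BM.sign, ← m.mul_one']
  refine m.mul_ae _ _ (BM.sign.mul BM.sign) (BM.const 1) ?_
  filter_upwards [ae_ne_zero0 (K := K)] with x hx
  rcases Real.sign_apply_eq_of_ne_zero _ hx with h | h <;> simp [h]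
theorem isAxis_one : m.IsAxis 1 := by
  exact ⟨star_one _, one_mul _, Cen.one m, fun _ => Commute.one_left _⟩
theorem isAxis_X : m.IsAxis m.X := by
  exact ⟨m.X_star, m.X_sq, m.cen_X, m.X_W⟩
theorem isAxis_Y : m.IsAxis m.Y := by
  exact ⟨m.Y_star, m.Y_sq, m.cen_Y, m.Y_W⟩
theorem isAxis_Z : m.IsAxis m.Z := by
  exact ⟨m.Z_star, m.Z_sq, m.cen_Z, m.Z_W⟩
theorem isAxis_Sg : m.IsAxis m.Sg := by
  exact ⟨m.Sg_star, m.Sg_sq, m.cen_Sg, fun y => (m.W_mul y _ BM.sign).symm⟩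
theorem isAxis_zp (b : Bool) : m.IsAxis (m.zp b) := by
  cases b
  · exact m.isAxis_one
  · exact m.isAxis_Z
variable {m}
theorem IsAxis.neg {Q : H →L[ℂ] H} (h : m.IsAxis Q) : m.IsAxis (-Q) := by
  exact ⟨by rw [star_neg, h.1], by rw [neg_mul_neg, h.2.1], h.2.2.1.neg,
    fun y => (h.2.2.2 y).neg_left⟩
theorem IsAxis.mul {Q Q' : H →L[ℂ] H} (h : m.IsAxis Q) (h' : m.IsAxis Q') (hc : Commute Q Q') :
    m.IsAxis (Q * Q') := by
  refine ⟨by rw [star_mul, h.1, h'.1, hc.eq], ?_, h.2.2.1.mul h'.2.2.1,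
    fun y => (h.2.2.2 y).mul_left (h'.2.2.2 y)⟩
  rw [mul_assoc, ← mul_assoc Q', ← hc.eq, mul_assoc, h'.2.1, mul_one, h.2.1]
theorem IsAxis.sg {Q : H →L[ℂ] H} (h : m.IsAxis Q) : m.IsAxis (m.Sg * Q) := by
  exact m.isAxis_Sg.mul h h.2.2.1.commute_Sg.symm
theorem IsAxis.block {Q Q' : H →L[ℂ] H} (h : m.IsAxis Q) (h' : m.IsAxis Q') {A : Set (Lab K)}
    (hA : MeasurableSet A) : m.IsAxis (m.P A * Q + m.P Aᶜ * Q') := by
  have c1 := (h.2.2.1.commute_P hA).eq
  have c2 := (h.2.2.1.commute_P hA.compl).eq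
  have c3 := (h'.2.2.1.commute_P hA).eq
  have c4 := (h'.2.2.1.commute_P hA.compl).eq
  refine ⟨?_, ?_, ((m.cen_P hA).mul h.2.2.1).add ((m.cen_P hA.compl).mul h'.2.2.1), fun y => ?_⟩
  · rw [star_add, star_mul, star_mul, h.1, h'.1, m.P_star hA, m.P_star hA.compl, c1, c4]
  · have e : ∀ B B' R R' : H →L[ℂ] H, R * B' = B' * R → B * R * (B' * R') = B * B' * (R * R') := by
      intro B B' R R' hh
      rw [mul_assoc, ← mul_assoc R, hh, mul_assoc, ← mul_assoc]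
    rw [add_mul, _root_.mul_add, _root_.mul_add, e _ _ _ _ c1, e _ _ _ _ c2, e _ _ _ _ c3, e _ _ _ _ c4,
      m.P_idem hA, m.P_idem hA.compl, m.P_mul_of_disjoint hA hA.compl disjoint_compl_right,
      m.P_mul_of_disjoint hA.compl hA disjoint_compl_left, h.2.1, h'.2.1]
    simpa using m.P_add_compl hA
  · exact ((((m.cen_W y).commute_P hA).symm).mul_left (h.2.2.2 y)).add_left
      ((((m.cen_W y).commute_P hA.compl).symm).mul_left (h'.2.2.2 y))
theorem IsAxis.fib {Q : H →L[ℂ] H} (h : m.IsAxis Q) : m.Fib Q := by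
  exact ⟨Unitary.mem_iff.2 ⟨by rw [h.1, h.2.1], by rw [h.1, h.2.1]⟩, h.2.2.1⟩
variable (m)
/-- the two spin sectors are orthogonal -/
theorem inner_vac_Z {A : H →L[ℂ] H} (hA : Commute m.X A) : ⟪m.vac, m.Z (A m.vac)⟫_ℂ = 0 := by
  have h1 : m.X (m.Z (A m.vac)) = -m.Z (A m.vac) := by
    have h : m.X * m.Z = -(m.Z * m.X) := by rw [m.ZX, neg_neg]
    have h2 : m.X (A m.vac) = A m.vac := by
      rw [← ContinuousLinearMap.mul_apply, hA.eq, ContinuousLinearMap.mul_apply, m.X_vac]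
    rw [← ContinuousLinearMap.mul_apply, h]
    simp [h2]
  have h2 := alg3_sa m.X_star m.vac (m.Z (A m.vac))
  rw [m.X_vac, h1, inner_neg_right] at h2
  linear_combination h2 / 2

theorem heis_mul (V U A : H →L[ℂ] H) : m.heis (V * U) A = m.heis U (star V * A * V) := by
  simp only [heis, star_mul, mul_assoc]
theorem heis_add (U A A' : H →L[ℂ] H) : m.heis U (A + A') = m.heis U A + m.heis U A' := by
  simp [heis]
theorem heis_sub (U A A' : H →L[ℂ] H) : m.heis U (A - A') = m.heis U A - m.heis U A' := by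
  simp [heis, _root_.mul_sub, sub_mul]
theorem heis_smul (U A : H →L[ℂ] H) (c : ℂ) : m.heis U (c • A) = c • m.heis U A := by
  simp [heis]
theorem heis_rsmul (U A : H →L[ℂ] H) (c : ℝ) : m.heis U (c • A) = c • m.heis U A := by
  simp [heis]
theorem heis_sum {ι : Type} (s : Finset ι) (U : H →L[ℂ] H) (A : ι → H →L[ℂ] H) :
    m.heis U (∑ i ∈ s, A i) = ∑ i ∈ s, m.heis U (A i) := by
  simp [heis, Finset.mul_sum, Finset.sum_mul]
theorem heis_one_left (A : H →L[ℂ] H) : m.heis 1 A = A m.vac := by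
  simp [heis]
variable {m}
theorem Fib.norm_heis {U : H →L[ℂ] H} (hU : m.Fib U) (A : H →L[ℂ] H) :
    ‖m.heis U A‖ = ‖A (U m.vac)‖ := by
  exact hU.star.norm_apply (A (U m.vac))
theorem Fib.inner_heis {U : H →L[ℂ] H} (hU : m.Fib U) (A A' : H →L[ℂ] H) :
    ⟪m.heis U A, m.heis U A'⟫_ℂ = ⟪A (U m.vac), A' (U m.vac)⟫_ℂ := by
  exact hU.star.inner_apply (A (U m.vac)) (A' (U m.vac))
theorem Fib.mul_heis {U : H →L[ℂ] H} (hU : m.Fib U) {g : Lab K → ℂ} (hg : BM g) (A : H →L[ℂ] H) :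
    m.mul g (m.heis U A) = m.heis U (m.mul g * A) := by
  rw [heis, heis, ← ContinuousLinearMap.mul_apply, ← mul_assoc, ← mul_assoc,
    ← (hU.star.2 g hg).eq, mul_assoc _ _ A]
theorem Fib.P_heis {U : H →L[ℂ] H} (hU : m.Fib U) {E : Set (Lab K)} (hE : MeasurableSet E)
    (A : H →L[ℂ] H) : m.P E (m.heis U A) = m.heis U (m.P E * A) := by
  exact hU.mul_heis ((BM.const 1).indicator hE) A
theorem Fib.heis_mul_fun {U : H →L[ℂ] H} (hU : m.Fib U) {g : Lab K → ℂ} (hg : BM g) :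
    m.heis U (m.mul g) = m.mul g m.vac := by
  rw [heis, (hU.star.2 g hg).eq, mul_assoc, hU.star_mul_self, mul_one]
theorem Fib.norm_xi {U : H →L[ℂ] H} (hU : m.Fib U) : ‖m.xi U‖ = 1 := by
  rw [xi, hU.norm_heis, m.isAxis_Z.fib.norm_apply, hU.norm_apply, m.norm_vac]
/-- localised norm of a Heisenberg vector -/
theorem Fib.norm_P_heis_le {U : H →L[ℂ] H} (hU : m.Fib U) {E : Set (Lab K)} (hE : MeasurableSet E)
    {A : H →L[ℂ] H} (hA : m.Cen A) :
    ‖m.P E (m.heis U A)‖ ≤ ‖A‖ * Real.sqrt ((gL K).real E) := by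
  rw [hU.P_heis hE, hU.norm_heis, ← (hA.commute_P hE).eq, ContinuousLinearMap.mul_apply,
    ← m.norm_P_fib hU hE]
  exact A.le_opNorm _
theorem alg3_j_mem {S : H →L[ℂ] H} (hS : star S = S) (hc : m.Cen S) : m.j (S m.vac) ∈ m.R := by
  intro i
  refine Fin.cases ?_ (fun k => ?_) i
  · rw [m.j_d0, Complex.zero_im]
  · obtain ⟨C, hC⟩ := I.f_bdd k
    have hf := BM.ofReal (I.f_meas k) hC
    have hF : star (m.mul fun x => (I.f k x : ℂ)) = m.mul fun x => (I.f k x : ℂ) := by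
      rw [m.mul_star _ hf]
      simp
    rw [← m.j_f k, m.j.inner_map_map, ← Complex.conj_eq_iff_im, inner_conj_symm, alg3_sa hS,
      alg3_sa hF, ← ContinuousLinearMap.mul_apply, (hc _ hf).eq, ContinuousLinearMap.mul_apply]
/-- fields of self-adjoint Heisenberg vectors are admissible -/
theorem Fib.j_heis_mem {U : H →L[ℂ] H} (hU : m.Fib U) {A : H →L[ℂ] H} (hA : Star.star A = A)
    (hc : m.Cen A) : m.j (m.heis U A) ∈ m.R := by
  refine alg3_j_mem ?_ ((hU.star.2.mul hc).mul hU.2)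
  rw [star_mul, star_mul, star_star, hA, mul_assoc]
theorem Fib.j_P_heis_mem {U : H →L[ℂ] H} (hU : m.Fib U) {A : H →L[ℂ] H} (hA : Star.star A = A)
    (hc : m.Cen A) {E : Set (Lab K)} (hE : MeasurableSet E) : m.j (m.P E (m.heis U A)) ∈ m.R := by
  rw [hU.P_heis hE]
  refine hU.j_heis_mem ?_ ((m.cen_P hE).mul hc)
  rw [star_mul, hA, m.P_star hE, (hc.commute_P hE).eq]
theorem Fib.j_xi_mem {U : H →L[ℂ] H} (hU : m.Fib U) : m.j (m.xi U) ∈ m.R := by
  exact hU.j_heis_mem m.Z_star m.cen_Z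
theorem alg3_d_mem (i : Fin (K + 1)) : m.d i ∈ m.R := by
  intro i'
  rw [orthonormal_iff_ite.1 m.d_on]
  split_ifs <;> simp
theorem Fib.fld_mem {U : H →L[ℂ] H} (hU : m.Fib U) (L : Layer K) : m.fld U L ∈ m.R := by
  exact m.R.add_mem (m.R.smul_mem _ hU.j_xi_mem)
    (m.R.sum_mem fun i _ => m.R.smul_mem _ (alg3_d_mem i))
variable (m)
theorem d_mem (i : Fin (K + 1)) : m.d i ∈ m.R := by
  exact alg3_d_mem i
theorem labv_mem (a : Fin (K + 1) → ℝ) : m.labv a ∈ m.R := by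
  exact m.R.sum_mem fun i _ => m.R.smul_mem _ (alg3_d_mem i)
theorem j_P_Sg_mem {E : Set (Lab K)} (hE : MeasurableSet E) : m.j (m.P E (m.Sg m.vac)) ∈ m.R := by
  have := m.fib_one.j_P_heis_mem m.Sg_star m.cen_Sg hE
  rwa [heis_one_left] at this
theorem om_labv (a : Fin (K + 1) → ℝ) {y : KK} (hy : y ∈ m.R) : om (m.labv a) y = 0 := by
  rw [om, labv, sum_inner, Complex.im_sum]
  refine Finset.sum_eq_zero fun i _ => ?_
  have := om_smul_left (a i) (m.d i) y
  rw [om, om, hy i, mul_zero] at this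
  exact this
theorem om_j (u v : H) : om (m.j u) (m.j v) = (⟪u, v⟫_ℂ).im := by
  rw [om, m.j.inner_map_map]
theorem j_rsmul (c : ℝ) (u : H) : m.j (c • u) = c • m.j u := by
  rw [← Complex.coe_smul, map_smul, Complex.coe_smul]
theorem runFrom_append (U : H →L[ℂ] H) (w w' : List (Layer K)) :
    m.runFrom U (w ++ w') = m.runFrom (m.runFrom U w) w' := by
  simp [runFrom]
theorem run_append (w w' : List (Layer K)) : m.run (w ++ w') = m.runFrom (m.run w) w' := by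
  exact m.runFrom_append 1 w w'
theorem run_snoc (w : List (Layer K)) (L : Layer K) : m.run (w ++ [L]) = m.step (m.run w) L := by
  rw [run_append]
  rfl

end Model

end Crest.Agent.R339
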