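import Crest.Agent.R339.Q.Defs

/-!
# Row 339, part Q: rotations about an involution
-/

set_option autoImplicit false

namespace Crest.Agent.R339

open MeasureTheory ProbabilityTheory Filter Topology Crest.MathPhysics.SpinGlass
open scoped InnerProductSpace ComplexConjugate

section rot
variable {H : Type} [NormedAddCommGroup H] [InnerProductSpace ℂ H] [CompleteSpace H]
  {Q Q' : H →L[ℂ] H}

private theorem norm_comb (h1 : star Q = Q) (h2 : Q * Q = 1) (a s c : ℝ) (hc : 0 ≤ c)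
    (h : a ^ 2 + s ^ 2 ≤ c ^ 2) :
    ‖(a : ℂ) • (1 : H →L[ℂ] H) - (Complex.I * (s : ℂ)) • Q‖ ≤ c := by
  set T := (a : ℂ) • (1 : H →L[ℂ] H) - (Complex.I * (s : ℂ)) • Q with hT
  have e : star T * T = ((a ^ 2 + s ^ 2 : ℝ) : ℂ) • (1 : H →L[ℂ] H) := by
    rw [hT, star_sub, star_smul, star_smul, star_one, h1]
    simp only [sub_mul, mul_sub, smul_mul_assoc, mul_smul_comm, one_mul, mul_one, h2, smul_smul,
      star_mul', RCLike.star_def, Complex.conj_I, Complex.conj_ofReal]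
    push_cast
    match_scalars
    · linear_combination (-(s : ℂ) ^ 2) * Complex.I_sq
    · ring
  have e2 : ‖T‖ * ‖T‖ ≤ a ^ 2 + s ^ 2 := by
    rw [← CStarRing.norm_star_mul_self, e, norm_smul, Complex.norm_real, Real.norm_eq_abs,
      abs_of_nonneg (by positivity)]
    exact mul_le_of_le_one_right (by positivity) ContinuousLinearMap.norm_id_le
  exact abs_le_of_sq_le_sq' (by nlinarith) hc |>.2

private theorem sin_sub_sq (α : ℝ) : (Real.sin α - α) ^ 2 ≤ α ^ 4 / 4 := by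
  have key : ∀ x : ℝ, 0 ≤ x → (Real.sin x - x) ^ 2 ≤ x ^ 4 / 4 := by
    intro x hx
    have h0 : Real.sin x ≤ x := Real.sin_le hx
    have h1 : x - Real.sin x ≤ x ^ 2 / 2 := by
      rcases le_total x 3 with h | h
      · have := Real.sin_ge_sub_cube hx
        nlinarith [mul_nonneg (sq_nonneg x) (sub_nonneg.2 h)]
      · have := Real.neg_one_le_sin x
        nlinarith
    nlinarith
  rcases le_total 0 α with h | h
  · exact key α h
  · have := key (-α) (by linarith)
    rw [Real.sin_neg] at this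
    nlinarith

theorem rot_zero : rot Q 0 = 1 := by simp [rot]
theorem rot_add (h2 : Q * Q = 1) (α α' : ℝ) : rot Q (α + α') = rot Q α * rot Q α' := by
  simp only [rot, Real.cos_add, Real.sin_add, sub_mul, mul_sub, smul_mul_assoc, mul_smul_comm,
    one_mul, mul_one, h2, smul_smul]
  push_cast
  match_scalars
  · linear_combination (-(Complex.sin α) * Complex.sin α') * Complex.I_sq
  · ring
theorem star_rot (h1 : star Q = Q) (α : ℝ) : star (rot Q α) = rot Q (-α) := by
  simp only [rot, star_sub, star_smul, star_one, h1, star_mul', RCLike.star_def, Complex.conj_I,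
    Complex.conj_ofReal, Real.cos_neg, Real.sin_neg]
  push_cast
  match_scalars <;> ring
theorem rot_neg_axis (α : ℝ) : rot (-Q) α = rot Q (-α) := by
  simp only [rot, Real.cos_neg, Real.sin_neg]
  push_cast
  match_scalars <;> ring
theorem rot_mem_unitary (h1 : star Q = Q) (h2 : Q * Q = 1) (α : ℝ) :
    rot Q α ∈ unitary (H →L[ℂ] H) := by
  rw [Unitary.mem_iff, star_rot h1, ← rot_add h2, ← rot_add h2]
  simp [rot_zero]
theorem rot_one (α : ℝ) :
    rot (1 : H →L[ℂ] H) α = Complex.exp (-(Complex.I * (α : ℂ))) • (1 : H →L[ℂ] H) := by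
  rw [rot, ← sub_smul]
  congr 1
  have : -(Complex.I * (α : ℂ)) = ((-α : ℝ) : ℂ) * Complex.I := by push_cast; ring
  rw [this, Complex.exp_mul_I]
  push_cast
  rw [Complex.cos_neg, Complex.sin_neg]
  ring
theorem norm_axis_apply (h1 : star Q = Q) (h2 : Q * Q = 1) (v : H) : ‖Q v‖ = ‖v‖ := by
  have hu : Q ∈ unitary (H →L[ℂ] H) := by rw [Unitary.mem_iff, h1]; exact ⟨h2, h2⟩
  exact ContinuousLinearMap.norm_map_of_mem_unitary hu v
theorem norm_axis_le (h1 : star Q = Q) (h2 : Q * Q = 1) : ‖Q‖ ≤ 1 := by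
  exact ContinuousLinearMap.opNorm_le_bound _ zero_le_one fun v => by
    rw [norm_axis_apply h1 h2, one_mul]
theorem norm_rot_sub_one (h1 : star Q = Q) (h2 : Q * Q = 1) (α : ℝ) : ‖rot Q α - 1‖ ≤ |α| := by
  have e : rot Q α - 1 = ((Real.cos α - 1 : ℝ) : ℂ) • (1 : H →L[ℂ] H) -
      (Complex.I * ((Real.sin α : ℝ) : ℂ)) • Q := by
    rw [rot]; push_cast; match_scalars <;> ring
  rw [e]
  refine norm_comb h1 h2 _ _ _ (abs_nonneg _) ?_
  have := Real.one_sub_sq_div_two_le_cos (x := α)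
  have h3 := Real.sin_sq_add_cos_sq α
  rw [sq_abs]
  nlinarith
theorem norm_rot_sub_lin (h1 : star Q = Q) (h2 : Q * Q = 1) (α : ℝ) :
    ‖rot Q α - 1 + (Complex.I * (α : ℂ)) • Q‖ ≤ α ^ 2 := by
  have e : rot Q α - 1 + (Complex.I * (α : ℂ)) • Q = ((Real.cos α - 1 : ℝ) : ℂ) • (1 : H →L[ℂ] H) -
      (Complex.I * ((Real.sin α - α : ℝ) : ℂ)) • Q := by
    rw [rot]; push_cast; match_scalars <;> ring
  rw [e]
  refine norm_comb h1 h2 _ _ _ (sq_nonneg _) ?_
  have h3 := Real.one_sub_sq_div_two_le_cos (x := α)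
  have h4 := Real.cos_le_one α
  have h5 := sin_sub_sq α
  have h6 : (Real.cos α - 1) ^ 2 ≤ (α ^ 2 / 2) ^ 2 := by nlinarith
  nlinarith [sq_nonneg (α ^ 2)]
theorem norm_rot_sub_rot (h1 : star Q = Q) (h2 : Q * Q = 1) (α α' : ℝ) :
    ‖rot Q α - rot Q α'‖ ≤ |α - α'| := by
  have e : rot Q α - rot Q α' = (rot Q (α - α') - 1) * rot Q α' := by
    rw [sub_mul, ← rot_add h2, one_mul, sub_add_cancel]
  rw [e, CStarRing.norm_mul_mem_unitary _ (rot_mem_unitary h1 h2 α')]
  exact norm_rot_sub_one h1 h2 _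
theorem rot_sub_rot_axis (α : ℝ) :
    rot Q α - rot Q' α = -((Complex.I * ((Real.sin α : ℝ) : ℂ)) • (Q - Q')) := by
  simp only [rot]
  match_scalars <;> ring
theorem anti_rot (h : Q' * Q = -(Q * Q')) (α : ℝ) : Q' * rot Q α = rot Q (-α) * Q' := by
  simp only [rot, Real.cos_neg, Real.sin_neg, sub_mul, mul_sub, smul_mul_assoc, mul_smul_comm,
    one_mul, mul_one, h]
  push_cast
  match_scalars <;> ring
theorem commute_rot (h : Commute Q' Q) (α : ℝ) : Commute Q' (rot Q α) := by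
  exact ((Commute.one_right Q').smul_right _).sub_right (h.smul_right _)
theorem conj_rot {V : H →L[ℂ] H} (hV : star V * V = 1) (α : ℝ) :
    star V * rot Q α * V = rot (star V * Q * V) α := by
  simp only [rot, sub_mul, mul_sub, smul_mul_assoc, mul_smul_comm, mul_one, hV]
/-- conjugating an anticommuting operator -/
theorem star_rot_mul_mul_rot (h1 : star Q = Q) (h2 : Q * Q = 1) (h : Q' * Q = -(Q * Q')) (α : ℝ) :
    star (rot Q α) * Q' * rot Q α = Q' * rot Q (2 * α) := by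
  have e : rot Q (-α) * Q' = Q' * rot Q α := (anti_rot h α).symm
  rw [star_rot h1, e, mul_assoc, ← rot_add h2, two_mul]
/-- first order expansion of a conjugation -/
theorem norm_conj_rot_sub (h1 : star Q = Q) (h2 : Q * Q = 1) (A : H →L[ℂ] H) (α : ℝ) :
    ‖star (rot Q α) * A * rot Q α - A - (Complex.I * (α : ℂ)) • (Q * A - A * Q)‖
      ≤ 4 * α ^ 2 * ‖A‖ := by
  set U := rot Q α with hU
  set c : ℂ := Complex.I * (α : ℂ) with hc
  have hs : star U = rot Q (-α) := star_rot h1 α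
  have n1 : ‖U - 1 + c • Q‖ ≤ α ^ 2 := norm_rot_sub_lin h1 h2 α
  have n2 : ‖star U - 1 - c • Q‖ ≤ α ^ 2 := by
    have := norm_rot_sub_lin h1 h2 (-α)
    rw [← hs] at this
    have e : star U - 1 + (Complex.I * ((-α : ℝ) : ℂ)) • Q = star U - 1 - c • Q := by
      rw [hc]; push_cast; match_scalars <;> ring
    rw [e] at this
    simpa using this
  have n3 : ‖U - 1‖ ≤ |α| := norm_rot_sub_one h1 h2 α
  have n4 : ‖star U - 1‖ ≤ |α| := by
    have := norm_rot_sub_one h1 h2 (-α)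
    rwa [← hs, abs_neg] at this
  have e : star U * A * U - A - c • (Q * A - A * Q) =
      (star U - 1) * A * (U - 1) + (star U - 1 - c • Q) * A + A * (U - 1 + c • Q) := by
    simp only [sub_mul, mul_sub, mul_add, smul_mul_assoc, mul_smul_comm, one_mul, mul_one, smul_sub]
    abel
  rw [e]
  have hA := norm_nonneg A
  have m1 : ‖(star U - 1) * A * (U - 1)‖ ≤ |α| * ‖A‖ * |α| :=
    (norm_mul_le _ _).trans (mul_le_mul ((norm_mul_le _ _).trans (mul_le_mul_of_nonneg_right n4 hA))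
      n3 (norm_nonneg _) (by positivity))
  have m2 : ‖(star U - 1 - c • Q) * A‖ ≤ α ^ 2 * ‖A‖ :=
    (norm_mul_le _ _).trans (mul_le_mul_of_nonneg_right n2 hA)
  have m3 : ‖A * (U - 1 + c • Q)‖ ≤ ‖A‖ * α ^ 2 :=
    (norm_mul_le _ _).trans (mul_le_mul_of_nonneg_left n1 hA)
  have m4 : |α| * ‖A‖ * |α| = α ^ 2 * ‖A‖ := by rw [← sq_abs]; ring
  have m5 := norm_add₃_le (a := (star U - 1) * A * (U - 1)) (b := (star U - 1 - c • Q) * A)
    (c := A * (U - 1 + c • Q))
  nlinarith [mul_nonneg (sq_nonneg α) hA]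
theorem norm_conj_rot_sub' (h1 : star Q = Q) (h2 : Q * Q = 1) (A : H →L[ℂ] H) (α : ℝ) :
    ‖star (rot Q α) * A * rot Q α - A‖ ≤ 2 * |α| * ‖A‖ := by
  set U := rot Q α with hU
  have hs : star U = rot Q (-α) := star_rot h1 α
  have n3 : ‖U - 1‖ ≤ |α| := norm_rot_sub_one h1 h2 α
  have n4 : ‖star U - 1‖ ≤ |α| := by
    have := norm_rot_sub_one h1 h2 (-α)
    rwa [← hs, abs_neg] at this
  have e : star U * A * U - A = (star U - 1) * A * U + A * (U - 1) := by
    simp only [sub_mul, mul_sub, one_mul, mul_one]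
    abel
  rw [e]
  have hA := norm_nonneg A
  have m1 : ‖(star U - 1) * A * U‖ ≤ |α| * ‖A‖ := by
    rw [CStarRing.norm_mul_mem_unitary _ (rot_mem_unitary h1 h2 α)]
    exact (norm_mul_le _ _).trans (mul_le_mul_of_nonneg_right n4 hA)
  have m3 : ‖A * (U - 1)‖ ≤ ‖A‖ * |α| :=
    (norm_mul_le _ _).trans (mul_le_mul_of_nonneg_left n3 hA)
  have m5 := norm_add_le ((star U - 1) * A * U) (A * (U - 1))
  nlinarith
end rot

end Crest.Agent.R339
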