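import Crest.Agent.R339.Q.Alg3
import Crest.Agent.R339.Q.Rot

/-!
# Row 339, part Q: Weyl operators and cost gates
-/

set_option autoImplicit false

namespace Crest.Agent.R339

open MeasureTheory ProbabilityTheory Filter Topology Crest.MathPhysics.SpinGlass
open scoped InnerProductSpace ComplexConjugate

namespace Model

variable {K : ℕ} {I : Iamp K} {H KK : Type} [NormedAddCommGroup H] [InnerProductSpace ℂ H]
  [CompleteSpace H] [NormedAddCommGroup KK] [InnerProductSpace ℂ KK] (m : Model I H KK)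

variable {Q Q' : H →L[ℂ] H}

theorem fib_rot (h1 : star Q = Q) (h2 : Q * Q = 1) (h3 : m.Cen Q) (α : ℝ) : m.Fib (rot Q α) := by
  exact ⟨rot_mem_unitary h1 h2 α, ((Cen.one m).smul _).sub (h3.smul _)⟩
theorem fib_B (β : ℝ) : m.Fib (m.B β) := by
  exact m.fib_rot m.X_star m.X_sq m.cen_X β
theorem B_vac (β : ℝ) : m.B β m.vac = Complex.exp (-(Complex.I * (β : ℂ))) • m.vac := by
  simp only [B, rot, sub_apply, smul_apply, one_apply_eq_self, m.X_vac, ← sub_smul]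
  congr 1
  rw [show -(Complex.I * (β : ℂ)) = (-β : ℂ) * Complex.I by ring, Complex.exp_mul_I]
  simp only [Complex.cos_neg, Complex.sin_neg, Complex.ofReal_cos, Complex.ofReal_sin]
  ring
theorem B_conj_Z (β : ℝ) : star (m.B β) * m.Z * m.B β =
    ((Real.cos (2 * β) : ℝ) : ℂ) • m.Z + ((Real.sin (2 * β) : ℝ) : ℂ) • m.Y := by
  rw [B, star_rot_mul_mul_rot m.X_star m.X_sq m.ZX, rot, _root_.mul_sub, mul_smul_comm, mul_smul_comm,
    mul_one, m.ZX', smul_smul, sub_eq_add_neg, ← neg_smul]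
  congr 2
  linear_combination (-((Real.sin (2 * β) : ℝ) : ℂ)) * Complex.I_mul_I
theorem fib_W {y : KK} (hy : y ∈ m.R) : m.Fib (m.W y) := by
  refine ⟨Unitary.mem_iff.2 ⟨?_, ?_⟩, m.cen_W y⟩
  · rw [m.W_star, m.W_W _ (m.R.neg_mem hy) _ hy]
    have : (⟪-y, y⟫_ℂ).im = 0 := by
      have := om_neg_left y y
      rw [om_self, neg_zero] at this
      exact this
    rw [this]
    simp [m.W_zero]
  · rw [m.W_star, m.W_W _ hy _ (m.R.neg_mem hy)]
    have : (⟪y, -y⟫_ℂ).im = 0 := by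
      have := om_neg_right y y
      rw [om_self, neg_zero] at this
      exact this
    rw [this]
    simp [m.W_zero]
theorem W_mul_W {y y' : KK} (hy : y ∈ m.R) (hy' : y' ∈ m.R) :
    m.W y * m.W y' = Complex.exp (-(Complex.I * (om y y' : ℂ))) • m.W (y + y') := by
  exact m.W_W y hy y' hy'
theorem W_comm {y y' : KK} (hy : y ∈ m.R) (hy' : y' ∈ m.R) :
    m.W y * m.W y' = Complex.exp (-(Complex.I * ((2 * om y y' : ℝ) : ℂ))) • (m.W y' * m.W y) := by
  rw [m.W_mul_W hy hy', m.W_mul_W hy' hy, smul_smul, ← Complex.exp_add, om_swap y y', add_comm y' y]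
  congr 2
  push_cast
  ring
theorem star_cosW (y : KK) : star (m.cosW y) = m.cosW y := by
  simp only [cosW, star_smul, star_add, m.W_star, neg_neg, add_comm]
  congr 1
  simp
theorem star_sinW (y : KK) : star (m.sinW y) = m.sinW y := by
  simp only [sinW, star_smul, star_sub, m.W_star, neg_neg]
  rw [← neg_sub (m.W y), smul_neg, ← neg_smul]
  congr 1
  simp [neg_div]
theorem cosW_neg (y : KK) : m.cosW (-y) = m.cosW y := by
  simp only [cosW, neg_neg, add_comm]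
theorem sinW_neg (y : KK) : m.sinW (-y) = -m.sinW y := by
  simp only [sinW, neg_neg]
  rw [← smul_neg, neg_sub]
theorem cosW_zero : m.cosW 0 = 1 := by
  simp only [cosW, neg_zero, m.W_zero]
  module
theorem sinW_zero : m.sinW 0 = 0 := by
  simp only [sinW, neg_zero, sub_self, smul_zero]
theorem alg4_I_sin (y : KK) : Complex.I • m.sinW y = (1 / 2 : ℂ) • (m.W y - m.W (-y)) := by
  rw [sinW, smul_smul]
  congr 1
  linear_combination (-1 / 2 : ℂ) * Complex.I_mul_I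

theorem alg4_D (Q : H →L[ℂ] H) (y : KK) : m.D Q y =
    (1 / 2 : ℂ) • ((1 - Q) * m.W y + (1 + Q) * m.W (-y)) := by
  rw [D, ← mul_smul_comm, alg4_I_sin, cosW]
  simp only [mul_smul_comm, _root_.mul_sub, sub_mul, add_mul, one_mul]
  module

theorem W_eq (y : KK) : m.W y = m.cosW y + Complex.I • m.sinW y := by
  rw [alg4_I_sin, cosW]
  module
theorem D_one (y : KK) : m.D 1 y = m.W (-y) := by
  rw [alg4_D]
  simp only [sub_self, zero_mul, zero_add, add_mul, one_mul]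
  module
theorem cen_cosW (y : KK) : m.Cen (m.cosW y) := by
  exact ((m.cen_W y).add (m.cen_W (-y))).smul _
theorem cen_sinW (y : KK) : m.Cen (m.sinW y) := by
  exact ((m.cen_W y).sub (m.cen_W (-y))).smul _
theorem norm_cosW_le {y : KK} (hy : y ∈ m.R) : ‖m.cosW y‖ ≤ 1 := by
  have h1 := (m.fib_W hy).norm_le
  have h2 := (m.fib_W (m.R.neg_mem hy)).norm_le
  have h3 := norm_add_le (m.W y) (m.W (-y))
  rw [cosW, norm_smul]
  norm_num
  linarith
theorem norm_sinW_le {y : KK} (hy : y ∈ m.R) : ‖m.sinW y‖ ≤ 1 := by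
  have h1 := (m.fib_W hy).norm_le
  have h2 := (m.fib_W (m.R.neg_mem hy)).norm_le
  have h3 := norm_sub_le (m.W y) (m.W (-y))
  rw [sinW, norm_smul]
  norm_num
  linarith
theorem commute_cosW {A : H →L[ℂ] H} (hA : ∀ y, Commute A (m.W y)) (y : KK) : Commute A (m.cosW y) := by
  exact ((hA y).add_right (hA (-y))).smul_right _
theorem commute_sinW {A : H →L[ℂ] H} (hA : ∀ y, Commute A (m.W y)) (y : KK) : Commute A (m.sinW y) := by
  exact ((hA y).sub_right (hA (-y))).smul_right _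
theorem commute_D {A : H →L[ℂ] H} (hA : ∀ y, Commute A (m.W y)) (hQ : Commute A Q) (y : KK) :
    Commute A (m.D Q y) := by
  exact (m.commute_cosW hA y).sub_right ((hQ.mul_right (m.commute_sinW hA y)).smul_right _)
theorem anti_D {A : H →L[ℂ] H} (hA : ∀ y, Commute A (m.W y)) (hQ : A * Q = -(Q * A)) (y : KK) :
    A * m.D Q y = m.D Q (-y) * A := by
  rw [D, D, cosW_neg, sinW_neg, _root_.mul_sub, sub_mul, mul_smul_comm, smul_mul_assoc, ← mul_assoc, hQ,
    (m.commute_cosW hA y).eq, neg_mul, _root_.mul_neg, neg_mul, mul_assoc, mul_assoc,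
    (m.commute_sinW hA y).eq]
theorem alg4_WW {y y' : KK} (hy : y ∈ m.R) (hy' : y' ∈ m.R) (h : om y y' = 0) :
    m.W (y + y') = m.W y * m.W y' ∧ m.W (-(y + y')) = m.W (-y) * m.W (-y') := by
  rw [m.W_mul_W hy hy', m.W_mul_W (m.R.neg_mem hy) (m.R.neg_mem hy'), om_neg_left, om_neg_right,
    neg_neg, h, neg_add]
  simp

/-- addition formulas for commuting fields -/
theorem cosW_add {y y' : KK} (hy : y ∈ m.R) (hy' : y' ∈ m.R) (h : om y y' = 0) :
    m.cosW (y + y') = m.cosW y * m.cosW y' - m.sinW y * m.sinW y' := by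
  obtain ⟨h1, h2⟩ := m.alg4_WW hy hy' h
  simp only [cosW, sinW, h1, h2, smul_mul_assoc, mul_smul_comm, _root_.mul_add, add_mul, _root_.mul_sub, sub_mul]
  match_scalars <;> ring_nf <;> simp only [Complex.I_sq] <;> ring
theorem sinW_add {y y' : KK} (hy : y ∈ m.R) (hy' : y' ∈ m.R) (h : om y y' = 0) :
    m.sinW (y + y') = m.sinW y * m.cosW y' + m.cosW y * m.sinW y' := by
  obtain ⟨h1, h2⟩ := m.alg4_WW hy hy' h
  simp only [cosW, sinW, h1, h2, smul_mul_assoc, mul_smul_comm, _root_.mul_add, add_mul, _root_.mul_sub, sub_mul]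
  module
theorem D_zero (Q : H →L[ℂ] H) : m.D Q 0 = 1 := by
  rw [D, cosW_zero, sinW_zero, mul_zero, smul_zero, sub_zero]
theorem D_neg_axis (Q : H →L[ℂ] H) (y : KK) : m.D (-Q) y = m.D Q (-y) := by
  rw [D, D, cosW_neg, sinW_neg, neg_mul, _root_.mul_neg]
theorem P_mul_D {E : Set (Lab K)} (hE : MeasurableSet E) (h : m.P E * Q = m.P E * Q') (y : KK) :
    m.P E * m.D Q y = m.P E * m.D Q' y := by
  rw [D, D, _root_.mul_sub, _root_.mul_sub, mul_smul_comm, mul_smul_comm, ← mul_assoc, ← mul_assoc, h]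
theorem conj_D {V : H →L[ℂ] H} (hV : star V * V = 1) (hW : ∀ y, Commute V (m.W y)) (y : KK) :
    star V * m.D Q y * V = m.D (star V * Q * V) y := by
  rw [D, D, _root_.mul_sub, sub_mul, mul_smul_comm, smul_mul_assoc, mul_assoc, ← (m.commute_cosW hW y).eq,
    ← mul_assoc, hV, one_mul, mul_assoc, mul_assoc, ← (m.commute_sinW hW y).eq]
  simp only [mul_assoc]
theorem D_labv (a : Fin (K + 1) → ℝ) (hQ : m.IsAxis Q) :
    m.D Q (m.labv a) = m.rotF Q (fun x => ∑ i, a i * x i) := by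
  have hκ : Measurable fun x : Lab K => ∑ i, a i * x i := by fun_prop
  have h1 : m.W (m.labv a) =
      m.mul (fun x => Complex.exp (Complex.I * ((∑ i, a i * x i : ℝ) : ℂ))) := m.W_lab a
  have h2 : m.W (-m.labv a) =
      m.mul (fun x => conj (Complex.exp (Complex.I * ((∑ i, a i * x i : ℝ) : ℂ)))) := by
    rw [← m.W_star, h1, m.mul_star _ (BM.expI hκ)]
  have e : ∀ t : ℝ, Complex.exp (Complex.I * (t : ℂ)) =
      ((Real.cos t : ℝ) : ℂ) + ((Real.sin t : ℝ) : ℂ) * Complex.I := fun t => by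
    rw [mul_comm, Complex.exp_mul_I, Complex.ofReal_cos, Complex.ofReal_sin]
  have h3 : m.cosW (m.labv a) = m.mul (fun x => ((Real.cos (∑ i, a i * x i) : ℝ) : ℂ)) := by
    rw [cosW, h1, h2, ← m.mul_add _ _ (BM.expI hκ) (BM.expI hκ).conj,
      ← m.mul_smul _ ((BM.expI hκ).add (BM.expI hκ).conj)]
    congr 1
    funext x
    simp only [Pi.add_apply, e, map_add, map_mul, Complex.conj_ofReal, Complex.conj_I]
    ring
  have h4 : m.sinW (m.labv a) = m.mul (fun x => ((Real.sin (∑ i, a i * x i) : ℝ) : ℂ)) := by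
    rw [sinW, h1, h2, ← m.mul_sub (BM.expI hκ) (BM.expI hκ).conj,
      ← m.mul_smul _ ((BM.expI hκ).sub (BM.expI hκ).conj)]
    congr 1
    funext x
    simp only [Pi.sub_apply, e, map_add, map_mul, Complex.conj_ofReal, Complex.conj_I]
    linear_combination (-((Real.sin (∑ i, a i * x i) : ℝ) : ℂ)) * Complex.I_mul_I
  rw [D, rotF, h3, h4]
variable {m}
theorem IsAxis.star_D (hQ : m.IsAxis Q) (y : KK) : star (m.D Q y) = m.D Q (-y) := by
  rw [D, D, star_sub, star_smul, star_mul, star_cosW, star_sinW, hQ.1, cosW_neg, sinW_neg,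
    ← (m.commute_sinW hQ.2.2.2 y).eq, _root_.mul_neg, smul_neg, ← neg_smul]
  simp
theorem IsAxis.alg4_ext (hQ : m.IsAxis Q) {A B : H →L[ℂ] H} (h1 : (1 + Q) * A = (1 + Q) * B)
    (h2 : (1 - Q) * A = (1 - Q) * B) : A = B := by
  have e : ∀ C : H →L[ℂ] H, C = (1 / 2 : ℂ) • ((1 + Q) * C + (1 - Q) * C) := fun C => by
    simp only [add_mul, sub_mul, one_mul]; module
  rw [e A, e B, h1, h2]

theorem IsAxis.alg4_pD (hQ : m.IsAxis Q) (y : KK) : (1 + Q) * m.D Q y = (1 + Q) * m.W (-y) := by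
  rw [alg4_D]
  simp only [mul_smul_comm, _root_.mul_add, add_mul, sub_mul, _root_.mul_sub, one_mul, ← mul_assoc, hQ.2.1]
  module

theorem IsAxis.alg4_mD (hQ : m.IsAxis Q) (y : KK) : (1 - Q) * m.D Q y = (1 - Q) * m.W y := by
  rw [alg4_D]
  simp only [mul_smul_comm, _root_.mul_add, add_mul, sub_mul, _root_.mul_sub, one_mul, ← mul_assoc, hQ.2.1]
  module

theorem IsAxis.alg4_pW (hQ : m.IsAxis Q) (y : KK) : (1 + Q) * m.W y = m.W y * (1 + Q) :=
  ((Commute.one_left _).add_left (hQ.2.2.2 y)).eq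

theorem IsAxis.alg4_mW (hQ : m.IsAxis Q) (y : KK) : (1 - Q) * m.W y = m.W y * (1 - Q) :=
  ((Commute.one_left _).sub_left (hQ.2.2.2 y)).eq

theorem IsAxis.alg4_prot (hQ : m.IsAxis Q) (Q' : H →L[ℂ] H) (α : ℝ) :
    (1 + Q) * rot (Q * Q') α = (1 + Q) * rot Q' α := by
  simp only [rot, mul_smul_comm, add_mul, _root_.mul_sub, one_mul, mul_one, ← mul_assoc, hQ.2.1]
  module

theorem IsAxis.alg4_mrot (hQ : m.IsAxis Q) (Q' : H →L[ℂ] H) (α : ℝ) :
    (1 - Q) * rot (Q * Q') α = (1 - Q) * rot Q' (-α) := by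
  simp only [rot, mul_smul_comm, sub_mul, _root_.mul_sub, one_mul, mul_one, ← mul_assoc, hQ.2.1,
    Real.cos_neg, Real.sin_neg, Complex.ofReal_neg]
  module

theorem IsAxis.D_mul (hQ : m.IsAxis Q) {y y' : KK} (hy : y ∈ m.R) (hy' : y' ∈ m.R) :
    m.D Q y * m.D Q y' = Complex.exp (-(Complex.I * (om y y' : ℂ))) • m.D Q (y + y') := by
  refine hQ.alg4_ext ?_ ?_
  · rw [← mul_assoc, hQ.alg4_pD, hQ.alg4_pW, mul_assoc, hQ.alg4_pD, ← mul_assoc, ← hQ.alg4_pW,
      mul_assoc, m.W_mul_W (m.R.neg_mem hy) (m.R.neg_mem hy'), mul_smul_comm, mul_smul_comm,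
      hQ.alg4_pD, om_neg_left, om_neg_right, neg_neg, neg_add]
  · rw [← mul_assoc, hQ.alg4_mD, hQ.alg4_mW, mul_assoc, hQ.alg4_mD, ← mul_assoc, ← hQ.alg4_mW,
      mul_assoc, m.W_mul_W hy hy', mul_smul_comm, mul_smul_comm, hQ.alg4_mD]
theorem IsAxis.fib_D (hQ : m.IsAxis Q) {y : KK} (hy : y ∈ m.R) : m.Fib (m.D Q y) := by
  refine ⟨Unitary.mem_iff.2 ⟨?_, ?_⟩,
    (m.cen_cosW y).sub ((hQ.2.2.1.mul (m.cen_sinW y)).smul _)⟩
  · rw [hQ.star_D, hQ.D_mul (m.R.neg_mem hy) hy, om_neg_left, om_self]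
    simp [D_zero]
  · rw [hQ.star_D, hQ.D_mul hy (m.R.neg_mem hy), om_neg_right, om_self]
    simp [D_zero]
theorem IsAxis.commute_D_self (hQ : m.IsAxis Q) (y : KK) : Commute Q (m.D Q y) := by
  exact m.commute_D hQ.2.2.2 (Commute.refl Q) y
theorem IsAxis.conj_W (hQ : m.IsAxis Q) {u v : KK} (hu : u ∈ m.R) (hv : v ∈ m.R) :
    star (m.D Q v) * m.W u * m.D Q v = m.W u * rot Q (2 * om v u) := by
  have hv' := m.R.neg_mem hv
  rw [hQ.star_D]
  refine hQ.alg4_ext ?_ ?_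
  · have e1 : (1 + Q) * (m.D Q (-v) * m.W u * m.D Q v) = (1 + Q) * (m.W v * m.W u * m.W (-v)) := by
      rw [← mul_assoc, ← mul_assoc, hQ.alg4_pD, neg_neg, hQ.alg4_pW, mul_assoc (m.W v),
        hQ.alg4_pW, mul_assoc, mul_assoc, hQ.alg4_pD, ← mul_assoc (m.W u), ← hQ.alg4_pW,
        ← mul_assoc, ← mul_assoc, ← hQ.alg4_pW]
      simp only [mul_assoc]
    have e2 : m.W v * m.W (-v) = 1 := by
      rw [← m.W_star]; exact (m.fib_W hv).mul_star_self
    have e3 := hQ.alg4_prot 1 (2 * om v u)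
    rw [mul_one] at e3
    rw [e1, m.W_comm hv hu, smul_mul_assoc, mul_assoc, e2, mul_one, ← mul_assoc, hQ.alg4_pW,
      mul_assoc, e3, rot_one, mul_smul_comm, mul_smul_comm, mul_smul_comm, mul_one, hQ.alg4_pW]
  · have e1 : (1 - Q) * (m.D Q (-v) * m.W u * m.D Q v) = (1 - Q) * (m.W (-v) * m.W u * m.W v) := by
      rw [← mul_assoc, ← mul_assoc, hQ.alg4_mD, hQ.alg4_mW, mul_assoc (m.W (-v)),
        hQ.alg4_mW, mul_assoc, mul_assoc, hQ.alg4_mD, ← mul_assoc (m.W u), ← hQ.alg4_mW,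
        ← mul_assoc, ← mul_assoc, ← hQ.alg4_mW]
      simp only [mul_assoc]
    have e2 : m.W (-v) * m.W v = 1 := by
      rw [← m.W_star]; exact (m.fib_W hv).star_mul_self
    have e3 := hQ.alg4_mrot 1 (2 * om v u)
    rw [mul_one] at e3
    rw [e1, m.W_comm hv' hu, smul_mul_assoc, mul_assoc, e2, mul_one, ← mul_assoc, hQ.alg4_mW,
      mul_assoc, e3, rot_one, mul_smul_comm, mul_smul_comm, mul_smul_comm, mul_one, hQ.alg4_mW,
      om_neg_left, _root_.mul_neg]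
theorem IsAxis.conj_cosW (hQ : m.IsAxis Q) {u v : KK} (hu : u ∈ m.R) (hv : v ∈ m.R) :
    star (m.D Q v) * m.cosW u * m.D Q v =
      ((Real.cos (2 * om v u) : ℝ) : ℂ) • m.cosW u
        + ((Real.sin (2 * om v u) : ℝ) : ℂ) • (Q * m.sinW u) := by
  have h1 := hQ.conj_W hu hv
  have h2 := hQ.conj_W (m.R.neg_mem hu) hv
  rw [cosW, sinW, mul_smul_comm, smul_mul_assoc, _root_.mul_add, add_mul, h1, h2]
  simp only [rot, om_neg_right, _root_.mul_neg, Real.cos_neg, Real.sin_neg, Complex.ofReal_neg, _root_.mul_sub,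
    mul_smul_comm, mul_one, (hQ.2.2.2 _).eq]
  module
theorem IsAxis.conj_sinW (hQ : m.IsAxis Q) {u v : KK} (hu : u ∈ m.R) (hv : v ∈ m.R) :
    star (m.D Q v) * m.sinW u * m.D Q v =
      ((Real.cos (2 * om v u) : ℝ) : ℂ) • m.sinW u
        - ((Real.sin (2 * om v u) : ℝ) : ℂ) • (Q * m.cosW u) := by
  have h1 := hQ.conj_W hu hv
  have h2 := hQ.conj_W (m.R.neg_mem hu) hv
  rw [cosW, sinW, mul_smul_comm, smul_mul_assoc, _root_.mul_sub, sub_mul, h1, h2]
  simp only [rot, om_neg_right, _root_.mul_neg, Real.cos_neg, Real.sin_neg, Complex.ofReal_neg, _root_.mul_sub,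
    _root_.mul_add, mul_smul_comm, mul_one, (hQ.2.2.2 _).eq]
  match_scalars <;> ring_nf <;> simp only [Complex.I_sq] <;> ring
theorem IsAxis.W_mul_D (hQ : m.IsAxis Q) {y u : KK} (hy : y ∈ m.R) (hu : u ∈ m.R) :
    m.W y * m.D Q u = m.D Q u * rot Q (-(2 * om y u)) * m.W y := by
  have h1 := hQ.conj_W hy hu
  have h2 := (hQ.fib_D hu).mul_star_self
  rw [om_swap y u, _root_.mul_neg, (commute_rot (hQ.2.2.2 y).symm _).eq] at h1
  rw [mul_assoc, ← h1, ← mul_assoc, ← mul_assoc, h2, one_mul]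
theorem IsAxis.D_comm (hQ : m.IsAxis Q) (hQ' : m.IsAxis Q') (hc : Commute Q Q') {y y' : KK}
    (hy : y ∈ m.R) (hy' : y' ∈ m.R) :
    m.D Q y * m.D Q' y' = m.D Q' y' * m.D Q y * rot (Q * Q') (2 * om y y') := by
  have c1 : (1 + Q) * m.D Q' y' = m.D Q' y' * (1 + Q) :=
    ((Commute.one_left _).add_left (m.commute_D hQ.2.2.2 hc y')).eq
  have c2 : (1 - Q) * m.D Q' y' = m.D Q' y' * (1 - Q) :=
    ((Commute.one_left _).sub_left (m.commute_D hQ.2.2.2 hc y')).eq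
  refine hQ.alg4_ext ?_ ?_
  · rw [← mul_assoc, hQ.alg4_pD, mul_assoc, hQ'.W_mul_D (m.R.neg_mem hy) hy', om_neg_left, _root_.mul_neg,
      neg_neg, ← mul_assoc, ← mul_assoc, ← mul_assoc, ← mul_assoc, c1, mul_assoc (m.D Q' y') (1 + Q),
      mul_assoc (m.D Q' y') (1 + Q), hQ.alg4_pD, hQ.alg4_pW, mul_assoc, mul_assoc, mul_assoc,
      mul_assoc, hQ.alg4_prot, ← (commute_rot (hQ'.2.2.2 (-y)).symm _).eq, ← mul_assoc (1 + Q),
      hQ.alg4_pW, mul_assoc]
  · rw [← mul_assoc, hQ.alg4_mD, mul_assoc, hQ'.W_mul_D hy hy',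
      ← mul_assoc, ← mul_assoc, ← mul_assoc, ← mul_assoc, c2, mul_assoc (m.D Q' y') (1 - Q),
      mul_assoc (m.D Q' y') (1 - Q), hQ.alg4_mD, hQ.alg4_mW, mul_assoc, mul_assoc, mul_assoc,
      mul_assoc, hQ.alg4_mrot, ← (commute_rot (hQ'.2.2.2 y).symm _).eq, ← mul_assoc (1 - Q),
      hQ.alg4_mW, mul_assoc]
/-- conjugation of an anticommuting axis -/
theorem IsAxis.conj_anti (hQ : m.IsAxis Q) (hQ' : m.IsAxis Q') (h : Q' * Q = -(Q * Q')) {y : KK}
    (hy : y ∈ m.R) : star (m.D Q y) * Q' * m.D Q y = Q' * m.D Q ((2 : ℝ) • y) := by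
  rw [hQ.star_D, ← m.anti_D hQ'.2.2.2 h, mul_assoc, hQ.D_mul hy hy, om_self, two_smul]
  simp

end Model

end Crest.Agent.R339
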