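import Crest.Agent.R339.Q.Alg4

/-!
# Row 339, part Q: label dependent rotations, words
-/

set_option autoImplicit false

namespace Crest.Agent.R339

open MeasureTheory ProbabilityTheory Filter Topology Crest.MathPhysics.SpinGlass
open scoped InnerProductSpace ComplexConjugate

namespace Model

variable {K : ℕ} {I : Iamp K} {H KK : Type} [NormedAddCommGroup H] [InnerProductSpace ℂ H]
  [CompleteSpace H] [NormedAddCommGroup KK] [InnerProductSpace ℂ KK] (m : Model I H KK)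

variable {Q Q' : H →L[ℂ] H}

private theorem cosF_add {ϑ ϑ' : Lab K → ℝ} (hϑ : Measurable ϑ) (hϑ' : Measurable ϑ') :
    m.mul (fun x => ((Real.cos ((ϑ + ϑ') x) : ℝ) : ℂ)) =
      m.mul (fun x => ((Real.cos (ϑ x) : ℝ) : ℂ)) * m.mul (fun x => ((Real.cos (ϑ' x) : ℝ) : ℂ)) -
        m.mul (fun x => ((Real.sin (ϑ x) : ℝ) : ℂ)) * m.mul (fun x => ((Real.sin (ϑ' x) : ℝ) : ℂ)) := by
  rw [← m.mul_mul _ _ (BM.cos hϑ) (BM.cos hϑ'), ← m.mul_mul _ _ (BM.sin hϑ) (BM.sin hϑ'),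
    ← m.mul_sub ((BM.cos hϑ).mul (BM.cos hϑ')) ((BM.sin hϑ).mul (BM.sin hϑ'))]
  congr 1
  funext x
  simp only [Pi.add_apply, Pi.sub_apply, Pi.mul_apply, Real.cos_add]
  push_cast
  ring

private theorem sinF_add {ϑ ϑ' : Lab K → ℝ} (hϑ : Measurable ϑ) (hϑ' : Measurable ϑ') :
    m.mul (fun x => ((Real.sin ((ϑ + ϑ') x) : ℝ) : ℂ)) =
      m.mul (fun x => ((Real.sin (ϑ x) : ℝ) : ℂ)) * m.mul (fun x => ((Real.cos (ϑ' x) : ℝ) : ℂ)) +
        m.mul (fun x => ((Real.cos (ϑ x) : ℝ) : ℂ)) * m.mul (fun x => ((Real.sin (ϑ' x) : ℝ) : ℂ)) := by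
  rw [← m.mul_mul _ _ (BM.sin hϑ) (BM.cos hϑ'), ← m.mul_mul _ _ (BM.cos hϑ) (BM.sin hϑ'),
    ← m.mul_add _ _ ((BM.sin hϑ).mul (BM.cos hϑ')) ((BM.cos hϑ).mul (BM.sin hϑ'))]
  congr 1
  funext x
  simp only [Pi.add_apply, Pi.mul_apply, Real.sin_add]
  push_cast
  ring

private theorem cosF_neg (ϑ : Lab K → ℝ) :
    m.mul (fun x => ((Real.cos ((-ϑ) x) : ℝ) : ℂ)) = m.mul (fun x => ((Real.cos (ϑ x) : ℝ) : ℂ)) := by
  congr 1
  funext x
  rw [Pi.neg_apply, Real.cos_neg]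

private theorem sinF_neg {ϑ : Lab K → ℝ} (hϑ : Measurable ϑ) :
    m.mul (fun x => ((Real.sin ((-ϑ) x) : ℝ) : ℂ)) = -m.mul (fun x => ((Real.sin (ϑ x) : ℝ) : ℂ)) := by
  rw [← m.mul_neg (BM.sin hϑ)]
  congr 1
  funext x
  simp only [Pi.neg_apply, Real.sin_neg, Complex.ofReal_neg]

private theorem star_mul_ofReal {g : Lab K → ℝ} (hg : BM (fun x => ((g x : ℝ) : ℂ))) :
    star (m.mul (fun x => ((g x : ℝ) : ℂ))) = m.mul (fun x => ((g x : ℝ) : ℂ)) := by
  rw [m.mul_star _ hg]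
  congr 1
  funext x
  exact Complex.conj_ofReal _

private theorem cosF_ind {E : Set (Lab K)} (hE : MeasurableSet E) (α : ℝ) :
    m.mul (E.indicator (fun _ => ((Real.cos α : ℝ) : ℂ)) + Eᶜ.indicator fun _ => 1) =
      ((Real.cos α : ℝ) : ℂ) • m.P E + m.P Eᶜ := by
  rw [m.mul_add _ _ (BM.indicator hE (BM.const _)) (BM.indicator hE.compl (BM.const _))]
  unfold P
  rw [← m.mul_smul _ (BM.indicator hE (BM.const _))]
  congr 2
  funext x
  by_cases hx : x ∈ E <;> simp [hx]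

private theorem xi_of_commute' {V : H →L[ℂ] H} (hV : m.Fib V) (hZ : Commute m.Z V) (U : H →L[ℂ] H) :
    m.xi (V * U) = m.xi U := by
  unfold xi
  rw [m.heis_mul, mul_assoc, hZ.eq, ← mul_assoc, hV.star_mul_self, one_mul]

private theorem block3_mul {S T : Set (Lab K)} (hS : MeasurableSet S) (hT : MeasurableSet T)
    (h : Disjoint S T) {A B A' B' : H →L[ℂ] H} (hA : m.Cen A) (hB : m.Cen B) :
    (m.P S * A + m.P T * B + m.P (S ∪ T)ᶜ) * (m.P S * A' + m.P T * B' + m.P (S ∪ T)ᶜ) =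
      m.P S * (A * A') + m.P T * (B * B') + m.P (S ∪ T)ᶜ := by
  have hC : MeasurableSet (S ∪ T)ᶜ := (hS.union hT).compl
  have dSC : Disjoint S (S ∪ T)ᶜ := Set.disjoint_left.2 fun x hx hx' => hx' (Or.inl hx)
  have dTC : Disjoint T (S ∪ T)ᶜ := Set.disjoint_left.2 fun x hx hx' => hx' (Or.inr hx)
  have key : ∀ {E F : Set (Lab K)}, MeasurableSet F → ∀ {X : H →L[ℂ] H}, m.Cen X → ∀ Y : H →L[ℂ] H,
      m.P E * X * (m.P F * Y) = (m.P E * m.P F) * (X * Y) := by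
    intro E F hF X hX Y
    calc m.P E * X * (m.P F * Y) = m.P E * (X * m.P F) * Y := by simp only [mul_assoc]
      _ = m.P E * (m.P F * X) * Y := by rw [(hX.commute_P hF).eq]
      _ = _ := by simp only [mul_assoc]
  have key2 : ∀ {E F : Set (Lab K)}, MeasurableSet F → ∀ {X : H →L[ℂ] H}, m.Cen X →
      m.P E * X * m.P F = (m.P E * m.P F) * X := by
    intro E F hF X hX
    rw [mul_assoc, (hX.commute_P hF).eq, mul_assoc]
  simp only [add_mul, _root_.mul_add]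
  rw [key hS hA, key hT hA, key hS hB, key hT hB, key2 hC hA, key2 hC hB, ← mul_assoc (m.P (S ∪ T)ᶜ),
    ← mul_assoc (m.P (S ∪ T)ᶜ), m.P_idem hS, m.P_idem hT, m.P_idem hC,
    m.P_mul_of_disjoint hS hT h, m.P_mul_of_disjoint hT hS h.symm, m.P_mul_of_disjoint hS hC dSC,
    m.P_mul_of_disjoint hT hC dTC, m.P_mul_of_disjoint hC hS dSC.symm,
    m.P_mul_of_disjoint hC hT dTC.symm]
  simp only [zero_mul, add_zero, zero_add]


theorem rotF_zero (Q : H →L[ℂ] H) : m.rotF Q 0 = 1 := by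
  unfold rotF
  simp only [Pi.zero_apply, Real.cos_zero, Real.sin_zero, Complex.ofReal_one, Complex.ofReal_zero,
    m.mul_one', m.mul_zero', mul_zero, smul_zero, sub_zero]

theorem rotF_const (Q : H →L[ℂ] H) (α : ℝ) : m.rotF Q (fun _ => α) = rot Q α := by
  unfold rotF rot
  rw [m.mul_const, m.mul_const, mul_smul_comm, mul_one, smul_smul]

theorem rotF_add (h2 : Q * Q = 1) (h3 : m.Cen Q) {ϑ ϑ' : Lab K → ℝ} (hϑ : Measurable ϑ)
    (hϑ' : Measurable ϑ') : m.rotF Q (ϑ + ϑ') = m.rotF Q ϑ * m.rotF Q ϑ' := by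
  unfold rotF
  rw [cosF_add m hϑ hϑ', sinF_add m hϑ hϑ']
  have hc := (h3 _ (BM.cos hϑ)).eq
  have hs := (h3 _ (BM.sin hϑ)).eq
  generalize m.mul (fun x => ((Real.cos (ϑ x) : ℝ) : ℂ)) = c at *
  generalize m.mul (fun x => ((Real.sin (ϑ x) : ℝ) : ℂ)) = s at *
  generalize m.mul (fun x => ((Real.cos (ϑ' x) : ℝ) : ℂ)) = c' at *
  generalize m.mul (fun x => ((Real.sin (ϑ' x) : ℝ) : ℂ)) = s' at *
  have e1 : Q * s * (Q * s') = s * s' := by
    rw [hs, mul_assoc, ← mul_assoc Q Q, h2, one_mul]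
  have e2 : c * (Q * s') = Q * (c * s') := by rw [← mul_assoc, ← hc, mul_assoc]
  simp only [sub_mul, _root_.mul_sub, smul_mul_assoc, mul_smul_comm, smul_smul, Complex.I_mul_I, e1, e2,
    _root_.mul_add, smul_add, smul_sub, mul_assoc Q s c']
  module

theorem star_rotF (h1 : star Q = Q) (h3 : m.Cen Q) {ϑ : Lab K → ℝ} (hϑ : Measurable ϑ) :
    star (m.rotF Q ϑ) = m.rotF Q (-ϑ) := by
  unfold rotF
  rw [cosF_neg, sinF_neg m hϑ, star_sub, star_smul, star_mul, star_mul_ofReal m (BM.cos hϑ),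
    star_mul_ofReal m (BM.sin hϑ), h1, ← (h3 _ (BM.sin hϑ)).eq]
  simp

theorem fib_rotF (h1 : star Q = Q) (h2 : Q * Q = 1) (h3 : m.Cen Q) {ϑ : Lab K → ℝ}
    (hϑ : Measurable ϑ) : m.Fib (m.rotF Q ϑ) := by
  refine ⟨?_, ?_⟩
  · rw [Unitary.mem_iff, star_rotF m h1 h3 hϑ, ← rotF_add m h2 h3 hϑ.neg hϑ,
      ← rotF_add m h2 h3 hϑ hϑ.neg]
    constructor
    · rw [neg_add_cancel]; exact rotF_zero m Q
    · rw [add_neg_cancel]; exact rotF_zero m Q
  · exact (m.cen_mul (BM.cos hϑ)).sub ((h3.mul (m.cen_mul (BM.sin hϑ))).smul _)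

theorem rotF_W (hQ : m.IsAxis Q) {ϑ : Lab K → ℝ} (hϑ : Measurable ϑ) (y : KK) :
    Commute (m.rotF Q ϑ) (m.W y) := by
  unfold rotF
  exact ((m.W_mul y _ (BM.cos hϑ)).symm).sub_left
    (((hQ.2.2.2 y).mul_left (m.W_mul y _ (BM.sin hϑ)).symm).smul_left _)

theorem commute_rotF {A : H →L[ℂ] H} (hA : m.Cen A) (h : Commute A Q) {ϑ : Lab K → ℝ}
    (hϑ : Measurable ϑ) : Commute A (m.rotF Q ϑ) := by
  unfold rotF
  exact (hA _ (BM.cos hϑ)).sub_right ((h.mul_right (hA _ (BM.sin hϑ))).smul_right _)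

theorem anti_rotF {A : H →L[ℂ] H} (hA : m.Cen A) (h : A * Q = -(Q * A)) {ϑ : Lab K → ℝ}
    (hϑ : Measurable ϑ) : A * m.rotF Q ϑ = m.rotF Q (-ϑ) * A := by
  unfold rotF
  rw [cosF_neg, sinF_neg m hϑ]
  have hc := (hA _ (BM.cos hϑ)).eq
  have hs := (hA _ (BM.sin hϑ)).eq
  rw [_root_.mul_sub, sub_mul, hc, mul_smul_comm, smul_mul_assoc, ← mul_assoc, h, _root_.mul_neg, neg_mul,
    neg_mul,
    mul_assoc, hs, mul_assoc]

theorem conj_rotF {V : H →L[ℂ] H} (hV : m.Fib V) {ϑ : Lab K → ℝ} (hϑ : Measurable ϑ) :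
    star V * m.rotF Q ϑ * V = m.rotF (star V * Q * V) ϑ := by
  unfold rotF
  have hc := (hV.2 _ (BM.cos hϑ)).eq
  have hs := (hV.2 _ (BM.sin hϑ)).eq
  rw [_root_.mul_sub, sub_mul, mul_smul_comm, smul_mul_assoc, mul_assoc, ← hc, ← mul_assoc, hV.star_mul_self,
    one_mul]
  congr 2
  simp only [mul_assoc, hs]

theorem rotF_ind (h3 : m.Cen Q) {E : Set (Lab K)} (hE : MeasurableSet E) (α : ℝ) :
    m.rotF Q (E.indicator fun _ => α) = m.P E * rot Q α + m.P Eᶜ := by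
  have e1 : (fun x => ((Real.cos (E.indicator (fun _ => α) x) : ℝ) : ℂ)) =
      E.indicator (fun _ => ((Real.cos α : ℝ) : ℂ)) + Eᶜ.indicator fun _ => 1 := by
    funext x
    by_cases hx : x ∈ E <;> simp [hx]
  have e2 : (fun x => ((Real.sin (E.indicator (fun _ => α) x) : ℝ) : ℂ)) =
      fun x => ((Real.sin α : ℝ) : ℂ) * E.indicator (fun _ => (1 : ℂ)) x := by
    funext x
    by_cases hx : x ∈ E <;> simp [hx]
  unfold rotF rot
  rw [e1, e2, cosF_ind m hE, m.mul_smul _ (BM.indicator hE (BM.const _))]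
  change _ - Complex.I • (Q * ((Real.sin α : ℝ) : ℂ) • m.P E) = _
  rw [mul_smul_comm, (h3.commute_P hE).eq, _root_.mul_sub, mul_smul_comm, mul_smul_comm, mul_one, smul_smul]
  abel

theorem rotF_sign (h3 : m.Cen Q) {E : Set (Lab K)} (hE : MeasurableSet E) (α : ℝ) :
    m.rotF Q (E.indicator fun x => α * Real.sign (x 0)) = m.P E * rot (m.Sg * Q) α + m.P Eᶜ := by
  have hm : Measurable (E.indicator fun x : Lab K => α * Real.sign (x 0)) :=
    (measurable_sign0.const_mul α).indicator hE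
  have e1 : m.mul (fun x => ((Real.cos (E.indicator (fun x : Lab K => α * Real.sign (x 0)) x) : ℝ) : ℂ)) =
      m.mul (E.indicator (fun _ => ((Real.cos α : ℝ) : ℂ)) + Eᶜ.indicator fun _ => 1) := by
    refine m.mul_ae _ _ (BM.cos hm)
      ((BM.indicator hE (BM.const _)).add (BM.indicator hE.compl (BM.const _))) ?_
    filter_upwards [ae_ne_zero0 (K := K)] with x hx0
    by_cases hx : x ∈ E
    · rcases lt_or_gt_of_ne hx0 with h0 | h0
      · simp [hx, Real.sign_of_neg h0]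
      · simp [hx, Real.sign_of_pos h0]
    · simp [hx]
  have e2 : (fun x => ((Real.sin (E.indicator (fun x : Lab K => α * Real.sign (x 0)) x) : ℝ) : ℂ)) =
      fun x => ((Real.sin α : ℝ) : ℂ) * ((E.indicator (fun _ => (1 : ℂ))) *
        (fun x : Lab K => ((Real.sign (x 0) : ℝ) : ℂ))) x := by
    funext x
    by_cases hx : x ∈ E
    · rcases lt_trichotomy (x 0) 0 with h0 | h0 | h0
      · simp [hx, Real.sign_of_neg h0]
      · simp [hx, h0]
      · simp [hx, Real.sign_of_pos h0]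
    · simp [hx]
  unfold rotF rot
  rw [e1, e2, cosF_ind m hE, m.mul_smul _ ((BM.indicator hE (BM.const _)).mul BM.sign),
    m.mul_mul _ _ (BM.indicator hE (BM.const _)) BM.sign]
  change _ - Complex.I • (Q * ((Real.sin α : ℝ) : ℂ) • (m.P E * m.Sg)) = _
  rw [mul_smul_comm, ← mul_assoc, (h3.commute_P hE).eq, mul_assoc, h3.commute_Sg.eq, _root_.mul_sub,
    mul_smul_comm, mul_smul_comm, mul_one, smul_smul]
  abel

theorem xi_D {y : KK} (hy : y ∈ m.R) (U : H →L[ℂ] H) : m.xi (m.D m.Z y * U) = m.xi U := by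
  exact xi_of_commute' m (m.isAxis_Z.fib_D hy) (m.isAxis_Z.commute_D_self y) U

theorem xi_of_commute {V : H →L[ℂ] H} (hV : m.Fib V) (hZ : Commute m.Z V) (U : H →L[ℂ] H) :
    m.xi (V * U) = m.xi U := by
  exact xi_of_commute' m hV hZ U

theorem xi_B (β : ℝ) (U : H →L[ℂ] H) : m.xi (m.B β * U) =
    ((Real.cos (2 * β) : ℝ) : ℂ) • m.xi U + ((Real.sin (2 * β) : ℝ) : ℂ) • m.heis U m.Y := by
  unfold xi
  rw [m.heis_mul, m.B_conj_Z, m.heis_add, m.heis_smul, m.heis_smul]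

theorem fib_step {U : H →L[ℂ] H} (hU : m.Fib U) (L : Layer K) : m.Fib (m.step U L) := by
  exact ((m.fib_B _).mul (m.isAxis_Z.fib_D (hU.fld_mem L))).mul hU

theorem fib_runFrom {U : H →L[ℂ] H} (hU : m.Fib U) (w : List (Layer K)) : m.Fib (m.runFrom U w) := by
  induction w generalizing U with
  | nil => exact hU
  | cons L w ih => exact ih (fib_step m hU L)

theorem fib_run (w : List (Layer K)) : m.Fib (m.run w) := by
  exact fib_runFrom m m.fib_one w

theorem fib_genU {y : ℕ → KK} (hy : ∀ k, y k ∈ m.R) (β : ℕ → ℝ) (k : ℕ) : m.Fib (m.genU y β k) := by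
  induction k with
  | zero => exact m.fib_one
  | succ k ih => exact ((m.fib_B _).mul (m.isAxis_Z.fib_D (hy k))).mul ih

theorem step_ph {U : H →L[ℂ] H} (hU : m.Fib U) {κ : Lab K → ℝ} (hκ : Measurable κ) (L : Layer K) :
    m.step (m.ph κ * U) L = m.ph κ * m.step U L := by
  have h1 : m.fld (m.ph κ * U) L = m.fld U L := by
    unfold fld
    rw [xi_of_commute m (m.fib_ph hκ) (m.cen_Z.commute_ph hκ)]
  unfold step
  rw [h1, ← mul_assoc,
    (((m.fib_B L.2.2).mul (m.isAxis_Z.fib_D (hU.fld_mem L))).2.commute_ph hκ).eq, mul_assoc]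

theorem fib_cross (hQ : m.IsAxis Q) {A B : Set (Lab K)} (hA : MeasurableSet A) (hB : MeasurableSet B)
    (h : Disjoint A B) (γ : ℝ) {U : H →L[ℂ] H} (hU : m.Fib U) : m.Fib (m.cross Q A B γ U) := by
  exact m.fib_block3 hA hB h
    (hQ.fib_D (m.R.smul_mem γ (hU.j_P_heis_mem hQ.1 hQ.2.2.1 hB)))
    (hQ.fib_D (m.R.smul_mem γ (hU.j_P_heis_mem hQ.1 hQ.2.2.1 hA)))

theorem fib_target {S T : Set (Lab K)} (hS : MeasurableSet S) (hT : MeasurableSet T) (h : Disjoint S T)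
    (τ : ℝ) {U : H →L[ℂ] H} (hU : m.Fib U) : m.Fib (m.target S T τ U) := by
  exact m.fib_block3 hS hT h
    (m.isAxis_Z.fib_D (m.R.smul_mem τ (m.j_P_Sg_mem hT)))
    (m.isAxis_Sg.fib_D (m.R.smul_mem τ (hU.j_P_heis_mem m.Z_star m.cen_Z hS)))

theorem target_commute_Z {S T : Set (Lab K)} (hS : MeasurableSet S) (hT : MeasurableSet T) (τ : ℝ)
    (U : H →L[ℂ] H) : Commute m.Z (m.target S T τ U) := by
  unfold target
  exact (((m.cen_Z.commute_P hS).mul_right (m.commute_D m.Z_W (Commute.refl _) _)).add_right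
    ((m.cen_Z.commute_P hT).mul_right (m.commute_D m.Z_W m.cen_Z.commute_Sg _))).add_right
    (m.cen_Z.commute_P (hS.union hT).compl)

theorem target_zero {S T : Set (Lab K)} (hS : MeasurableSet S) (hT : MeasurableSet T)
    (h : Disjoint S T) (U : H →L[ℂ] H) : m.target S T 0 U = 1 := by
  unfold target
  rw [zero_smul, zero_smul, m.D_zero, m.D_zero, mul_one, mul_one, ← m.P_union hS hT h,
    m.P_add_compl (hS.union hT)]

theorem target_add {S T : Set (Lab K)} (hS : MeasurableSet S) (hT : MeasurableSet T) (h : Disjoint S T)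
    (τ τ' : ℝ) {U : H →L[ℂ] H} (hU : m.Fib U) :
    m.target S T (τ + τ') U = m.target S T τ U * m.target S T τ' U := by
  have hy : m.j (m.P T (m.Sg m.vac)) ∈ m.R := m.j_P_Sg_mem hT
  have hy' : m.j (m.P S (m.xi U)) ∈ m.R := hU.j_P_heis_mem m.Z_star m.cen_Z hS
  have key : ∀ {A : H →L[ℂ] H}, m.IsAxis A → ∀ {y : KK}, y ∈ m.R →
      m.D A (τ • y) * m.D A (τ' • y) = m.D A ((τ + τ') • y) := by
    intro A hA y hy
    rw [hA.D_mul (m.R.smul_mem τ hy) (m.R.smul_mem τ' hy), om_smul_left, om_smul_right, om_self,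
      add_smul]
    simp
  unfold target
  rw [block3_mul m hS hT h (m.isAxis_Z.fib_D (m.R.smul_mem τ hy)).2
    (m.isAxis_Sg.fib_D (m.R.smul_mem τ hy')).2, key m.isAxis_Z hy, key m.isAxis_Sg hy']


end Model

end Crest.Agent.R339
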