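import Crest.Agent.R339.Q.MC

/-!
# Row 339, part Q: strong closures
-/

set_option autoImplicit false

namespace Crest.Agent.R339

open MeasureTheory ProbabilityTheory Filter Topology Crest.MathPhysics.SpinGlass
open scoped InnerProductSpace ComplexConjugate

section
variable {H : Type} [NormedAddCommGroup H] [InnerProductSpace ℂ H] {ι : Type} {l : Filter ι}
theorem STend.const (U : H →L[ℂ] H) : STend l (fun _ => U) U := by
  exact fun _ => tendsto_const_nhds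
theorem STend.of_norm {Us : ι → H →L[ℂ] H} {U : H →L[ℂ] H}
    (h : Tendsto (fun i => ‖Us i - U‖) l (𝓝 0)) : STend l Us U := by
  intro v
  rw [tendsto_iff_norm_sub_tendsto_zero]
  refine squeeze_zero (fun _ => norm_nonneg _) (fun i => (Us i - U).le_opNorm v) ?_
  simpa using h.mul_const ‖v‖
theorem STend.apply {Us : ι → H →L[ℂ] H} {U : H →L[ℂ] H} (h : STend l Us U)
    (hb : ∀ᶠ i in l, ‖Us i‖ ≤ 1) {vs : ι → H} {v : H} (hv : Tendsto vs l (𝓝 v)) :
    Tendsto (fun i => Us i (vs i)) l (𝓝 (U v)) := by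
  rw [tendsto_iff_norm_sub_tendsto_zero]
  have h1 := tendsto_iff_norm_sub_tendsto_zero.1 hv
  have h2 := tendsto_iff_norm_sub_tendsto_zero.1 (h v)
  refine squeeze_zero' (Eventually.of_forall fun _ => norm_nonneg _) (hb.mono fun i hi => ?_)
    (by simpa using h1.add h2)
  have e : Us i (vs i) - U v = Us i (vs i - v) + (Us i v - U v) := by rw [map_sub]; abel
  rw [e]
  refine (norm_add_le _ _).trans (add_le_add ?_ le_rfl)
  exact ((Us i).le_opNorm _).trans (mul_le_of_le_one_left (norm_nonneg _) hi)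
theorem STend.mul {Us Vs : ι → H →L[ℂ] H} {U V : H →L[ℂ] H} (h : STend l Us U) (h' : STend l Vs V)
    (hb : ∀ᶠ i in l, ‖Us i‖ ≤ 1) : STend l (fun i => Us i * Vs i) (U * V) := by
  exact fun v => h.apply hb (h' v)
theorem STend.add {Us Vs : ι → H →L[ℂ] H} {U V : H →L[ℂ] H} (h : STend l Us U) (h' : STend l Vs V) :
    STend l (fun i => Us i + Vs i) (U + V) := by
  exact fun v => (h v).add (h' v)
theorem STend.const_mul {Us : ι → H →L[ℂ] H} {U : H →L[ℂ] H} (h : STend l Us U) (A : H →L[ℂ] H) :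
    STend l (fun i => A * Us i) (A * U) := by
  exact fun v => (A.continuous.tendsto _).comp (h v)
theorem top_stend_of_dense {Us : ι → H →L[ℂ] H} {U : H →L[ℂ] H} (hb : ∀ᶠ i in l, ‖Us i‖ ≤ 1)
    (hU : ‖U‖ ≤ 1) {s : Set H} (hs : Dense (Submodule.span ℂ s : Set H))
    (h : ∀ v ∈ s, Tendsto (fun i => Us i v) l (𝓝 (U v))) : STend l Us U := by
  have h1 : ∀ v ∈ Submodule.span ℂ s, Tendsto (fun i => Us i v) l (𝓝 (U v)) := by
    intro v hv
    induction hv using Submodule.span_induction with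
    | mem v hv => exact h v hv
    | zero => simpa only [map_zero] using tendsto_const_nhds
    | add u v _ _ hu hv => simpa only [map_add] using hu.add hv
    | smul c v _ hv => simpa only [map_smul] using hv.const_smul c
  intro v
  rw [Metric.tendsto_nhds]
  intro ε hε
  obtain ⟨w, hw, hvw⟩ := hs.exists_dist_lt v (show 0 < ε / 3 by linarith)
  filter_upwards [hb, Metric.tendsto_nhds.1 (h1 w hw) (ε / 3) (by linarith)] with i hi hi'
  have a1 : dist (Us i v) (Us i w) ≤ dist v w :=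
    ((Us i).dist_le_opNorm v w).trans (mul_le_of_le_one_left dist_nonneg hi)
  have a2 : dist (U w) (U v) ≤ dist w v :=
    (U.dist_le_opNorm w v).trans (mul_le_of_le_one_left dist_nonneg hU)
  rw [dist_comm w v] at a2
  linarith [dist_triangle4 (Us i v) (Us i w) (U w) (U v)]
end

theorem top_lev_single {K : ℕ} (M : ℕ) {L : Layer K}
    (h : ∀ i : Fin (K + 1), M ≤ (i : ℕ) → L.1 i = 0) : Lev M [L] := by
  intro L' hL'
  rw [List.mem_singleton.1 hL']
  exact h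

namespace Model

variable {K : ℕ} {I : Iamp K} {H KK : Type} [NormedAddCommGroup H] [InnerProductSpace ℂ H]
  [CompleteSpace H] [NormedAddCommGroup KK] [InnerProductSpace ℂ KK] (m : Model I H KK)

variable {ι : Type} {l : Filter ι}

theorem top_labv_zero : m.labv 0 = 0 := by simp [labv]

/-- it is enough to test on basic coherent vectors (`total`, the operators commute with `mul g`) -/
theorem stend_of_coh {Us : ι → H →L[ℂ] H} {U : H →L[ℂ] H} (hUs : ∀ᶠ i in l, m.Fib (Us i)) (hU : m.Fib U)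
    (h : ∀ b, ∀ z ∈ m.R, Tendsto (fun i => Us i (m.coh b z)) l (𝓝 (U (m.coh b z)))) :
    STend l Us U := by
  refine top_stend_of_dense (hUs.mono fun i hi => hi.norm_le) hU.norm_le m.total ?_
  have key : ∀ g, BM g → ∀ b, ∀ z ∈ m.R,
      Tendsto (fun i => Us i (m.mul g (m.coh b z))) l (𝓝 (U (m.mul g (m.coh b z)))) := by
    intro g hg b z hz
    have e : ∀ V : H →L[ℂ] H, m.Fib V → V (m.mul g (m.coh b z)) = m.mul g (V (m.coh b z)) :=
      fun V hV => congrArg (fun A : H →L[ℂ] H => A (m.coh b z)) (hV.2 g hg).eq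
    rw [e U hU]
    exact (((m.mul g).continuous.tendsto _).comp (h b z hz)).congr'
      (hUs.mono fun i hi => (e _ hi).symm)
  rintro v ⟨g, hg, y, hy, rfl | rfl⟩
  · simpa only [m.coh_false] using key g hg false y hy
  · simpa only [m.coh_true] using key g hg true y hy
theorem stend_star {Us : ι → H →L[ℂ] H} {U : H →L[ℂ] H} (hUs : ∀ᶠ i in l, m.Fib (Us i)) (hU : m.Fib U)
    (h : STend l Us U) : STend l (fun i => star (Us i)) (star U) := by
  intro v
  rw [tendsto_iff_norm_sub_tendsto_zero]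
  refine (tendsto_iff_norm_sub_tendsto_zero.1 (h (star U v))).congr' (hUs.mono fun i hi => ?_)
  have e1 : U (star U v) = v := congrArg (fun A : H →L[ℂ] H => A v) hU.mul_star_self
  have e2 : Us i (star (Us i) v) = v := congrArg (fun A : H →L[ℂ] H => A v) hi.mul_star_self
  change ‖Us i (star U v) - U (star U v)‖ = ‖star (Us i) v - star U v‖
  rw [← hi.norm_apply (star (Us i) v - star U v), map_sub, e1, e2, norm_sub_rev]
theorem tendsto_heis {Us : ι → H →L[ℂ] H} {U : H →L[ℂ] H} (hUs : ∀ᶠ i in l, m.Fib (Us i)) (hU : m.Fib U)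
    (h : STend l Us U) (A : H →L[ℂ] H) : Tendsto (fun i => m.heis (Us i) A) l (𝓝 (m.heis U A)) := by
  exact (m.stend_star hUs hU h).mul (h.const_mul A) (hUs.mono fun i hi => hi.star.norm_le) m.vac
theorem stend_W {ys : ι → KK} {y : KK} (hys : ∀ᶠ i in l, ys i ∈ m.R) (hy : y ∈ m.R)
    (h : Tendsto ys l (𝓝 y)) : STend l (fun i => m.W (ys i)) (m.W y) := by
  refine m.stend_of_coh (hys.mono fun i hi => m.fib_W hi) (m.fib_W hy) fun b z hz => ?_
  rw [tendsto_iff_norm_sub_tendsto_zero]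
  have h1 := tendsto_iff_norm_sub_tendsto_zero.1 h
  refine squeeze_zero' (Eventually.of_forall fun _ => norm_nonneg _) (hys.mono fun i hi => ?_)
    (by simpa using (h1.const_mul (1 + ‖y‖)).mul_const (1 + 2 * ‖z‖))
  rw [norm_sub_rev, norm_sub_rev (ys i)]
  exact (m.nb_coh b hz).norm_W_sub hy hi
theorem stend_D {Q : H →L[ℂ] H} {ys : ι → KK} {y : KK} (hys : ∀ᶠ i in l, ys i ∈ m.R) (hy : y ∈ m.R)
    (h : Tendsto ys l (𝓝 y)) : STend l (fun i => m.D Q (ys i)) (m.D Q y) := by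
  have h1 := m.stend_W hys hy h
  have h2 := m.stend_W (hys.mono fun i hi => m.R.neg_mem hi) (m.R.neg_mem hy) h.neg
  intro v
  exact (((h1 v).add (h2 v)).const_smul (1 / 2 : ℂ)).sub
    (((Q.continuous.tendsto _).comp
      (((h1 v).sub (h2 v)).const_smul (-(Complex.I / 2) : ℂ))).const_smul Complex.I)
theorem stend_B {βs : ι → ℝ} {β : ℝ} (h : Tendsto βs l (𝓝 β)) :
    STend l (fun i => m.B (βs i)) (m.B β) := by
  refine STend.of_norm (squeeze_zero (fun _ => norm_nonneg _)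
    (fun i => norm_rot_sub_rot m.X_star m.X_sq _ _) ?_)
  exact tendsto_iff_norm_sub_tendsto_zero.1 h
theorem stend_step {Us : ι → H →L[ℂ] H} {U : H →L[ℂ] H} (hUs : ∀ᶠ i in l, m.Fib (Us i)) (hU : m.Fib U)
    (h : STend l Us U) (a : Fin (K + 1) → ℝ) (γ : ℝ) {βs : ι → ℝ} {β : ℝ} (hβ : Tendsto βs l (𝓝 β)) :
    STend l (fun i => m.step (Us i) (a, γ, βs i)) (m.step U (a, γ, β)) := by
  have hf : Tendsto (fun i => m.fld (Us i) (a, γ, βs i)) l (𝓝 (m.fld U (a, γ, β))) :=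
    (((m.j.continuous.tendsto _).comp (m.tendsto_heis hUs hU h m.Z)).const_smul γ).add_const _
  have hD : STend l (fun i => m.D m.Z (m.fld (Us i) (a, γ, βs i))) (m.D m.Z (m.fld U (a, γ, β))) :=
    m.stend_D (hUs.mono fun i hi => hi.fld_mem _) (hU.fld_mem _) hf
  exact ((m.stend_B hβ).mul hD (Eventually.of_forall fun i => (m.fib_B _).norm_le)).mul h
    (hUs.mono fun i hi => ((m.fib_B _).mul (m.isAxis_Z.fib_D (hi.fld_mem _))).norm_le)
theorem tendsto_En {Us : ι → H →L[ℂ] H} {U : H →L[ℂ] H} (hUs : ∀ᶠ i in l, m.Fib (Us i)) (hU : m.Fib U)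
    (h : STend l Us U) : Tendsto (fun i => m.En (Us i)) l (𝓝 (m.En U)) := by
  have hx := m.tendsto_heis hUs hU h m.Z
  exact (Complex.continuous_re.tendsto _).comp
    (hx.inner ((m.io.continuous.tendsto _).comp ((m.j.continuous.tendsto _).comp hx)))
theorem tendsto_Fz {Us : ι → H →L[ℂ] H} {U : H →L[ℂ] H} (hUs : ∀ᶠ i in l, m.Fib (Us i)) (hU : m.Fib U)
    (h : STend l Us U) : Tendsto (fun i => m.Fz (Us i)) l (𝓝 (m.Fz U)) := by
  have hx := m.tendsto_heis hUs hU h m.Z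
  exact (Complex.continuous_re.tendsto _).comp (tendsto_const_nhds.inner hx)

theorem subset_SCl {A : Set (H →L[ℂ] H)} (hA : ∀ U ∈ A, m.Fib U) : A ⊆ m.SCl A := by
  exact fun U hU => ⟨hA U hU, fun ε hε s => ⟨U, hU, fun v _ => by simpa using hε⟩⟩
theorem SCl_mono {A A' : Set (H →L[ℂ] H)} (h : A ⊆ A') : m.SCl A ⊆ m.SCl A' := by
  intro U hU
  refine ⟨hU.1, fun ε hε s => ?_⟩
  obtain ⟨V, hV, h'⟩ := hU.2 ε hε s
  exact ⟨V, h hV, h'⟩
theorem SCl_SCl (A : Set (H →L[ℂ] H)) : m.SCl (m.SCl A) ⊆ m.SCl A := by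
  intro U hU
  refine ⟨hU.1, fun ε hε s => ?_⟩
  obtain ⟨V, hV, h1⟩ := hU.2 (ε / 2) (half_pos hε) s
  obtain ⟨V', hV', h2⟩ := hV.2 (ε / 2) (half_pos hε) s
  refine ⟨V', hV', fun v hv => ?_⟩
  linarith [norm_sub_le_norm_sub_add_norm_sub (U v) (V v) (V' v), h1 v hv, h2 v hv]
theorem mem_SCl_of_stend {A : Set (H →L[ℂ] H)} [l.NeBot] {Us : ι → H →L[ℂ] H} {U : H →L[ℂ] H}
    (hUs : ∀ᶠ i in l, Us i ∈ m.SCl A) (hU : m.Fib U) (h : STend l Us U) : U ∈ m.SCl A := by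
  refine m.SCl_SCl A ⟨hU, fun ε hε s => ?_⟩
  have h1 : ∀ᶠ i in l, ∀ v ∈ s, ‖U v - Us i v‖ < ε := by
    refine (Filter.eventually_all_finset s).2 fun v _ => ?_
    refine (Metric.tendsto_nhds.1 (h v) ε hε).mono fun i hi => ?_
    rwa [dist_comm, dist_eq_norm] at hi
  obtain ⟨i, hi, hi'⟩ := (hUs.and h1).exists
  exact ⟨Us i, hi, hi'⟩
theorem exists_filter_of_mem_SCl {A : Set (H →L[ℂ] H)} {U : H →L[ℂ] H} (hU : U ∈ m.SCl A) :
    ∃ l : Filter (H →L[ℂ] H), l.NeBot ∧ (∀ᶠ V in l, V ∈ A) ∧ STend l (fun V => V) U := by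
  classical
  choose V hV hV' using fun p : Finset H × ℕ =>
    hU.2 (1 / ((p.2 : ℝ) + 1)) Nat.one_div_pos_of_nat p.1
  refine ⟨map V atTop, inferInstance, eventually_map.2 (Eventually.of_forall hV), fun v => ?_⟩
  rw [tendsto_map'_iff, Metric.tendsto_atTop]
  intro ε hε
  obtain ⟨n, hn⟩ := exists_nat_one_div_lt hε
  refine ⟨({v}, n), fun p hp => ?_⟩
  have h1 := hV' p v (hp.1 (Finset.mem_singleton_self v))
  have h2 : 1 / ((p.2 : ℝ) + 1) ≤ 1 / ((n : ℝ) + 1) := Nat.one_div_le_one_div hp.2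
  rw [dist_comm, dist_eq_norm]
  exact h1.trans (h2.trans_lt hn)
/-- strongly continuous maps preserve closures -/
theorem SCl_map {A A' : Set (H →L[ℂ] H)} (hA : ∀ U ∈ A, m.Fib U) (Φ : (H →L[ℂ] H) → (H →L[ℂ] H))
    {U : H →L[ℂ] H} (hU : U ∈ m.SCl A) (hΦU : m.Fib (Φ U))
    (hc : ∀ l : Filter (H →L[ℂ] H), (∀ᶠ V in l, m.Fib V) → STend l (fun V => V) U →
      STend l Φ (Φ U) ∧ ∀ᶠ V in l, V ∈ A → Φ V ∈ m.SCl A') : Φ U ∈ m.SCl A' := by
  obtain ⟨l, hl, h1, h2⟩ := m.exists_filter_of_mem_SCl hU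
  obtain ⟨h3, h4⟩ := hc l (h1.mono hA) h2
  exact m.mem_SCl_of_stend (h1.mp h4) hΦU h3
theorem mem_SCl_of_err {A : Set (H →L[ℂ] H)} {U : H →L[ℂ] H} (hU : m.Fib U)
    (h : ∀ r : ℝ, ∀ ε > (0 : ℝ), ∃ V ∈ m.SCl A, m.ErrLe (Metric.closedBall 0 r) V U ε) :
    U ∈ m.SCl A := by
  choose V hV hV' using fun n : ℕ => h n (1 / ((n : ℝ) + 1)) Nat.one_div_pos_of_nat
  refine m.mem_SCl_of_stend (l := atTop) (Us := V) (Eventually.of_forall hV) hU ?_
  refine m.stend_of_coh (Eventually.of_forall fun n => (hV n).1) hU fun b z hz => ?_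
  rw [tendsto_iff_norm_sub_tendsto_zero]
  refine squeeze_zero' (Eventually.of_forall fun _ => norm_nonneg _) ?_
    tendsto_one_div_add_atTop_nhds_zero_nat
  filter_upwards [tendsto_natCast_atTop_atTop.eventually_ge_atTop ‖z‖] with n hn
  exact hV' n b z hz (mem_closedBall_zero_iff.2 hn)
theorem En_le_of_mem_SCl {A : Set (H →L[ℂ] H)} (hA : ∀ U ∈ A, m.Fib U) {U : H →L[ℂ] H}
    (hU : U ∈ m.SCl A) {ε : ℝ} (hε : 0 < ε) : ∃ V ∈ A, m.En U - ε ≤ m.En V := by
  obtain ⟨l, hl, h1, h2⟩ := m.exists_filter_of_mem_SCl hU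
  have h3 := (m.tendsto_En (h1.mono hA) hU.1 h2).eventually
    (lt_mem_nhds (show m.En U - ε < m.En U by linarith))
  obtain ⟨V, hV, hV'⟩ := (h1.and h3).exists
  exact ⟨V, hV, hV'.le⟩

theorem reach_fib {M : ℕ} {U : H →L[ℂ] H} (hU : U ∈ m.Reach M) : m.Fib U := by
  obtain ⟨w, _, κ, hκ, rfl⟩ := hU
  exact (m.fib_ph hκ).mul (m.fib_run w)
theorem reach_subset (M : ℕ) : m.Reach M ⊆ m.Cl M := by
  exact m.subset_SCl fun _ hU => m.reach_fib hU
theorem one_mem_Cl (M : ℕ) : (1 : H →L[ℂ] H) ∈ m.Cl M := by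
  refine m.reach_subset M ⟨[], fun L hL => absurd hL List.not_mem_nil, 0, measurable_const, ?_⟩
  rw [m.ph_zero, one_mul]
  rfl
theorem En_ph {κ : Lab K → ℝ} (hκ : Measurable κ) (U : H →L[ℂ] H) : m.En (m.ph κ * U) = m.En U := by
  unfold En
  rw [m.xi_of_commute (m.fib_ph hκ) (m.cen_Z.commute_ph hκ) U]
theorem En_le_of_mem_Cl {M : ℕ} {U : H →L[ℂ] H} (hU : U ∈ m.Cl M) {ε : ℝ} (hε : 0 < ε) :
    ∃ w, Lev M w ∧ m.En U - ε ≤ m.En (m.run w) := by
  obtain ⟨V, ⟨w, hw, κ, hκ, rfl⟩, h⟩ := m.En_le_of_mem_SCl (fun _ hV => m.reach_fib hV) hU hε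
  exact ⟨w, hw, by rwa [m.En_ph hκ] at h⟩
theorem step_mem_Cl {M : ℕ} {U : H →L[ℂ] H} (hU : U ∈ m.Cl M) {L : Layer K} (hL : Lev M [L]) :
    m.step U L ∈ m.Cl M := by
  refine m.SCl_map (fun _ hV => m.reach_fib hV) (fun V => m.step V L) hU (m.fib_step hU.1 L)
    fun l hl hs => ⟨m.stend_step hl hU.1 hs L.1 L.2.1 tendsto_const_nhds,
      Eventually.of_forall ?_⟩
  rintro V ⟨w, hw, κ, hκ, rfl⟩
  refine m.reach_subset M ⟨w ++ [L], hw.append hL, κ, hκ, ?_⟩
  rw [m.step_ph (m.fib_run w) hκ, m.run_snoc]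
theorem cost_mem_Cl {M : ℕ} {U : H →L[ℂ] H} (hU : U ∈ m.Cl M) (γ : ℝ) :
    m.D m.Z (γ • m.j (m.xi U)) * U ∈ m.Cl M := by
  have h := m.step_mem_Cl hU (L := (0, γ, 0)) (top_lev_single M fun _ _ => rfl)
  simpa only [step, fld, B, rot_zero, one_mul, top_labv_zero, add_zero] using h
theorem free_one (M : ℕ) : m.Free M 1 := by
  exact ⟨m.fib_one, fun U hU => by rwa [one_mul]⟩
theorem free_ph (M : ℕ) {κ : Lab K → ℝ} (hκ : Measurable κ) : m.Free M (m.ph κ) := by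
  refine ⟨m.fib_ph hκ, fun U hU => ?_⟩
  refine m.SCl_map (fun _ hV => m.reach_fib hV) (fun V => m.ph κ * V) hU ((m.fib_ph hκ).mul hU.1)
    fun l _ hs => ⟨hs.const_mul _, Eventually.of_forall ?_⟩
  rintro V ⟨w, hw, κ', hκ', rfl⟩
  refine m.reach_subset M ⟨w, hw, κ + κ', hκ.add hκ', ?_⟩
  rw [m.ph_add hκ hκ', mul_assoc]
theorem free_B (M : ℕ) (β : ℝ) : m.Free M (m.B β) := by
  refine ⟨m.fib_B β, fun U hU => ?_⟩
  have h := m.step_mem_Cl hU (L := (0, 0, β)) (top_lev_single M fun _ _ => rfl)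
  simpa only [step, fld, zero_smul, top_labv_zero, add_zero, m.D_zero, mul_one] using h
theorem free_lab {M : ℕ} {a : Fin (K + 1) → ℝ} (ha : ∀ i : Fin (K + 1), M ≤ (i : ℕ) → a i = 0) :
    m.Free M (m.D m.Z (m.labv a)) := by
  refine ⟨m.isAxis_Z.fib_D (m.labv_mem a), fun U hU => ?_⟩
  have h := m.step_mem_Cl hU (L := (a, 0, 0)) (top_lev_single M ha)
  simpa only [step, fld, zero_smul, zero_add, B, rot_zero, one_mul] using h
theorem free_of_stend {M : ℕ} [l.NeBot] {Vs : ι → H →L[ℂ] H} {V : H →L[ℂ] H}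
    (hVs : ∀ᶠ i in l, m.Free M (Vs i)) (hV : m.Fib V) (h : STend l Vs V) : m.Free M V := by
  refine ⟨hV, fun U hU => ?_⟩
  exact m.mem_SCl_of_stend (Us := fun i => Vs i * U) (hVs.mono fun i hi => hi.2 U hU) (hV.mul hU.1)
    fun v => h (U v)
variable {m}
theorem Free.mul {M : ℕ} {V V' : H →L[ℂ] H} (h : m.Free M V) (h' : m.Free M V') : m.Free M (V * V') := by
  exact ⟨h.1.mul h'.1, fun U hU => by rw [mul_assoc]; exact h.2 _ (h'.2 U hU)⟩
theorem Free.pow {M : ℕ} {V : H →L[ℂ] H} (h : m.Free M V) (n : ℕ) : m.Free M (V ^ n) := by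
  induction n with
  | zero => rw [pow_zero]; exact m.free_one M
  | succ n ih => rw [pow_succ]; exact ih.mul h

end Model

end Crest.Agent.R339
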