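import Crest.Agent.R339.Q.BF
import Crest.Agent.R339.Q.Top

/-!
# Row 339, part Q: global pulses at positions
-/

set_option autoImplicit false

namespace Crest.Agent.R339

open MeasureTheory ProbabilityTheory Filter Topology Crest.MathPhysics.SpinGlass
open scoped InnerProductSpace ComplexConjugate

namespace Model

variable {K : ℕ} {I : Iamp K} {H KK : Type} [NormedAddCommGroup H] [InnerProductSpace ℂ H]
  [CompleteSpace H] [NormedAddCommGroup KK] [InnerProductSpace ℂ KK] (m : Model I H KK)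

section defs
variable (lam α : ℝ) (U : H →L[ℂ] H)
/-- mixer axis at the position `lam` -/
noncomputable def AR : H →L[ℂ] H :=
  star (m.D m.Z (lam • m.j (m.xi U))) * m.X * m.D m.Z (lam • m.j (m.xi U))
noncomputable def ER : H →L[ℂ] H := rot (m.AR lam U) α
noncomputable def dR : KK := (-lam) • m.j (m.heis U (star (m.ER lam α U) * m.Z * m.ER lam α U - m.Z))
/-- a global pulse at the position `lam`, without the scalar phase -/
noncomputable def RP : H →L[ℂ] H := m.D m.Z (m.dR lam α U) * m.ER lam α U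
variable {n : ℕ} (F : Flat n) (b δ : ℝ)
noncomputable def rlam (p : Fin F.J × Bool) : ℝ := spinSign p.2 * F.t p.1 * b
noncomputable def ral (p : Fin F.J × Bool) : ℝ := δ * F.c p.1 / 2
noncomputable def rst (U : H →L[ℂ] H) (L : List (Fin F.J × Bool)) : H →L[ℂ] H :=
  L.foldl (fun V p => m.RP (rlam F b p) (ral F δ p) V * V) U
noncomputable def allR : List (Fin F.J × Bool) := (Finset.univ : Finset (Fin F.J × Bool)).toList
noncomputable def rUp (p : Fin F.J × Bool) (U : H →L[ℂ] H) : H →L[ℂ] H :=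
  m.rst F b δ U ((allR F).takeWhile (· ≠ p))
noncomputable def rround (U : H →L[ℂ] H) : H →L[ℂ] H := m.rst F b δ U (allR F)
/-- total back action of one round -/
noncomputable def rbeta (U : H →L[ℂ] H) : KK := ∑ p, m.dR (rlam F b p) (ral F δ p) U
end defs

theorem smul_mem_reach {M : ℕ} {U : H →L[ℂ] H} (hU : U ∈ m.Reach M) {c : ℂ} (hc : ‖c‖ = 1) :
    c • U ∈ m.Reach M := by
  obtain ⟨w, hw, κ, hκ, rfl⟩ := hU
  refine ⟨w, hw, (fun _ => c.arg) + κ, measurable_const.add hκ, ?_⟩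
  have e : Complex.exp (Complex.I * (c.arg : ℂ)) = c := by
    have := Complex.norm_mul_exp_arg_mul_I c
    rwa [hc, Complex.ofReal_one, one_mul, mul_comm] at this
  rw [m.ph_add measurable_const hκ, m.ph_const, e, smul_mul_assoc, one_mul, smul_mul_assoc]
theorem step_mem_reach {M : ℕ} {U : H →L[ℂ] H} (hU : U ∈ m.Reach M) (γ β : ℝ) :
    m.step U (0, γ, β) ∈ m.Reach M := by
  obtain ⟨w, hw, κ, hκ, rfl⟩ := hU
  refine ⟨w ++ [(0, γ, β)], hw.append (top_lev_single M fun _ _ => rfl), κ, hκ, ?_⟩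
  rw [m.step_ph (m.fib_run w) hκ, m.run_snoc]
theorem cost_mem_reach {M : ℕ} {U : H →L[ℂ] H} (hU : U ∈ m.Reach M) (γ : ℝ) :
    m.D m.Z (γ • m.j (m.xi U)) * U ∈ m.Reach M := by
  have h := m.step_mem_reach hU γ 0
  simpa only [step, fld, B, rot_zero, one_mul, top_labv_zero, add_zero] using h
theorem B_mem_reach {M : ℕ} {U : H →L[ℂ] H} (hU : U ∈ m.Reach M) (β : ℝ) : m.B β * U ∈ m.Reach M := by
  have h := m.step_mem_reach hU 0 β
  simpa only [step, fld, zero_smul, top_labv_zero, add_zero, m.D_zero, mul_one] using h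
theorem nb_reach {M : ℕ} {U : H →L[ℂ] H} (hU : U ∈ m.Reach M) : ∃ Λ, 1 ≤ Λ ∧ m.NB Λ (U m.vac) := by
  obtain ⟨κ, r, hκ, hr, h⟩ := m.mcop_reach hU
  refine ⟨_, ?_, (h 0 1 _ (m.mc_vac le_rfl)).nb⟩
  nlinarith

variable {m} (lam α : ℝ) {U : H →L[ℂ] H}
private theorem b0_rn (t : ℝ) (u : KK) : ‖t • u‖ = |t| * ‖u‖ := by
  rw [← Complex.coe_smul, norm_smul, Complex.norm_real, Real.norm_eq_abs]
private theorem b0_ZX : m.X * m.Z = -(m.Z * m.X) := by rw [m.ZX, neg_neg]
private theorem b0_G (hU : m.Fib U) : m.Fib (m.D m.Z (lam • m.j (m.xi U))) :=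
  m.isAxis_Z.fib_D (m.R.smul_mem _ hU.j_xi_mem)
private theorem b0_fib_AR (hU : m.Fib U) : m.Fib (m.AR lam U) :=
  ((b0_G lam hU).star.mul m.isAxis_X.fib).mul (b0_G lam hU)

theorem AR_eq (hU : m.Fib U) : m.AR lam U = m.X * m.D m.Z ((2 * lam) • m.j (m.xi U)) := by
  rw [AR, m.isAxis_Z.conj_anti m.isAxis_X b0_ZX (m.R.smul_mem _ hU.j_xi_mem), smul_smul]
theorem AR_star (hU : m.Fib U) : star (m.AR lam U) = m.AR lam U := by
  rw [AR, star_mul, star_mul, star_star, m.X_star, mul_assoc]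
theorem AR_sq (hU : m.Fib U) : m.AR lam U * m.AR lam U = 1 := by
  have h := (b0_fib_AR lam hU).star_mul_self
  rwa [AR_star lam hU] at h
theorem fib_ER (hU : m.Fib U) : m.Fib (m.ER lam α U) := by
  exact m.fib_rot (AR_star lam hU) (AR_sq lam hU) (b0_fib_AR lam hU).2 α
theorem dR_mem (hU : m.Fib U) : m.dR lam α U ∈ m.R := by
  refine m.R.smul_mem _ (hU.j_heis_mem ?_
    ((((fib_ER lam α hU).2.star.mul m.cen_Z).mul (fib_ER lam α hU).2).sub m.cen_Z))
  rw [star_sub, star_mul, star_mul, star_star, m.Z_star, mul_assoc]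
theorem norm_dR_le (hU : m.Fib U) : ‖m.dR lam α U‖ ≤ 2 * |lam| * |α| := by
  have h1 := norm_conj_rot_sub' (AR_star lam hU) (AR_sq lam hU) m.Z α
  have h2 : ‖star (m.ER lam α U) * m.Z * m.ER lam α U - m.Z‖ ≤ 2 * |α| :=
    h1.trans (mul_le_of_le_one_right (by positivity) m.isAxis_Z.fib.norm_le)
  have h3 := (star (m.ER lam α U) * m.Z * m.ER lam α U - m.Z).le_of_opNorm_le h2 (U m.vac)
  rw [hU.norm_apply, m.norm_vac, mul_one] at h3
  rw [dR, b0_rn, m.j.norm_map, hU.norm_heis, abs_neg]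
  nlinarith [mul_le_mul_of_nonneg_left h3 (abs_nonneg lam)]
theorem fib_RP (hU : m.Fib U) : m.Fib (m.RP lam α U) := by
  exact (m.isAxis_Z.fib_D (dR_mem lam α hU)).mul (fib_ER lam α hU)
theorem cl_RP (hU : m.Fib U) : m.CL (8 * |lam| * |α|) (m.RP lam α U) := by
  have hy : (2 * lam) • m.j (m.xi U) ∈ m.R := m.R.smul_mem _ hU.j_xi_mem
  have h1 : m.CL (0 + 2 * ‖(2 * lam) • m.j (m.xi U)‖) (m.AR lam U) := by
    rw [AR_eq lam hU]
    exact (cl_of_commute m.X_W).mul (m.isAxis_Z.cl_D hy) m.isAxis_X.fib.norm_le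
      (m.isAxis_Z.fib_D hy).norm_le
  rw [b0_rn, m.j.norm_map, hU.norm_xi, abs_mul, abs_two] at h1
  refine ((m.isAxis_Z.cl_D (dR_mem lam α hU)).mul (h1.rot α)
    (m.isAxis_Z.fib_D (dR_mem lam α hU)).norm_le (fib_ER lam α hU).norm_le).mono ?_
  linarith [norm_dR_le lam α hU]
theorem near1_RP (hU : m.Fib U) : m.Near1 ((4 * |lam| + 1) * |α|) (m.RP lam α U) := by
  refine ((m.isAxis_Z.near1_D (dR_mem lam α hU)).mul
    (near1_of_norm (norm_rot_sub_one (AR_star lam hU) (AR_sq lam hU) α))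
    (m.isAxis_Z.fib_D (dR_mem lam α hU)).norm_le).mono ?_
  linarith [norm_dR_le lam α hU]
/-- `C_{-λ} B_α C_λ` -/
theorem RP_mem_reach {M : ℕ} (hU : U ∈ m.Reach M) : m.RP lam α U * U ∈ m.Reach M := by
  have hF := m.reach_fib hU
  have hG := b0_G lam hF
  have hy : lam • m.j (m.xi U) ∈ m.R := m.R.smul_mem _ hF.j_xi_mem
  have h2 := m.B_mem_reach (m.cost_mem_reach hU lam) α
  have h3 := m.cost_mem_reach h2 (-lam)
  have hc := (m.isAxis_Z.commute_D_self (lam • m.j (m.xi U))).eq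
  have eE : m.ER lam α U =
      star (m.D m.Z (lam • m.j (m.xi U))) * m.B α * m.D m.Z (lam • m.j (m.xi U)) :=
    (conj_rot hG.star_mul_self α).symm
  have eD : m.RP lam α U * U = m.D m.Z (m.dR lam α U) * m.D m.Z (-(lam • m.j (m.xi U))) *
      (m.B α * (m.D m.Z (lam • m.j (m.xi U)) * U)) := by
    rw [RP, eE, m.isAxis_Z.star_D]
    simp only [mul_assoc]
  have ex : m.xi (m.B α * (m.D m.Z (lam • m.j (m.xi U)) * U)) =
      m.heis U (star (m.ER lam α U) * m.Z * m.ER lam α U) := by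
    have hs := hG.mul_star_self
    rw [xi, ← mul_assoc, m.heis_mul, eE]
    generalize m.D m.Z (lam • m.j (m.xi U)) = G at hc hs ⊢
    congr 1
    have e1 : G * (m.Z * star G) = m.Z := by rw [← mul_assoc, ← hc, mul_assoc, hs, mul_one]
    simp only [star_mul, star_star, mul_assoc]
    rw [← mul_assoc m.Z (star G), ← mul_assoc G, e1]
  have ey : m.dR lam α U + -(lam • m.j (m.xi U)) =
      (-lam) • m.j (m.xi (m.B α * (m.D m.Z (lam • m.j (m.xi U)) * U))) := by
    rw [ex, dR, m.heis_sub, map_sub, smul_sub, neg_smul lam (m.j (m.heis U m.Z)), xi]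
    abel
  rw [eD, m.isAxis_Z.D_mul (dR_mem lam α hF) (m.R.neg_mem hy), ey, smul_mul_assoc]
  exact m.smul_mem_reach h3 (coh1_norm_expI _)
variable {n : ℕ} (F : Flat n) (b δ : ℝ)
theorem fib_rst (hU : m.Fib U) (L : List (Fin F.J × Bool)) : m.Fib (m.rst F b δ U L) := by
  induction L generalizing U with
  | nil => exact hU
  | cons q L ih => exact ih ((fib_RP _ _ hU).mul hU)
theorem fib_rround (hU : m.Fib U) : m.Fib (m.rround F b δ U) := by
  exact fib_rst F b δ hU _
theorem rround_mem_reach {M : ℕ} (hU : U ∈ m.Reach M) : m.rround F b δ U ∈ m.Reach M := by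
  unfold rround
  generalize allR F = L
  induction L generalizing U with
  | nil => exact hU
  | cons q L ih => exact ih (RP_mem_reach _ _ hU)
private theorem b0_prod (L : List (Fin F.J × Bool)) (hL : L.Nodup) (U : H →L[ℂ] H) :
    m.rst F b δ U L = (L.reverse.map fun p =>
      m.RP (rlam F b p) (ral F δ p) (m.rst F b δ U (L.takeWhile (· ≠ p)))).prod * U := by
  induction L generalizing U with
  | nil => simp [rst]
  | cons q L ih =>
    obtain ⟨hq, hL⟩ := List.nodup_cons.1 hL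
    have e0 : ∀ L', m.rst F b δ U (q :: L') =
        m.rst F b δ (m.RP (rlam F b q) (ral F δ q) U * U) L' := fun _ => rfl
    rw [e0, ih hL, List.reverse_cons, List.map_append, List.prod_append, mul_assoc]
    congr 1
    · congr 1
      refine List.map_congr_left fun p hp => ?_
      have hne : q ≠ p := fun h => hq (h ▸ List.mem_reverse.1 hp)
      rw [List.takeWhile_cons_of_pos (by simpa using hne), e0]
    · simp [rst]

theorem rround_eq_prod (U : H →L[ℂ] H) : m.rround F b δ U = ((allR F).reverse.map fun p =>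
    m.RP (rlam F b p) (ral F δ p) (m.rUp F b δ p U)).prod * U := by
  exact b0_prod F b δ _ (Finset.nodup_toList _) U
theorem rbeta_mem (hU : m.Fib U) : m.rbeta F b δ U ∈ m.R := by
  exact m.R.sum_mem fun p _ => dR_mem _ _ hU
theorem sum_AR (hU : m.Fib U) : ∑ p, ((ral F δ p : ℝ) : ℂ) • m.AR (rlam F b p) U =
    (δ : ℂ) • (m.X * m.Pc F b (m.j (m.xi U))) := by
  rw [Fintype.sum_prod_type, Pc, Finset.mul_sum, Finset.smul_sum]
  refine Finset.sum_congr rfl fun i _ => ?_
  rw [Fintype.sum_bool, AR_eq _ hU, AR_eq _ hU]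
  have e1 : (2 * rlam F b (i, true)) • m.j (m.xi U) =
      spinSign true • ((2 * F.t i * b) • m.j (m.xi U)) := by
    rw [smul_smul, rlam]; congr 1; ring
  have e2 : (2 * rlam F b (i, false)) • m.j (m.xi U) =
      spinSign false • ((2 * F.t i * b) • m.j (m.xi U)) := by
    rw [smul_smul, rlam]; congr 1; ring
  rw [e1, e2]
  generalize (2 * F.t i * b) • m.j (m.xi U) = u
  simp only [spinSign, ral, D, if_true, Bool.false_eq_true, if_false, one_smul, neg_smul,
    m.cosW_neg, m.sinW_neg, _root_.mul_sub, _root_.mul_neg, smul_neg, mul_smul_comm]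
  push_cast
  module

end Model

end Crest.Agent.R339
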