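import Crest.Agent.R339.Q.Coh1

/-!
# Row 339, part Q: flat trigonometric polynomials
-/

set_option autoImplicit false

namespace Crest.Agent.R339

open MeasureTheory ProbabilityTheory Filter Topology Crest.MathPhysics.SpinGlass
open scoped InnerProductSpace ComplexConjugate

/-- a cosine polynomial that is flat at `0` (value `0`) and at `± π` (value `1`) -/
structure Flat (n : ℕ) where
  J : ℕ
  c : Fin J → ℝ
  t : Fin J → ℝ
  C : ℝ
  hC : 0 ≤ C
  cos0 : ∀ θ, |∑ i, c i * Real.cos (t i * θ)| ≤ C * |θ| ^ n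
  sin0 : ∀ θ, |∑ i, c i * t i * Real.sin (t i * θ)| ≤ C * |θ| ^ n
  cos1 : ∀ (σ : Bool) θ, |∑ i, c i * Real.cos (t i * θ) - 1| ≤ C * |θ - spinSign σ * Real.pi| ^ n
  sin1 : ∀ (σ : Bool) θ, |∑ i, c i * t i * Real.sin (t i * θ)| ≤ C * |θ - spinSign σ * Real.pi| ^ n

/-- cosine polynomials -/
def BF_S : Submodule ℝ (ℝ → ℝ) :=
  Submodule.span ℝ (Set.range fun (t : ℝ) (θ : ℝ) => Real.cos (t * θ))

theorem BF_cos (t : ℝ) : (fun θ => Real.cos (t * θ)) ∈ BF_S := Submodule.subset_span ⟨t, rfl⟩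

theorem BF_one : (1 : ℝ → ℝ) ∈ BF_S := by
  convert BF_cos 0 using 1
  funext θ; simp

theorem BF_mul {f g : ℝ → ℝ} (hf : f ∈ BF_S) (hg : g ∈ BF_S) : f * g ∈ BF_S := by
  refine Submodule.span_induction₂ (p := fun f g _ _ => f * g ∈ BF_S) ?_ ?_ ?_ ?_ ?_ ?_ ?_ hf hg
  · rintro _ _ ⟨t, rfl⟩ ⟨u, rfl⟩
    convert BF_S.smul_mem (1 / 2 : ℝ) (BF_S.add_mem (BF_cos (t - u)) (BF_cos (t + u))) using 1
    funext θ
    simp only [Pi.mul_apply, Pi.smul_apply, Pi.add_apply, smul_eq_mul, sub_mul, add_mul,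
      ← Real.two_mul_cos_mul_cos]
    ring
  · intro y _; rw [zero_mul]; exact zero_mem _
  · intro x _; rw [mul_zero]; exact zero_mem _
  · intro x y z _ _ _ h1 h2; rw [add_mul]; exact add_mem h1 h2
  · intro x y z _ _ _ h1 h2; rw [mul_add]; exact add_mem h1 h2
  · intro r x y _ _ h; rw [smul_mul_assoc]; exact BF_S.smul_mem r h
  · intro r x y _ _ h; rw [mul_smul_comm]; exact BF_S.smul_mem r h

theorem BF_pow {f : ℝ → ℝ} (hf : f ∈ BF_S) (k : ℕ) : f ^ k ∈ BF_S := by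
  induction k with
  | zero => rw [pow_zero]; exact BF_one
  | succ k ih => rw [pow_succ]; exact BF_mul ih hf

theorem BF_bern {x : ℝ} (h0 : 0 ≤ x) (k : ℕ) : 1 - x ^ k ≤ k * (1 - x) := by
  have := one_add_mul_le_pow (a := x - 1) (by linarith) k
  rw [show 1 + (x - 1) = x by ring] at this
  linarith

theorem BF_repr (n : ℕ) : ∃ (J : ℕ) (c t : Fin J → ℝ), ∀ θ,
    ∑ i, c i * Real.cos (t i * θ) = (1 - ((1 + Real.cos θ) / 2) ^ (n + 1)) ^ (n + 1) ∧
    ∑ i, c i * t i * Real.sin (t i * θ) = -((n + 1 : ℝ) ^ 2 *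
      (1 - ((1 + Real.cos θ) / 2) ^ (n + 1)) ^ n * ((1 + Real.cos θ) / 2) ^ n * (Real.sin θ / 2)) := by
  have h1 : (fun θ => (1 - ((1 + Real.cos θ) / 2) ^ (n + 1)) ^ (n + 1)) ∈ BF_S := by
    convert BF_pow (BF_S.sub_mem BF_one (BF_pow (BF_S.smul_mem (1 / 2 : ℝ)
      (BF_S.add_mem BF_one (BF_cos 1))) (n + 1))) (n + 1) using 1
    funext θ
    simp only [Pi.pow_apply, Pi.sub_apply, Pi.one_apply, Pi.smul_apply, Pi.add_apply, one_mul,
      smul_eq_mul]
    ring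
  obtain ⟨J, c, g, hg⟩ := Submodule.mem_span_set'.1 h1
  choose t ht using fun i => (g i).2
  have h2 : ∀ θ, ∑ i, c i * Real.cos (t i * θ) =
      (1 - ((1 + Real.cos θ) / 2) ^ (n + 1)) ^ (n + 1) := fun θ => by
    have := congrFun hg θ
    simp only [Finset.sum_apply, Pi.smul_apply, smul_eq_mul, ← ht] at this
    exact this
  refine ⟨J, c, t, fun θ => ⟨h2 θ, ?_⟩⟩
  have d1 : HasDerivAt (fun θ => ∑ i, c i * Real.cos (t i * θ))
      (∑ i, c i * (-Real.sin (t i * θ) * (t i * 1))) θ :=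
    HasDerivAt.fun_sum fun i _ => (((hasDerivAt_id' θ).const_mul (t i)).cos).const_mul _
  have d2 := (((((Real.hasDerivAt_cos θ).const_add 1).div_const 2).fun_pow (n + 1)).const_sub
    1).fun_pow (n + 1)
  rw [funext h2] at d1
  have h3 := d1.unique d2
  have h4 : ∑ i, c i * t i * Real.sin (t i * θ) =
      -∑ i, c i * (-Real.sin (t i * θ) * (t i * 1)) := by
    rw [← Finset.sum_neg_distrib]
    exact Finset.sum_congr rfl fun i _ => by ring
  rw [h4, h3]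
  simp only [Nat.add_sub_cancel]
  push_cast
  ring

/-- take `p(θ) = (1 - ((1 + cos θ)/2)^(n+1))^(n+1)`; finite sums `Σ c_i cos (t_i θ)` are closed under products, and
`Σ c_i t_i sin (t_i θ) = -p'(θ)`; `1 - cos θ ≤ θ²/2`, `1 + cos θ ≤ (θ ∓ π)²/2`. -/
theorem exists_flat (n : ℕ) : Nonempty (Flat n) := by
  obtain ⟨J, c, t, h⟩ := BF_repr n
  set N : ℝ := n + 1 with hN
  have hN1 : 1 ≤ N := by rw [hN]; linarith [Nat.cast_nonneg (α := ℝ) n]
  have hu : ∀ θ, 0 ≤ (1 + Real.cos θ) / 2 ∧ (1 + Real.cos θ) / 2 ≤ 1 := fun θ =>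
    ⟨by linarith [Real.neg_one_le_cos θ], by linarith [Real.cos_le_one θ]⟩
  have ha : ∀ θ, 0 ≤ 1 - ((1 + Real.cos θ) / 2) ^ (n + 1) ∧
      1 - ((1 + Real.cos θ) / 2) ^ (n + 1) ≤ 1 := fun θ =>
    ⟨sub_nonneg.2 (pow_le_one₀ (hu θ).1 (hu θ).2), sub_le_self _ (pow_nonneg (hu θ).1 _)⟩
  have ha' : ∀ θ, (1 - ((1 + Real.cos θ) / 2) ^ (n + 1)) ^ n ≤ N ^ n * |θ| ^ n := fun θ => by
    rw [← mul_pow]
    refine pow_le_pow_left₀ (ha θ).1 ((BF_bern (hu θ).1 _).trans ?_) n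
    have h1 := Real.abs_cos_sub_cos_le 0 θ
    rw [Real.cos_zero, zero_sub, abs_neg] at h1
    have h2 := le_abs_self (1 - Real.cos θ)
    push_cast
    exact mul_le_mul_of_nonneg_left (by linarith [abs_nonneg θ]) (by linarith)
  have hu' : ∀ (σ : Bool) θ, ((1 + Real.cos θ) / 2) ^ n ≤ |θ - spinSign σ * Real.pi| ^ n :=
    fun σ θ => by
      refine pow_le_pow_left₀ (hu θ).1 ?_ n
      have h1 := Real.abs_cos_sub_cos_le θ (spinSign σ * Real.pi)
      have h2 : Real.cos (spinSign σ * Real.pi) = -1 := by cases σ <;> simp [spinSign]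
      rw [h2] at h1
      have h3 := le_abs_self (Real.cos θ - -1)
      linarith [abs_nonneg (θ - spinSign σ * Real.pi)]
  have hs : ∀ θ, |∑ i, c i * t i * Real.sin (t i * θ)| ≤
      N ^ 2 * ((1 - ((1 + Real.cos θ) / 2) ^ (n + 1)) ^ n * ((1 + Real.cos θ) / 2) ^ n) := fun θ => by
    have h1 := pow_nonneg (ha θ).1 n
    have h2 := pow_nonneg (hu θ).1 n
    rw [(h θ).2, abs_neg, abs_mul, abs_of_nonneg (by positivity), ← mul_assoc]
    refine mul_le_of_le_one_right (by positivity) ?_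
    rw [abs_div, abs_two]
    linarith [Real.abs_sin_le_one θ]
  have hC1 : N ^ n ≤ N ^ 2 * N ^ n := le_mul_of_one_le_left (by positivity) (one_le_pow₀ hN1)
  have hC2 : N ^ 2 ≤ N ^ 2 * N ^ n := le_mul_of_one_le_right (by positivity) (one_le_pow₀ hN1)
  have hC3 : N ≤ N ^ 2 := by nlinarith
  refine ⟨⟨J, c, t, N ^ 2 * N ^ n, by positivity, fun θ => ?_, fun θ => ?_, fun σ θ => ?_,
    fun σ θ => ?_⟩⟩
  · rw [(h θ).1, abs_of_nonneg (pow_nonneg (ha θ).1 _)]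
    exact (pow_le_pow_of_le_one (ha θ).1 (ha θ).2 (Nat.le_succ n)).trans ((ha' θ).trans
      (mul_le_mul_of_nonneg_right hC1 (by positivity)))
  · refine (hs θ).trans ?_
    rw [mul_assoc]
    exact mul_le_mul_of_nonneg_left ((mul_le_of_le_one_right (pow_nonneg (ha θ).1 n)
      (pow_le_one₀ (hu θ).1 (hu θ).2)).trans (ha' θ)) (by positivity)
  · rw [(h θ).1, abs_sub_comm, abs_of_nonneg (sub_nonneg.2 (pow_le_one₀ (ha θ).1 (ha θ).2))]
    refine (BF_bern (ha θ).1 _).trans ?_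
    rw [sub_sub_cancel]
    push_cast
    exact mul_le_mul (hC3.trans hC2) ((pow_le_pow_of_le_one (hu θ).1 (hu θ).2
      (Nat.le_succ n)).trans (hu' σ θ)) (pow_nonneg (hu θ).1 _) (by positivity)
  · refine (hs θ).trans ?_
    exact mul_le_mul hC2 ((mul_le_of_le_one_left (pow_nonneg (hu θ).1 n)
      (pow_le_one₀ (ha θ).1 (ha θ).2)).trans (hu' σ θ))
      (mul_nonneg (pow_nonneg (ha θ).1 n) (pow_nonneg (hu θ).1 n)) (by positivity)

theorem BF_int (n : ℕ) : Integrable (fun g : ℝ => ((1 + |g|) ^ n) ^ 2) (gaussianReal 0 1) := by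
  have h0 := memLp_id_gaussianReal' (μ := 0) (v := 1) ((n * 2 : ℕ) : ENNReal)
    (ENNReal.natCast_ne_top _)
  have h := ((memLp_const (1 : ℝ)).add h0.norm).integrable_norm_pow'
  refine h.congr (Eventually.of_forall fun g => ?_)
  simp only [Real.norm_eq_abs, Pi.add_apply, id]
  rw [abs_of_nonneg (by positivity), pow_mul]

theorem BF_cosI (c u : ℝ) : ((c / 2 : ℝ) : ℂ) * Complex.exp (Complex.I * ((-u : ℝ) : ℂ)) +
    ((c / 2 : ℝ) : ℂ) * Complex.exp (Complex.I * ((u : ℝ) : ℂ)) = ((c * Real.cos u : ℝ) : ℂ) := by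
  push_cast
  simp only [Complex.cos]
  ring_nf

theorem BF_sinI (c u : ℝ) :
    ((c / 2 : ℝ) : ℂ) * Complex.I * Complex.exp (Complex.I * ((-u : ℝ) : ℂ)) +
      -(((c / 2 : ℝ) : ℂ) * Complex.I) * Complex.exp (Complex.I * ((u : ℝ) : ℂ)) =
      ((c * Real.sin u : ℝ) : ℂ) := by
  push_cast
  simp only [Complex.sin]
  ring_nf

namespace Model

variable {K : ℕ} {I : Iamp K} {H KK : Type} [NormedAddCommGroup H] [InnerProductSpace ℂ H]
  [CompleteSpace H] [NormedAddCommGroup KK] [InnerProductSpace ℂ KK] (m : Model I H KK)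

noncomputable def Pc {n : ℕ} (F : Flat n) (b : ℝ) (y : KK) : H →L[ℂ] H :=
  ∑ i, ((F.c i : ℝ) : ℂ) • m.cosW ((2 * F.t i * b) • y)

noncomputable def Ps {n : ℕ} (F : Flat n) (b : ℝ) (y : KK) : H →L[ℂ] H :=
  ∑ i, ((F.c i * F.t i : ℝ) : ℂ) • m.sinW ((2 * F.t i * b) • y)

theorem cen_Pc {n : ℕ} (F : Flat n) (b : ℝ) (y : KK) : m.Cen (m.Pc F b y) := by
  exact Cen.sum _ fun i _ => (m.cen_cosW _).smul _
theorem cen_Ps {n : ℕ} (F : Flat n) (b : ℝ) (y : KK) : m.Cen (m.Ps F b y) := by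
  exact Cen.sum _ fun i _ => (m.cen_sinW _).smul _
theorem norm_Ps_le {n : ℕ} (F : Flat n) (b : ℝ) {y : KK} (hy : y ∈ m.R) :
    ‖m.Ps F b y‖ ≤ ∑ i, |F.c i * F.t i| := by
  refine (norm_sum_le _ _).trans (Finset.sum_le_sum fun i _ => ?_)
  rw [norm_smul, Complex.norm_real, Real.norm_eq_abs]
  exact mul_le_of_le_one_right (abs_nonneg _) (m.norm_sinW_le (m.R.smul_mem _ hy))

theorem BF_gen (n : ℕ) {ι : Type} [Fintype ι] (c : ι → ℂ) (t : ι → ℝ) (s : Bool) {y z : KK}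
    (hy : y ∈ m.R) (hz : z ∈ m.R) {A : ℝ} (hA : 0 ≤ A)
    (h : ∀ g : ℝ, ‖∑ i, c i * Complex.exp (Complex.I *
      ((t i * (-(2 * om y z) + ‖y‖ * g) : ℝ) : ℂ))‖ ≤ A * (1 + |g|) ^ n) :
    ‖∑ i, c i • m.W (t i • y) (m.coh s z)‖ ≤
      A * √(∫ g, ((1 + |g|) ^ n) ^ 2 ∂gaussianReal 0 1) := by
  refine (pow_le_pow_iff_left₀ (norm_nonneg _) (by positivity) two_ne_zero).1 ?_
  rw [m.gauss_formula _ c t s hy hz, mul_pow, Real.sq_sqrt (integral_nonneg fun g => by positivity),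
    ← integral_const_mul]
  refine integral_mono_of_nonneg (Eventually.of_forall fun g => sq_nonneg _)
    ((BF_int n).const_mul _) (Eventually.of_forall fun g => ?_)
  simp only
  rw [← mul_pow]
  exact pow_le_pow_left₀ (norm_nonneg _) (h g) 2

theorem BF_Pc {n : ℕ} (F : Flat n) (a b : ℝ) (s : Bool) {y z : KK}
    (hy : y ∈ m.R) (hz : z ∈ m.R) {A : ℝ} (hA : 0 ≤ A)
    (h : ∀ g : ℝ, |∑ i, F.c i * Real.cos (F.t i * (2 * b * (-(2 * om y z) + ‖y‖ * g))) - a| ≤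
      A * (1 + |g|) ^ n) :
    ‖m.Pc F b y (m.coh s z) - (a : ℂ) • m.coh s z‖ ≤
      A * √(∫ g, ((1 + |g|) ^ n) ^ 2 ∂gaussianReal 0 1) := by
  have key := m.BF_gen n (ι := Option (Fin F.J × Bool))
    (fun o => o.elim (-(a : ℂ)) fun p => ((F.c p.1 / 2 : ℝ) : ℂ))
    (fun o => o.elim 0 fun p => spinSign p.2 * (2 * F.t p.1 * b)) s hy hz hA fun g => by
      refine le_trans (le_of_eq ?_) (h g)
      rw [← Real.norm_eq_abs, ← Complex.norm_real]
      congr 1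
      rw [Fintype.sum_option, Fintype.sum_prod_type, Complex.ofReal_sub, Complex.ofReal_sum]
      simp only [Option.elim, Fintype.sum_bool, zero_mul, Complex.ofReal_zero, mul_zero,
        Complex.exp_zero, mul_one]
      rw [neg_add_eq_sub]
      congr 1
      refine Finset.sum_congr rfl fun i _ => ?_
      rw [← BF_cosI]
      simp only [spinSign, if_true, Bool.false_eq_true, if_false]
      congr 5 <;> ring
  refine le_trans (le_of_eq ?_) key
  congr 1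
  rw [Fintype.sum_option, Fintype.sum_prod_type, Pc, sum_apply]
  simp only [Option.elim, Fintype.sum_bool, zero_smul, m.W_zero, one_apply_eq_self, neg_smul]
  rw [neg_add_eq_sub]
  congr 1
  refine Finset.sum_congr rfl fun i _ => ?_
  simp only [spinSign, if_true, Bool.false_eq_true, if_false, cosW, smul_apply, add_apply,
    neg_mul, one_mul, neg_smul]
  push_cast
  module

theorem BF_Ps {n : ℕ} (F : Flat n) (b : ℝ) (s : Bool) {y z : KK}
    (hy : y ∈ m.R) (hz : z ∈ m.R) {A : ℝ} (hA : 0 ≤ A)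
    (h : ∀ g : ℝ, |∑ i, F.c i * F.t i * Real.sin (F.t i * (2 * b * (-(2 * om y z) + ‖y‖ * g)))| ≤
      A * (1 + |g|) ^ n) :
    ‖m.Ps F b y (m.coh s z)‖ ≤ A * √(∫ g, ((1 + |g|) ^ n) ^ 2 ∂gaussianReal 0 1) := by
  have key := m.BF_gen n (ι := Fin F.J × Bool)
    (fun p => if p.2 then ((F.c p.1 * F.t p.1 / 2 : ℝ) : ℂ) * Complex.I
      else -(((F.c p.1 * F.t p.1 / 2 : ℝ) : ℂ) * Complex.I))
    (fun p => spinSign p.2 * (2 * F.t p.1 * b)) s hy hz hA fun g => by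
      refine le_trans (le_of_eq ?_) (h g)
      rw [← Real.norm_eq_abs, ← Complex.norm_real]
      congr 1
      rw [Fintype.sum_prod_type, Complex.ofReal_sum]
      simp only [Fintype.sum_bool]
      refine Finset.sum_congr rfl fun i _ => ?_
      rw [← BF_sinI]
      simp only [spinSign, if_true, Bool.false_eq_true, if_false]
      congr 5 <;> ring
  refine le_trans (le_of_eq ?_) key
  congr 1
  rw [Fintype.sum_prod_type, Ps, sum_apply]
  simp only [Fintype.sum_bool]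
  refine Finset.sum_congr rfl fun i _ => ?_
  simp only [spinSign, if_true, Bool.false_eq_true, if_false, sinW, smul_apply, sub_apply,
    neg_mul, one_mul, neg_smul, neg_apply]
  push_cast
  module

/-- flatness on coherent vectors: `gauss_formula` (index type `Fin J × Bool`) and Gaussian moments -/
theorem flat_coh {n : ℕ} (F : Flat n) : ∃ C, 0 ≤ C ∧ ∀ (b D : ℝ) (y z : KK) (s : Bool), 0 ≤ b → 0 ≤ D →
    y ∈ m.R → z ∈ m.R → ‖y‖ ≤ 1 →
    (|2 * om y z| ≤ D → ‖m.Pc F b y (m.coh s z)‖ ≤ C * (b * (1 + D)) ^ n ∧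
      ‖m.Ps F b y (m.coh s z)‖ ≤ C * (b * (1 + D)) ^ n) ∧
    (∀ σ : Bool, 0 < b → |2 * om y z - spinSign σ * (Real.pi / (2 * b))| ≤ D →
      ‖m.Pc F b y (m.coh s z) - m.coh s z‖ ≤ C * (b * (1 + D)) ^ n ∧
      ‖m.Ps F b y (m.coh s z)‖ ≤ C * (b * (1 + D)) ^ n) := by
  set M := √(∫ g, ((1 + |g|) ^ n) ^ 2 ∂gaussianReal 0 1) with hM
  have hC := F.hC
  refine ⟨F.C * 2 ^ n * M, by positivity, fun b D y z s hb hD hy hz hy1 => ?_⟩
  have e : F.C * 2 ^ n * M * (b * (1 + D)) ^ n = F.C * (2 * b * (1 + D)) ^ n * M := by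
    rw [mul_assoc 2 b, mul_pow 2]; ring
  have hA : 0 ≤ F.C * (2 * b * (1 + D)) ^ n := by positivity
  have hb' : ∀ u g : ℝ, |u| ≤ D → F.C * |2 * b * (-u + ‖y‖ * g)| ^ n ≤
      F.C * (2 * b * (1 + D)) ^ n * (1 + |g|) ^ n := fun u g hu => by
    rw [mul_assoc F.C, ← mul_pow]
    refine mul_le_mul_of_nonneg_left (pow_le_pow_left₀ (abs_nonneg _) ?_ n) hC
    rw [abs_mul, abs_of_nonneg (by positivity : 0 ≤ 2 * b), mul_assoc (2 * b)]
    refine mul_le_mul_of_nonneg_left ((abs_add_le _ _).trans ?_) (by positivity)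
    rw [abs_neg, abs_mul, abs_norm]
    have h1 := mul_le_of_le_one_left (abs_nonneg g) hy1
    nlinarith [mul_nonneg hD (abs_nonneg g)]
  rw [e]
  refine ⟨fun h => ⟨?_, ?_⟩, fun σ hb0 h => ?_⟩
  · simpa using m.BF_Pc F 0 b s hy hz hA fun g => by
      rw [sub_zero]
      exact (F.cos0 _).trans (hb' _ g h)
  · exact m.BF_Ps F b s hy hz hA fun g => (F.sin0 _).trans (hb' _ g h)
  · have e2 : ∀ g : ℝ, 2 * b * (-(2 * om y z) + ‖y‖ * g) - spinSign (!σ) * Real.pi =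
        2 * b * (-(2 * om y z - spinSign σ * (Real.pi / (2 * b))) + ‖y‖ * g) := fun g => by
      cases σ <;> simp only [spinSign, Bool.not_true, Bool.not_false, if_true, Bool.false_eq_true,
        if_false] <;> field_simp <;> ring
    refine ⟨?_, m.BF_Ps F b s hy hz hA fun g => (F.sin1 (!σ) _).trans ?_⟩
    · simpa using m.BF_Pc F 1 b s hy hz hA fun g => (F.cos1 (!σ) _).trans (by
        rw [e2]; exact hb' _ g h)
    · rw [e2]; exact hb' _ g h

end Model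

end Crest.Agent.R339
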