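import Crest.Agent.R339.Q.Alg5

/-!
# Row 339, part Q: smoothness bounds
-/

set_option autoImplicit false

namespace Crest.Agent.R339

open MeasureTheory ProbabilityTheory Filter Topology Crest.MathPhysics.SpinGlass
open scoped InnerProductSpace ComplexConjugate

namespace Model

variable {K : ℕ} {I : Iamp K} {H KK : Type} [NormedAddCommGroup H] [InnerProductSpace ℂ H]
  [CompleteSpace H] [NormedAddCommGroup KK] [InnerProductSpace ℂ KK] (m : Model I H KK)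

variable {m}
theorem NB.nonneg {lam : ℝ} {ψ : H} (h : m.NB lam ψ) : 0 ≤ lam :=
  (norm_nonneg _).trans h.1
theorem NB.mono {lam lam' : ℝ} {ψ : H} (h : m.NB lam ψ) (hl : lam ≤ lam') : m.NB lam' ψ :=
  ⟨h.1.trans hl, fun y hy => (h.2 y hy).trans (mul_le_mul_of_nonneg_right hl (norm_nonneg _))⟩
theorem NB.add {lam lam' : ℝ} {ψ ψ' : H} (h : m.NB lam ψ) (h' : m.NB lam' ψ') :
    m.NB (lam + lam') (ψ + ψ') := by
  refine ⟨(norm_add_le _ _).trans (add_le_add h.1 h'.1), fun y hy => ?_⟩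
  rw [map_add, add_sub_add_comm, add_mul]
  exact (norm_add_le _ _).trans (add_le_add (h.2 y hy) (h'.2 y hy))
theorem NB.sub {lam lam' : ℝ} {ψ ψ' : H} (h : m.NB lam ψ) (h' : m.NB lam' ψ') :
    m.NB (lam + lam') (ψ - ψ') := by
  refine ⟨(norm_sub_le _ _).trans (add_le_add h.1 h'.1), fun y hy => ?_⟩
  rw [map_sub, sub_sub_sub_comm, add_mul]
  exact (norm_sub_le _ _).trans (add_le_add (h.2 y hy) (h'.2 y hy))
theorem NB.neg {lam : ℝ} {ψ : H} (h : m.NB lam ψ) : m.NB lam (-ψ) := by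
  refine ⟨by rw [norm_neg]; exact h.1, fun y hy => ?_⟩
  rw [map_neg, neg_sub_neg, norm_sub_rev]
  exact h.2 y hy
theorem NB.smul {lam : ℝ} {ψ : H} (h : m.NB lam ψ) (c : ℂ) : m.NB (‖c‖ * lam) (c • ψ) := by
  refine ⟨by rw [norm_smul]; exact mul_le_mul_of_nonneg_left h.1 (norm_nonneg _), fun y hy => ?_⟩
  rw [map_smul, ← smul_sub, norm_smul, mul_assoc]
  exact mul_le_mul_of_nonneg_left (h.2 y hy) (norm_nonneg _)
private theorem nb_zero : m.NB 0 0 := ⟨by simp, fun y _ => by simp⟩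
theorem NB.sum {ι : Type} (s : Finset ι) {lam : ι → ℝ} {ψ : ι → H} (h : ∀ i ∈ s, m.NB (lam i) (ψ i)) :
    m.NB (∑ i ∈ s, lam i) (∑ i ∈ s, ψ i) := by
  classical
  induction s using Finset.induction_on with
  | empty => simpa using nb_zero
  | insert i s hi ih =>
    rw [Finset.sum_insert hi, Finset.sum_insert hi]
    exact (h i (Finset.mem_insert_self _ _)).add (ih fun k hk => h k (Finset.mem_insert_of_mem hk))
omit [CompleteSpace H] in
private theorem nb_half {x y : H} {c : ℂ} (hc : ‖c‖ = 1 / 2) {r : ℝ} (hx : ‖x‖ ≤ r) (hy : ‖y‖ ≤ r) :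
    ‖c • (x + y)‖ ≤ r ∧ ‖c • (x - y)‖ ≤ r := by
  rw [norm_smul, norm_smul, hc]
  constructor
  · linarith [norm_add_le x y]
  · linarith [norm_sub_le x y]
private theorem nb_c1 : ‖(1 / 2 : ℂ)‖ = 1 / 2 := by simp
private theorem nb_c2 : ‖(-(Complex.I / 2) : ℂ)‖ = 1 / 2 := by simp
theorem NB.norm_sinW {lam : ℝ} {ψ : H} (h : m.NB lam ψ) {u : KK} (hu : u ∈ m.R) :
    ‖m.sinW u ψ‖ ≤ lam * ‖u‖ := by
  have h1 := h.2 u hu
  have h2 := h.2 (-u) (neg_mem hu)
  rw [norm_neg] at h2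
  have e : m.sinW u ψ = (-(Complex.I / 2) : ℂ) • ((m.W u ψ - ψ) - (m.W (-u) ψ - ψ)) := by
    simp [sinW]
  rw [e]
  exact (nb_half nb_c2 h1 h2).2
theorem NB.norm_cosW_sub {lam : ℝ} {ψ : H} (h : m.NB lam ψ) {u : KK} (hu : u ∈ m.R) :
    ‖m.cosW u ψ - ψ‖ ≤ lam * ‖u‖ := by
  have h1 := h.2 u hu
  have h2 := h.2 (-u) (neg_mem hu)
  rw [norm_neg] at h2
  have e : m.cosW u ψ - ψ = (1 / 2 : ℂ) • ((m.W u ψ - ψ) + (m.W (-u) ψ - ψ)) := by
    simp only [cosW, smul_apply, add_apply]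
    module
  rw [e]
  exact (nb_half nb_c1 h1 h2).1
theorem NB.norm_W_sub {lam : ℝ} {ψ : H} (h : m.NB lam ψ) {u u' : KK} (hu : u ∈ m.R) (hu' : u' ∈ m.R) :
    ‖m.W u ψ - m.W u' ψ‖ ≤ (1 + ‖u‖) * ‖u - u'‖ * lam := by
  have hd : u' - u ∈ m.R := sub_mem hu' hu
  have h1 := m.W_mul_W hu hd
  rw [add_sub_cancel] at h1
  set θ := om u (u' - u) with hθ
  have h2 : m.W u' ψ = m.W u (Complex.exp (Complex.I * θ) • m.W (u' - u) ψ) := by
    rw [map_smul, ← mul_apply_eq_comp, h1, smul_apply, smul_smul,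
      ← Complex.exp_add, add_neg_cancel, Complex.exp_zero, one_smul]
  rw [h2, ← map_sub, (m.fib_W hu).norm_apply, norm_sub_rev]
  have e : Complex.exp (Complex.I * θ) • m.W (u' - u) ψ - ψ =
      Complex.exp (Complex.I * θ) • (m.W (u' - u) ψ - ψ) + (Complex.exp (Complex.I * θ) - 1) • ψ := by
    module
  rw [e]
  refine (norm_add_le _ _).trans ?_
  rw [norm_smul, norm_smul, Complex.norm_exp_I_mul_ofReal, one_mul]
  have h3 := h.2 _ hd
  have h4 : ‖Complex.exp (Complex.I * θ) - 1‖ ≤ ‖u‖ * ‖u' - u‖ :=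
    Real.norm_exp_I_mul_ofReal_sub_one_le.trans (abs_om_le _ _)
  have h5 := mul_le_mul h4 h.1 (norm_nonneg _) (by positivity)
  rw [norm_sub_rev u u']
  linarith
theorem NB.norm_cosW_sub' {lam : ℝ} {ψ : H} (h : m.NB lam ψ) {u u' : KK} (hu : u ∈ m.R)
    (hu' : u' ∈ m.R) : ‖m.cosW u ψ - m.cosW u' ψ‖ ≤ (1 + ‖u‖) * ‖u - u'‖ * lam := by
  have h1 := h.norm_W_sub hu hu'
  have h2 := h.norm_W_sub (neg_mem hu) (neg_mem hu')
  rw [norm_neg, neg_sub_neg, norm_sub_rev u' u] at h2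
  have e : m.cosW u ψ - m.cosW u' ψ =
      (1 / 2 : ℂ) • ((m.W u ψ - m.W u' ψ) + (m.W (-u) ψ - m.W (-u') ψ)) := by
    simp only [cosW, smul_apply, add_apply]
    module
  rw [e]
  exact (nb_half nb_c1 h1 h2).1
theorem NB.norm_sinW_sub' {lam : ℝ} {ψ : H} (h : m.NB lam ψ) {u u' : KK} (hu : u ∈ m.R)
    (hu' : u' ∈ m.R) : ‖m.sinW u ψ - m.sinW u' ψ‖ ≤ (1 + ‖u‖) * ‖u - u'‖ * lam := by
  have h1 := h.norm_W_sub hu hu'
  have h2 := h.norm_W_sub (neg_mem hu) (neg_mem hu')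
  rw [norm_neg, neg_sub_neg, norm_sub_rev u' u] at h2
  have e : m.sinW u ψ - m.sinW u' ψ =
      (-(Complex.I / 2) : ℂ) • ((m.W u ψ - m.W u' ψ) - (m.W (-u) ψ - m.W (-u') ψ)) := by
    simp only [sinW, smul_apply, sub_apply]
    module
  rw [e]
  exact (nb_half nb_c2 h1 h2).2
theorem NB.norm_D_sub {lam : ℝ} {ψ : H} (h : m.NB lam ψ) {Q : H →L[ℂ] H} (hQ : m.IsAxis Q) {u u' : KK}
    (hu : u ∈ m.R) (hu' : u' ∈ m.R) :
    ‖m.D Q u ψ - m.D Q u' ψ‖ ≤ 2 * (1 + ‖u‖) * ‖u - u'‖ * lam := by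
  have h1 := h.norm_cosW_sub' hu hu'
  have h2 := h.norm_sinW_sub' hu hu'
  have e : m.D Q u ψ - m.D Q u' ψ =
      (m.cosW u ψ - m.cosW u' ψ) - Complex.I • Q (m.sinW u ψ - m.sinW u' ψ) := by
    simp only [D, smul_apply, sub_apply,
      mul_apply_eq_comp, map_sub]
    module
  rw [e]
  refine (norm_sub_le _ _).trans ?_
  rw [norm_smul, Complex.norm_I, one_mul, hQ.fib.norm_apply]
  linarith

theorem Tame.mono {κ κ' : ℝ} {A : H →L[ℂ] H} (h : m.Tame κ A) (hκ : κ ≤ κ') : m.Tame κ' A :=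
  fun lam ψ hψ => (h lam ψ hψ).mono (mul_le_mul_of_nonneg_right hκ hψ.nonneg)
theorem Tame.mul {κ κ' : ℝ} {A A' : H →L[ℂ] H} (h : m.Tame κ A) (h' : m.Tame κ' A') :
    m.Tame (κ * κ') (A * A') :=
  fun lam ψ hψ => by
    rw [mul_assoc]
    exact h _ _ (h' lam ψ hψ)
theorem Tame.add {κ κ' : ℝ} {A A' : H →L[ℂ] H} (h : m.Tame κ A) (h' : m.Tame κ' A') :
    m.Tame (κ + κ') (A + A') :=
  fun lam ψ hψ => by
    rw [add_mul]
    exact (h lam ψ hψ).add (h' lam ψ hψ)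
theorem Tame.sub {κ κ' : ℝ} {A A' : H →L[ℂ] H} (h : m.Tame κ A) (h' : m.Tame κ' A') :
    m.Tame (κ + κ') (A - A') :=
  fun lam ψ hψ => by
    rw [add_mul]
    exact (h lam ψ hψ).sub (h' lam ψ hψ)
theorem Tame.smul {κ : ℝ} {A : H →L[ℂ] H} (h : m.Tame κ A) (c : ℂ) : m.Tame (‖c‖ * κ) (c • A) :=
  fun lam ψ hψ => by
    rw [mul_assoc]
    exact (h lam ψ hψ).smul c
omit [CompleteSpace H] in
private theorem nb_contr {A : H →L[ℂ] H} (hA : ‖A‖ ≤ 1) (v : H) : ‖A v‖ ≤ ‖v‖ :=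
  (A.le_opNorm v).trans (mul_le_of_le_one_left (norm_nonneg _) hA)
theorem tame_of_commute {A : H →L[ℂ] H} (hA : ‖A‖ ≤ 1) (hW : ∀ y, Commute A (m.W y)) : m.Tame 1 A := by
  intro lam ψ hψ
  rw [one_mul]
  refine ⟨(nb_contr hA ψ).trans hψ.1, fun y hy => ?_⟩
  rw [← mul_apply_eq_comp, ← (hW y).eq, mul_apply_eq_comp, ← map_sub]
  exact (nb_contr hA _).trans (hψ.2 y hy)
theorem IsAxis.tame {Q : H →L[ℂ] H} (hQ : m.IsAxis Q) : m.Tame 1 Q :=
  tame_of_commute hQ.fib.norm_le hQ.2.2.2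
private theorem nb_cl {κ lam n : ℝ} {A : H →L[ℂ] H} (h : m.CL κ A) (hκ : 0 ≤ κ) (hA : ‖A‖ ≤ 1)
    {ψ : H} (hψ : m.NB lam ψ) (hn : ‖ψ‖ ≤ n) : m.NB (lam + κ * n) (A ψ) := by
  have hn0 : 0 ≤ n := (norm_nonneg _).trans hn
  refine ⟨((nb_contr hA ψ).trans hψ.1).trans (le_add_of_nonneg_right (by positivity)),
    fun y hy => ?_⟩
  have e : m.W y (A ψ) - A ψ = A (m.W y ψ - ψ) + (m.W y * A - A * m.W y) ψ := by
    simp only [map_sub, sub_apply, mul_apply_eq_comp]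
    abel
  rw [e]
  refine (norm_add_le _ _).trans ?_
  have h1 := (nb_contr hA _).trans (hψ.2 y hy)
  have h2 := ((m.W y * A - A * m.W y).le_opNorm ψ).trans
    (mul_le_mul (h y hy) hn (norm_nonneg _) (by positivity))
  linarith
theorem CL.tame {κ : ℝ} {A : H →L[ℂ] H} (h : m.CL κ A) (hκ : 0 ≤ κ) (hA : ‖A‖ ≤ 1) :
    m.Tame (1 + κ) A :=
  fun lam ψ hψ => by
    rw [add_mul, one_mul]
    exact nb_cl h hκ hA hψ hψ.1
/-- sharper form: the increase is proportional to the norm of the vector -/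
theorem CL.nb {κ lam n : ℝ} {A : H →L[ℂ] H} (h : m.CL κ A) (hκ : 0 ≤ κ) (hA : ‖A‖ ≤ 1) {ψ : H}
    (hψ : m.NB lam ψ) (hn : ‖ψ‖ ≤ n) : m.NB (lam + κ * n) (A ψ) :=
  nb_cl h hκ hA hψ hn
theorem CL.mono {κ κ' : ℝ} {A : H →L[ℂ] H} (h : m.CL κ A) (hκ : κ ≤ κ') : m.CL κ' A :=
  fun y hy => (h y hy).trans (mul_le_mul_of_nonneg_right hκ (norm_nonneg _))
theorem CL.mul {κ κ' : ℝ} {A A' : H →L[ℂ] H} (h : m.CL κ A) (h' : m.CL κ' A') (hA : ‖A‖ ≤ 1)
    (hA' : ‖A'‖ ≤ 1) : m.CL (κ + κ') (A * A') := by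
  intro y hy
  have e : m.W y * (A * A') - A * A' * m.W y =
      (m.W y * A - A * m.W y) * A' + A * (m.W y * A' - A' * m.W y) := by noncomm_ring
  rw [e, add_mul]
  refine (norm_add_le _ _).trans (add_le_add ?_ ?_)
  · exact ((norm_mul_le _ _).trans (mul_le_of_le_one_right (norm_nonneg _) hA')).trans (h y hy)
  · exact ((norm_mul_le _ _).trans (mul_le_of_le_one_left (norm_nonneg _) hA)).trans (h' y hy)
theorem cl_of_commute {A : H →L[ℂ] H} (hW : ∀ y, Commute A (m.W y)) : m.CL 0 A :=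
  fun y _ => by
    rw [(hW y).eq, sub_self, norm_zero, zero_mul]
theorem CL.rot {κ : ℝ} {A : H →L[ℂ] H} (h : m.CL κ A) (α : ℝ) : m.CL (|α| * κ) (rot A α) := by
  intro y hy
  have e : m.W y * R339.rot A α - R339.rot A α * m.W y =
      -((Complex.I * ((Real.sin α : ℝ) : ℂ)) • (m.W y * A - A * m.W y)) := by
    simp only [R339.rot, _root_.mul_sub, sub_mul, mul_smul_comm, smul_mul_assoc, mul_one, one_mul]
    module
  rw [e, norm_neg, norm_smul, norm_mul, Complex.norm_I, one_mul, Complex.norm_real,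
    Real.norm_eq_abs, mul_assoc]
  exact mul_le_mul Real.abs_sin_le_abs (h y hy) (norm_nonneg _) (abs_nonneg _)
theorem IsAxis.cl_D {Q : H →L[ℂ] H} (hQ : m.IsAxis Q) {u : KK} (hu : u ∈ m.R) :
    m.CL (2 * ‖u‖) (m.D Q u) := by
  intro y hy
  have e : m.W y * m.D Q u - m.D Q u * m.W y =
      m.D Q u * (R339.rot Q (-(2 * om y u)) - 1) * m.W y := by
    rw [hQ.W_mul_D hy hu]
    noncomm_ring
  rw [e]
  refine ((norm_mul_le _ _).trans
    (mul_le_of_le_one_right (norm_nonneg _) (m.fib_W hy).norm_le)).trans ?_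
  refine ((norm_mul_le _ _).trans
    (mul_le_of_le_one_left (norm_nonneg _) (hQ.fib_D hu).norm_le)).trans ?_
  refine (norm_rot_sub_one hQ.1 hQ.2.1 _).trans ?_
  rw [abs_neg, abs_mul, abs_two]
  have := abs_om_le y u
  linarith
theorem IsAxis.tame_D {Q : H →L[ℂ] H} (hQ : m.IsAxis Q) {u : KK} (hu : u ∈ m.R) :
    m.Tame (1 + 2 * ‖u‖) (m.D Q u) :=
  (hQ.cl_D hu).tame (by positivity) (hQ.fib_D hu).norm_le
theorem Near1.mono {η η' : ℝ} {A : H →L[ℂ] H} (h : m.Near1 η A) (hη : η ≤ η') : m.Near1 η' A :=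
  fun lam ψ hψ => (h lam ψ hψ).trans (mul_le_mul_of_nonneg_right hη hψ.nonneg)
theorem Near1.mul {η η' : ℝ} {A A' : H →L[ℂ] H} (h : m.Near1 η A) (h' : m.Near1 η' A') (hA : ‖A‖ ≤ 1) :
    m.Near1 (η + η') (A * A') := by
  intro lam ψ hψ
  have e : (A * A') ψ - ψ = (A ψ - ψ) + A (A' ψ - ψ) := by
    simp only [map_sub, mul_apply_eq_comp]
    abel
  rw [e, add_mul]
  exact (norm_add_le _ _).trans (add_le_add (h lam ψ hψ) ((nb_contr hA _).trans (h' lam ψ hψ)))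
theorem near1_of_norm {η : ℝ} {A : H →L[ℂ] H} (h : ‖A - 1‖ ≤ η) : m.Near1 η A :=
  fun _ ψ hψ =>
  ((A - 1).le_opNorm ψ).trans (mul_le_mul h hψ.1 (norm_nonneg _) ((norm_nonneg _).trans h))
theorem IsAxis.near1_D {Q : H →L[ℂ] H} (hQ : m.IsAxis Q) {u : KK} (hu : u ∈ m.R) :
    m.Near1 (2 * ‖u‖) (m.D Q u) := by
  intro lam ψ hψ
  have h1 := hψ.norm_cosW_sub hu
  have h2 := hψ.norm_sinW hu
  have e : m.D Q u ψ - ψ = (m.cosW u ψ - ψ) - Complex.I • Q (m.sinW u ψ) := by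
    simp only [D, smul_apply, sub_apply,
      mul_apply_eq_comp]
    abel
  rw [e]
  refine (norm_sub_le _ _).trans ?_
  rw [norm_smul, Complex.norm_I, one_mul, hQ.fib.norm_apply]
  linarith
theorem Near1.conj {η κ : ℝ} {A G : H →L[ℂ] H} (h : m.Near1 η A) (hG : m.Fib G) (ht : m.Tame κ G) :
    m.Near1 (η * κ) (star G * A * G) := by
  intro lam ψ hψ
  have e : (star G * A * G) ψ - ψ = (star G) (A (G ψ) - G ψ) := by
    rw [map_sub, ← mul_apply_eq_comp (star G) G, hG.star_mul_self]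
    rfl
  rw [e, hG.star.norm_apply, mul_assoc]
  exact h _ _ (ht lam ψ hψ)
theorem near1_list_prod {η : ℝ} (l : List (H →L[ℂ] H)) (h : ∀ A ∈ l, m.Near1 η A ∧ ‖A‖ ≤ 1) :
    m.Near1 (l.length * η) l.prod := by
  induction l with
  | nil => intro lam ψ _; simp
  | cons A l ih =>
    have hA := h A List.mem_cons_self
    refine (hA.1.mul (ih fun B hB => h B (List.mem_cons_of_mem _ hB)) hA.2).mono (le_of_eq ?_)
    rw [List.length_cons]
    push_cast
    ring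
/-- stability of Heisenberg vectors -/
theorem Fib.heis_stab {U E : H →L[ℂ] H} (hU : m.Fib U) (hE : m.Fib E) (A : H →L[ℂ] H) :
    ‖m.heis (E * U) A - m.heis U A‖ ≤
      ‖A (E (U m.vac)) - A (U m.vac)‖ + ‖E (A (U m.vac)) - A (U m.vac)‖ := by
  have e : m.heis (E * U) A - m.heis U A =
      (Star.star U) ((Star.star E) ((A (E (U m.vac)) - A (U m.vac)) - (E (A (U m.vac)) - A (U m.vac)))) := by
    rw [sub_sub_sub_cancel_right, map_sub, map_sub, ← mul_apply_eq_comp (Star.star E) E,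
      hE.star_mul_self, heis, heis, star_mul]
    rfl
  rw [e, hU.star.norm_apply, hE.star.norm_apply]
  exact norm_sub_le _ _
variable (m)
theorem tame_P {E : Set (Lab K)} (hE : MeasurableSet E) : m.Tame 1 (m.P E) :=
  tame_of_commute (m.norm_P_le hE) fun y => ((m.cen_W y).commute_P hE).symm
theorem tame_W {u : KK} (hu : u ∈ m.R) : m.Tame (1 + 2 * ‖u‖) (m.W u) := by
  have := m.isAxis_one.tame_D (neg_mem hu)
  rwa [D_one, neg_neg, norm_neg] at this
theorem tame_cosW {u : KK} (hu : u ∈ m.R) : m.Tame (1 + 2 * ‖u‖) (m.cosW u) := by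
  have h2 := m.tame_W (neg_mem hu)
  rw [norm_neg] at h2
  refine (((m.tame_W hu).add h2).smul (1 / 2)).mono (le_of_eq ?_)
  rw [nb_c1]
  ring
theorem tame_sinW {u : KK} (hu : u ∈ m.R) : m.Tame (1 + 2 * ‖u‖) (m.sinW u) := by
  have h2 := m.tame_W (neg_mem hu)
  rw [norm_neg] at h2
  refine (((m.tame_W hu).sub h2).smul (-(Complex.I / 2))).mono (le_of_eq ?_)
  rw [nb_c2]
  ring

private theorem nb_list_sum {lam : ℝ} (l : List H) (h : ∀ v ∈ l, m.NB lam v) :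
    m.NB (l.length * lam) l.sum := by
  induction l with
  | nil => simpa using nb_zero
  | cons v l ih =>
    refine ((h v List.mem_cons_self).add
      (ih fun w hw => h w (List.mem_cons_of_mem _ hw))).mono (le_of_eq ?_)
    rw [List.length_cons]
    push_cast
    ring

private theorem nb_list_tame {κ : ℝ} (l : List (H →L[ℂ] H)) (h : ∀ A ∈ l, m.Tame κ A) :
    m.Tame (κ ^ l.length) l.prod := by
  induction l with
  | nil => intro lam ψ hψ; simpa using hψ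
  | cons A l ih =>
    rw [List.length_cons, pow_succ', List.prod_cons]
    exact (h A List.mem_cons_self).mul (ih fun B hB => h B (List.mem_cons_of_mem _ hB))

/-- first order expansion of a product of contractions (`Es.prod` is applied right to left):
`Π E_p v - v - Σ h_p = Σ_p [E_{<p} (E_p v - v - h_p) + (E_{<p} - 1) h_p]` -/
theorem prod_expand {η a lam : ℝ} (Es : List ((H →L[ℂ] H) × H)) (v : H)
    (h1 : ∀ p ∈ Es, m.Near1 η p.1 ∧ ‖p.1‖ ≤ 1) (h2 : ∀ p ∈ Es, ‖p.1 v - v - p.2‖ ≤ a)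
    (h3 : ∀ p ∈ Es, m.NB lam p.2) (hη : 0 ≤ η) :
    ‖(Es.map Prod.fst).prod v - v - (Es.map Prod.snd).sum‖ ≤
      Es.length * (a + Es.length * η * lam) := by
  induction Es with
  | nil => simp
  | cons p Es ih =>
    have i1 := ih (fun q hq => h1 q (List.mem_cons_of_mem _ hq))
      (fun q hq => h2 q (List.mem_cons_of_mem _ hq)) fun q hq => h3 q (List.mem_cons_of_mem _ hq)
    have a1 := h1 p List.mem_cons_self
    have a2 := h2 p List.mem_cons_self
    have a3 := (h3 p List.mem_cons_self).nonneg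
    have a4 : m.NB ((Es.map Prod.snd).length * lam) (Es.map Prod.snd).sum :=
      m.nb_list_sum _ fun w hw => by
        obtain ⟨q, hq, rfl⟩ := List.mem_map.1 hw
        exact h3 q (List.mem_cons_of_mem _ hq)
    rw [List.length_map] at a4
    have a5 := a1.1 _ _ a4
    have e : ((p :: Es).map Prod.fst).prod v - v - ((p :: Es).map Prod.snd).sum =
        p.1 ((Es.map Prod.fst).prod v - v - (Es.map Prod.snd).sum) + (p.1 v - v - p.2) +
          (p.1 (Es.map Prod.snd).sum - (Es.map Prod.snd).sum) := by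
      simp only [List.map_cons, List.prod_cons, List.sum_cons, map_sub,
        mul_apply_eq_comp]
      abel
    rw [e, List.length_cons]
    refine (norm_add₃_le).trans ?_
    have a6 := (nb_contr a1.2 _).trans i1
    have a7 : 0 ≤ ((Es.length : ℝ) + 1) * (η * lam) := by positivity
    push_cast
    linarith
/-- telescoping two products of contractions -/
theorem prod_compare {κ a lam : ℝ} (Es : List ((H →L[ℂ] H) × (H →L[ℂ] H))) {v : H} (hv : m.NB lam v)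
    (hκ : 1 ≤ κ) (ha : 0 ≤ a) (h1 : ∀ p ∈ Es, ‖p.1‖ ≤ 1 ∧ m.Tame κ p.2)
    (h2 : ∀ p ∈ Es, ∀ lam' ψ, m.NB lam' ψ → ‖p.1 ψ - p.2 ψ‖ ≤ a * lam') :
    ‖(Es.map Prod.fst).prod v - (Es.map Prod.snd).prod v‖ ≤ Es.length * a * κ ^ Es.length * lam := by
  induction Es with
  | nil => simp
  | cons p Es ih =>
    have i1 := ih (fun q hq => h1 q (List.mem_cons_of_mem _ hq))
      fun q hq => h2 q (List.mem_cons_of_mem _ hq)
    have a1 := h1 p List.mem_cons_self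
    have a4 : m.Tame (κ ^ (Es.map Prod.snd).length) (Es.map Prod.snd).prod :=
      m.nb_list_tame _ fun w hw => by
        obtain ⟨q, hq, rfl⟩ := List.mem_map.1 hw
        exact (h1 q (List.mem_cons_of_mem _ hq)).2
    rw [List.length_map] at a4
    have a5 := h2 p List.mem_cons_self _ _ (a4 lam v hv)
    have e : ((p :: Es).map Prod.fst).prod v - ((p :: Es).map Prod.snd).prod v =
        p.1 ((Es.map Prod.fst).prod v - (Es.map Prod.snd).prod v) +
          (p.1 ((Es.map Prod.snd).prod v) - p.2 ((Es.map Prod.snd).prod v)) := by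
      simp only [List.map_cons, List.prod_cons, map_sub, mul_apply_eq_comp]
      abel
    rw [e, List.length_cons]
    refine (norm_add_le _ _).trans ?_
    have a6 := (nb_contr a1.1 _).trans i1
    have a3 := hv.nonneg
    have a8 : (0 : ℝ) ≤ κ := zero_le_one.trans hκ
    have a7 : ((Es.length : ℝ) + 1) * a * κ ^ Es.length * lam ≤
        ((Es.length : ℝ) + 1) * a * κ ^ (Es.length + 1) * lam := by
      gcongr
      exact Nat.le_succ _
    push_cast
    linarith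

end Model

end Crest.Agent.R339
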