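import Crest.Agent.R339.Q.Coh1
import Crest.Agent.R339.Q.NB

/-!
# Row 339, part Q: coherent vectors, second order estimates
-/

set_option autoImplicit false

namespace Crest.Agent.R339

open MeasureTheory ProbabilityTheory Filter Topology Crest.MathPhysics.SpinGlass
open scoped InnerProductSpace ComplexConjugate

namespace Model

variable {K : ℕ} {I : Iamp K} {H KK : Type} [NormedAddCommGroup H] [InnerProductSpace ℂ H]
  [CompleteSpace H] [NormedAddCommGroup KK] [InnerProductSpace ℂ KK] (m : Model I H KK)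

private theorem c2_exp_norm (x : ℝ) : ‖Complex.exp (-(Complex.I * (x : ℂ)))‖ = 1 := by
  rw [← _root_.mul_neg, ← Complex.ofReal_neg, Complex.norm_exp_I_mul_ofReal]

private theorem c2_exp_sub (x : ℝ) : ‖Complex.exp (-(Complex.I * (x : ℂ))) - 1‖ ≤ |x| := by
  rw [← _root_.mul_neg, ← Complex.ofReal_neg, ← abs_neg]
  exact Real.norm_exp_I_mul_ofReal_sub_one_le

private theorem c2_taylor {y : KK} (hy : y ∈ m.R) :
    ‖m.W y m.vac - m.vac - Complex.I • m.io y‖ ≤ ‖y‖ ^ 2 := by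
  have h0 : ⟪m.vac, m.io y⟫_ℂ = 0 := by
    have := m.io_W 0 (zero_mem _) y
    simpa [m.W_zero] using this
  have h1 : ⟪m.W y m.vac - m.vac, Complex.I • m.io y⟫_ℂ =
      ((Real.exp (-‖y‖ ^ 2 / 2) * ‖y‖ ^ 2 : ℝ) : ℂ) := by
    rw [inner_smul_right, inner_sub_left, h0, m.io_W y hy, inner_self_eq_norm_sq_to_K]
    push_cast
    linear_combination (-(Complex.exp (-(‖y‖ : ℂ) ^ 2 / 2) * (‖y‖ : ℂ) ^ 2)) * Complex.I_mul_I
  have h2 : ⟪m.W y m.vac, m.vac⟫_ℂ = ((Real.exp (-‖y‖ ^ 2 / 2) : ℝ) : ℂ) := by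
    rw [← inner_conj_symm, m.inner_vac_W hy, Complex.conj_ofReal]
  refine abs_le_of_sq_le_sq (b := ‖y‖ ^ 2) ?_ (sq_nonneg _) |>.trans' (le_abs_self _)
  rw [norm_sub_sq (𝕜 := ℂ), norm_sub_sq (𝕜 := ℂ), h1, h2, (m.fib_W hy).norm_apply, m.norm_vac,
    norm_smul, Complex.norm_I, m.io.norm_map]
  simp only [RCLike.re_to_complex, Complex.ofReal_re]
  have h3 := Real.add_one_le_exp (-‖y‖ ^ 2 / 2)
  nlinarith [mul_le_mul_of_nonneg_right h3 (sq_nonneg ‖y‖)]

private theorem c2_deriv0 {y : KK} (hy : y ∈ m.R) :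
    HasDerivAt (fun s : ℝ => m.W (s • y) m.vac) (Complex.I • m.io y) 0 := by
  rw [hasDerivAt_iff_isLittleO_nhds_zero]
  refine Asymptotics.IsBigO.trans_isLittleO (g := fun h : ℝ => h ^ 2)
    (Asymptotics.IsBigO.of_bound (‖y‖ ^ 2) (Eventually.of_forall fun h => ?_))
    (Asymptotics.isLittleO_pow_id one_lt_two)
  have h1 := m.c2_taylor (m.R.smul_mem h hy)
  rw [← Complex.coe_smul h y, m.io.map_smul, Complex.coe_smul, Complex.coe_smul, smul_comm,
    norm_smul] at h1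
  rw [zero_add, zero_smul, m.W_zero, norm_pow, mul_comm, ← mul_pow]
  exact h1

/-- `io y` is the derivative of `t ↦ W (t y) Ω` (both sides are explicit by `io_W`) -/
theorem hasDerivAt_W_vac {y : KK} (hy : y ∈ m.R) (t : ℝ) :
    HasDerivAt (fun s : ℝ => m.W (s • y) m.vac) (Complex.I • m.W (t • y) (m.io y)) t := by
  have h0 : HasDerivAt (fun s : ℝ => m.W ((s - t) • y) m.vac) (Complex.I • m.io y) t :=
    HasDerivAt.comp_sub_const (f := fun s : ℝ => m.W (s • y) m.vac) t t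
      (by rw [sub_self]; exact m.c2_deriv0 hy)
  have h1 := ((m.W (t • y)).restrictScalars ℝ).hasFDerivAt.comp_hasDerivAt t h0
  have e : (fun s : ℝ => m.W (s • y) m.vac) =
      (m.W (t • y)).restrictScalars ℝ ∘ fun s : ℝ => m.W ((s - t) • y) m.vac := by
    funext s
    have h2 := m.W_mul_W (m.R.smul_mem t hy) (m.R.smul_mem (s - t) hy)
    rw [om_smul_left, om_smul_right, om_self, ← add_smul, add_sub_cancel] at h2
    simp only [mul_zero, Complex.ofReal_zero, neg_zero, Complex.exp_zero, one_smul] at h2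
    rw [← h2]
    rfl
  rw [e, ← map_smul]
  exact h1
private theorem c2_inner {y y' : KK} (hy : y ∈ m.R) (hy' : y' ∈ m.R) :
    ⟪m.io y', m.W y (m.io y')⟫_ℂ =
      ((Real.exp (-‖y‖ ^ 2 / 2) * (‖y'‖ ^ 2 - ‖⟪y, y'⟫_ℂ‖ ^ 2) : ℝ) : ℂ) := by
  set c := ⟪y, y'⟫_ℂ with hc
  have h1 := (m.c2_deriv0 hy').inner ℂ (hasDerivAt_const (0 : ℝ) (m.W y (m.io y')))
  have h2 : ∀ t : ℝ, ⟪m.W (t • y') m.vac, m.W y (m.io y')⟫_ℂ =
      -Complex.I * (Complex.exp (-(‖y‖ : ℂ) ^ 2 / 2 + conj c * t - (‖y'‖ : ℂ) ^ 2 / 2 * t ^ 2) *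
        (-c + (‖y'‖ : ℂ) ^ 2 * t)) := by
    intro t
    have a1 := m.W_mul_W (neg_mem hy) (m.R.smul_mem t hy')
    have a2 : ‖-y + t • y'‖ ^ 2 = ‖y‖ ^ 2 - 2 * (t * c.re) + t ^ 2 * ‖y'‖ ^ 2 := by
      rw [norm_add_sq (𝕜 := ℂ), inner_neg_left, ← Complex.coe_smul, inner_smul_right, norm_neg,
        norm_smul, Complex.norm_real, mul_pow, Real.norm_eq_abs, sq_abs, ← hc]
      simp [sub_eq_add_neg]
    have a3 : ⟪-y + t • y', y'⟫_ℂ = -c + (‖y'‖ : ℂ) ^ 2 * t := by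
      rw [inner_add_left, inner_neg_left, ← Complex.coe_smul, inner_smul_left, Complex.conj_ofReal,
        inner_self_eq_norm_sq_to_K, mul_comm]
      rfl
    have a4 : conj c = c.re - Complex.I * c.im := by
      apply Complex.ext <;> simp
    rw [← ContinuousLinearMap.adjoint_inner_left, ← ContinuousLinearMap.star_eq_adjoint, m.W_star,
      ← mul_apply_eq_comp, a1, smul_apply, inner_smul_left,
      m.io_W _ (add_mem (neg_mem hy) (m.R.smul_mem t hy')), a2, a3, ← Complex.exp_conj,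
      om_neg_left, om_smul_right, Complex.ofReal_exp, a4]
    have a5 : -(‖y‖ : ℂ) ^ 2 / 2 + (c.re - Complex.I * c.im) * t - (‖y'‖ : ℂ) ^ 2 / 2 * t ^ 2 =
        conj (-(Complex.I * ((-(t * om y y') : ℝ) : ℂ))) +
          ((-(‖y‖ ^ 2 - 2 * (t * c.re) + t ^ 2 * ‖y'‖ ^ 2) / 2 : ℝ) : ℂ) := by
      rw [map_neg, map_mul, Complex.conj_I, Complex.conj_ofReal]
      unfold om
      push_cast
      ring
    rw [a5, Complex.exp_add]
    ring
  have h3 : HasDerivAt (fun τ : ℂ => -Complex.I *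
      (Complex.exp (-(‖y‖ : ℂ) ^ 2 / 2 + conj c * τ - (‖y'‖ : ℂ) ^ 2 / 2 * τ ^ 2) *
        (-c + (‖y'‖ : ℂ) ^ 2 * τ))) _ ((0 : ℝ) : ℂ) :=
    (((((hasDerivAt_id _).const_mul (conj c)).const_add _).sub
      ((hasDerivAt_pow 2 _).const_mul _)).cexp.mul
      (((hasDerivAt_id _).const_mul _).const_add _)).const_mul _
  have h4 := h3.comp_ofReal
  rw [← funext h2] at h4
  have h5 := h1.unique h4
  rw [inner_zero_right, zero_add, inner_smul_left, Complex.conj_I] at h5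
  rw [mul_left_cancel₀ (neg_ne_zero.2 Complex.I_ne_zero) h5]
  push_cast
  rw [← Complex.conj_mul']
  simp
  ring

theorem norm_W_io_sub {y y' : KK} (hy : y ∈ m.R) (hy' : y' ∈ m.R) :
    ‖m.W y (m.io y') - m.io y'‖ ≤ 2 * ‖y‖ * ‖y'‖ := by
  refine abs_le_of_sq_le_sq (b := 2 * ‖y‖ * ‖y'‖) ?_ (by positivity) |>.trans' (le_abs_self _)
  rw [norm_sub_rev, norm_sub_sq (𝕜 := ℂ), m.c2_inner hy hy', (m.fib_W hy).norm_apply,
    m.io.norm_map]
  simp only [RCLike.re_to_complex, Complex.ofReal_re]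
  have h1 := Real.add_one_le_exp (-‖y‖ ^ 2 / 2)
  have h2 : Real.exp (-‖y‖ ^ 2 / 2) ≤ 1 := Real.exp_le_one_iff.2 (by linarith [sq_nonneg ‖y‖])
  have h3 := pow_le_pow_left₀ (norm_nonneg _) (norm_inner_le_norm (𝕜 := ℂ) y y') 2
  have h4 := mul_le_mul_of_nonneg_right h1 (sq_nonneg ‖y'‖)
  have h5 := mul_le_mul_of_nonneg_right h2 (sq_nonneg ‖⟪y, y'⟫_ℂ‖)
  nlinarith [sq_nonneg (‖y‖ * ‖y'‖)]
private theorem c2_first {y : KK} (hy : y ∈ m.R) : ‖m.W y m.vac - m.vac‖ ≤ ‖y‖ := by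
  have := (m.nb_coh false (zero_mem _)).2 y hy
  simpa [m.coh_zero] using this

private theorem c2_vac {y y' : KK} (hy : y ∈ m.R) (hy' : y' ∈ m.R) :
    ‖(m.W y - 1) ((m.W y' - 1) m.vac)‖ ≤ 4 * ‖y‖ * ‖y'‖ := by
  rcases le_total ‖y'‖ 1 with h | h
  · have h1 := norm_image_sub_le_of_norm_deriv_le_segment_01' (C := 4 * ‖y‖ * ‖y'‖)
      (fun t _ => (((m.W y - 1).restrictScalars ℝ).hasFDerivAt.comp_hasDerivAt t
        (m.hasDerivAt_W_vac hy' t)).hasDerivWithinAt) (fun t ht => ?_)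
    · simp only [Function.comp, one_smul, zero_smul, m.W_zero,
        ContinuousLinearMap.coe_restrictScalars'] at h1
      rw [← map_sub] at h1
      exact h1
    · have ht' := m.R.smul_mem t hy'
      set α := Complex.exp (-(Complex.I * ((2 * om y (t • y') : ℝ) : ℂ))) with hα
      have e : (m.W y - 1) (m.W (t • y') (m.io y')) =
          m.W (t • y') (α • (m.W y (m.io y') - m.io y') + (α - 1) • m.io y') := by
        have := congrArg (fun A : H →L[ℂ] H => A (m.io y')) (m.W_comm hy ht')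
        simp only [mul_apply_eq_comp, smul_apply, ← hα] at this
        simp only [sub_apply, one_apply_eq_self, this, map_add, map_smul, map_sub]
        module
      have a1 : ‖α - 1‖ ≤ 2 * ‖y‖ := by
        refine (c2_exp_sub _).trans ?_
        rw [abs_mul, abs_two]
        refine mul_le_mul_of_nonneg_left ((abs_om_le _ _).trans ?_) zero_le_two
        rw [norm_smul, Real.norm_eq_abs, abs_of_nonneg ht.1]
        exact mul_le_of_le_one_right (norm_nonneg _) (mul_le_one₀ ht.2.le (norm_nonneg _) h)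
      rw [ContinuousLinearMap.coe_restrictScalars', map_smul, norm_smul, Complex.norm_I, one_mul, e,
        (m.fib_W ht').norm_apply]
      refine (norm_add_le _ _).trans ?_
      rw [norm_smul, norm_smul, c2_exp_norm, one_mul, m.io.norm_map]
      linarith [m.norm_W_io_sub hy hy', mul_le_mul_of_nonneg_right a1 (norm_nonneg y')]
  · have h1 := (m.nb_coh false hy').2 y hy
    rw [m.coh_false] at h1
    have e : (m.W y - 1) ((m.W y' - 1) m.vac) =
        (m.W y (m.W y' m.vac) - m.W y' m.vac) - (m.W y m.vac - m.vac) := by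
      simp only [sub_apply, one_apply_eq_self, map_sub]
    rw [e]
    refine (norm_sub_le _ _).trans ?_
    nlinarith [m.c2_first hy, mul_le_mul_of_nonneg_left h (norm_nonneg y)]

/-- second order bound.  Reduce to the vacuum with `W_comm`; for `‖y'‖ ≤ 1` integrate the derivative of
`t ↦ (W y - 1) W (t y') Ω`, for `‖y'‖ ≥ 1` use the first order bound. -/
theorem norm_WW_coh (b : Bool) {y y' z : KK} (hy : y ∈ m.R) (hy' : y' ∈ m.R) (hz : z ∈ m.R) :
    ‖((m.W y - 1) * (m.W y' - 1)) (m.coh b z)‖ ≤ 10 * (1 + ‖z‖) ^ 2 * ‖y‖ * ‖y'‖ := by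
  set α := Complex.exp (-(Complex.I * ((2 * om y z : ℝ) : ℂ))) with hα
  set β := Complex.exp (-(Complex.I * ((2 * om y' z : ℝ) : ℂ))) with hβ
  have c1 : ∀ v, m.W y (m.W z v) = α • m.W z (m.W y v) := fun v =>
    congrArg (fun A : H →L[ℂ] H => A v) (m.W_comm hy hz)
  have c2 : ∀ v, m.W y' (m.W z v) = β • m.W z (m.W y' v) := fun v =>
    congrArg (fun A : H →L[ℂ] H => A v) (m.W_comm hy' hz)
  have c3 : ∀ u v, m.W u (m.zp b v) = m.zp b (m.W u v) := fun u v =>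
    (congrArg (fun A : H →L[ℂ] H => A v) ((m.isAxis_zp b).2.2.2 u)).symm
  have e : ((m.W y - 1) * (m.W y' - 1)) (m.coh b z) = m.zp b (m.W z
      ((α * β) • (m.W y - 1) ((m.W y' - 1) m.vac) + (α * (β - 1)) • (m.W y m.vac - m.vac) +
        ((α - 1) * β) • (m.W y' m.vac - m.vac) + ((α - 1) * (β - 1)) • m.vac)) := by
    simp only [coh, mul_apply_eq_comp, sub_apply, one_apply_eq_self,
      map_sub, map_add, map_smul, c1, c2, c3]
    module
  have a1 : ∀ u : KK, ‖Complex.exp (-(Complex.I * ((2 * om u z : ℝ) : ℂ))) - 1‖ ≤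
      2 * (‖u‖ * ‖z‖) := fun u => by
    refine (c2_exp_sub _).trans ?_
    rw [abs_mul, abs_two]
    exact mul_le_mul_of_nonneg_left (abs_om_le _ _) zero_le_two
  rw [e, (m.isAxis_zp b).fib.norm_apply, (m.fib_W hz).norm_apply]
  refine (norm_add_le _ _).trans ((add_le_add norm_add₃_le le_rfl).trans ?_)
  simp only [norm_smul, norm_mul, hα, hβ, c2_exp_norm, one_mul, mul_one, m.norm_vac]
  have b1 := mul_le_mul (a1 y') (m.c2_first hy) (norm_nonneg _) (by positivity)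
  have b2 := mul_le_mul (a1 y) (m.c2_first hy') (norm_nonneg _) (by positivity)
  have b3 := mul_le_mul (a1 y) (a1 y') (norm_nonneg _) (by positivity)
  have b4 : 0 ≤ ‖y‖ * ‖y'‖ := by positivity
  have b5 : 0 ≤ ‖y‖ * ‖y'‖ * ‖z‖ := by positivity
  have b6 : 0 ≤ ‖y‖ * ‖y'‖ * ‖z‖ ^ 2 := by positivity
  linarith [m.c2_vac hy hy']
theorem nb_W_sub_coh (b : Bool) {y z : KK} (hy : y ∈ m.R) (hz : z ∈ m.R) :
    m.NB (10 * (1 + ‖z‖) ^ 2 * ‖y‖) ((m.W y - 1) (m.coh b z)) := by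
  refine ⟨((m.nb_coh b hz).2 y hy).trans (mul_le_mul_of_nonneg_right ?_ (norm_nonneg _)),
    fun u hu => ?_⟩
  · nlinarith [norm_nonneg z]
  · refine le_trans (le_of_eq ?_) ((m.norm_WW_coh b hu hy hz).trans (le_of_eq (by ring)))
    rfl
theorem nb_sinW_coh (b : Bool) {y z : KK} (hy : y ∈ m.R) (hz : z ∈ m.R) :
    m.NB (10 * (1 + ‖z‖) ^ 2 * ‖y‖) (m.sinW y (m.coh b z)) := by
  have h := ((m.nb_W_sub_coh b hy hz).sub (m.nb_W_sub_coh b (neg_mem hy) hz)).smul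
    (-(Complex.I / 2))
  have e : m.sinW y (m.coh b z) =
      (-(Complex.I / 2)) • ((m.W y - 1) (m.coh b z) - (m.W (-y) - 1) (m.coh b z)) := by
    simp only [sinW, smul_apply, sub_apply, sub_sub_sub_cancel_right]
  rw [e]
  refine h.mono (le_of_eq ?_)
  rw [norm_neg, norm_neg, norm_div, Complex.norm_I, Complex.norm_two]
  ring
theorem norm_cosW_sub_coh (b : Bool) {y z : KK} (hy : y ∈ m.R) (hz : z ∈ m.R) :
    ‖m.cosW y (m.coh b z) - m.coh b z‖ ≤ 5 * (1 + ‖z‖) ^ 2 * ‖y‖ ^ 2 := by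
  have h := m.norm_WW_coh b hy (neg_mem hy) hz
  have h1 : m.W y * m.W (-y) = 1 := by rw [← m.W_star]; exact (m.fib_W hy).mul_star_self
  have e : m.cosW y (m.coh b z) - m.coh b z =
      (-(1 / 2) : ℂ) • ((m.W y - 1) * (m.W (-y) - 1)) (m.coh b z) := by
    rw [sub_mul, _root_.mul_sub, _root_.mul_sub, h1]
    simp only [cosW, smul_apply, sub_apply, add_apply, mul_one, one_mul,
      one_apply_eq_self]
    module
  rw [e, norm_smul, norm_neg, norm_div, norm_one, Complex.norm_two]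
  rw [norm_neg] at h
  linarith
theorem norm_sinW_sinW_coh (b : Bool) {y y' z : KK} (hy : y ∈ m.R) (hy' : y' ∈ m.R) (hz : z ∈ m.R) :
    ‖(m.sinW y * m.sinW y') (m.coh b z)‖ ≤ 10 * (1 + ‖z‖) ^ 2 * ‖y‖ * ‖y'‖ := by
  exact ((m.nb_sinW_coh b hy' hz).norm_sinW hy).trans (le_of_eq (by ring))
private theorem c2_add (b : Bool) {y y' z : KK} (hy : y ∈ m.R) (hy' : y' ∈ m.R) (hz : z ∈ m.R) :
    ‖(m.W (y + y') - m.W y - m.W y' + 1) (m.coh b z)‖ ≤ 11 * (1 + ‖z‖) ^ 2 * ‖y‖ * ‖y'‖ := by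
  have e : m.W (y + y') - m.W y - m.W y' + 1 = (m.W y - 1) * (m.W y' - 1) -
      (Complex.exp (-(Complex.I * (om y y' : ℂ))) - 1) • m.W (y + y') := by
    rw [sub_mul, _root_.mul_sub, _root_.mul_sub, m.W_mul_W hy hy', mul_one, one_mul, one_mul]
    module
  rw [e, sub_apply]
  refine (norm_sub_le _ _).trans ?_
  rw [smul_apply, norm_smul, (m.fib_W (add_mem hy hy')).norm_apply, m.norm_coh b hz, mul_one]
  have h1 : 1 * (‖y‖ * ‖y'‖) ≤ (1 + ‖z‖) ^ 2 * (‖y‖ * ‖y'‖) :=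
    mul_le_mul_of_nonneg_right (by nlinarith [norm_nonneg z]) (by positivity)
  linarith [m.norm_WW_coh b hy hy' hz, (c2_exp_sub (om y y')).trans (abs_om_le y y')]

theorem norm_sinW_add_coh (b : Bool) {y y' z : KK} (hy : y ∈ m.R) (hy' : y' ∈ m.R) (hz : z ∈ m.R) :
    ‖(m.sinW (y + y') - m.sinW y - m.sinW y') (m.coh b z)‖ ≤ 11 * (1 + ‖z‖) ^ 2 * ‖y‖ * ‖y'‖ := by
  have h1 := m.c2_add b hy hy' hz
  have h2 := m.c2_add b (neg_mem hy) (neg_mem hy') hz
  rw [norm_neg, norm_neg, ← neg_add] at h2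
  have e : m.sinW (y + y') - m.sinW y - m.sinW y' = (-(Complex.I / 2)) •
      ((m.W (y + y') - m.W y - m.W y' + 1) - (m.W (-(y + y')) - m.W (-y) - m.W (-y') + 1)) := by
    unfold sinW
    module
  rw [e, smul_apply, norm_smul, norm_neg, norm_div, Complex.norm_I, Complex.norm_two, sub_apply]
  linarith [norm_sub_le ((m.W (y + y') - m.W y - m.W y' + 1) (m.coh b z))
    ((m.W (-(y + y')) - m.W (-y) - m.W (-y') + 1) (m.coh b z))]
theorem norm_sinW_sum_coh {ι : Type} (s : Finset ι) (b : Bool) {y : ι → KK} {z : KK}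
    (hy : ∀ i, y i ∈ m.R) (hz : z ∈ m.R) :
    ‖(m.sinW (∑ i ∈ s, y i) - ∑ i ∈ s, m.sinW (y i)) (m.coh b z)‖ ≤
      11 * (1 + ‖z‖) ^ 2 * (∑ i ∈ s, ‖y i‖) ^ 2 := by
  classical
  induction s using Finset.induction_on with
  | empty => simp [m.sinW_zero]
  | insert a s ha ih =>
    simp only [Finset.sum_insert ha]
    have h1 := m.norm_sinW_add_coh b (hy a) (sum_mem fun i (_ : i ∈ s) => hy i) hz
    have e : m.sinW (y a + ∑ i ∈ s, y i) - (m.sinW (y a) + ∑ i ∈ s, m.sinW (y i)) =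
        (m.sinW (y a + ∑ i ∈ s, y i) - m.sinW (y a) - m.sinW (∑ i ∈ s, y i)) +
          (m.sinW (∑ i ∈ s, y i) - ∑ i ∈ s, m.sinW (y i)) := by abel
    rw [e, add_apply]
    refine (norm_add_le _ _).trans ?_
    have h2 : 0 ≤ 11 * (1 + ‖z‖) ^ 2 * ‖y a‖ := by positivity
    have h3 := mul_le_mul_of_nonneg_left (norm_sum_le s y) h2
    have h4 := mul_nonneg h2 (Finset.sum_nonneg fun i (_ : i ∈ s) => norm_nonneg (y i))
    have h5 := mul_nonneg h2 (norm_nonneg (y a))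
    linarith
/-- first order expansion of a cost gate -/
theorem norm_D_sub_lin_coh {Q : H →L[ℂ] H} (b : Bool) {y z : KK} (hy : y ∈ m.R) (hz : z ∈ m.R) :
    ‖(m.D Q y - 1 + Complex.I • (Q * m.sinW y)) (m.coh b z)‖ ≤ 5 * (1 + ‖z‖) ^ 2 * ‖y‖ ^ 2 := by
  have e : m.D Q y - 1 + Complex.I • (Q * m.sinW y) = m.cosW y - 1 := by
    unfold D
    abel
  rw [e]
  exact m.norm_cosW_sub_coh b hy hz

end Model

end Crest.Agent.R339
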