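import Crest.Agent.R339.Q.B0
import Crest.Agent.R339.Q.Coh2

/-!
# Row 339, part Q: estimates for one global pulse
-/

set_option autoImplicit false

namespace Crest.Agent.R339

open MeasureTheory ProbabilityTheory Filter Topology Crest.MathPhysics.SpinGlass
open scoped InnerProductSpace ComplexConjugate

namespace Model

variable {K : ℕ} {I : Iamp K} {H KK : Type} [NormedAddCommGroup H] [InnerProductSpace ℂ H]
  [CompleteSpace H] [NormedAddCommGroup KK] [InnerProductSpace ℂ KK] {m : Model I H KK}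

variable {n : ℕ}

theorem h30_bounds (F : Flat n) : ∃ T A : ℝ, 0 ≤ T ∧ 0 ≤ A ∧
    (∀ b : ℝ, |b| ≤ 1 → ∀ p, |rlam F b p| ≤ T) ∧ (∀ δ p, |ral F δ p| ≤ A * |δ|) := by
  refine ⟨∑ i, |F.t i|, ∑ i, |F.c i|, by positivity, by positivity, fun b hb p => ?_,
    fun δ p => ?_⟩
  · have h1 : |F.t p.1| ≤ ∑ i, |F.t i| :=
      Finset.single_le_sum (f := fun i => |F.t i|) (fun i _ => abs_nonneg _) (Finset.mem_univ _)
    have h2 : |spinSign p.2| = 1 := by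
      unfold spinSign
      split_ifs <;> simp
    rw [rlam, abs_mul, abs_mul, h2, one_mul]
    exact (mul_le_of_le_one_right (abs_nonneg _) hb).trans h1
  · have h1 : |F.c p.1| ≤ ∑ i, |F.c i| :=
      Finset.single_le_sum (f := fun i => |F.c i|) (fun i _ => abs_nonneg _) (Finset.mem_univ _)
    rw [ral, abs_div, abs_mul, abs_two]
    nlinarith [abs_nonneg δ, abs_nonneg (F.c p.1), mul_le_mul_of_nonneg_left h1 (abs_nonneg δ)]

theorem h30_length_allR (F : Flat n) : (allR F).length = 2 * F.J := by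
  simp [allR, mul_comm]

theorem h30_norm_fld {U : H →L[ℂ] H} (hU : m.Fib U) (c : ℝ) : ‖c • m.j (m.xi U)‖ = |c| := by
  rw [norm_smul, m.j.norm_map, hU.norm_xi, Real.norm_eq_abs, mul_one]

theorem h30_ZA (lam : ℝ) {U : H →L[ℂ] H} (hU : m.Fib U) :
    m.Z * m.AR lam U = -(m.AR lam U * m.Z) := by
  rw [AR_eq lam hU, ← mul_assoc, m.ZX, neg_mul, mul_assoc, mul_assoc,
    (m.isAxis_Z.commute_D_self _).eq]

theorem h30_B (lam α : ℝ) {U : H →L[ℂ] H} (hU : m.Fib U) :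
    star (m.ER lam α U) * m.Z * m.ER lam α U - m.Z = m.Z * (rot (m.AR lam U) (2 * α) - 1) := by
  rw [ER, star_rot_mul_mul_rot (AR_star lam hU) (AR_sq lam hU) (h30_ZA lam hU), _root_.mul_sub, mul_one]

theorem h30_cl_AR {lam T : ℝ} (hl : |lam| ≤ T) {U : H →L[ℂ] H} (hU : m.Fib U) :
    m.CL (4 * T) (m.AR lam U) := by
  have hu : (2 * lam) • m.j (m.xi U) ∈ m.R := m.R.smul_mem _ hU.j_xi_mem
  rw [AR_eq lam hU]
  refine ((cl_of_commute m.X_W).mul (m.isAxis_Z.cl_D hu) m.isAxis_X.fib.norm_le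
    (m.isAxis_Z.fib_D hu).norm_le).mono ?_
  rw [h30_norm_fld hU, abs_mul, abs_two]
  linarith

theorem h30_norm_AR (lam : ℝ) {U : H →L[ℂ] H} (hU : m.Fib U) : ‖m.AR lam U‖ ≤ 1 :=
  norm_axis_le (AR_star lam hU) (AR_sq lam hU)

theorem h30_tame_AR {lam T : ℝ} (hl : |lam| ≤ T) {U : H →L[ℂ] H} (hU : m.Fib U) :
    m.Tame (1 + 4 * T) (m.AR lam U) :=
  (h30_cl_AR hl hU).tame (by linarith [abs_nonneg lam]) (h30_norm_AR lam hU)

theorem h30_tame_ER {lam α T A : ℝ} (hl : |lam| ≤ T) (ha : |α| ≤ A) {U : H →L[ℂ] H}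
    (hU : m.Fib U) : m.Tame (1 + 4 * T * A) (m.ER lam α U) := by
  have hT : 0 ≤ T := (abs_nonneg _).trans hl
  refine (((h30_cl_AR hl hU).rot α).tame (by positivity) (fib_ER lam α hU).norm_le).mono ?_
  nlinarith

theorem h30_AR_sub {lam T e l : ℝ} (hl : |lam| ≤ T) {U V : H →L[ℂ] H} (hU : m.Fib U)
    (hV : m.Fib V) (he : ‖m.xi V - m.xi U‖ ≤ e) {ψ : H} (hψ : m.NB l ψ) :
    ‖m.AR lam V ψ - m.AR lam U ψ‖ ≤ 4 * T * (1 + 2 * T) * e * l := by
  have hT : 0 ≤ T := (abs_nonneg _).trans hl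
  have hu : (2 * lam) • m.j (m.xi U) ∈ m.R := m.R.smul_mem _ hU.j_xi_mem
  have hv : (2 * lam) • m.j (m.xi V) ∈ m.R := m.R.smul_mem _ hV.j_xi_mem
  have h1 := hψ.norm_D_sub m.isAxis_Z hv hu
  rw [AR_eq lam hU, AR_eq lam hV, mul_apply_eq_comp, mul_apply_eq_comp,
    ← map_sub, m.isAxis_X.fib.norm_apply]
  refine h1.trans ?_
  rw [h30_norm_fld hV, ← smul_sub, ← map_sub, norm_smul, m.j.norm_map, Real.norm_eq_abs, abs_mul,
    abs_two]
  have h0 := hψ.nonneg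
  have h2 : 0 ≤ e := (norm_nonneg _).trans he
  calc 2 * (1 + 2 * |lam|) * (2 * |lam| * ‖m.xi V - m.xi U‖) * l
      ≤ 2 * (1 + 2 * T) * (2 * T * e) * l := by gcongr
    _ = _ := by ring

theorem h30_rot_sub {lam α T a e l : ℝ} (hl : |lam| ≤ T) (ha : |α| ≤ a) {U V : H →L[ℂ] H}
    (hU : m.Fib U) (hV : m.Fib V) (he : ‖m.xi V - m.xi U‖ ≤ e) {ψ : H} (hψ : m.NB l ψ) :
    ‖rot (m.AR lam V) α ψ - rot (m.AR lam U) α ψ‖ ≤ a * (4 * T * (1 + 2 * T) * e * l) := by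
  rw [← _root_.sub_apply, rot_sub_rot_axis, _root_.neg_apply, norm_neg,
    _root_.smul_apply, norm_smul, _root_.sub_apply, norm_mul,
    Complex.norm_I, one_mul, Complex.norm_real, Real.norm_eq_abs]
  exact mul_le_mul (Real.abs_sin_le_abs.trans ha) (h30_AR_sub hl hU hV he hψ) (norm_nonneg _)
    ((abs_nonneg _).trans ha)

theorem h30_xi_sub {η Λ : ℝ} {U G : H →L[ℂ] H} (hU : m.Fib U) (hG : m.Fib G)
    (hη : m.Near1 η G) (hΛ : m.NB Λ (U m.vac)) : ‖m.xi (G * U) - m.xi U‖ ≤ 2 * η * Λ := by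
  have h1 := hU.heis_stab hG m.Z
  have h2 := hη _ _ hΛ
  have h3 := hη _ _ (m.isAxis_Z.tame _ _ hΛ)
  rw [← map_sub, m.isAxis_Z.fib.norm_apply] at h1
  unfold xi
  linarith

theorem h30_tame_B {lam α T a : ℝ} (hl : |lam| ≤ T) (ha : |α| ≤ a) {U : H →L[ℂ] H}
    (hU : m.Fib U) : m.Tame (a * (2 + 4 * T)) (m.Z * (rot (m.AR lam U) α - 1)) := by
  have hT : 0 ≤ T := (abs_nonneg _).trans hl
  have h1 : rot (m.AR lam U) α - 1 = (((Real.cos α : ℝ) : ℂ) - 1) • (1 : H →L[ℂ] H) -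
      (Complex.I * ((Real.sin α : ℝ) : ℂ)) • m.AR lam U := by
    rw [rot, sub_smul, one_smul]
    abel
  rw [h1]
  refine (m.isAxis_Z.tame.mul ((m.isAxis_one.tame.smul _).sub ((h30_tame_AR hl hU).smul _))).mono ?_
  have h2 : ‖((Real.cos α : ℝ) : ℂ) - 1‖ ≤ a := by
    rw [← Complex.ofReal_one, ← Complex.ofReal_sub, Complex.norm_real, Real.norm_eq_abs]
    have := Real.abs_cos_sub_cos_le α 0
    rw [Real.cos_zero, sub_zero] at this
    exact this.trans ha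
  have h3 : ‖Complex.I * ((Real.sin α : ℝ) : ℂ)‖ ≤ a := by
    rw [norm_mul, Complex.norm_I, one_mul, Complex.norm_real, Real.norm_eq_abs]
    exact Real.abs_sin_le_abs.trans ha
  nlinarith [mul_le_mul_of_nonneg_right h3 (show 0 ≤ 1 + 4 * T by linarith)]

theorem h30_dR_sub {lam α T a η Λ Λ' : ℝ} (hl : |lam| ≤ T) (ha : |α| ≤ a) {U G : H →L[ℂ] H}
    (hU : m.Fib U) (hG : m.Fib G) (hη : m.Near1 η G) (hΛ : m.NB Λ (U m.vac))
    (hΛ' : m.NB Λ' ((G * U) m.vac)) :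
    ‖m.dR lam α (G * U) - m.dR lam α U‖ ≤
      T * (2 * a * (4 * T * (1 + 2 * T) * (2 * η * Λ) * Λ') +
        (2 * a * (η * Λ) + η * (2 * a * (2 + 4 * T) * Λ))) := by
  have hV := hG.mul hU
  have ha2 : |2 * α| ≤ 2 * a := by
    rw [abs_mul, abs_two]
    linarith
  have ha0 : 0 ≤ a := (abs_nonneg _).trans ha
  rw [dR, dR, h30_B lam α hU, h30_B lam α hV, ← smul_sub, ← map_sub, norm_smul, m.j.norm_map,
    Real.norm_eq_abs, abs_neg]
  refine mul_le_mul hl ?_ (norm_nonneg _) ((abs_nonneg _).trans hl)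
  set BU := m.Z * (rot (m.AR lam U) (2 * α) - 1) with hBU
  set BV := m.Z * (rot (m.AR lam (G * U)) (2 * α) - 1) with hBV
  have h1 : ‖m.heis (G * U) BV - m.heis (G * U) BU‖ ≤
      2 * a * (4 * T * (1 + 2 * T) * (2 * η * Λ) * Λ') := by
    rw [← heis_sub, hV.norm_heis, hBU, hBV, ← _root_.mul_sub, mul_apply_eq_comp,
      m.isAxis_Z.fib.norm_apply, sub_sub_sub_cancel_right, _root_.sub_apply]
    exact h30_rot_sub hl ha2 hU hV (h30_xi_sub hU hG hη hΛ) hΛ'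
  have h2 := hU.heis_stab hG BU
  have h3 : ‖BU (G (U m.vac)) - BU (U m.vac)‖ ≤ 2 * a * (η * Λ) := by
    rw [← map_sub, hBU, mul_apply_eq_comp, m.isAxis_Z.fib.norm_apply]
    refine (ContinuousLinearMap.le_opNorm _ _).trans ?_
    exact mul_le_mul ((norm_rot_sub_one (AR_star lam hU) (AR_sq lam hU) _).trans ha2)
      (hη _ _ hΛ) (norm_nonneg _) (by positivity)
  have h4 := hη _ _ (h30_tame_B hl ha2 hU _ _ hΛ)
  calc _ ≤ ‖m.heis (G * U) BV - m.heis (G * U) BU‖ + ‖m.heis (G * U) BU - m.heis U BU‖ :=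
        norm_sub_le_norm_sub_add_norm_sub _ _ _
    _ ≤ _ := by linarith

theorem h30_RP_sub {lam α T a A η Λ Λ' l : ℝ} (hl : |lam| ≤ T) (ha : |α| ≤ a) (hA : a ≤ A)
    {U G : H →L[ℂ] H} (hU : m.Fib U) (hG : m.Fib G) (hη : m.Near1 η G) (hΛ : m.NB Λ (U m.vac))
    (hΛ' : m.NB Λ' ((G * U) m.vac)) {ψ : H} (hψ : m.NB l ψ) :
    ‖m.RP lam α (G * U) ψ - m.RP lam α U ψ‖ ≤
      (a * (4 * T * (1 + 2 * T) * (2 * η * Λ)) + 2 * (1 + 2 * T * A) *
        (T * (2 * a * (4 * T * (1 + 2 * T) * (2 * η * Λ) * Λ') +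
          (2 * a * (η * Λ) + η * (2 * a * (2 + 4 * T) * Λ)))) * (1 + 4 * T * A)) * l := by
  have hV := hG.mul hU
  have hT : 0 ≤ T := (abs_nonneg _).trans hl
  have ha0 : 0 ≤ a := (abs_nonneg _).trans ha
  have hA0 : 0 ≤ A := ha0.trans hA
  have h1 := h30_rot_sub hl ha hU hV (h30_xi_sub hU hG hη hΛ) hψ
  have h2 := h30_tame_ER hl (ha.trans hA) hU _ _ hψ
  have h3 := h2.norm_D_sub m.isAxis_Z (dR_mem lam α hV) (dR_mem lam α hU)
  have h4 := h30_dR_sub hl ha hU hG hη hΛ hΛ'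
  have h5 : ‖m.dR lam α (G * U)‖ ≤ 2 * T * A :=
    (norm_dR_le lam α hV).trans (by have := ha.trans hA; gcongr)
  have h6 := h2.nonneg
  have h7 := (norm_nonneg _).trans h4
  have h8 : ‖m.D m.Z (m.dR lam α (G * U)) (m.ER lam α (G * U) ψ) -
      m.D m.Z (m.dR lam α (G * U)) (m.ER lam α U ψ)‖ ≤
        a * (4 * T * (1 + 2 * T) * (2 * η * Λ) * l) := by
    rw [← map_sub, (m.isAxis_Z.fib_D (dR_mem lam α hV)).norm_apply]
    exact h1
  rw [RP, RP, mul_apply_eq_comp, mul_apply_eq_comp]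
  refine (norm_sub_le_norm_sub_add_norm_sub _ (m.D m.Z (m.dR lam α (G * U)) (m.ER lam α U ψ))
    _).trans ?_
  refine (add_le_add h8 (h3.trans (?_ : _ ≤ 2 * (1 + 2 * T * A) *
    (T * (2 * a * (4 * T * (1 + 2 * T) * (2 * η * Λ) * Λ') +
      (2 * a * (η * Λ) + η * (2 * a * (2 + 4 * T) * Λ)))) * ((1 + 4 * T * A) * l)))).trans
        (le_of_eq (by ring))
  gcongr

/-- the first order term of a pulse -/
noncomputable def h30h (m : Model I H KK) (lam α : ℝ) (U : H →L[ℂ] H) (v : H) : H :=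
  -(Complex.I • m.Z (m.sinW (m.dR lam α U) v)) - (Complex.I * (α : ℂ)) • m.AR lam U v

theorem h30_RP_lin {lam α T a r : ℝ} (hl : |lam| ≤ T) (ha : |α| ≤ a) {U : H →L[ℂ] H}
    (hU : m.Fib U) (s : Bool) {z : KK} (hz : z ∈ m.R) (hr : ‖z‖ ≤ r) :
    ‖m.RP lam α U (m.coh s z) - m.coh s z - h30h m lam α U (m.coh s z)‖ ≤
      a ^ 2 * (1 + 20 * T ^ 2 + 8 * T * (1 + 4 * T)) * (1 + r) ^ 2 := by
  have hT : 0 ≤ T := (abs_nonneg _).trans hl
  have ha0 : 0 ≤ a := (abs_nonneg _).trans ha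
  have hr0 : 0 ≤ r := (norm_nonneg _).trans hr
  have hd := dR_mem lam α hU
  have hdn : ‖m.dR lam α U‖ ≤ 2 * T * a := (norm_dR_le lam α hU).trans (by gcongr)
  set v := m.coh s z with hv
  set d := m.dR lam α U with hdd
  have hnv : ‖v‖ = 1 := m.norm_coh s hz
  have e : m.RP lam α U v - v - h30h m lam α U v =
      m.D m.Z d ((rot (m.AR lam U) α - 1 + (Complex.I * (α : ℂ)) • m.AR lam U) v) +
        (m.D m.Z d - 1 + Complex.I • (m.Z * m.sinW d)) v -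
        (Complex.I * (α : ℂ)) • (m.D m.Z d (m.AR lam U v) - m.AR lam U v) := by
    simp only [RP, ER, h30h, ← hdd, mul_apply_eq_comp, _root_.add_apply,
      _root_.sub_apply, _root_.smul_apply, one_apply_eq_self,
      map_add, map_sub, map_smul, smul_sub]
    abel
  have h1 : ‖m.D m.Z d ((rot (m.AR lam U) α - 1 + (Complex.I * (α : ℂ)) • m.AR lam U) v)‖ ≤
      a ^ 2 := by
    rw [(m.isAxis_Z.fib_D hd).norm_apply]
    refine (ContinuousLinearMap.le_opNorm _ _).trans ?_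
    rw [hnv, mul_one]
    refine (norm_rot_sub_lin (AR_star lam hU) (AR_sq lam hU) α).trans ?_
    rw [← sq_abs]
    gcongr
  have h2 : ‖(m.D m.Z d - 1 + Complex.I • (m.Z * m.sinW d)) v‖ ≤
      5 * (1 + r) ^ 2 * (2 * T * a) ^ 2 :=
    (m.norm_D_sub_lin_coh s hd hz).trans (by gcongr)
  have h3 : ‖(Complex.I * (α : ℂ)) • (m.D m.Z d (m.AR lam U v) - m.AR lam U v)‖ ≤
      a * (2 * (2 * T * a) * ((1 + 4 * T) * (1 + 2 * r))) := by
    rw [norm_smul, norm_mul, Complex.norm_I, one_mul, Complex.norm_real, Real.norm_eq_abs]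
    refine mul_le_mul ha ?_ (norm_nonneg _) ha0
    refine (m.isAxis_Z.near1_D hd _ _ (h30_tame_AR hl hU _ _ (m.nb_coh s hz))).trans ?_
    gcongr
  rw [e]
  refine ((norm_sub_le _ _).trans (add_le_add ((norm_add_le _ _).trans (add_le_add h1 h2))
    h3)).trans ?_
  have h4 : 1 ≤ (1 + r) ^ 2 := by nlinarith
  have h5 : 1 + 2 * r ≤ 2 * (1 + r) ^ 2 := by nlinarith
  have h6 : a ^ 2 * (4 * T * (1 + 4 * T)) * (1 + 2 * r) ≤
      a ^ 2 * (4 * T * (1 + 4 * T)) * (2 * (1 + r) ^ 2) := by gcongr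
  nlinarith [mul_le_mul_of_nonneg_left h4 (sq_nonneg a)]

theorem h30_nb_h {lam α T a r : ℝ} (hl : |lam| ≤ T) (ha : |α| ≤ a) {U : H →L[ℂ] H}
    (hU : m.Fib U) (s : Bool) {z : KK} (hz : z ∈ m.R) (hr : ‖z‖ ≤ r) :
    m.NB (a * (20 * T + 2 * (1 + 4 * T)) * (1 + r) ^ 2) (h30h m lam α U (m.coh s z)) := by
  have hT : 0 ≤ T := (abs_nonneg _).trans hl
  have ha0 : 0 ≤ a := (abs_nonneg _).trans ha
  have hr0 : 0 ≤ r := (norm_nonneg _).trans hr
  have hd := dR_mem lam α hU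
  have hdn : ‖m.dR lam α U‖ ≤ 2 * T * a := (norm_dR_le lam α hU).trans (by gcongr)
  have h1 := ((m.isAxis_Z.tame _ _ (m.nb_sinW_coh s hd hz)).smul Complex.I).neg
  have h2 := (h30_tame_AR hl hU _ _ (m.nb_coh s hz)).smul (Complex.I * (α : ℂ))
  refine (h1.sub h2).mono ?_
  rw [norm_mul, Complex.norm_I, one_mul, one_mul, one_mul, Complex.norm_real, Real.norm_eq_abs]
  have h5 : 1 + 2 * ‖z‖ ≤ 2 * (1 + r) ^ 2 := by nlinarith
  calc 10 * (1 + ‖z‖) ^ 2 * ‖m.dR lam α U‖ + |α| * ((1 + 4 * T) * (1 + 2 * ‖z‖))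
      ≤ 10 * (1 + r) ^ 2 * (2 * T * a) + a * ((1 + 4 * T) * (2 * (1 + r) ^ 2)) := by gcongr
    _ = _ := by ring

theorem h30_nb_rst (F : Flat n) {b δ κ : ℝ} (hκ : ∀ p, 8 * |rlam F b p| * |ral F δ p| ≤ κ)
    (hκ0 : 0 ≤ κ) (L : List (Fin F.J × Bool)) : ∀ (U : H →L[ℂ] H) (Λ : ℝ), m.Fib U →
      m.NB Λ (U m.vac) → m.NB (Λ + L.length * κ) (m.rst F b δ U L m.vac) := by
  induction L with
  | nil => intro U Λ _ h; simpa [rst] using h
  | cons p L ih =>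
    intro U Λ hU h
    have h1 := ((cl_RP (rlam F b p) (ral F δ p) hU).mono (hκ p)).nb hκ0
      (fib_RP _ _ hU).norm_le h (n := 1) (by rw [hU.norm_apply, m.norm_vac])
    have h2 := ih (m.RP (rlam F b p) (ral F δ p) U * U) _ ((fib_RP _ _ hU).mul hU) h1
    refine NB.mono (ψ := m.rst F b δ U (p :: L) m.vac) h2 (le_of_eq ?_)
    simp only [List.length_cons]
    push_cast
    ring

theorem h30_rst_eq (F : Flat n) {b δ η : ℝ} (hη : ∀ p, (4 * |rlam F b p| + 1) * |ral F δ p| ≤ η)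
    (L : List (Fin F.J × Bool)) : ∀ (U : H →L[ℂ] H), m.Fib U →
      ∃ G, m.Fib G ∧ m.Near1 (L.length * η) G ∧ m.rst F b δ U L = G * U := by
  induction L with
  | nil =>
    intro U _
    exact ⟨1, m.fib_one, near1_of_norm (by simp), by simp [rst]⟩
  | cons p L ih =>
    intro U hU
    obtain ⟨G, hG, h1, h2⟩ := ih (m.RP (rlam F b p) (ral F δ p) U * U) ((fib_RP _ _ hU).mul hU)
    refine ⟨G * m.RP (rlam F b p) (ral F δ p) U, hG.mul (fib_RP _ _ hU),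
      (h1.mul ((near1_RP _ _ hU).mono (hη p)) hG.norm_le).mono (le_of_eq ?_), ?_⟩
    · simp only [List.length_cons]
      push_cast
      ring
    · rw [mul_assoc, ← h2]
      rfl

end Model

end Crest.Agent.R339
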