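import Crest.Agent.R339.Q.B0
import Crest.Agent.R339.Q.Coh2
import Crest.Agent.R339.Q.BR1a

/-!
# Row 339, part Q: one round of global pulses
-/

set_option autoImplicit false

namespace Crest.Agent.R339

open MeasureTheory ProbabilityTheory Filter Topology Crest.MathPhysics.SpinGlass
open scoped InnerProductSpace ComplexConjugate

namespace Model

variable {K : ℕ} {I : Iamp K} {H KK : Type} [NormedAddCommGroup H] [InnerProductSpace ℂ H]
  [CompleteSpace H] [NormedAddCommGroup KK] [InnerProductSpace ℂ KK] (m : Model I H KK)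

variable {n : ℕ}

theorem nb_rround (F : Flat n) : ∃ C, 0 ≤ C ∧ ∀ (b δ Λ : ℝ) (U : H →L[ℂ] H), |b| ≤ 1 → m.Fib U →
    m.NB Λ (U m.vac) → (∀ L : List (Fin F.J × Bool), L.length ≤ 2 * F.J →
      m.NB (Λ + C * |δ|) (m.rst F b δ U L m.vac)) := by
  obtain ⟨T, A, hT, hA, h1, h2⟩ := h30_bounds F
  refine ⟨2 * F.J * (8 * T * A), by positivity, fun b δ Λ U hb hU hΛ L hL => ?_⟩
  have hκ : ∀ p, 8 * |rlam F b p| * |ral F δ p| ≤ 8 * T * (A * |δ|) := fun p => by
    have := h1 b hb p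
    have := h2 δ p
    gcongr
  refine (h30_nb_rst F hκ (by positivity) L U Λ hU hΛ).mono ?_
  have h3 : (L.length : ℝ) ≤ 2 * F.J := by exact_mod_cast hL
  calc Λ + L.length * (8 * T * (A * |δ|)) ≤ Λ + 2 * F.J * (8 * T * (A * |δ|)) := by gcongr
    _ = _ := by ring

private theorem h30_sum_lin (F : Flat n) (b δ : ℝ) {U : H →L[ℂ] H} (hU : m.Fib U) :
    ∑ p, (-(rlam F b p)) • (m.Z * (-((Complex.I * ((2 * ral F δ p : ℝ) : ℂ)) •
      m.AR (rlam F b p) U))) = (-(2 * b * δ) : ℝ) • (m.X * m.Ps F b (m.j (m.xi U))) := by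
  have hZ : ∀ y, m.Z * (m.X * (m.Z * m.sinW y)) = -(m.X * m.sinW y) := fun y => by
    rw [m.alg3_ZXA, m.alg3_ZZX]
  rw [Fintype.sum_prod_type, Ps, Finset.mul_sum, Finset.smul_sum]
  refine Finset.sum_congr rfl fun i _ => ?_
  have e1 : (2 * rlam F b (i, true)) • m.j (m.xi U) = -((2 * F.t i * b) • m.j (m.xi U)) := by
    rw [← neg_smul]
    congr 1
    simp [rlam, spinSign]
    ring
  have e2 : (2 * rlam F b (i, false)) • m.j (m.xi U) = (2 * F.t i * b) • m.j (m.xi U) := by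
    congr 1
    simp [rlam, spinSign]
    ring
  rw [Fintype.sum_bool, AR_eq _ hU, AR_eq _ hU, e1, e2]
  simp only [D, cosW_neg, sinW_neg, rlam, ral, spinSign, _root_.mul_sub, _root_.mul_neg,
    mul_smul_comm, hZ, smul_neg, smul_sub, ← Complex.coe_smul, smul_smul, if_true,
    Bool.false_eq_true, if_false]
  push_cast
  match_scalars
  · ring
  · linear_combination (2 * (F.t i : ℂ) * b * δ * F.c i) * Complex.I_mul_I

/-- first order: `E† Z E - Z ≈ i α [A, Z] = 2 i α A Z`, the sum over the two signs gives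
`rbeta ≈ -2 b δ j (heis U (X Ps))` -/
theorem norm_rbeta_le (F : Flat n) : ∃ C, 0 ≤ C ∧ ∀ (b δ : ℝ) (U : H →L[ℂ] H), |b| ≤ 1 → m.Fib U →
    ‖m.rbeta F b δ U‖ ≤ 2 * |b| * |δ| * ‖m.Ps F b (m.j (m.xi U)) (U m.vac)‖ + C * δ ^ 2 := by
  obtain ⟨T, A, hT, hA, h1, h2⟩ := h30_bounds F
  refine ⟨2 * F.J * (T * (4 * A ^ 2)), by positivity, fun b δ U hb hU => ?_⟩
  set L : Fin F.J × Bool → H →L[ℂ] H := fun p =>
    m.Z * (-((Complex.I * ((2 * ral F δ p : ℝ) : ℂ)) • m.AR (rlam F b p) U)) with hL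
  set E : Fin F.J × Bool → H →L[ℂ] H := fun p => m.Z * (rot (m.AR (rlam F b p) U) (2 * ral F δ p)
    - 1 + (Complex.I * ((2 * ral F δ p : ℝ) : ℂ)) • m.AR (rlam F b p) U) with hE
  have e : m.rbeta F b δ U = m.j (m.heis U (∑ p, (-(rlam F b p)) • L p)) +
      ∑ p, (-(rlam F b p)) • m.j (m.heis U (E p)) := by
    rw [rbeta, heis_sum, map_sum, ← Finset.sum_add_distrib]
    refine Finset.sum_congr rfl fun p _ => ?_
    rw [dR, h30_B _ _ hU, heis_rsmul, j_rsmul, ← smul_add, ← map_add, ← heis_add, hL, hE]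
    simp only [← _root_.mul_add]
    congr 4
    abel
  rw [e, hL, h30_sum_lin m F b δ hU]
  refine (norm_add_le _ _).trans (add_le_add (le_of_eq ?_) ?_)
  · rw [m.j.norm_map, heis_rsmul, norm_smul, hU.norm_heis, mul_apply_eq_comp,
      m.isAxis_X.fib.norm_apply, Real.norm_eq_abs, abs_neg, abs_mul, abs_mul, abs_two]
  · refine (norm_sum_le _ _).trans ?_
    refine (Finset.sum_le_card_nsmul _ _ (T * (4 * A ^ 2) * δ ^ 2) fun p _ => ?_).trans
      (le_of_eq ?_)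
    · rw [norm_smul, m.j.norm_map, hU.norm_heis, hE, mul_apply_eq_comp, m.isAxis_Z.fib.norm_apply,
        Real.norm_eq_abs, abs_neg, mul_assoc]
      refine mul_le_mul (h1 b hb p) ((ContinuousLinearMap.le_opNorm _ _).trans ?_)
        (norm_nonneg _) hT
      rw [hU.norm_apply, m.norm_vac, mul_one]
      refine (norm_rot_sub_lin (AR_star _ hU) (AR_sq _ hU) _).trans ?_
      have h3 : (ral F δ p) ^ 2 ≤ (A * |δ|) ^ 2 := by
        rw [← sq_abs]
        have := h2 δ p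
        gcongr
      rw [mul_pow, sq_abs] at h3
      nlinarith
    · simp [mul_comm]
      ring

set_option maxHeartbeats 800000 in
/-- freeze the parameters (`heis_stab`, `near1_RP`, `prod_compare`), expand (`prod_expand`, `norm_sinW_sum_coh`,
`norm_D_sub_lin_coh`, `sum_AR`) -/
theorem rround_expand (F : Flat n) : ∃ C, 0 ≤ C ∧ ∀ (b δ Λ r : ℝ) (U : H →L[ℂ] H) (s : Bool) (z : KK),
    |b| ≤ 1 → |δ| ≤ 1 → m.Fib U → 1 ≤ Λ → m.NB Λ (U m.vac) → z ∈ m.R → ‖z‖ ≤ r →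
    ‖(m.rround F b δ U * star U) (m.coh s z) - m.D m.Z (m.rbeta F b δ U) (m.coh s z)
      + (Complex.I * (δ : ℂ)) • (m.X * m.Pc F b (m.j (m.xi U))) (m.coh s z)‖ ≤
      C * (1 + r) ^ 2 * δ ^ 2 * Λ ^ 2 := by
  obtain ⟨T, A, hT, hA, h1, h2⟩ := h30_bounds F
  obtain ⟨C₀, hC₀, h0⟩ := m.nb_rround F
  set N : ℕ := 2 * F.J with hN
  set η₀ : ℝ := N * ((4 * T + 1) * A) with hη₀
  set a₀ : ℝ := A * (4 * T * (1 + 2 * T) * (2 * η₀)) + 2 * (1 + 2 * T * A) *
    (T * (2 * A * (4 * T * (1 + 2 * T) * (2 * η₀) * (1 + C₀)) +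
      (2 * A * η₀ + η₀ * (2 * A * (2 + 4 * T))))) * (1 + 4 * T * A) with ha₀
  have hη₀0 : 0 ≤ η₀ := by positivity
  have ha₀0 : 0 ≤ a₀ := by positivity
  refine ⟨N * a₀ * (1 + 8 * T * A) ^ N * 2 +
    (N * (A ^ 2 * (1 + 20 * T ^ 2 + 8 * T * (1 + 4 * T)) +
      N * ((4 * T + 1) * A) * (A * (20 * T + 2 * (1 + 4 * T)))) + 16 * (N * (2 * T * A)) ^ 2),
    by positivity, fun b δ Λ r U s z hb hδ hU hΛ1 hΛ hz hr => ?_⟩
  have hr0 : 0 ≤ r := (norm_nonneg _).trans hr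
  have h5 : 1 + 2 * ‖z‖ ≤ 2 * (1 + r) ^ 2 := by linarith [sq_nonneg r]
  have hΛ2 : 1 ≤ Λ ^ 2 := one_le_pow₀ hΛ1
  have hδ0 := abs_nonneg δ
  have hA' : A * |δ| ≤ A := mul_le_of_le_one_right hA hδ
  set v := m.coh s z with hv
  have hlen : (allR F).reverse.length = N := by rw [List.length_reverse, h30_length_allR]
  have hη : ∀ p, (4 * |rlam F b p| + 1) * |ral F δ p| ≤ (4 * T + 1) * (A * |δ|) := fun p => by
    have := h1 b hb p
    have := h2 δ p
    gcongr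
  -- step 1: freezing
  have s1 := prod_compare (m := m) (κ := 1 + 8 * T * A) (a := a₀ * δ ^ 2 * Λ ^ 2)
    ((allR F).reverse.map fun p => (m.RP (rlam F b p) (ral F δ p) (m.rUp F b δ p U),
      m.RP (rlam F b p) (ral F δ p) U)) (m.nb_coh s hz) (by linarith [mul_nonneg hT hA])
    (by positivity) (by
      intro q hq
      obtain ⟨p, -, rfl⟩ := List.mem_map.1 hq
      refine ⟨(fib_RP _ _ (fib_rst F b δ hU _)).norm_le,
        ((cl_RP _ _ hU).tame (by positivity) (fib_RP _ _ hU).norm_le).mono ?_⟩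
      have := h1 b hb p
      have := (h2 δ p).trans hA'
      gcongr) (by
      intro q hq l ψ hψ
      obtain ⟨p, -, rfl⟩ := List.mem_map.1 hq
      have hL : ((allR F).takeWhile (· ≠ p)).length ≤ N :=
        (List.takeWhile_sublist _).length_le.trans (h30_length_allR F).le
      obtain ⟨G, hG, g1, g2⟩ := h30_rst_eq F hη ((allR F).takeWhile (· ≠ p)) U hU
      have g3 := h0 b δ Λ U hb hU hΛ _ hL
      have hL' : (((allR F).takeWhile (· ≠ p)).length : ℝ) ≤ N := by exact_mod_cast hL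
      have g4 : m.Near1 (η₀ * |δ|) G := g1.mono (by
        calc _ ≤ N * ((4 * T + 1) * (A * |δ|)) := by gcongr
          _ = _ := by rw [hη₀]; ring)
      rw [g2] at g3
      have g5 : m.NB ((1 + C₀) * Λ) ((G * U) m.vac) := g3.mono (by
        linarith [mul_le_mul_of_nonneg_left (hδ.trans hΛ1) hC₀])
      simp only [rUp, g2]
      refine (h30_RP_sub (h1 b hb p) (h2 δ p) hA' hU hG g4 hΛ g5 hψ).trans ?_
      refine mul_le_mul_of_nonneg_right ?_ hψ.nonneg
      have hΛ3 : Λ ≤ Λ ^ 2 := le_self_pow₀ hΛ1 two_ne_zero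
      rw [← sq_abs δ]
      calc _ = (A * (4 * T * (1 + 2 * T) * (2 * η₀)) * Λ + 2 * (1 + 2 * T * A) *
            (T * (2 * A * (4 * T * (1 + 2 * T) * (2 * η₀) * (1 + C₀)) * Λ ^ 2 +
              (2 * A * η₀ + η₀ * (2 * A * (2 + 4 * T))) * Λ)) * (1 + 4 * T * A)) * |δ| ^ 2 := by
            ring
        _ ≤ (A * (4 * T * (1 + 2 * T) * (2 * η₀)) * Λ ^ 2 + 2 * (1 + 2 * T * A) *
            (T * (2 * A * (4 * T * (1 + 2 * T) * (2 * η₀) * (1 + C₀)) * Λ ^ 2 +
              (2 * A * η₀ + η₀ * (2 * A * (2 + 4 * T))) * Λ ^ 2)) * (1 + 4 * T * A)) * |δ| ^ 2 := by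
            gcongr
        _ = _ := by rw [ha₀]; ring)
  -- step 2: expansion
  have s2 := prod_expand (m := m) (η := (4 * T + 1) * (A * |δ|))
    (a := (A * |δ|) ^ 2 * (1 + 20 * T ^ 2 + 8 * T * (1 + 4 * T)) * (1 + r) ^ 2)
    (lam := A * |δ| * (20 * T + 2 * (1 + 4 * T)) * (1 + r) ^ 2)
    ((allR F).reverse.map fun p => (m.RP (rlam F b p) (ral F δ p) U,
      h30h m (rlam F b p) (ral F δ p) U v)) v (by
      intro q hq
      obtain ⟨p, -, rfl⟩ := List.mem_map.1 hq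
      exact ⟨(near1_RP _ _ hU).mono (hη p), (fib_RP _ _ hU).norm_le⟩) (by
      intro q hq
      obtain ⟨p, -, rfl⟩ := List.mem_map.1 hq
      exact h30_RP_lin (h1 b hb p) (h2 δ p) hU s hz hr) (by
      intro q hq
      obtain ⟨p, -, rfl⟩ := List.mem_map.1 hq
      exact h30_nb_h (h1 b hb p) (h2 δ p) hU s hz hr) (by positivity)
  simp only [List.map_map, List.length_map, hlen, Function.comp_def] at s1 s2
  have e1 : m.rround F b δ U * star U = ((allR F).reverse.map fun p =>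
      m.RP (rlam F b p) (ral F δ p) (m.rUp F b δ p U)).prod := by
    rw [rround_eq_prod, mul_assoc, hU.mul_star_self, mul_one]
  have e2 : ((allR F).reverse.map fun p => h30h m (rlam F b p) (ral F δ p) U v).sum =
      -(Complex.I • m.Z ((∑ p, m.sinW (m.dR (rlam F b p) (ral F δ p) U)) v)) -
        (Complex.I * (δ : ℂ)) • (m.X * m.Pc F b (m.j (m.xi U))) v := by
    rw [List.map_reverse, List.sum_reverse, allR, Finset.sum_map_toList, SemigroupAction.mul_smul,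
      ← _root_.smul_apply (m.X * m.Pc F b (m.j (m.xi U))) (δ : ℂ), ← sum_AR F b δ hU]
    simp only [h30h, Finset.sum_sub_distrib, Finset.sum_neg_distrib, _root_.sum_apply,
      map_sum, Finset.smul_sum, _root_.smul_apply, SemigroupAction.mul_smul]
  -- step 3
  have hsum : ∑ p, ‖m.dR (rlam F b p) (ral F δ p) U‖ ≤ N * (2 * T * A) * |δ| := by
    refine (Finset.sum_le_card_nsmul _ _ (2 * T * (A * |δ|)) fun p _ => ?_).trans (le_of_eq ?_)
    · refine (norm_dR_le _ _ hU).trans ?_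
      have := h1 b hb p
      have := h2 δ p
      gcongr
    · simp [hN, mul_comm]
      ring
  have s3 : ‖(m.D m.Z (m.rbeta F b δ U) - 1 + Complex.I • (m.Z * m.sinW (m.rbeta F b δ U))) v‖ ≤
      5 * (1 + r) ^ 2 * (N * (2 * T * A) * |δ|) ^ 2 := by
    refine (m.norm_D_sub_lin_coh s (rbeta_mem F b δ hU) hz).trans ?_
    have : ‖m.rbeta F b δ U‖ ≤ N * (2 * T * A) * |δ| := (norm_sum_le _ _).trans hsum
    gcongr
  have s4 : ‖Complex.I • m.Z ((m.sinW (m.rbeta F b δ U) -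
      ∑ p, m.sinW (m.dR (rlam F b p) (ral F δ p) U)) v)‖ ≤
      11 * (1 + r) ^ 2 * (N * (2 * T * A) * |δ|) ^ 2 := by
    rw [norm_smul, Complex.norm_I, one_mul, m.isAxis_Z.fib.norm_apply]
    refine (m.norm_sinW_sum_coh Finset.univ s (fun p => dR_mem _ _ hU) hz).trans ?_
    gcongr
  rw [e2] at s2
  rw [e1]
  set P1 := ((allR F).reverse.map fun p =>
      m.RP (rlam F b p) (ral F δ p) (m.rUp F b δ p U)).prod v
  set P2 := ((allR F).reverse.map fun p => m.RP (rlam F b p) (ral F δ p) U).prod v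
  set S := ∑ p, m.sinW (m.dR (rlam F b p) (ral F δ p) U)
  set Q := (Complex.I * (δ : ℂ)) • (m.X * m.Pc F b (m.j (m.xi U))) v
  have e3 : P1 - m.D m.Z (m.rbeta F b δ U) v + Q = (P1 - P2) +
      ((P2 - v - (-(Complex.I • m.Z (S v)) - Q)) +
        (Complex.I • m.Z ((m.sinW (m.rbeta F b δ U) - S) v) -
          (m.D m.Z (m.rbeta F b δ U) - 1 + Complex.I • (m.Z * m.sinW (m.rbeta F b δ U))) v)) := by
    simp only [_root_.add_apply, _root_.sub_apply, _root_.smul_apply, mul_apply_eq_comp,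
      one_apply_eq_self, map_sub, smul_sub]
    abel
  rw [e3]
  refine ((norm_add_le _ _).trans (add_le_add s1 ((norm_add_le _ _).trans (add_le_add s2
    ((norm_sub_le _ _).trans (add_le_add s4 s3)))))).trans ?_
  rw [← sq_abs δ]
  calc _ = N * a₀ * (1 + 8 * T * A) ^ N * (1 + 2 * ‖z‖) * |δ| ^ 2 * Λ ^ 2 +
        (N * (A ^ 2 * (1 + 20 * T ^ 2 + 8 * T * (1 + 4 * T)) +
          N * ((4 * T + 1) * A) * (A * (20 * T + 2 * (1 + 4 * T)))) +
            16 * (N * (2 * T * A)) ^ 2) * (1 + r) ^ 2 * |δ| ^ 2 * 1 := by ring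
    _ ≤ N * a₀ * (1 + 8 * T * A) ^ N * (2 * (1 + r) ^ 2) * |δ| ^ 2 * Λ ^ 2 +
        (N * (A ^ 2 * (1 + 20 * T ^ 2 + 8 * T * (1 + 4 * T)) +
          N * ((4 * T + 1) * A) * (A * (20 * T + 2 * (1 + 4 * T)))) +
            16 * (N * (2 * T * A)) ^ 2) * (1 + r) ^ 2 * |δ| ^ 2 * Λ ^ 2 := by gcongr
    _ = _ := by ring

end Model

end Crest.Agent.R339
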