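import Crest.Agent.R339.Q.BR1

/-!
# Row 339, part Q: selective rotation of the rare component
-/

set_option autoImplicit false

namespace Crest.Agent.R339

open MeasureTheory ProbabilityTheory Filter Topology Crest.MathPhysics.SpinGlass
open scoped InnerProductSpace ComplexConjugate

namespace Model

variable {K : ℕ} {I : Iamp K} {H KK : Type} [NormedAddCommGroup H] [InnerProductSpace ℂ H]
  [CompleteSpace H] [NormedAddCommGroup KK] [InnerProductSpace ℂ KK] (m : Model I H KK)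

variable {n : ℕ}

/-- positions of a set of displacements along the field `y` -/
def PosSet (y : KK) (b ρ : ℝ) (S : Set KK) : Prop :=
  ∀ z ∈ S, ∃ σ : Bool, |2 * om y z - spinSign σ * (Real.pi / (2 * b))| ≤ ρ

theorem br2_B_coh (β : ℝ) (s : Bool) {z : KK} (hz : z ∈ m.R) :
    ∃ c : ℂ, ‖c‖ = 1 ∧ m.B β (m.coh s z) = c • m.coh s z := by
  have h1 : m.B β (m.coh s z) =
      (((Real.cos β : ℝ) : ℂ) - Complex.I * ((Real.sin β : ℝ) : ℂ) * sg s) • m.coh s z := by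
    simp only [B, rot, ContinuousLinearMap.sub_apply, ContinuousLinearMap.smul_apply,
      ContinuousLinearMap.one_apply, X_coh, sub_smul, smul_smul]
  refine ⟨_, ?_, h1⟩
  have h2 := (m.fib_B β).norm_apply (m.coh s z)
  rwa [h1, norm_smul, m.norm_coh s hz, mul_one] at h2

theorem br2_norm_y {U : H →L[ℂ] H} (hU : m.Fib U) : ‖m.j (m.xi U)‖ = 1 := by
  rw [m.j.norm_map, hU.norm_xi]

theorem br2_D_coh {β z : KK} (hβ : β ∈ m.R) (s : Bool) (hz : z ∈ m.R) {r : ℝ} (hr : ‖z‖ ≤ r) :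
    ‖m.D m.Z β (m.coh s z) - m.coh s z‖ ≤ 2 * (1 + 2 * r) * ‖β‖ := by
  have h1 := m.isAxis_Z.near1_D hβ _ _ (m.nb_coh s hz)
  nlinarith [norm_nonneg β]

theorem br2_om {y y₀ z : KK} {A q : ℝ} (hq : 1 ≤ q) (h : ‖y - y₀‖ ≤ 6 * A / q) (hz : ‖z‖ ≤ A * q) :
    |2 * om y z - 2 * om y₀ z| ≤ 12 * A ^ 2 := by
  have h1 := (abs_om_le (y - y₀) z).trans
    (mul_le_mul h hz (norm_nonneg _) ((norm_nonneg _).trans h))
  have h2 : 6 * A / q * (A * q) = 6 * A ^ 2 := by field_simp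
  rw [← _root_.mul_sub, ← om_sub_left, abs_mul, abs_two]
  linarith

/-- one round on a main vector: `D β` and `D (g y₀)` commute up to a scalar phase that does not depend on the vector -/
theorem rround_main (F : Flat n) (A : ℝ) (hA : 1 ≤ A) : ∃ C, 0 ≤ C ∧ ∀ (q Λ : ℝ), 1 ≤ q → 1 ≤ Λ →
    ∃ C', 0 ≤ C' ∧ ∀ (b δ g : ℝ) (U : H →L[ℂ] H) (y₀ : KK), 0 < b → b ≤ 1 → |δ| ≤ 1 → |g| ≤ A * q →
    m.Fib U → m.NB Λ (U m.vac) → y₀ ∈ m.R → ‖y₀‖ ≤ 1 → ‖m.j (m.xi U) - y₀‖ ≤ 6 * A / q →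
    ∃ c : ℂ, ‖c‖ = 1 ∧ ∀ s, ∀ z ∈ m.R, ‖z‖ ≤ A →
      ‖(m.rround F b δ U * star U) (m.D m.Z (g • y₀) (m.coh s z)) - c • m.D m.Z (g • y₀) (m.coh s z)‖ ≤
        C * (‖m.rbeta F b δ U‖ + |δ| * b ^ n) + C' * δ ^ 2 ∧
      ‖m.Ps F b (m.j (m.xi U)) (m.D m.Z (g • y₀) (m.coh s z))‖ ≤ C * b ^ n := by
  obtain ⟨C1, hC1, h1⟩ := m.rround_expand F
  obtain ⟨C2, hC2, h2⟩ := m.flat_coh F
  have hA0 : 0 ≤ A := by linarith
  refine ⟨2 * (1 + 2 * A) + 2 * (C2 * (1 + (2 * A + 12 * A ^ 2)) ^ n), by positivity,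
    fun q Λ hq hΛ => ⟨2 * (C1 * (1 + (A + A * q)) ^ 2 * Λ ^ 2), by positivity, ?_⟩⟩
  intro b δ g U y₀ hb hb1 hδ hg hU hNB hy₀ hy₀1 hy
  have hyR := hU.j_xi_mem
  have hy1 := m.br2_norm_y hU
  have hu : g • y₀ ∈ m.R := m.R.smul_mem g hy₀
  have hun : ‖g • y₀‖ ≤ A * q := by
    rw [norm_smul, Real.norm_eq_abs]
    exact (mul_le_of_le_one_right (abs_nonneg _) hy₀1).trans hg
  have hβ := rbeta_mem F b δ hU
  have hT : m.Fib (m.rround F b δ U * star U) := (fib_rround F b δ hU).mul hU.star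
  refine ⟨Complex.exp (-(Complex.I * ((2 * om (m.rbeta F b δ U) (g • y₀) : ℝ) : ℂ))),
    coh1_norm_expI _, fun s z hz hzA => ?_⟩
  have hom : |2 * om (m.j (m.xi U)) (g • y₀)| ≤ 12 * A ^ 2 := by
    have := br2_om hq hy hun
    rwa [om_smul_right g y₀, om_self, mul_zero, mul_zero, sub_zero] at this
  have hom' : |2 * om (m.j (m.xi U)) z| ≤ 2 * A := by
    have := abs_om_le (m.j (m.xi U)) z
    rw [hy1, one_mul] at this
    rw [abs_mul, abs_two]
    linarith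
  have hMC : m.MC {w | ‖w‖ ≤ A + A * q ∧ |2 * om (m.j (m.xi U)) w| ≤ 2 * A + 12 * A ^ 2} (2 * 1)
      (m.D m.Z (g • y₀) (m.coh s z)) := by
    refine (MC.coh (S := {z}) s hz rfl).D_Z hu ?_
    rintro w rfl
    refine ⟨⟨(norm_add_le _ _).trans (add_le_add hzA hun), ?_⟩,
      (norm_sub_le _ _).trans (add_le_add hzA hun), ?_⟩
    · rw [om_add_right, _root_.mul_add]
      exact (abs_add_le _ _).trans (add_le_add hom' hom)
    · rw [om_sub_right, _root_.mul_sub]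
      exact (abs_sub _ _).trans (add_le_add hom' hom)
  have hfl := fun s' w (hw : w ∈ m.R) =>
    (h2 b (2 * A + 12 * A ^ 2) _ w s' hb.le (by positivity) hyR hw hy1.le).1
  have hbn : 0 ≤ b ^ n := by positivity
  have hC3 : 0 ≤ C2 * (1 + (2 * A + 12 * A ^ 2)) ^ n := by positivity
  constructor
  · have e1 : m.ErrLe {w | ‖w‖ ≤ A + A * q ∧ |2 * om (m.j (m.xi U)) w| ≤ 2 * A + 12 * A ^ 2}
        (m.rround F b δ U * star U) (m.D m.Z (m.rbeta F b δ U))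
        (C1 * (1 + (A + A * q)) ^ 2 * δ ^ 2 * Λ ^ 2 +
          |δ| * (C2 * (b * (1 + (2 * A + 12 * A ^ 2))) ^ n)) := fun s' w hw hwS => by
      have a1 := h1 b δ Λ (A + A * q) U s' w (by rwa [abs_of_pos hb]) hδ hU hΛ hNB hw hwS.1
      have a2 : ‖(Complex.I * (δ : ℂ)) • (m.X * m.Pc F b (m.j (m.xi U))) (m.coh s' w)‖ ≤
          |δ| * (C2 * (b * (1 + (2 * A + 12 * A ^ 2))) ^ n) := by
        rw [norm_smul, ContinuousLinearMap.mul_apply, m.isAxis_X.fib.norm_apply, norm_mul,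
          Complex.norm_I, one_mul, Complex.norm_real, Real.norm_eq_abs]
        exact mul_le_mul_of_nonneg_left (hfl s' w hw hwS.2).1 (abs_nonneg _)
      refine le_trans ?_ ((norm_sub_le _ _).trans (add_le_add a1 a2))
      rw [add_sub_cancel_right]
    have e2 := e1.mc (by positivity) hT.2 (m.isAxis_Z.fib_D hβ).2 hMC
    have e3 : ‖m.D m.Z (m.rbeta F b δ U) (m.D m.Z (g • y₀) (m.coh s z)) -
        Complex.exp (-(Complex.I * ((2 * om (m.rbeta F b δ U) (g • y₀) : ℝ) : ℂ))) •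
          m.D m.Z (g • y₀) (m.coh s z)‖ ≤ 2 * (1 + 2 * A) * ‖m.rbeta F b δ U‖ := by
      have a1 := m.isAxis_Z.D_comm m.isAxis_Z (Commute.refl _) hβ hu
      rw [m.Z_sq, rot_one, mul_smul_comm, mul_one] at a1
      rw [← ContinuousLinearMap.mul_apply, a1, ContinuousLinearMap.smul_apply, ← smul_sub,
        norm_smul, coh1_norm_expI, one_mul, ContinuousLinearMap.mul_apply, ← map_sub,
        (m.isAxis_Z.fib_D hu).norm_apply]
      exact m.br2_D_coh hβ s hz hzA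
    refine (norm_sub_le_norm_sub_add_norm_sub _ _ _).trans ((add_le_add e2 e3).trans ?_)
    rw [mul_pow]
    nlinarith [mul_nonneg hC3 (norm_nonneg (m.rbeta F b δ U)),
      mul_nonneg (mul_nonneg (abs_nonneg δ) hbn) hA0, mul_nonneg (abs_nonneg δ) hbn]
  · refine (hMC.bound (m.cen_Ps F b _) (fun s' w hw hwS => (hfl s' w hw hwS.2).2)
      (by positivity)).trans ?_
    rw [mul_pow]
    nlinarith [mul_nonneg hbn hA0]


theorem rround_rare (F : Flat n) (A : ℝ) (hA : 1 ≤ A) : ∃ C, 0 ≤ C ∧ ∀ (q Λ : ℝ), 1 ≤ q → 1 ≤ Λ →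
    ∃ C', 0 ≤ C' ∧ ∀ (b δ ρ : ℝ) (U : H →L[ℂ] H) (y₀ : KK) (S : Set KK), 0 < b → b ≤ 1 → |δ| ≤ 1 →
    1 ≤ ρ → m.Fib U → m.NB Λ (U m.vac) → ‖m.j (m.xi U) - y₀‖ ≤ 6 * A / q → PosSet y₀ b ρ S →
    (∀ z ∈ S, ‖z‖ ≤ A * q) → ∀ s, ∀ z ∈ m.R, z ∈ S →
      ‖(m.rround F b δ U * star U) (m.coh s z) - m.B δ (m.coh s z)‖ ≤
        C * (q * ‖m.rbeta F b δ U‖ + |δ| * (b * ρ) ^ n) + C' * δ ^ 2 ∧
      ‖m.Ps F b (m.j (m.xi U)) (m.coh s z)‖ ≤ C * (b * ρ) ^ n := by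
  obtain ⟨C1, hC1, h1⟩ := m.rround_expand F
  obtain ⟨C2, hC2, h2⟩ := m.flat_coh F
  have hA0 : 0 ≤ A := by linarith
  refine ⟨2 * (1 + 2 * A) + C2 * (2 + 12 * A ^ 2) ^ n, by positivity,
    fun q Λ hq hΛ => ⟨C1 * (1 + A * q) ^ 2 * Λ ^ 2 + 1, by positivity, ?_⟩⟩
  intro b δ ρ U y₀ S hb hb1 hδ hρ hU hNB hy hP hS s z hz hzS
  have hβ := rbeta_mem F b δ hU
  obtain ⟨σ, hσ⟩ := hP z hzS
  obtain ⟨f1, f2⟩ := (h2 b (ρ + 12 * A ^ 2) _ z s hb.le (by positivity) hU.j_xi_mem hz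
    (m.br2_norm_y hU).le).2 σ hb (by
      have := br2_om hq hy (hS z hzS)
      exact (abs_sub_le _ (2 * om y₀ z) _).trans (by linarith))
  have hκ : 0 ≤ (b * ρ) ^ n := by positivity
  have hC3 : 0 ≤ C2 * (2 + 12 * A ^ 2) ^ n := by positivity
  have f3 : C2 * (b * (1 + (ρ + 12 * A ^ 2))) ^ n ≤ C2 * (2 + 12 * A ^ 2) ^ n * (b * ρ) ^ n := by
    rw [mul_assoc, ← mul_pow]
    refine mul_le_mul_of_nonneg_left (pow_le_pow_left₀ (by positivity) ?_ _) hC2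
    nlinarith [mul_nonneg hb.le (sub_nonneg.2 hρ),
      mul_nonneg (mul_nonneg hb.le (sub_nonneg.2 hρ)) (sq_nonneg A)]
  refine ⟨?_, f2.trans (f3.trans (by nlinarith [mul_nonneg hκ hA0]))⟩
  have a1 := h1 b δ Λ (A * q) U s z (by rwa [abs_of_pos hb]) hδ hU hΛ hNB hz (hS z hzS)
  have a2 := m.br2_D_coh hβ s hz (hS z hzS)
  have a3 : ‖(Complex.I * (δ : ℂ)) • m.X (m.Pc F b (m.j (m.xi U)) (m.coh s z) - m.coh s z)‖ ≤
      |δ| * (C2 * (2 + 12 * A ^ 2) ^ n * (b * ρ) ^ n) := by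
    rw [norm_smul, m.isAxis_X.fib.norm_apply, norm_mul, Complex.norm_I, one_mul, Complex.norm_real,
      Real.norm_eq_abs]
    exact mul_le_mul_of_nonneg_left (f1.trans f3) (abs_nonneg _)
  have a4 : ‖(rot m.X δ - 1 + (Complex.I * (δ : ℂ)) • m.X) (m.coh s z)‖ ≤ δ ^ 2 := by
    refine (ContinuousLinearMap.le_opNorm _ _).trans ?_
    rw [m.norm_coh s hz, mul_one]
    exact norm_rot_sub_lin m.X_star m.X_sq δ
  have e : (m.rround F b δ U * star U) (m.coh s z) - m.B δ (m.coh s z) =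
      ((m.rround F b δ U * star U) (m.coh s z) - m.D m.Z (m.rbeta F b δ U) (m.coh s z)
        + (Complex.I * (δ : ℂ)) • (m.X * m.Pc F b (m.j (m.xi U))) (m.coh s z)) +
      (m.D m.Z (m.rbeta F b δ U) (m.coh s z) - m.coh s z) -
      (Complex.I * (δ : ℂ)) • m.X (m.Pc F b (m.j (m.xi U)) (m.coh s z) - m.coh s z) -
      (rot m.X δ - 1 + (Complex.I * (δ : ℂ)) • m.X) (m.coh s z) := by
    simp only [B, ContinuousLinearMap.add_apply, ContinuousLinearMap.sub_apply,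
      ContinuousLinearMap.smul_apply, ContinuousLinearMap.one_apply,
      ContinuousLinearMap.mul_apply m.X, map_sub, smul_sub]
    abel
  rw [e]
  refine (norm_sub_le _ _).trans ((add_le_add ((norm_sub_le _ _).trans
    (add_le_add ((norm_add_le _ _).trans (add_le_add a1 a2)) a3)) a4).trans ?_)
  have hq0 : 0 ≤ q := by linarith
  nlinarith [mul_nonneg hC3 (mul_nonneg hq0 (norm_nonneg (m.rbeta F b δ U))),
    mul_nonneg (mul_nonneg (abs_nonneg δ) hκ) hA0, mul_nonneg (abs_nonneg δ) hκ,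
    mul_nonneg (sub_nonneg.2 hq) (norm_nonneg (m.rbeta F b δ U))]


theorem br2_field {U E G : H →L[ℂ] H} (hU : m.Fib U) (hE : m.Fib E) (hG : m.Fib G)
    (hZG : Commute m.Z G) {A x e₀ a : ℝ} {χ φ : H} {S : Set KK} (hχ : m.MC S A χ) (hφ : ‖φ‖ ≤ a)
    (h : ‖U m.vac - G χ - φ‖ ≤ e₀) {c : ℂ} (hx : 0 ≤ x) (he : m.ErrLe S (E * G) (c • G) x) :
    ‖m.j (m.xi (E * U)) - m.j (m.xi U)‖ ≤ 2 * e₀ + 2 * a + 2 * (A * x) := by
  have hZ := m.isAxis_Z.fib
  rw [← map_sub, m.j.norm_map, xi, xi, heis_mul, ← heis_sub, hU.norm_heis,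
    ← hE.norm_apply, ← ContinuousLinearMap.mul_apply, _root_.mul_sub, ← mul_assoc, ← mul_assoc,
    hE.mul_star_self, one_mul]
  have a0 : ∀ v, ‖(m.Z * E - E * m.Z) v‖ ≤ 2 * ‖v‖ := fun v => by
    rw [ContinuousLinearMap.sub_apply]
    refine (norm_sub_le _ _).trans ?_
    rw [(hZ.mul hE).norm_apply, (hE.mul hZ).norm_apply, two_mul]
  have a1 := he.mc hx (hE.mul hG).2 (hG.2.smul c) hχ
  have a2 := he.mc hx (hE.mul hG).2 (hG.2.smul c) hχ.Z
  have a3 : (m.Z * E - E * m.Z) (G χ) =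
      m.Z ((E * G) χ - (c • G) χ) - ((E * G) (m.Z χ) - (c • G) (m.Z χ)) := by
    have b1 : G (m.Z χ) = m.Z (G χ) := by
      rw [← ContinuousLinearMap.mul_apply, ← hZG.eq, ContinuousLinearMap.mul_apply]
    simp only [ContinuousLinearMap.sub_apply, ContinuousLinearMap.mul_apply,
      ContinuousLinearMap.smul_apply, map_sub, map_smul, b1]
    abel
  have a4 : ‖(m.Z * E - E * m.Z) (G χ)‖ ≤ 2 * (A * x) := by
    rw [a3]
    refine (norm_sub_le _ _).trans ?_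
    rw [hZ.norm_apply]
    linarith
  have a5 : U m.vac = (U m.vac - G χ - φ) + φ + G χ := by abel
  rw [a5, map_add, map_add]
  refine norm_add₃_le.trans ?_
  linarith [a0 (U m.vac - G χ - φ), a0 φ]

theorem br2_Ps {U E G B' P : H →L[ℂ] H} (hE : m.Fib E) (hG : m.Fib G) (hB : m.Fib B')
    {A x x' e₀ a p : ℝ} {χ φ : H} {S S' : Set KK} (hχ : m.MC S A χ) (hφ : m.MC S' a φ)
    (h : ‖U m.vac - G χ - φ‖ ≤ e₀) {c : ℂ} (hc : ‖c‖ = 1) (hx : 0 ≤ x) (hx' : 0 ≤ x')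
    (he : m.ErrLe S (E * G) (c • G) x) (he' : m.ErrLe S' E B' x') (hP : ‖P‖ ≤ p) :
    ‖P ((E * U) m.vac)‖ ≤ p * (e₀ + A * x + a * x') + ‖P (G χ)‖ + ‖P (B' φ)‖ := by
  have a1 := he.mc hx (hE.mul hG).2 (hG.2.smul c) hχ
  have a2 := he'.mc hx' hE.2 hB.2 hφ
  have a3 : (E * U) m.vac = (E (U m.vac - G χ - φ) + ((E * G) χ - (c • G) χ) + (E φ - B' φ)) +
      c • G χ + B' φ := by
    simp only [ContinuousLinearMap.mul_apply, ContinuousLinearMap.smul_apply, map_sub]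
    abel
  rw [a3, map_add, map_add, map_smul]
  refine norm_add₃_le.trans ?_
  rw [norm_smul, hc, one_mul]
  refine add_le_add_left (add_le_add_left ((ContinuousLinearMap.le_opNorm _ _).trans
    (mul_le_mul hP (norm_add₃_le.trans ?_) (norm_nonneg _) ((norm_nonneg _).trans hP))) _) _
  rw [hE.norm_apply]
  linarith

set_option maxHeartbeats 2000000 in
/-- **rotation of the rare component only.**  `N` rounds with `δ = θ/N`.  Induction on the rounds for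
`E_k = e_m + e_r / q` (`e_m`, `e_r` the errors on main and rare basic vectors, targets `c_k • 1` and `B (k δ)`):
as long as `e_m ≤ 1/q` the field stays within `6A/q` of `y₀` (`‖(E† Z E - Z) U Ω‖ ≤ 2 e₀ + 2A/q + 2 A e_m`), and
`‖rbeta‖ ≤ C |δ| ((bρ)^n + e₀ + E_k) + C δ²`; discrete Gronwall, then `N → ∞`. -/
theorem selective (n : ℕ) (θ A : ℝ) (hA : 1 ≤ A) : ∃ C, 1 ≤ C ∧ ∀ (q b ρ e₀ g : ℝ) (U : H →L[ℂ] H)
    (S : Set KK) (χ φ : H), 1 ≤ q → 0 < b → b ≤ 1 → 1 ≤ ρ → 0 ≤ e₀ → |g| ≤ A * q → U ∈ m.Reach 0 →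
    PosSet (m.j (m.xi U)) b ρ S → (∀ z ∈ S, ‖z‖ ≤ A * q) → m.MC (Metric.closedBall 0 A) A χ →
    m.MC S (A / q) φ → ‖U m.vac - m.D m.Z (g • m.j (m.xi U)) χ - φ‖ ≤ e₀ →
    C * (e₀ + (b * ρ) ^ n) ≤ 1 / q →
    ∃ E, m.Fib E ∧ E * U ∈ m.Reach 0 ∧ ∃ c : ℂ, ‖c‖ = 1 ∧
      m.ErrLe (Metric.closedBall 0 A) (E * m.D m.Z (g • m.j (m.xi U))) (c • m.D m.Z (g • m.j (m.xi U)))
        (C * (e₀ + (b * ρ) ^ n)) ∧
      m.ErrLe S E (m.B θ) (C * q * (e₀ + (b * ρ) ^ n)) := by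
  obtain ⟨F⟩ := exists_flat n
  obtain ⟨Cm, hCm, hm⟩ := m.rround_main F A hA
  obtain ⟨Cr, hCr, hr⟩ := m.rround_rare F A hA
  obtain ⟨Cb, hCb, hb'⟩ := m.norm_rbeta_le F
  obtain ⟨Cn, hCn, hn⟩ := m.nb_rround F
  obtain ⟨p, hp, hP⟩ : ∃ p : ℝ, 0 ≤ p ∧ ∀ b, ∀ y ∈ m.R, ‖m.Ps F b y‖ ≤ p :=
    ⟨_, Finset.sum_nonneg fun _ _ => abs_nonneg _, fun b y hy => m.norm_Ps_le F b hy⟩
  have hA0 : 0 ≤ A := by linarith
  obtain ⟨C3, hC3⟩ : ∃ C3, C3 = 2 * (2 * A * p + A * Cm + 2 * A * Cr) := ⟨_, rfl⟩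
  obtain ⟨C6, hC6⟩ : ∃ C6, C6 = (Cm + Cr) * (C3 + 1) + 1 := ⟨_, rfl⟩
  have hC30 : 0 ≤ C3 := by rw [hC3]; positivity
  have hC60 : 0 ≤ C6 := by rw [hC6]; positivity
  have hC1 : 1 ≤ Real.exp (|θ| * C6) := Real.one_le_exp (by positivity)
  refine ⟨Real.exp (|θ| * C6), hC1, ?_⟩
  intro q b ρ e₀ g U S χ φ hq hb hb1 hρ he₀ hg hU hPos hS hχ hφ hdec hsmall
  have hq0 : 0 < q := by linarith
  have hUf := m.reach_fib hU
  obtain ⟨Λ₀, hΛ₀, hNB₀⟩ := m.nb_reach hU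
  have hΛ : 1 ≤ Λ₀ + Cn * |θ| := by linarith [mul_nonneg hCn (abs_nonneg θ)]
  obtain ⟨Dm, hDm, hm⟩ := hm q _ hq hΛ
  obtain ⟨Dr, hDr, hr⟩ := hr q _ hq hΛ
  have hκ : 0 < (b * ρ) ^ n := by positivity
  have hbκ : b ^ n ≤ (b * ρ) ^ n := pow_le_pow_left₀ hb.le (by nlinarith) _
  generalize hκd : (b * ρ) ^ n = κ at hκ hbκ hsmall ⊢
  obtain ⟨ε, hε⟩ : ∃ ε, ε = e₀ + κ := ⟨_, rfl⟩
  rw [← hε] at hsmall ⊢
  have hε0 : 0 < ε := by linarith
  obtain ⟨C5, hC5⟩ : ∃ C5, C5 = (Cm + Cr) * Cb + Dm + Dr := ⟨_, rfl⟩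
  have hC50 : 0 ≤ C5 := by rw [hC5]; positivity
  obtain ⟨N, hN⟩ := exists_nat_gt (|θ| + C5 * |θ| / ε)
  have hN1 : 0 ≤ C5 * |θ| / ε := by positivity
  have hN0 : (0 : ℝ) < N := by linarith [abs_nonneg θ]
  obtain ⟨δ, hδ⟩ : ∃ δ, δ = θ / N := ⟨_, rfl⟩
  have hδN : N * δ = θ := by rw [hδ]; field_simp
  have hδN' : N * |δ| = |θ| := by rw [← hδN, abs_mul, abs_of_pos hN0]
  have hδ0 := abs_nonneg δ
  have hδ1 : |δ| ≤ 1 := by
    refine le_of_mul_le_mul_left ?_ hN0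
    linarith
  have hδ2 : C5 * δ ^ 2 ≤ |δ| * ε := by
    have a1 : C5 * |θ| / ε ≤ N := by linarith [abs_nonneg θ]
    rw [div_le_iff₀ hε0, ← hδN'] at a1
    have a2 : C5 * |δ| ≤ ε := le_of_mul_le_mul_left (by linarith) hN0
    rw [← sq_abs]
    nlinarith
  have hy₀ := hUf.j_xi_mem
  have hu : g • m.j (m.xi U) ∈ m.R := m.R.smul_mem g hy₀
  have hG := m.isAxis_Z.fib_D hu
  have hZG := m.isAxis_Z.commute_D_self (g • m.j (m.xi U))
  have hb2 : |b| ≤ 1 := by rwa [abs_of_pos hb]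
  have key : ∀ k : ℕ, k ≤ N → ∃ E, m.Fib E ∧ E * U ∈ m.Reach 0 ∧
      m.NB (Λ₀ + Cn * (k * |δ|)) ((E * U) m.vac) ∧ ∃ c : ℂ, ‖c‖ = 1 ∧
      m.ErrLe (Metric.closedBall 0 A) (E * m.D m.Z (g • m.j (m.xi U)))
        (c • m.D m.Z (g • m.j (m.xi U))) (ε * ((1 + |δ| * C6) ^ k - 1)) ∧
      m.ErrLe S E (m.B (k * δ)) (q * (ε * ((1 + |δ| * C6) ^ k - 1))) := by
    intro k
    induction k with
    | zero =>
      refine fun _ => ⟨1, m.fib_one, by rwa [one_mul], by simpa using hNB₀, 1, norm_one,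
        fun s z _ _ => by simp, fun s z _ _ => by simp [B, rot_zero]⟩
    | succ k ih =>
      intro hk
      obtain ⟨E, hE, hR, hNB, c, hc, e1, e2⟩ := ih (by omega)
      have hkN : (k : ℝ) * |δ| ≤ |θ| := by
        rw [← hδN']
        exact mul_le_mul_of_nonneg_right (by exact_mod_cast (by omega : k ≤ N)) hδ0
      have hw1 : 1 ≤ (1 + |δ| * C6) ^ k := one_le_pow₀ (by linarith [mul_nonneg hδ0 hC60])
      have hw2 : (1 + |δ| * C6) ^ k ≤ Real.exp (|θ| * C6) := by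
        refine (pow_le_pow_left₀ (by positivity)
          (by linarith [Real.add_one_le_exp (|δ| * C6)] : _ ≤ Real.exp (|δ| * C6)) k).trans ?_
        rw [← Real.exp_nat_mul, ← mul_assoc]
        exact Real.exp_le_exp.2 (mul_le_mul_of_nonneg_right hkN hC60)
      obtain ⟨x, hx⟩ : ∃ x, x = ε * ((1 + |δ| * C6) ^ k - 1) := ⟨_, rfl⟩
      have hx' : ε * ((1 + |δ| * C6) ^ (k + 1) - 1) = x + |δ| * C6 * (ε + x) := by
        rw [hx]; ring
      rw [← hx] at e1 e2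
      rw [hx']
      have hx0 : 0 ≤ x := by rw [hx]; exact mul_nonneg hε0.le (by linarith)
      have hx1 : x + ε ≤ 1 / q := by
        refine le_trans ?_ hsmall
        rw [hx]
        nlinarith
      have hV := hE.mul hUf
      have hy : ‖m.j (m.xi (E * U)) - m.j (m.xi U)‖ ≤ 6 * A / q := by
        refine (m.br2_field hUf hE hG hZG hχ hφ.norm_le hdec hx0 e1).trans ?_
        have a1 : 0 < 1 / q := by positivity
        have a2 := mul_le_mul_of_nonneg_left (by linarith : x ≤ 1 / q) hA0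
        have a3 := mul_le_mul_of_nonneg_right hA a1.le
        rw [div_eq_mul_one_div A, div_eq_mul_one_div (6 * A)]
        linarith
      have hNB' := hNB.mono (add_le_add_right (mul_le_mul_of_nonneg_left hkN hCn) Λ₀)
      obtain ⟨c', hc', hm⟩ := hm b δ g (E * U) _ hb hb1 hδ1 hg hV hNB' hy₀ (m.br2_norm_y hUf).le hy
      have hr := hr b δ ρ (E * U) _ S hb hb1 hδ1 hρ hV hNB' hy hPos hS
      rw [hκd] at hr
      have hT := (fib_rround F b δ hV).mul hV.star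
      have hTE : m.rround F b δ (E * U) * star (E * U) * E * U = m.rround F b δ (E * U) := by
        rw [mul_assoc, mul_assoc, hV.star_mul_self, mul_one]
      have hβ : ‖m.rbeta F b δ (E * U)‖ ≤ |δ| * C3 * (ε + x) + Cb * δ ^ 2 := by
        refine (hb' b δ _ hb2 hV).trans (add_le_add_left ?_ _)
        have a1 := m.br2_Ps hE hG (m.fib_B (k * δ)) hχ hφ hdec hc hx0 (mul_nonneg hq0.le hx0) e1 e2
          (hP b _ hV.j_xi_mem)
        have a2 := hχ.bound ((m.cen_Ps F b (m.j (m.xi (E * U)))).mul hG.2) (e := Cm * b ^ n)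
          (fun s z hz hzA => (hm s z hz (mem_closedBall_zero_iff.1 hzA)).2) (by positivity)
        have a3 := (hφ.B (k * δ)).bound (m.cen_Ps F b (m.j (m.xi (E * U)))) (e := Cr * κ)
          (fun s z hz hzS => (hr s z hz hzS).2) (by positivity)
        rw [ContinuousLinearMap.mul_apply] at a2
        have a4 : A / q * (q * x) = A * x := by field_simp
        have a5 : A / q ≤ A := div_le_self hA0 hq
        have a6 := mul_le_mul_of_nonneg_right a5 (mul_nonneg hCr hκ.le)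
        have a7 := mul_le_mul_of_nonneg_left hbκ (mul_nonneg hA0 hCm)
        have a8 : ‖m.Ps F b (m.j (m.xi (E * U))) ((E * U) m.vac)‖ ≤
            (2 * A * p + A * Cm + 2 * A * Cr) * (ε + x) := by
          rw [a4] at a1
          rw [hε]
          nlinarith [mul_nonneg hp (mul_nonneg he₀ (sub_nonneg.2 hA)), mul_nonneg hp he₀,
            mul_nonneg (mul_nonneg hA0 hp) hκ.le, mul_nonneg (mul_nonneg hA0 hp) he₀,
            mul_nonneg (mul_nonneg hA0 hCm) (add_nonneg he₀ hx0),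
            mul_nonneg (mul_nonneg hA0 hCr) (add_nonneg he₀ hx0)]
        have a9 := mul_le_mul (mul_le_mul_of_nonneg_right
          (mul_le_mul_of_nonneg_left hb2 two_pos.le) hδ0) a8 (norm_nonneg _) (by positivity)
        rw [hC3]
        linarith
      have hinc : ∀ C D : ℝ, 0 ≤ C → C ≤ Cm + Cr → D ≤ Dm + Dr →
          C * (‖m.rbeta F b δ (E * U)‖ + |δ| * κ) + D * δ ^ 2 ≤ |δ| * C6 * (ε + x) := by
        intro C D h0 h1 h2
        have a1 : |δ| * κ ≤ |δ| * (ε + x) := mul_le_mul_of_nonneg_left (by linarith) hδ0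
        have a2 := mul_le_mul h1 (add_le_add hβ a1) (by positivity) (by positivity)
        have a3 := mul_le_mul_of_nonneg_right h2 (sq_nonneg δ)
        rw [hC5] at hδ2
        rw [hC6]
        nlinarith [mul_nonneg hδ0 hx0]
      refine ⟨m.rround F b δ (E * U) * star (E * U) * E, hT.mul hE, ?_, ?_, c * c',
        by rw [norm_mul, hc, hc', one_mul], fun s z hz hzA => ?_, fun s z hz hzS => ?_⟩
      · rw [hTE]
        exact rround_mem_reach F b δ hR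
      · rw [hTE]
        refine (hn b δ _ _ hb2 hV hNB (allR F) (by simp [allR, mul_comm])).mono (le_of_eq ?_)
        push_cast
        ring
      · have a1 := e1 s z hz hzA
        have a2 := (hm s z hz (mem_closedBall_zero_iff.1 hzA)).1
        rw [← hT.norm_apply] at a1
        rw [← one_mul ‖_‖, ← hc, ← norm_smul] at a2
        have a3 := hinc Cm Dm hCm (by linarith) (by linarith)
        have a4 := mul_le_mul_of_nonneg_left (mul_le_mul_of_nonneg_left hbκ hδ0) hCm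
        refine le_trans (le_of_eq ?_) ((norm_add_le _ _).trans ((add_le_add a1 a2).trans
          (by linarith)))
        congr 1
        simp only [ContinuousLinearMap.mul_apply, ContinuousLinearMap.smul_apply, map_sub,
          map_smul, smul_sub, smul_smul]
        abel
      · have a1 := e2 s z hz hzS
        have a2 := (hr s z hz hzS).1
        obtain ⟨d, hd, hd'⟩ := m.br2_B_coh (k * δ) s hz
        rw [← hT.norm_apply] at a1
        rw [← one_mul ‖_‖, ← hd, ← norm_smul] at a2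
        have a3 := mul_le_mul_of_nonneg_left (hinc Cr Dr hCr (by linarith) (by linarith)) hq0.le
        have a4 := mul_nonneg (sub_nonneg.2 hq) (mul_nonneg hCr (mul_nonneg hδ0 hκ.le))
        have a5 := mul_nonneg (sub_nonneg.2 hq) (mul_nonneg hDr (sq_nonneg δ))
        refine le_trans (le_of_eq ?_) ((norm_add_le _ _).trans ((add_le_add a1 a2).trans
          (by linarith)))
        congr 1
        have a6 : m.B (((k + 1 : ℕ) : ℝ) * δ) = m.B δ * m.B (k * δ) := by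
          rw [B, B, B, ← rot_add m.X_sq]
          congr 1
          push_cast
          ring
        simp only [a6, ContinuousLinearMap.mul_apply, map_sub, hd', map_smul, smul_sub]
        abel
  obtain ⟨E, hE, hR, -, c, hc, e1, e2⟩ := key N le_rfl
  have hw2 : (1 + |δ| * C6) ^ N ≤ Real.exp (|θ| * C6) := by
    refine (pow_le_pow_left₀ (by positivity)
      (by linarith [Real.add_one_le_exp (|δ| * C6)] : _ ≤ Real.exp (|δ| * C6)) N).trans ?_
    rw [← Real.exp_nat_mul, ← mul_assoc, hδN']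
  have hfin : ε * ((1 + |δ| * C6) ^ N - 1) ≤ Real.exp (|θ| * C6) * ε := by nlinarith
  rw [hδN] at e2
  refine ⟨E, hE, hR, c, hc, fun s z hz hzA => (e1 s z hz hzA).trans hfin,
    fun s z hz hzS => (e2 s z hz hzS).trans ?_⟩
  nlinarith [mul_le_mul_of_nonneg_left hfin hq0.le]


end Model

end Crest.Agent.R339
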