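import Crest.Agent.R339.Q.B0

/-!
# Row 339, part Q: the seed and the ideal two-sector process
-/

set_option autoImplicit false

namespace Crest.Agent.R339

open MeasureTheory ProbabilityTheory Filter Topology Crest.MathPhysics.SpinGlass
open scoped InnerProductSpace ComplexConjugate

namespace Model

variable {I : Iamp 0} {H KK : Type} [NormedAddCommGroup H] [InnerProductSpace ℂ H]
  [CompleteSpace H] [NormedAddCommGroup KK] [InnerProductSpace ℂ KK] (m : Model I H KK)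

theorem d_j0 (i : Fin (0 + 1)) (ξ : H) : ⟪m.d i, m.j ξ⟫_ℂ = 0 := by
  rw [Subsingleton.elim (α := Fin 1) i 0]; exact m.j_d0 ξ
theorem j_mem0 (ξ : H) : m.j ξ ∈ m.R := fun i => by rw [m.d_j0]; rfl

section defs
variable (q : ℝ)
noncomputable def eta0 : KK := m.j (m.Z m.vac)
noncomputable def eta1 : KK := m.j (m.xi (m.run [(0, Real.sqrt q, Real.arcsin (1 / q))]))
/-- the seed: a rare, far displaced component of amplitude `1/q` -/
noncomputable def U1 : H →L[ℂ] H :=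
  m.run [(0, Real.sqrt q, Real.arcsin (1 / q)), (0, -Real.sqrt q, Real.pi / 4)]
noncomputable def ys : KK := Real.sqrt q • (m.eta0 - m.eta1 q)
noncomputable def vv : KK := Real.sqrt q • (m.eta0 + m.eta1 q)
noncomputable def T1 : H →L[ℂ] H := m.B (Real.pi / 4) * m.D m.Z (m.ys q)
noncomputable def Rr : H →L[ℂ] H := m.B (Real.pi / 4) * m.X * m.D m.Z (m.vv q)
noncomputable def cm : ℂ := ((Real.cos (Real.arcsin (1 / q)) : ℝ) : ℂ) *
  Complex.exp (Complex.I * ((q * om (m.eta1 q) m.eta0 : ℝ) : ℂ))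
noncomputable def cr : ℂ := -Complex.I * ((1 / q : ℝ) : ℂ) *
  Complex.exp (-(Complex.I * ((q * om (m.eta1 q) m.eta0 : ℝ) : ℂ)))
/-- field of a main sector vector -/
noncomputable def Jm (ξ : H) : KK := m.j (star (m.U1 q) (m.cm q • m.T1 q ξ))
/-- field of the rare sector -/
noncomputable def yr : KK := m.j (star (m.U1 q) (m.cr q • m.Z (m.Rr q m.vac)))
variable (a γ β : ℕ → ℝ)
noncomputable def iyf (k : ℕ) (T : H →L[ℂ] H) : KK :=
  if k = 0 then m.ys q else γ k • (m.Jm q (m.xi T) + m.yr q) + (a k * q) • m.yr q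
/-- the ideal main sector process -/
noncomputable def iT : ℕ → H →L[ℂ] H
  | 0 => 1
  | k + 1 => m.B (β k) * m.D m.Z (m.iyf q a γ k (iT k)) * iT k
noncomputable def iy (k : ℕ) : KK := m.iyf q a γ k (m.iT q a γ β k)
noncomputable def ym (k : ℕ) : KK := m.Jm q (m.xi (m.iT q a γ β k))
/-- accumulated displacement of the rare sector -/
noncomputable def iw (k : ℕ) : KK :=
  ∑ i ∈ Finset.Ico 1 k, (γ i • (m.ym q a γ β i + m.yr q) + (a i * q) • m.ym q a γ β i)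
/-- the true state `U` follows `Vm` on main vectors and `Vr` on rare vectors -/
def Inv2 (A₀ : ℝ) (U Vm Vr : H →L[ℂ] H) (e : ℝ) : Prop :=
  U ∈ m.Reach 0 ∧ ∃ κm κr : ℂ, ‖κm‖ = 1 ∧ ‖κr‖ = 1 ∧
    m.ErrLe (Metric.closedBall 0 A₀) (U * star (m.U1 q)) (κm • Vm) e ∧
    m.ErrLe {m.vv q, -m.vv q} (U * star (m.U1 q)) (κr • Vr) e
def Inv (A₀ : ℝ) (k : ℕ) (U : H →L[ℂ] H) (e : ℝ) : Prop :=
  m.Inv2 q A₀ U (m.iT q a γ β k * star (m.T1 q)) (m.D m.Z (m.iw q a γ β k)) e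
/-- cluster positions in the layer `k` -/
def Pos (k : ℕ) (b ρ : ℝ) : Prop :=
  ∀ s s' : Bool, ∃ σ : Bool, |2 * om (m.ym q a γ β k) (spinSign s • m.vv q + spinSign s' • m.iw q a γ β k)
    - spinSign σ * (Real.pi / (2 * b))| ≤ ρ
end defs

variable {q : ℝ}
theorem U1_mem_reach (q : ℝ) : m.U1 q ∈ m.Reach 0 := by
  refine ⟨_, fun L hL i _ => ?_, 0, measurable_const, by rw [m.ph_zero, one_mul]; rfl⟩
  simp only [List.mem_cons, List.not_mem_nil, or_false] at hL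
  rcases hL with rfl | rfl <;> rfl
theorem ys_mem (q : ℝ) : m.ys q ∈ m.R := m.R.smul_mem _ (m.R.sub_mem (m.j_mem0 _) (m.j_mem0 _))
theorem vv_mem (q : ℝ) : m.vv q ∈ m.R := m.R.smul_mem _ (m.R.add_mem (m.j_mem0 _) (m.j_mem0 _))
theorem d_vv (q : ℝ) (i : Fin (0 + 1)) : ⟪m.d i, m.vv q⟫_ℂ = 0 := by
  rw [vv, ← Complex.coe_smul, inner_smul_right, inner_add_right, eta0, eta1, m.d_j0, m.d_j0]
  simp
theorem yr_mem (q : ℝ) : m.yr q ∈ m.R := m.j_mem0 _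
theorem Jm_mem (q : ℝ) (ξ : H) : m.Jm q ξ ∈ m.R := m.j_mem0 _
theorem fib_T1 (q : ℝ) : m.Fib (m.T1 q) := (m.fib_B _).mul (m.isAxis_Z.fib_D (m.ys_mem q))
theorem fib_Rr (q : ℝ) : m.Fib (m.Rr q) := ((m.fib_B _).mul m.isAxis_X.fib).mul (m.isAxis_Z.fib_D (m.vv_mem q))
private theorem bs0_sin (hq : 1 ≤ q) : Real.sin (Real.arcsin (1 / q)) = 1 / q :=
  Real.sin_arcsin (le_trans (by norm_num) (by positivity : (0 : ℝ) ≤ 1 / q))
    ((div_le_one (by linarith)).mpr hq)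
private theorem bs0_labv : m.labv 0 = 0 := by simp [labv]
private theorem bs0_run (q : ℝ) : m.run [(0, Real.sqrt q, Real.arcsin (1 / q))] =
    m.B (Real.arcsin (1 / q)) * m.D m.Z (Real.sqrt q • m.eta0) := by
  simp only [run, runFrom, List.foldl, step, fld, m.bs0_labv, add_zero, mul_one, xi,
    m.heis_one_left, eta0]
private theorem bs0_U1 (q : ℝ) : m.U1 q = m.B (Real.pi / 4) *
    (m.D m.Z (-(Real.sqrt q • m.eta1 q)) * m.B (Real.arcsin (1 / q)) *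
      m.D m.Z (Real.sqrt q • m.eta0)) := by
  have h : m.U1 q = m.step (m.run [(0, Real.sqrt q, Real.arcsin (1 / q))])
      (0, -Real.sqrt q, Real.pi / 4) := rfl
  rw [h, step, fld, m.bs0_labv, add_zero, neg_smul, ← eta1, m.bs0_run, mul_assoc, mul_assoc]
/-- `B τ = cos τ - i sin τ X`, `D(-Γη₁) X = X D(Γη₁)`, `D_mul` -/
theorem U1_eq (hq : 1 ≤ q) : m.U1 q = m.cm q • m.T1 q + m.cr q • m.Rr q := by
  have hq0 : 0 ≤ q := by linarith
  have h0 : Real.sqrt q • m.eta0 ∈ m.R := m.R.smul_mem _ (m.j_mem0 _)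
  have h1 : Real.sqrt q • m.eta1 q ∈ m.R := m.R.smul_mem _ (m.j_mem0 _)
  have o1 : om (Real.sqrt q • m.eta1 q) (Real.sqrt q • m.eta0) = q * om (m.eta1 q) m.eta0 := by
    rw [om_smul_left, om_smul_right, ← mul_assoc, Real.mul_self_sqrt hq0]
  have a1 := m.isAxis_Z.D_mul (m.R.neg_mem h1) h0
  have a2 := m.isAxis_Z.D_mul h1 h0
  rw [om_neg_left, o1, neg_add_eq_sub, ← smul_sub] at a1
  rw [o1, ← smul_add, add_comm] at a2
  have a3 := m.anti_D (Q := m.Z) m.X_W (by rw [m.ZX, neg_neg]) (Real.sqrt q • m.eta1 q)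
  have a4 : m.B (Real.arcsin (1 / q)) = ((Real.cos (Real.arcsin (1 / q)) : ℝ) : ℂ) • 1 -
      (Complex.I * ((1 / q : ℝ) : ℂ)) • m.X := by rw [B, rot, bs0_sin hq]
  rw [m.bs0_U1, a4, _root_.mul_sub (m.D m.Z _), mul_smul_comm, mul_smul_comm,
    mul_one, ← a3, sub_mul (_ • _), smul_mul_assoc, smul_mul_assoc, mul_assoc m.X, a1, a2,
    mul_smul_comm, smul_smul, smul_smul, _root_.mul_sub, mul_smul_comm, mul_smul_comm,
    sub_eq_add_neg, ← neg_smul, ← mul_assoc]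
  congr 2
  · simp [cm]
  · simp [cr]
theorem norm_cm_sq (hq : 1 ≤ q) : ‖m.cm q‖ ^ 2 = 1 - 1 / q ^ 2 := by
  rw [cm, norm_mul, Complex.norm_exp_I_mul_ofReal, mul_one, Complex.norm_real, Real.norm_eq_abs,
    sq_abs, Real.cos_sq', bs0_sin hq, div_pow, one_pow]
theorem norm_cm_le (hq : 1 ≤ q) : ‖m.cm q‖ ≤ 1 := by
  have h := m.norm_cm_sq hq
  have h2 : 0 ≤ 1 / q ^ 2 := by positivity
  exact (pow_le_one_iff_of_nonneg (norm_nonneg _) two_ne_zero).mp (by linarith)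
theorem norm_cr (hq : 1 ≤ q) : ‖m.cr q‖ = 1 / q := by
  rw [cr, norm_mul, norm_mul, ← _root_.mul_neg, ← Complex.ofReal_neg, Complex.norm_exp_I_mul_ofReal,
    norm_neg, Complex.norm_I, Complex.norm_real, Real.norm_of_nonneg (by positivity), one_mul,
    mul_one]
theorem norm_eta_sub (hq : 1 ≤ q) : ‖m.eta0 - m.eta1 q‖ ≤ 4 / q := by
  have h0 : Real.sqrt q • m.eta0 ∈ m.R := m.R.smul_mem _ (m.j_mem0 _)
  have hF := m.isAxis_Z.fib_D h0
  have h1 : m.xi (m.D m.Z (Real.sqrt q • m.eta0)) = m.Z m.vac := by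
    rw [← mul_one (m.D m.Z _), m.xi_D h0, xi, m.heis_one_left]
  have h2 : ‖m.heis (m.D m.Z (Real.sqrt q • m.eta0)) m.Y‖ = 1 := by
    rw [hF.norm_heis, m.isAxis_Y.fib.norm_apply, hF.norm_apply, m.norm_vac]
  have h3 : ‖m.Z m.vac‖ = 1 := by rw [m.isAxis_Z.fib.norm_apply, m.norm_vac]
  have hs := bs0_sin hq
  have hq0 : 0 < 1 / q := by positivity
  have hq1 : 1 / q ≤ 1 := (div_le_one (by linarith)).mpr hq
  rw [eta1, m.bs0_run, m.xi_B, h1, eta0, ← map_sub, m.j.norm_map, ← sub_sub]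
  refine (norm_sub_le _ _).trans ?_
  nth_rewrite 1 [← one_smul ℂ (m.Z m.vac)]
  rw [← sub_smul, norm_smul, norm_smul, ← eta0, h2, h3, mul_one, mul_one, ← Complex.ofReal_one,
    ← Complex.ofReal_sub, Complex.norm_real, Complex.norm_real, Real.cos_two_mul, Real.cos_sq',
    Real.sin_two_mul, hs, Real.norm_of_nonneg (by nlinarith), Real.norm_eq_abs, abs_mul,
    abs_of_nonneg (by positivity : (0 : ℝ) ≤ 2 * (1 / q)), show 4 / q = 4 * (1 / q) by ring]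
  have := Real.abs_cos_le_one (Real.arcsin (1 / q))
  nlinarith
theorem norm_ys_le (hq : 1 ≤ q) : ‖m.ys q‖ ≤ 4 / Real.sqrt q := by
  have hs : 0 < Real.sqrt q := Real.sqrt_pos.mpr (by linarith)
  rw [ys, norm_smul, Real.norm_of_nonneg hs.le]
  refine (mul_le_mul_of_nonneg_left (m.norm_eta_sub hq) hs.le).trans (le_of_eq ?_)
  nth_rewrite 2 [← Real.mul_self_sqrt (by linarith : 0 ≤ q)]
  field_simp
theorem norm_vv_le (hq : 1 ≤ q) : ‖m.vv q‖ ≤ 2 * Real.sqrt q := by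
  have h0 : ‖m.eta0‖ = 1 := by
    rw [eta0, m.j.norm_map, m.isAxis_Z.fib.norm_apply, m.norm_vac]
  have h1 : ‖m.eta1 q‖ = 1 := by rw [eta1, m.j.norm_map, (m.fib_run _).norm_xi]
  have h2 := norm_add_le m.eta0 (m.eta1 q)
  rw [vv, norm_smul, Real.norm_of_nonneg (Real.sqrt_nonneg q), mul_comm]
  exact mul_le_mul_of_nonneg_right (by linarith) (Real.sqrt_nonneg q)
theorem norm_vv_sub (hq : 1 ≤ q) : ‖m.vv q - (2 * Real.sqrt q) • m.eta0‖ ≤ 4 / Real.sqrt q := by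
  have : m.vv q - (2 * Real.sqrt q) • m.eta0 = -m.ys q := by
    rw [vv, ys]; module
  rw [this, norm_neg]
  exact m.norm_ys_le hq
private theorem bs0_fib (q : ℝ) : m.Fib (m.U1 q) := m.fib_run _
theorem norm_yr (hq : 1 ≤ q) : ‖m.yr q‖ = 1 / q := by
  rw [yr, m.j.norm_map, (m.bs0_fib q).star.norm_apply, norm_smul, m.isAxis_Z.fib.norm_apply,
    (m.fib_Rr q).norm_apply, m.norm_vac, mul_one, m.norm_cr hq]
theorem inner_Jm (hq : 1 ≤ q) (ξ ξ' : H) :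
    ⟪m.Jm q ξ, m.Jm q ξ'⟫_ℂ = ((1 - 1 / q ^ 2 : ℝ) : ℂ) * ⟪ξ, ξ'⟫_ℂ := by
  rw [Jm, Jm, m.j.inner_map_map, (m.bs0_fib q).star.inner_apply, inner_smul_left, inner_smul_right,
    (m.fib_T1 q).inner_apply, ← mul_assoc, Complex.conj_mul', ← m.norm_cm_sq hq]
  push_cast
  rfl
theorem norm_Jm_le (hq : 1 ≤ q) (ξ : H) : ‖m.Jm q ξ‖ ≤ ‖ξ‖ := by
  rw [Jm, m.j.norm_map, (m.bs0_fib q).star.norm_apply, norm_smul, (m.fib_T1 q).norm_apply]
  exact mul_le_of_le_one_left (norm_nonneg _) (m.norm_cm_le hq)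
theorem mc_Rr (q : ℝ) : m.MC {m.vv q, -m.vv q} 4 (m.Rr q m.vac) := by
  have h := (((m.mc_vac le_rfl).D_Z (S' := {m.vv q, -m.vv q}) (m.vv_mem q) fun z hz => by
    rw [Metric.closedBall_zero, Set.mem_singleton_iff] at hz
    simp [hz]).X).B (Real.pi / 4)
  exact h.mono (by norm_num)
variable (a γ β : ℕ → ℝ)
theorem iy_mem (q : ℝ) (k : ℕ) : m.iy q a γ β k ∈ m.R := by
  unfold iy iyf
  split_ifs
  · exact m.ys_mem q
  · exact m.R.add_mem (m.R.smul_mem _ (m.R.add_mem (m.Jm_mem _ _) (m.yr_mem _)))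
      (m.R.smul_mem _ (m.yr_mem _))
theorem iw_mem (q : ℝ) (k : ℕ) : m.iw q a γ β k ∈ m.R :=
  m.R.sum_mem fun _ _ => m.R.add_mem (m.R.smul_mem _ (m.R.add_mem (m.Jm_mem _ _) (m.yr_mem _)))
    (m.R.smul_mem _ (m.Jm_mem _ _))
theorem iT_eq_genU (q : ℝ) (k : ℕ) : m.iT q a γ β k = m.genU (m.iy q a γ β) β k := by
  induction k with
  | zero => rfl
  | succ k ih => rw [genU, ← ih]; rfl
theorem fib_iT (q : ℝ) (k : ℕ) : m.Fib (m.iT q a γ β k) := by
  rw [m.iT_eq_genU]; exact m.fib_genU (m.iy_mem a γ β q) β k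
theorem iT_one (q : ℝ) (hβ : β 0 = Real.pi / 4) : m.iT q a γ β 1 = m.T1 q := by
  simp only [iT, iyf, if_pos, mul_one, hβ, T1]
theorem norm_ym_le (hq : 1 ≤ q) (k : ℕ) : ‖m.ym q a γ β k‖ ≤ 1 := (m.norm_Jm_le hq _).trans (m.fib_iT a γ β q k).norm_xi.le
private theorem bs0_ys (hq : 1 ≤ q) : ‖m.ys q‖ ≤ 4 :=
  (m.norm_ys_le hq).trans (div_le_self (by norm_num) (Real.one_le_sqrt.mpr hq))
theorem norm_iy_le (hq : 1 ≤ q) {A : ℝ} (hA : 1 ≤ A) (ha : ∀ k, |a k| ≤ A) (hγ : ∀ k, |γ k| ≤ A) (k : ℕ) :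
    ‖m.iy q a γ β k‖ ≤ 4 * A := by
  unfold iy iyf
  split_ifs
  · exact (m.bs0_ys hq).trans (by linarith)
  · have h1 : ‖m.Jm q (m.xi (m.iT q a γ β k))‖ ≤ 1 := m.norm_ym_le a γ β hq k
    have h2 := m.norm_yr hq
    have hq1 : 1 / q ≤ 1 := (div_le_one (by linarith)).mpr hq
    have h3 : ‖m.Jm q (m.xi (m.iT q a γ β k)) + m.yr q‖ ≤ 2 :=
      (norm_add_le _ _).trans (by linarith)
    refine (norm_add_le _ _).trans ?_
    rw [norm_smul, norm_smul, h2, Real.norm_eq_abs, Real.norm_eq_abs, abs_mul,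
      abs_of_nonneg (by linarith : 0 ≤ q), mul_assoc, mul_one_div_cancel (by linarith), mul_one]
    have h4 := mul_le_mul (hγ k) h3 (norm_nonneg _) (by linarith)
    linarith [ha k]
theorem norm_iw_le (hq : 1 ≤ q) {A : ℝ} (ha : ∀ k, |a k| ≤ A) (hγ : ∀ k, |γ k| ≤ A) (k : ℕ) :
    ‖m.iw q a γ β k‖ ≤ 3 * k * A * q := by
  have hA : 0 ≤ A := (abs_nonneg _).trans (ha 0)
  have h : ∀ i, ‖γ i • (m.ym q a γ β i + m.yr q) + (a i * q) • m.ym q a γ β i‖ ≤ 3 * A * q := by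
    intro i
    have h1 := m.norm_ym_le a γ β hq i
    have h2 := m.norm_yr hq
    have hq1 : 1 / q ≤ 1 := (div_le_one (by linarith)).mpr hq
    have h3 : ‖m.ym q a γ β i + m.yr q‖ ≤ 2 := (norm_add_le _ _).trans (by linarith)
    refine (norm_add_le _ _).trans ?_
    rw [norm_smul, norm_smul, Real.norm_eq_abs, Real.norm_eq_abs, abs_mul,
      abs_of_nonneg (by linarith : 0 ≤ q)]
    have h4 := mul_le_mul (hγ i) h3 (norm_nonneg _) hA
    have h5 := mul_le_mul (mul_le_mul_of_nonneg_right (ha i) (by linarith : 0 ≤ q)) h1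
      (norm_nonneg _) (by positivity)
    nlinarith
  refine (norm_sum_le_of_le _ fun i _ => h i).trans ?_
  rw [Finset.sum_const, Nat.card_Ico, nsmul_eq_mul]
  have h1 : ((k - 1 : ℕ) : ℝ) ≤ k := by exact_mod_cast Nat.sub_le k 1
  exact (mul_le_mul_of_nonneg_right h1 (by positivity)).trans (le_of_eq (by ring))
theorem iw_succ (q : ℝ) {k : ℕ} (hk : 1 ≤ k) : m.iw q a γ β (k + 1) = m.iw q a γ β k +
    (γ k • (m.ym q a γ β k + m.yr q) + (a k * q) • m.ym q a γ β k) := Finset.sum_Ico_succ_top hk _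
theorem inv_one (q A₀ : ℝ) (hβ : β 0 = Real.pi / 4) : m.Inv q a γ β A₀ 1 (m.U1 q) 0 := by
  refine ⟨m.U1_mem_reach q, 1, 1, norm_one, norm_one, fun b z _ _ => ?_, fun b z _ _ => ?_⟩
  · rw [m.iT_one a γ β q hβ, (m.fib_T1 q).mul_star_self, (m.bs0_fib q).mul_star_self, one_smul,
      sub_self, norm_zero]
  · rw [iw, Finset.Ico_self, Finset.sum_empty, m.D_zero, (m.bs0_fib q).mul_star_self, one_smul,
      sub_self, norm_zero]
/-- uniform coherent expansions of the ideal process (`mcop_genU`) -/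
theorem mc_ideal {A : ℝ} (hA : 1 ≤ A) (ha : ∀ k, |a k| ≤ A) (hγ : ∀ k, |γ k| ≤ A) (P : ℕ) :
    ∃ A₀, 1 ≤ A₀ ∧ ∀ q, 1 ≤ q → m.MC (Metric.closedBall 0 A₀) A₀ (m.T1 q m.vac) ∧ ∀ k ≤ P,
      m.MC (Metric.closedBall 0 A₀) A₀ (m.T1 q (m.xi (m.iT q a γ β k))) ∧
      m.MCop A₀ A₀ (m.iT q a γ β k * star (m.T1 q)) := by
  have hP : (1 : ℝ) ≤ 4 ^ P := one_le_pow₀ (by norm_num)
  have hPA : 0 ≤ P * (4 * A) := by positivity
  refine ⟨4 * (4 ^ P * 4 ^ P) + 2 * (P * (4 * A)) + 4, by nlinarith, fun q hq => ?_⟩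
  have t1 : m.MCop 4 4 (m.T1 q) :=
    ((m.mcop_B _).mul (m.mcop_Z.D (m.ys_mem q))).mono (by norm_num) (by linarith [m.bs0_ys hq])
  have t2 : m.MCop 4 4 (star (m.T1 q)) := by
    rw [T1, star_mul, m.isAxis_Z.star_D, B, star_rot m.X_star]
    exact ((m.mcop_Z.D (m.R.neg_mem (m.ys_mem q))).mul (m.mcop_B _)).mono (by norm_num)
      (by rw [norm_neg]; linarith [m.bs0_ys hq])
  refine ⟨((t1 _ _ _ (m.mc_vac le_rfl)).mono_set
    (Metric.closedBall_subset_closedBall (by nlinarith))).mono (by nlinarith), fun k hk => ?_⟩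
  obtain ⟨g1, g2⟩ := m.mcop_genU (m.iy_mem a γ β q) β (m.norm_iy_le a γ β hq hA ha hγ) k
  rw [← m.iT_eq_genU] at g1 g2
  have k1 : (4 : ℝ) ^ k ≤ 4 ^ P := pow_le_pow_right₀ (by norm_num) hk
  have k2 : (k : ℝ) * (4 * A) ≤ P * (4 * A) :=
    mul_le_mul_of_nonneg_right (by exact_mod_cast hk) (by positivity)
  have k3 : (4 : ℝ) ^ k * 4 ^ k ≤ 4 ^ P * 4 ^ P := mul_self_le_mul_self (by positivity) k1
  refine ⟨((t1 _ _ _ (((g2.mul m.mcop_Z).mul g1) _ _ _ (m.mc_vac le_rfl))).mono_set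
    (Metric.closedBall_subset_closedBall (by nlinarith))).mono (by nlinarith),
    (g1.mul t2).mono (by nlinarith) (by nlinarith)⟩

end Model

end Crest.Agent.R339
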