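import Crest.Agent.R339.Q.BS0
import Crest.Agent.R339.Q.BR2

/-!
# Row 339, part Q: the two-sector invariant
-/

set_option autoImplicit false

namespace Crest.Agent.R339

open MeasureTheory ProbabilityTheory Filter Topology Crest.MathPhysics.SpinGlass
open scoped InnerProductSpace ComplexConjugate

namespace Model

variable {I : Iamp 0} {H KK : Type} [NormedAddCommGroup H] [InnerProductSpace ℂ H]
  [CompleteSpace H] [NormedAddCommGroup KK] [InnerProductSpace ℂ KK] (m : Model I H KK)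

variable {q A₀ : ℝ} {U Vm Vr : H →L[ℂ] H} {e : ℝ}

theorem Inv2.mono (h : m.Inv2 q A₀ U Vm Vr e) {e' : ℝ} (he : e ≤ e') : m.Inv2 q A₀ U Vm Vr e' := by
  obtain ⟨h0, κm, κr, h1, h2, h3, h4⟩ := h
  exact ⟨h0, κm, κr, h1, h2, fun b z hz hS => (h3 b z hz hS).trans he,
    fun b z hz hS => (h4 b z hz hS).trans he⟩

theorem Inv2.phase (h : m.Inv2 q A₀ U Vm Vr e) {c c' : ℂ} (hc : ‖c‖ = 1) (hc' : ‖c'‖ = 1) :
    m.Inv2 q A₀ U (c • Vm) (c' • Vr) e := by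
  obtain ⟨h0, κm, κr, h1, h2, h3, h4⟩ := h
  have c0 : c ≠ 0 := by rintro rfl; simp at hc
  have c0' : c' ≠ 0 := by rintro rfl; simp at hc'
  refine ⟨h0, κm * c⁻¹, κr * c'⁻¹, by simp [h1, hc], by simp [h2, hc'], ?_, ?_⟩
  · rwa [smul_smul, mul_assoc κm, inv_mul_cancel₀ c0, mul_one]
  · rwa [smul_smul, mul_assoc κr, inv_mul_cancel₀ c0', mul_one]

/-- a gate applied to the true and to the ideal state -/
theorem Inv2.gate (h : m.Inv2 q A₀ U Vm Vr e) {E : H →L[ℂ] H} (hE : m.Fib E) (hU : E * U ∈ m.Reach 0) :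
    m.Inv2 q A₀ (E * U) (E * Vm) (E * Vr) e := by
  obtain ⟨-, κm, κr, h1, h2, h3, h4⟩ := h
  have key : ∀ (κ : ℂ) (V : H →L[ℂ] H) (v : H),
      ‖(E * U * star (m.U1 q)) v - (κ • (E * V)) v‖ = ‖(U * star (m.U1 q)) v - (κ • V) v‖ := by
    intro κ V v
    rw [← hE.norm_apply ((U * star (m.U1 q)) v - (κ • V) v), map_sub, mul_assoc, ← mul_smul_comm]
    rfl
  exact ⟨hU, κm, κr, h1, h2, fun b z hz hS => (key _ _ _).trans_le (h3 b z hz hS),
    fun b z hz hS => (key _ _ _).trans_le (h4 b z hz hS)⟩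

theorem Inv2.replace (h : m.Inv2 q A₀ U Vm Vr e) {Vm' Vr' : H →L[ℂ] H} {e' : ℝ}
    (hm : m.ErrLe (Metric.closedBall 0 A₀) Vm Vm' e') (hr : m.ErrLe {m.vv q, -m.vv q} Vr Vr' e') :
    m.Inv2 q A₀ U Vm' Vr' (e + e') := by
  obtain ⟨h0, κm, κr, h1, h2, h3, h4⟩ := h
  have key : ∀ (κ : ℂ) (G V V' : H →L[ℂ] H) (v : H), ‖κ‖ = 1 → ‖G v - (κ • V) v‖ ≤ e →
      ‖V v - V' v‖ ≤ e' → ‖G v - (κ • V') v‖ ≤ e + e' := by
    intro κ G V V' v hκ a1 a2
    have a3 : ‖(κ • V) v - (κ • V') v‖ ≤ e' := by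
      change ‖κ • V v - κ • V' v‖ ≤ e'
      rwa [← smul_sub, norm_smul, hκ, one_mul]
    exact (norm_sub_le_norm_sub_add_norm_sub _ _ _).trans (add_le_add a1 a3)
  exact ⟨h0, κm, κr, h1, h2, fun b z hz hS => key _ _ _ _ _ h1 (h3 b z hz hS) (hm b z hz hS),
    fun b z hz hS => key _ _ _ _ _ h2 (h4 b z hz hS) (hr b z hz hS)⟩

private theorem vac_eq (hq : 1 ≤ q) (U : H →L[ℂ] H) : U m.vac =
    m.cm q • (U * star (m.U1 q)) (m.T1 q m.vac) + m.cr q • (U * star (m.U1 q)) (m.Rr q m.vac) := by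
  have h1 := (m.reach_fib (m.U1_mem_reach q)).star_mul_self
  have h2 : U = U * star (m.U1 q) * (m.cm q • m.T1 q + m.cr q • m.Rr q) := by
    rw [← m.U1_eq hq, mul_assoc, h1, mul_one]
  conv_lhs => rw [h2]
  rw [← map_smul (U * star (m.U1 q)), ← map_smul (U * star (m.U1 q)), ← map_add]
  rfl

private theorem norm_cr_le (hq : 1 ≤ q) : ‖m.cr q‖ ≤ 1 := by
  rw [m.norm_cr hq, div_le_one (by linarith)]; exact hq

/-- the state is close to the sum of the two ideal components -/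
theorem Inv2.state (h : m.Inv2 q A₀ U Vm Vr e) (hq : 1 ≤ q) (he : 0 ≤ e) (hm : m.Fib Vm) (hr : m.Fib Vr)
    (h1 : m.MC (Metric.closedBall 0 A₀) A₀ (m.T1 q m.vac)) :
    ∃ κm κr : ℂ, ‖κm‖ ≤ 1 ∧ ‖κr‖ ≤ 1 / q ∧
      ‖U m.vac - κm • Vm (m.T1 q m.vac) - κr • Vr (m.Rr q m.vac)‖ ≤ (A₀ + 4) * e := by
  obtain ⟨h0, κm, κr, k1, k2, h3, h4⟩ := h
  have hG := ((m.reach_fib h0).mul (m.reach_fib (m.U1_mem_reach q)).star).2
  have a1 := h3.mc he hG (hm.2.smul κm) h1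
  have a2 := h4.mc he hG (hr.2.smul κr) (m.mc_Rr q)
  refine ⟨m.cm q * κm, m.cr q * κr, ?_, ?_, ?_⟩
  · rw [norm_mul, k1, mul_one]; exact m.norm_cm_le hq
  · rw [norm_mul, k2, mul_one, m.norm_cr hq]
  · have e1 : U m.vac - (m.cm q * κm) • Vm (m.T1 q m.vac) - (m.cr q * κr) • Vr (m.Rr q m.vac) =
        m.cm q • ((U * star (m.U1 q)) (m.T1 q m.vac) - (κm • Vm) (m.T1 q m.vac)) +
          m.cr q • ((U * star (m.U1 q)) (m.Rr q m.vac) - (κr • Vr) (m.Rr q m.vac)) := by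
      rw [vac_eq m hq U, smul_apply, smul_apply]
      module
    rw [e1]
    refine (norm_add_le _ _).trans ?_
    rw [norm_smul, norm_smul]
    have b1 := mul_le_mul (m.norm_cm_le hq) a1 (norm_nonneg _) zero_le_one
    have b2 := mul_le_mul (norm_cr_le m hq) a2 (norm_nonneg _) zero_le_one
    linarith

/-- the field of the true state -/
theorem Inv2.field (h : m.Inv2 q A₀ U Vm Vr e) (hq : 1 ≤ q) (he : 0 ≤ e) (hm : m.Fib Vm) (hr : m.Fib Vr)
    (h1 : m.MC (Metric.closedBall 0 A₀) A₀ (m.T1 q m.vac)) {ξ : H}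
    (h2 : m.MC (Metric.closedBall 0 A₀) A₀ (m.T1 q ξ))
    (hξ : (star Vm * m.Z * Vm) (m.T1 q m.vac) = m.T1 q ξ) {s : ℝ}
    (hs : star Vr * m.Z * Vr = (s : ℂ) • m.Z) (hs1 : |s| = 1) :
    ‖m.j (m.xi U) - (m.Jm q ξ + s • m.yr q)‖ ≤ (2 * A₀ + 8) * e := by
  obtain ⟨h0, κm, κr, k1, k2, h3, h4⟩ := h
  have hU := m.reach_fib h0
  have hG := (hU.mul (m.reach_fib (m.U1_mem_reach q)).star).2
  have hZ := m.isAxis_Z.fib
  have a1 := h3.mc he hG (hm.2.smul κm) h1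
  have a2 := h4.mc he hG (hr.2.smul κr) (m.mc_Rr q)
  have a3 := h3.mc he hG (hm.2.smul κm) h2
  have a4 := h4.mc he hG (hr.2.smul κr) (m.mc_Rr q).Z
  have e1 : m.Z (Vm (m.T1 q m.vac)) = Vm (m.T1 q ξ) := by
    rw [← hξ]
    change (m.Z * Vm) _ = (Vm * (star Vm * m.Z * Vm)) _
    rw [← mul_assoc, ← mul_assoc, hm.mul_star_self, one_mul]
  have e2 : m.Z (Vr (m.Rr q m.vac)) = (s : ℂ) • Vr (m.Z (m.Rr q m.vac)) := by
    have : m.Z * Vr = Vr * ((s : ℂ) • m.Z) := by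
      rw [← hs, ← mul_assoc, ← mul_assoc, hr.mul_star_self, one_mul]
    change (m.Z * Vr) _ = _
    rw [this, mul_smul_comm]
    rfl
  have e3 : U (m.xi U) = m.Z (U m.vac) := by
    change (U * (star U * m.Z * U)) _ = (m.Z * U) _
    rw [← mul_assoc, ← mul_assoc, hU.mul_star_self, one_mul]
  rw [Jm, yr, ← m.j_rsmul, ← map_add, ← map_sub, m.j.norm_map, ← hU.norm_apply, map_sub, map_add, e3,
    ← Complex.coe_smul, map_smul U (s : ℂ)]
  have e4 : m.Z (U m.vac) - (U (star (m.U1 q) (m.cm q • m.T1 q ξ)) +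
      (s : ℂ) • U (star (m.U1 q) (m.cr q • m.Z (m.Rr q m.vac)))) =
      m.cm q • (m.Z ((U * star (m.U1 q)) (m.T1 q m.vac) - (κm • Vm) (m.T1 q m.vac)) -
        ((U * star (m.U1 q)) (m.T1 q ξ) - (κm • Vm) (m.T1 q ξ))) +
      m.cr q • (m.Z ((U * star (m.U1 q)) (m.Rr q m.vac) - (κr • Vr) (m.Rr q m.vac)) -
        (s : ℂ) • ((U * star (m.U1 q)) (m.Z (m.Rr q m.vac)) - (κr • Vr) (m.Z (m.Rr q m.vac)))) := by
    conv_lhs => rw [vac_eq m hq U]
    simp only [smul_apply, map_add, map_sub, map_smul, e1, e2, mul_apply_eq_comp]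
    module
  rw [e4]
  refine (norm_add_le _ _).trans ?_
  rw [norm_smul, norm_smul]
  have b1 := (norm_sub_le _ _).trans (add_le_add ((hZ.norm_apply _).trans_le a1) a3)
  have a4' : ‖(s : ℂ) • ((U * star (m.U1 q)) (m.Z (m.Rr q m.vac)) -
      (κr • Vr) (m.Z (m.Rr q m.vac)))‖ ≤ 4 * e := by
    rwa [norm_smul, Complex.norm_real, Real.norm_eq_abs, hs1, one_mul]
  have b2 := (norm_sub_le _ _).trans (add_le_add ((hZ.norm_apply _).trans_le a2) a4')
  have c1 := mul_le_mul (m.norm_cm_le hq) b1 (norm_nonneg _) zero_le_one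
  have c2 := mul_le_mul (norm_cr_le m hq) b2 (norm_nonneg _) zero_le_one
  linarith

/-- `selective` in terms of the invariant: main vectors `D (g y₀) Vm χ` with the true field `y₀`, rare vectors
`B θ₀ D w χ` with displacements in `{± v ± w}` -/
theorem Inv2.selective (n : ℕ) (θ A A₀ A₁ : ℝ) (hA : 1 ≤ A) (hA₀ : 1 ≤ A₀) (hA₁ : 1 ≤ A₁) : ∃ C, 1 ≤ C ∧
    ∀ (q b ρ e g θ₀ : ℝ) (U Vm : H →L[ℂ] H) (w : KK), 1 ≤ q → 0 < b → b ≤ 1 → 1 ≤ ρ → 0 ≤ e →
    |g| ≤ A * q → w ∈ m.R → ‖w‖ ≤ A * q → m.Fib Vm → m.MCop A₁ A₁ Vm →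
    m.MC (Metric.closedBall 0 A₀) A₀ (m.T1 q m.vac) →
    m.Inv2 q A₀ U (m.D m.Z (g • m.j (m.xi U)) * Vm) (m.B θ₀ * m.D m.Z w) e →
    (∀ s s' : Bool, ∃ σ : Bool, |2 * om (m.j (m.xi U)) (spinSign s • m.vv q + spinSign s' • w)
      - spinSign σ * (Real.pi / (2 * b))| ≤ ρ) →
    C * (e + (b * ρ) ^ n) ≤ 1 / q →
    ∃ U', m.Inv2 q A₀ U' (m.D m.Z (g • m.j (m.xi U)) * Vm) (m.B (θ + θ₀) * m.D m.Z w)
      (C * q * (e + (b * ρ) ^ n)) := by
  obtain ⟨A', hA'⟩ : ∃ A', A' = A + 16 + (A₀ + A₁) + A₁ * A₀ := ⟨_, rfl⟩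
  have hAA : 0 ≤ A₁ * A₀ := by positivity
  obtain ⟨C0, hC0, hsel⟩ := m.selective n θ A' (by linarith)
  have hC1 : 0 ≤ (A₁ + 4) * (C0 * (A₀ + 4)) := by positivity
  refine ⟨1 + (A₁ + 4) * (C0 * (A₀ + 4)), by linarith, fun q b ρ e g θ₀ U Vm w hq hb hb1 hρ he hg hw
    hwn hVm hop h1 h hpos hsm => ?_⟩
  have hq0 : 0 < q := by linarith
  have hU := m.reach_fib h.1
  have hy : g • m.j (m.xi U) ∈ m.R := m.R.smul_mem g hU.j_xi_mem
  have hD := m.isAxis_Z.fib_D hy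
  have hVr := (m.fib_B θ₀).mul (m.isAxis_Z.fib_D hw)
  obtain ⟨κm, κr, k1, k2, hst⟩ := h.state m hq he (hD.mul hVm) hVr h1
  set S : Set KK := {z | ∃ s s' : Bool, z = spinSign s • m.vv q + spinSign s' • w} with hS
  have hSv : ∀ z ∈ ({m.vv q, -m.vv q} : Set KK), z + w ∈ S ∧ z - w ∈ S := by
    rintro z (rfl | rfl)
    · exact ⟨⟨false, false, by simp [spinSign]⟩, ⟨false, true, by simp [spinSign, sub_eq_add_neg]⟩⟩
    · exact ⟨⟨true, false, by simp [spinSign]⟩, ⟨true, true, by simp [spinSign, sub_eq_add_neg]⟩⟩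
  have hbn : 0 ≤ (b * ρ) ^ n := by positivity
  have hε : C0 * ((A₀ + 4) * e + (b * ρ) ^ n) ≤ C0 * (A₀ + 4) * (e + (b * ρ) ^ n) := by
    rw [mul_assoc]
    refine mul_le_mul_of_nonneg_left ?_ (by linarith)
    nlinarith
  have hε0 : 0 ≤ C0 * ((A₀ + 4) * e + (b * ρ) ^ n) := by positivity
  have hX0 : 0 ≤ C0 * (A₀ + 4) * (e + (b * ρ) ^ n) := by positivity
  obtain ⟨E, hE, hEU, c, hc, hm, hr⟩ := hsel q b ρ ((A₀ + 4) * e) g U S (κm • Vm (m.T1 q m.vac))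
    (κr • (m.B θ₀ * m.D m.Z w) (m.Rr q m.vac)) hq hb hb1 hρ (by positivity)
    (hg.trans (mul_le_mul_of_nonneg_right (by linarith) hq0.le)) h.1
    (by rintro z ⟨s, s', rfl⟩; exact hpos s s')
    (by
      rintro z ⟨s, s', rfl⟩
      have a1 : ∀ t : Bool, |spinSign t| = 1 := fun t => by cases t <;> simp [spinSign]
      have a2 := m.norm_vv_le hq
      have a3 : Real.sqrt q ≤ q := Real.sqrt_le_iff.2 ⟨hq0.le, by nlinarith⟩
      refine (norm_add_le _ _).trans ?_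
      rw [norm_smul, norm_smul, Real.norm_eq_abs, Real.norm_eq_abs, a1, a1, hA']
      nlinarith)
    (MC.mono (((hop _ _ _ h1).smul κm).mono_set (Metric.closedBall_subset_closedBall (by linarith)))
      (by nlinarith [norm_nonneg κm]))
    (MC.mono (((((m.mc_Rr q).D_Z hw hSv).B θ₀)).smul κr) (by
      refine (mul_le_mul_of_nonneg_right k2 (by norm_num)).trans ?_
      rw [one_div_mul_eq_div]
      exact div_le_div_of_nonneg_right (by linarith) hq0.le))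
    (by rw [map_smul]; exact hst)
    (by
      refine hε.trans (le_trans ?_ hsm)
      refine mul_le_mul_of_nonneg_right ?_ (by positivity)
      nlinarith [mul_pos (show 0 < C0 by linarith) (show 0 < A₀ + 4 by linarith)])
  have h2 := (h.gate m hE hEU).replace m (Vm' := c • (m.D m.Z (g • m.j (m.xi U)) * Vm))
    (Vr' := m.B (θ + θ₀) * m.D m.Z w)
    (e' := (A₁ + 4) * (q * (C0 * (A₀ + 4) * (e + (b * ρ) ^ n)))) (fun s z hz hzS => by
      have a1 := (hop _ _ _ (MC.coh s hz hzS)).mono_set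
        (Metric.closedBall_subset_closedBall (show A₀ + A₁ ≤ A' by linarith))
      have a2 := hm.mc hε0 (hE.mul hD).2 (hD.2.smul c) a1
      refine le_trans (le_of_eq rfl) (a2.trans ?_)
      have a3 := mul_le_mul_of_nonneg_right hq hX0
      exact mul_le_mul (by linarith) (by linarith) hε0 (by linarith))
    (fun s z hz hzS => by
      have a1 := ((MC.coh s hz hzS).D_Z hw hSv).B θ₀
      have a2 := hr.mc (by positivity) hE.2 (m.fib_B θ).2 a1
      have a3 : m.B (θ + θ₀) = m.B θ * m.B θ₀ := rot_add m.X_sq θ θ₀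
      rw [a3]
      refine le_trans (le_of_eq rfl) (a2.trans ?_)
      refine mul_le_mul (by linarith) ?_ (by positivity) (by linarith)
      rw [mul_comm C0 q, mul_assoc]
      exact mul_le_mul_of_nonneg_left hε hq0.le)
  have c0 : c ≠ 0 := by rintro rfl; simp at hc
  have h3 := h2.phase m (c := c⁻¹) (c' := 1) (by simp [hc]) norm_one
  rw [smul_smul, inv_mul_cancel₀ c0, one_smul, one_smul] at h3
  refine ⟨E * U, h3.mono m ?_⟩
  have a1 : e ≤ q * (e + (b * ρ) ^ n) := by nlinarith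
  linarith


end Model

end Crest.Agent.R339
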