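import Crest.Agent.R339.Q.BS1

/-!
# Row 339, part Q: simulation of the layers
-/

set_option autoImplicit false

namespace Crest.Agent.R339

open MeasureTheory ProbabilityTheory Filter Topology Crest.MathPhysics.SpinGlass
open scoped InnerProductSpace ComplexConjugate

namespace Model

variable {I : Iamp 0} {H KK : Type} [NormedAddCommGroup H] [InnerProductSpace ℂ H]
  [CompleteSpace H] [NormedAddCommGroup KK] [InnerProductSpace ℂ KK] (m : Model I H KK)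

section aux
variable {m} {q A₀ e : ℝ} {U Vm Vr : H →L[ℂ] H}

private theorem unphase {c c' : ℂ} (h : m.Inv2 q A₀ U (c • Vm) (c' • Vr) e) (hc : ‖c‖ = 1)
    (hc' : ‖c'‖ = 1) : m.Inv2 q A₀ U Vm Vr e := by
  have h0 : c ≠ 0 := fun h0 => by simp [h0] at hc
  have h0' : c' ≠ 0 := fun h0 => by simp [h0] at hc'
  have := Inv2.phase m h (c := c⁻¹) (c' := c'⁻¹) (by simp [hc]) (by simp [hc'])
  rwa [inv_smul_smul₀ h0, inv_smul_smul₀ h0'] at this

private theorem merge_main {y u : KK} (hy : y ∈ m.R) (hu : u ∈ m.R)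
    (h : m.Inv2 q A₀ U (m.D m.Z y * (m.D m.Z u * Vm)) Vr e) :
    m.Inv2 q A₀ U (m.D m.Z (y + u) * Vm) Vr e := by
  rw [← mul_assoc, m.isAxis_Z.D_mul hy hu, smul_mul_assoc, ← one_smul ℂ Vr] at h
  exact unphase h (coh1_norm_expI _) norm_one

private theorem merge_rare {y u : KK} (hy : y ∈ m.R) (hu : u ∈ m.R)
    (h : m.Inv2 q A₀ U Vm (Vr * (m.D m.Z y * m.D m.Z u)) e) :
    m.Inv2 q A₀ U Vm (Vr * m.D m.Z (y + u)) e := by
  rw [m.isAxis_Z.D_mul hy hu, mul_smul_comm, ← one_smul ℂ Vm] at h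
  exact unphase h norm_one (coh1_norm_expI _)

private theorem B_zero : m.B 0 = 1 := rot_zero

private theorem D_B_half (y : KK) :
    m.D m.Z y * m.B (Real.pi / 2) = m.B (Real.pi / 2) * m.D m.Z (-y) := by
  have h := m.anti_D (A := m.X) (Q := m.Z) m.X_W (by rw [m.ZX, neg_neg]) (-y)
  rw [neg_neg] at h
  simp only [B, rot, Real.cos_pi_div_two, Real.sin_pi_div_two, Complex.ofReal_zero, zero_smul,
    zero_sub, _root_.mul_neg, neg_mul, mul_smul_comm, smul_mul_assoc, h]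

private theorem cost0 {u w : KK} (hu : u ∈ m.R) (hw : w ∈ m.R)
    (h : m.Inv2 q A₀ U (m.D m.Z u * Vm) (m.B 0 * m.D m.Z w) e) (c : ℝ) :
    m.Inv2 q A₀ (m.D m.Z (c • m.j (m.xi U)) * U) (m.D m.Z (c • m.j (m.xi U) + u) * Vm)
      (m.B 0 * m.D m.Z (c • m.j (m.xi U) + w)) e := by
  have hy : c • m.j (m.xi U) ∈ m.R := m.R.smul_mem c (m.j_mem0 _)
  have h1 := Inv2.gate m h (m.isAxis_Z.fib_D hy) (m.cost_mem_reach h.1 c)
  refine merge_rare hy hw (merge_main hy hu ?_)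
  rwa [B_zero, one_mul] at h1 ⊢

private theorem cost1 {w : KK} (hw : w ∈ m.R)
    (h : m.Inv2 q A₀ U Vm (m.B (Real.pi / 2) * m.D m.Z w) e) (c : ℝ) :
    m.Inv2 q A₀ (m.D m.Z ((-c) • m.j (m.xi U)) * U) (m.D m.Z ((-c) • m.j (m.xi U)) * Vm)
      (m.B (Real.pi / 2) * m.D m.Z (c • m.j (m.xi U) + w)) e := by
  have hy : ∀ c : ℝ, c • m.j (m.xi U) ∈ m.R := fun c => m.R.smul_mem c (m.j_mem0 _)
  have h1 := Inv2.gate m h (m.isAxis_Z.fib_D (hy (-c))) (m.cost_mem_reach h.1 (-c))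
  refine merge_rare (hy c) hw ?_
  rwa [← mul_assoc _ (m.B _), D_B_half, ← neg_smul, neg_neg, mul_assoc (m.B _)] at h1

private theorem DZD {y : KK} (hy : y ∈ m.R) : star (m.D m.Z y) * m.Z * m.D m.Z y = m.Z := by
  rw [mul_assoc, (m.isAxis_Z.commute_D_self y).eq, ← mul_assoc,
    (m.isAxis_Z.fib_D hy).star_mul_self, one_mul]

private theorem conj_mul (E V Q : H →L[ℂ] H) :
    star (E * V) * Q * (E * V) = star V * (star E * Q * E) * V := by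
  simp only [star_mul, mul_assoc]

private theorem field_gen {T : H →L[ℂ] H} (hT : m.Fib T) {u w : KK} (hu : u ∈ m.R) (hw : w ∈ m.R)
    {θ s : ℝ} (hθ : star (m.B θ) * m.Z * m.B θ = (s : ℂ) • m.Z) (hs : |s| = 1)
    (h : m.Inv2 q A₀ U (m.D m.Z u * (T * star (m.T1 q))) (m.B θ * m.D m.Z w) e) (hq : 1 ≤ q)
    (he : 0 ≤ e) (h1 : m.MC (Metric.closedBall 0 A₀) A₀ (m.T1 q m.vac))
    (h2 : m.MC (Metric.closedBall 0 A₀) A₀ (m.T1 q (m.xi T))) :
    ‖m.j (m.xi U) - (m.Jm q (m.xi T) + s • m.yr q)‖ ≤ (2 * A₀ + 8) * e := by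
  refine Inv2.field m h hq he ((m.isAxis_Z.fib_D hu).mul (hT.mul (m.fib_T1 q).star))
    ((m.fib_B θ).mul (m.isAxis_Z.fib_D hw)) h1 h2 ?_ ?_ hs
  · rw [conj_mul, DZD hu]
    change (star (T * star (m.T1 q)) * m.Z * (T * star (m.T1 q)) * m.T1 q) m.vac =
      (m.T1 q * (star T * m.Z * T)) m.vac
    simp only [star_mul, star_star, mul_assoc, (m.fib_T1 q).star_mul_self, mul_one]
  · rw [conj_mul, hθ, mul_smul_comm, smul_mul_assoc, DZD hw]

private theorem field0 {T : H →L[ℂ] H} (hT : m.Fib T) {u w : KK} (hu : u ∈ m.R) (hw : w ∈ m.R)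
    (h : m.Inv2 q A₀ U (m.D m.Z u * (T * star (m.T1 q))) (m.B 0 * m.D m.Z w) e) (hq : 1 ≤ q)
    (he : 0 ≤ e) (h1 : m.MC (Metric.closedBall 0 A₀) A₀ (m.T1 q m.vac))
    (h2 : m.MC (Metric.closedBall 0 A₀) A₀ (m.T1 q (m.xi T))) :
    ‖m.j (m.xi U) - (m.Jm q (m.xi T) + m.yr q)‖ ≤ (2 * A₀ + 8) * e := by
  have := field_gen hT hu hw (s := 1) (by simp [B_zero]) abs_one h hq he h1 h2
  rwa [one_smul] at this

private theorem field1 {T : H →L[ℂ] H} (hT : m.Fib T) {u w : KK} (hu : u ∈ m.R) (hw : w ∈ m.R)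
    (h : m.Inv2 q A₀ U (m.D m.Z u * (T * star (m.T1 q))) (m.B (Real.pi / 2) * m.D m.Z w) e)
    (hq : 1 ≤ q) (he : 0 ≤ e) (h1 : m.MC (Metric.closedBall 0 A₀) A₀ (m.T1 q m.vac))
    (h2 : m.MC (Metric.closedBall 0 A₀) A₀ (m.T1 q (m.xi T))) :
    ‖m.j (m.xi U) - (m.Jm q (m.xi T) - m.yr q)‖ ≤ (2 * A₀ + 8) * e := by
  have := field_gen hT hu hw (s := -1) (by
    rw [m.B_conj_Z, show 2 * (Real.pi / 2) = Real.pi by ring]; simp) (by simp) h hq he h1 h2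
  rwa [neg_smul, one_smul, ← sub_eq_add_neg] at this

private theorem abs_spin (s : Bool) : |spinSign s| = 1 := by
  cases s <;> simp [spinSign]

private theorem sqrt_le_q (hq : 1 ≤ q) : Real.sqrt q ≤ q :=
  Real.sqrt_le_iff.2 ⟨by linarith, by nlinarith⟩

end aux

private theorem sel (n : ℕ) (θ A A₀ A₁ K : ℝ) (hA : 1 ≤ A) (hA₀ : 1 ≤ A₀) (hA₁ : 1 ≤ A₁)
    (hK : 1 ≤ K) : ∃ C, K ≤ C ∧ ∀ (q b ρ ε g θ₀ : ℝ) (U Vm : H →L[ℂ] H) (w w₀ y y₀ : KK),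
    1 ≤ q → 0 < b → b ≤ 1 → 1 ≤ ρ → (b * ρ) ^ n ≤ ε → |g| ≤ A * q → w ∈ m.R → ‖w‖ ≤ A * q →
    ‖w₀‖ ≤ A * q → m.Fib Vm → m.MCop A₁ A₁ Vm →
    m.MC (Metric.closedBall 0 A₀) A₀ (m.T1 q m.vac) → m.j (m.xi U) = y₀ →
    m.Inv2 q A₀ U (m.D m.Z (g • y₀) * Vm) (m.B θ₀ * m.D m.Z w) (K * ε) →
    ‖y₀ - y‖ ≤ 2 / q → |om y₀ (w - w₀)| ≤ A →
    (∀ s s' : Bool, ∃ σ : Bool, |2 * om y (spinSign s • m.vv q + spinSign s' • w₀)
      - spinSign σ * (Real.pi / (2 * b))| ≤ ρ) →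
    C * ε ≤ 1 / q →
    ∃ U', m.Inv2 q A₀ U' (m.D m.Z (g • y₀) * Vm) (m.B (θ + θ₀) * m.D m.Z w) (C * (q * ε)) := by
  obtain ⟨C₀, hC₀, H₀⟩ := Inv2.selective m n θ A A₀ A₁ hA hA₀ hA₁
  have hc : (0 : ℝ) ≤ (9 + 6 * A) ^ n := by positivity
  refine ⟨C₀ * (K + (9 + 6 * A) ^ n), by nlinarith, ?_⟩
  rintro q b ρ ε g θ₀ U Vm w w₀ y _ hq hb hb1 hρ hε hg hw hwn hw₀ hV hV' h1 rfl h hy hom hpos hC
  have hq0 : 0 < q := by linarith
  have hε0 : 0 ≤ ε := le_trans (by positivity) hε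
  have hle : K * ε + (b * ((9 + 6 * A) * ρ)) ^ n ≤ (K + (9 + 6 * A) ^ n) * ε := by
    rw [mul_left_comm, mul_pow, add_mul]
    gcongr
  obtain ⟨U', hU'⟩ := H₀ q b ((9 + 6 * A) * ρ) (K * ε) g θ₀ U Vm w hq hb hb1 (by nlinarith)
    (by positivity) hg hw hwn hV hV' h1 h (fun s s' => by
      obtain ⟨σ, hσ⟩ := hpos s s'
      refine ⟨σ, ?_⟩
      set y₀ := m.j (m.xi U)
      have e1 : om y₀ (spinSign s • m.vv q + spinSign s' • w) =
          om y (spinSign s • m.vv q + spinSign s' • w₀) +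
            om (y₀ - y) (spinSign s • m.vv q + spinSign s' • w₀) + spinSign s' * om y₀ (w - w₀) := by
        simp only [om_sub_left, om_sub_right, om_add_right, om_smul_right]
        ring
      have e2 : ‖spinSign s • m.vv q + spinSign s' • w₀‖ ≤ (2 + A) * q := by
        refine (norm_add_le _ _).trans ?_
        rw [norm_smul, norm_smul, Real.norm_eq_abs, Real.norm_eq_abs, abs_spin, abs_spin]
        have := m.norm_vv_le hq
        have := sqrt_le_q hq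
        linarith
      have e3 : |om (y₀ - y) (spinSign s • m.vv q + spinSign s' • w₀)| ≤ 2 * (2 + A) := by
        refine (abs_om_le _ _).trans ?_
        calc _ ≤ 2 / q * ((2 + A) * q) := by gcongr
          _ = _ := by field_simp
      have e4 : |spinSign s' * om y₀ (w - w₀)| ≤ A := by
        rwa [abs_mul, abs_spin, one_mul]
      rw [e1]
      rw [abs_le] at hσ e3 e4 ⊢
      constructor <;> nlinarith [hσ.1, hσ.2, e3.1, e3.2, e4.1, e4.2])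
    (le_trans (by rw [mul_assoc]; gcongr) hC)
  refine ⟨U', Inv2.mono m hU' ?_⟩
  calc _ ≤ C₀ * q * ((K + (9 + 6 * A) ^ n) * ε) := by gcongr
    _ = _ := by ring

/-- One layer.  Write `ym`, `yr`, `w = iw k`, `g = a k * q / 2`, `Vm = iT k * T1†`.
(1) `C_γ` with the true field, replaced by `D (γ (ym + yr))` (`Inv2.field`, `NB.norm_D_sub`; rare vectors have `NB = O(q)`): now
`Vm₁ = D (γ (ym + yr)) Vm`, `w₁ = w + γ (ym + yr)`.  (2) `selective` with `θ = π/2`, `g = 0`.  (3) `C_{-g}` with the true field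
`y' ≈ ym - yr`: main `D (-g y') Vm₁`, rare `D (-g y') B (π/2) D w₁ = phase • B (π/2) D (w₁ + g y')`.  (4) `selective` with
`θ = -π/2` (the field is still `y'`).  (5) `C_g` with the true field `y'' ≈ ym + yr`: `D (g y'') D (-g y') ≈ phase • D ((a q) yr)`,
`w₁ + g y' + g y'' ≈ iw (k+1)`.  (6) `selective` with `θ = -β k`, then `B (β k)`.
In (2), (4), (6) the positions differ from those of `Pos` by `O(1)` because the fields are within `O(1/q)` of `ym`, all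
displacements are `O(q)`, `om y' (g y') = 0`, `om ym ym = 0`. -/
theorem layer_step (n P : ℕ) (a γ β : ℕ → ℝ) {A A₀ : ℝ} (hA : 1 ≤ A) (ha : ∀ k, |a k| ≤ A)
    (hγ : ∀ k, |γ k| ≤ A) (hA₀ : 1 ≤ A₀) {k : ℕ} (hk : 1 ≤ k) (hkP : k ≤ P) :
    ∃ C, 1 ≤ C ∧ ∀ (q b ρ e : ℝ) (U : H →L[ℂ] H), 1 ≤ q → 0 < b → b ≤ 1 → 1 ≤ ρ → 0 ≤ e →
    m.MC (Metric.closedBall 0 A₀) A₀ (m.T1 q m.vac) →
    m.MC (Metric.closedBall 0 A₀) A₀ (m.T1 q (m.xi (m.iT q a γ β k))) →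
    m.MCop A₀ A₀ (m.iT q a γ β k * star (m.T1 q)) →
    m.Inv q a γ β A₀ k U e → m.Pos q a γ β k b ρ → C * q ^ 8 * (e + (b * ρ) ^ n) ≤ 1 / q →
    ∃ U', m.Inv q a γ β A₀ (k + 1) U' (C * q ^ 8 * (e + (b * ρ) ^ n)) := by
  have hP : (0 : ℝ) ≤ P := Nat.cast_nonneg P
  obtain ⟨A', hA'⟩ : ∃ A' : ℝ, A' = (3 * P + 4) * A := ⟨_, rfl⟩
  have hPA : 0 ≤ P * A := by positivity
  have hA'1 : 1 ≤ A' := by rw [hA']; linarith
  have hA₁ : 1 ≤ 2 * A₀ + 3 * A := by linarith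
  obtain ⟨C₂, hC₂, H₂⟩ := m.sel n (Real.pi / 2) A' A₀ _ 1 hA'1 hA₀ hA₁ le_rfl
  obtain ⟨C₄, hC₄, H₄⟩ := m.sel n (-(Real.pi / 2)) A' A₀ _ C₂ hA'1 hA₀ hA₁ hC₂
  obtain ⟨C₆, hC₆, H₆⟩ := m.sel n (-β k) A' A₀ _ C₄ hA'1 hA₀ hA₁ (hC₂.trans hC₄)
  have hC₄1 : 1 ≤ C₄ := hC₂.trans hC₄
  have hC₆1 : 1 ≤ C₆ := hC₄1.trans hC₆
  obtain ⟨L, hL⟩ : ∃ L : ℝ, L = 4 * A * (1 + 3 * A) * (A₀ * (1 + 4 * A₀)) + 40 * A * A' := ⟨_, rfl⟩
  have hL0 : 0 ≤ L := by rw [hL]; positivity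
  obtain ⟨c₀, hc₀⟩ : ∃ c₀ : ℝ, c₀ = 2 * A₀ + 8 := ⟨_, rfl⟩
  have hc₀1 : 1 ≤ c₀ := by rw [hc₀]; linarith
  refine ⟨(1 + L) * (c₀ * C₆), one_le_mul_of_one_le_of_one_le (by linarith)
    (one_le_mul_of_one_le_of_one_le hc₀1 hC₆1), ?_⟩
  intro q b ρ e U hq hb hb1 hρ he h1 h2 h3 h hpos hC
  have hq0 : 0 < q := by linarith
  have hs0 : 0 ≤ (b * ρ) ^ n := by positivity
  obtain ⟨ε, hε⟩ : ∃ ε, ε = e + (b * ρ) ^ n := ⟨_, rfl⟩
  rw [← hε] at hC ⊢
  have heε : e ≤ ε := by linarith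
  have hsε : (b * ρ) ^ n ≤ ε := by linarith
  have hε0 : 0 ≤ ε := by linarith
  have hε1 : ε ≤ q * ε := le_mul_of_one_le_left hε0 hq
  have hε2 : q * ε ≤ q * (q * ε) := le_mul_of_one_le_left (by positivity) hq
  have hε3 : q * (q * ε) ≤ q * (q * (q * ε)) := le_mul_of_one_le_left (by positivity) hq
  obtain ⟨η, hη⟩ : ∃ η, η = c₀ * (C₆ * (q * (q * (q * ε)))) := ⟨_, rfl⟩
  have hη0 : 0 ≤ η := by rw [hη]; positivity
  have hfin : (1 + L) * (q ^ 3 * η) ≤ (1 + L) * (c₀ * C₆) * q ^ 8 * ε := by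
    calc _ = (1 + L) * (c₀ * C₆) * q ^ 6 * ε := by rw [hη]; ring
      _ ≤ _ := by gcongr; norm_num
  have hq3 : η ≤ q ^ 3 * η := le_mul_of_one_le_left hη0 (one_le_pow₀ hq)
  have hηq : η ≤ 1 / q :=
    hq3.trans ((le_mul_of_one_le_left (by positivity) (by linarith)).trans (hfin.trans hC))
  have hb₆ : C₆ * (q * (q * (q * ε))) ≤ η := hη ▸ le_mul_of_one_le_left (by positivity) hc₀1
  have hbd : ∀ C x : ℝ, C ≤ C₆ → 0 ≤ x → x ≤ q * (q * (q * ε)) →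
      C * x ≤ 1 / q ∧ (2 * A₀ + 8) * (C * x) ≤ η := by
    intro C x hC hx hx'
    have : C * x ≤ C₆ * (q * (q * (q * ε))) := by gcongr
    refine ⟨this.trans (hb₆.trans hηq), ?_⟩
    rw [hη, ← hc₀]
    gcongr
  -- notation
  have hT := m.fib_iT a γ β q k
  have hVm : m.Fib (m.iT q a γ β k * star (m.T1 q)) := hT.mul (m.fib_T1 q).star
  have hym : m.Jm q (m.xi (m.iT q a γ β k)) = m.ym q a γ β k := rfl
  have hw := m.iw_mem a γ β q k
  have hwn : ‖m.iw q a γ β k‖ ≤ 3 * (P * A) * q := by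
    refine (m.norm_iw_le a γ β hq ha hγ k).trans ?_
    rw [← mul_assoc 3]
    gcongr
  have hyr := m.norm_yr hq
  have hiT : m.iT q a γ β (k + 1) * star (m.T1 q) = m.B (β k) *
      (m.D m.Z (m.iy q a γ β k) * (m.iT q a γ β k * star (m.T1 q))) := by
    simp only [iT, iy, mul_assoc]
  have hiy : m.iy q a γ β k =
      γ k • (m.ym q a γ β k + m.yr q) + (a k * q) • m.yr q := by
    rw [iy, iyf, if_neg (by omega), hym]
  have hiym := m.iy_mem a γ β q k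
  have hiw := m.iw_succ a γ β q hk
  have hiwm := m.iw_mem a γ β q (k + 1)
  unfold Inv at h ⊢
  unfold Pos at hpos
  rw [hiT]
  have hf0 := fun U u w e hu hw h he => @field0 _ _ _ _ _ _ _ _ m q A₀ e U _ hT u w hu hw h hq he h1 h2
  have hf1 := fun U u w e hu hw h he => @field1 _ _ _ _ _ _ _ _ m q A₀ e U _ hT u w hu hw h hq he h1 h2
  rw [hym] at hf0 hf1
  generalize m.iT q a γ β k * star (m.T1 q) = Vm at *
  generalize m.iw q a γ β k = w at *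
  generalize m.iw q a γ β (k + 1) = w' at *
  generalize m.iy q a γ β k = u' at *
  generalize m.ym q a γ β k = ym at *
  generalize m.yr q = yr at *
  obtain ⟨g, hg⟩ : ∃ g, g = a k * q / 2 := ⟨_, rfl⟩
  have hgA : |g| ≤ A * q / 2 := by
    rw [hg, abs_div, abs_mul, abs_of_pos hq0, abs_two]
    gcongr
    exact ha k
  have hγA := hγ k
  have hAq : A ≤ A * q := le_mul_of_one_le_right (by linarith) hq
  have hAq' : A' * q = 3 * (P * A) * q + 4 * (A * q) := by rw [hA']; ring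
  have hPAq : 0 ≤ 3 * (P * A) * q := by positivity
  have hR : ∀ (c : ℝ) (V : H →L[ℂ] H), c • m.j (m.xi V) ∈ m.R :=
    fun c V => m.R.smul_mem c (m.j_mem0 _)
  have hn1 : ∀ V ∈ m.Reach 0, ‖m.j (m.xi V)‖ = 1 := fun V hV => by
    rw [LinearIsometry.norm_map, (m.reach_fib hV).norm_xi]
  have hnear : ∀ y y' : KK, ‖y'‖ = 1 / q → ‖y - (ym + y')‖ ≤ η → ‖y - ym‖ ≤ 2 / q := by
    intro y y' h1 h2
    calc ‖y - ym‖ = ‖(y - (ym + y')) + y'‖ := by congr 1; abel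
      _ ≤ η + 1 / q := (norm_add_le _ _).trans (by rw [h1]; gcongr)
      _ ≤ 2 / q := by linarith [show 2 / q = 1 / q + 1 / q by ring]
  have hmcop : ∀ u ∈ m.R, ‖u‖ ≤ 3 * A →
      m.MCop (2 * A₀ + 3 * A) (2 * A₀ + 3 * A) (m.D m.Z u * Vm) := fun u hu hun =>
    ((m.mcop_Z.D hu).mul h3).mono (by linarith) (by linarith)
  have h0q : |(0 : ℝ)| ≤ A' * q := by rw [abs_zero]; positivity
  -- step 1
  have s0 : m.Inv2 q A₀ U (m.D m.Z 0 * Vm) (m.B 0 * m.D m.Z w) (1 * ε) := by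
    rw [D_zero, B_zero, one_mul, one_mul, one_mul]
    exact Inv2.mono m h heε
  have f0 := (hf0 _ _ _ _ m.R.zero_mem hw s0 (by positivity)).trans
    (hbd 1 ε hC₆1 hε0 (by linarith)).2
  have s1 := cost0 m.R.zero_mem hw s0 (γ k)
  have x1 : m.j (m.xi (m.D m.Z (γ k • m.j (m.xi U)) * U)) = m.j (m.xi U) := by
    rw [m.xi_D (hR _ _)]
  have n0 := hn1 U h.1
  have r0 := hR (γ k) U
  generalize m.j (m.xi U) = y₀ at *
  rw [add_zero] at s1
  have nγ : ‖γ k • y₀‖ ≤ A := by rwa [norm_smul, n0, mul_one]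
  have nw1 : ‖γ k • y₀ + w‖ ≤ A * q + 3 * (P * A) * q :=
    (norm_add_le _ _).trans (by linarith)
  -- step 2
  obtain ⟨U₂, s2⟩ := H₂ q b ρ ε 0 0 _ (m.D m.Z (γ k • y₀) * Vm) (γ k • y₀ + w) w ym y₀ hq hb hb1 hρ
    hsε h0q (add_mem r0 hw) (by linarith) (by linarith) ((m.isAxis_Z.fib_D r0).mul hVm)
    (hmcop _ r0 (by linarith)) h1 x1 (by rwa [zero_smul, D_zero, one_mul]) (hnear _ _ hyr f0)
    (by rw [add_sub_cancel_right, om_smul_right, om_self, mul_zero, abs_zero]; linarith) hpos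
    (hbd C₂ ε (hC₄.trans hC₆) hε0 (by linarith)).1
  rw [zero_smul, D_zero, one_mul, add_zero] at s2
  have f2 := (hf1 _ _ _ _ r0 (add_mem r0 hw) s2 (by positivity)).trans
    (hbd C₂ (q * ε) (hC₄.trans hC₆) (by positivity) (by linarith)).2
  -- step 3
  have s3 := cost1 (add_mem r0 hw) s2 g
  have x3 : m.j (m.xi (m.D m.Z ((-g) • m.j (m.xi U₂)) * U₂)) = m.j (m.xi U₂) := by
    rw [m.xi_D (hR _ _)]
  have n2 := hn1 U₂ s2.1
  have r2 := hR g U₂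
  have r2' := hR (-g) U₂
  generalize m.j (m.xi U₂) = y₂ at *
  have ng2 : ‖g • y₂‖ ≤ A * q / 2 := by rwa [norm_smul, n2, mul_one]
  have nw2 : ‖g • y₂ + (γ k • y₀ + w)‖ ≤ A * q / 2 + (A * q + 3 * (P * A) * q) :=
    (norm_add_le _ _).trans (by linarith)
  have rw2 := add_mem r2 (add_mem r0 hw)
  -- step 4
  obtain ⟨U₄, s4⟩ := H₄ q b ρ (q * ε) (-g) (Real.pi / 2) _ (m.D m.Z (γ k • y₀) * Vm)
    (g • y₂ + (γ k • y₀ + w)) w ym y₂ hq hb hb1 hρ (by linarith) (by rw [abs_neg]; linarith) rw2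
    (by linarith) (by linarith) ((m.isAxis_Z.fib_D r0).mul hVm) (hmcop _ r0 (by linarith)) h1 x3 s3
    (hnear _ (-yr) (by rwa [norm_neg]) (by rwa [← sub_eq_add_neg]))
    (by
      rw [← add_assoc, add_sub_cancel_right, om_add_right, om_smul_right, om_self, mul_zero,
        zero_add]
      refine (abs_om_le _ _).trans ?_
      rw [n2, one_mul, hA']
      linarith) hpos
    (hbd C₄ (q * ε) hC₆ (by positivity) (by linarith)).1
  rw [neg_add_cancel] at s4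
  replace s4 := merge_main r2' r0 s4
  have f4 := (hf0 _ _ _ _ (add_mem r2' r0) rw2 s4 (by positivity)).trans
    (hbd C₄ (q * (q * ε)) hC₆ (by positivity) (by linarith)).2
  -- step 5
  have s5 := cost0 (add_mem r2' r0) rw2 s4 g
  have x5 : m.j (m.xi (m.D m.Z (g • m.j (m.xi U₄)) * U₄)) = m.j (m.xi U₄) := by
    rw [m.xi_D (hR _ _)]
  have n4 := hn1 U₄ s4.1
  have r4 := hR g U₄
  generalize m.j (m.xi U₄) = y₄ at *
  have ng4 : ‖g • y₄‖ ≤ A * q / 2 := by rwa [norm_smul, n4, mul_one]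
  have n42 : ‖g • (y₄ - y₂)‖ ≤ 2 * A := by
    have e1 := hnear _ _ hyr f4
    have e2 := hnear _ (-yr) (by rwa [norm_neg]) (by rwa [← sub_eq_add_neg])
    have e3 : ‖y₄ - y₂‖ ≤ 2 / q + 2 / q := by
      calc ‖y₄ - y₂‖ = ‖(y₄ - ym) - (y₂ - ym)‖ := by congr 1; abel
        _ ≤ _ := (norm_sub_le _ _).trans (add_le_add e1 e2)
    rw [norm_smul, Real.norm_eq_abs]
    calc _ ≤ A * q / 2 * (2 / q + 2 / q) := by gcongr
      _ = _ := by field_simp; ring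
  have nu : ‖g • y₄ + ((-g) • y₂ + γ k • y₀)‖ ≤ 3 * A := by
    calc _ = ‖g • (y₄ - y₂) + γ k • y₀‖ := by congr 1; module
      _ ≤ _ := (norm_add_le _ _).trans (by linarith)
  have ru := add_mem r4 (add_mem r2' r0)
  have rw3 := add_mem r4 rw2
  have nw3 : ‖g • y₄ + (g • y₂ + (γ k • y₀ + w))‖ ≤ A' * q :=
    (norm_add_le _ _).trans (by linarith)
  -- step 6
  obtain ⟨U₆, s6⟩ := H₆ q b ρ (q * (q * ε)) 0 0 _ (m.D m.Z (g • y₄ + ((-g) • y₂ + γ k • y₀)) * Vm)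
    (g • y₄ + (g • y₂ + (γ k • y₀ + w))) w ym y₄ hq hb hb1 hρ (by linarith) h0q rw3 nw3
    (by linarith) ((m.isAxis_Z.fib_D ru).mul hVm) (hmcop _ ru nu) h1 x5
    (by rwa [zero_smul, D_zero, one_mul]) (hnear _ _ hyr f4)
    (by
      have e1 : g • y₄ + (g • y₂ + (γ k • y₀ + w)) - w =
          (2 * g) • y₄ + (γ k • y₀ - g • (y₄ - y₂)) := by module
      rw [e1, om_add_right, om_smul_right, om_self, mul_zero, zero_add]
      refine (abs_om_le _ _).trans ?_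
      rw [n4, one_mul, hA']
      exact (norm_sub_le _ _).trans (by linarith)) hpos
    (hbd C₆ (q * (q * ε)) le_rfl (by positivity) (by linarith)).1
  rw [zero_smul, D_zero, one_mul, add_zero] at s6
  have s7 := Inv2.gate m s6 (m.fib_B (β k)) (m.B_mem_reach s6.1 (β k))
  rw [← mul_assoc (m.B (β k)) (m.B _), B, B, ← rot_add m.X_sq, add_neg_cancel, rot_zero,
    one_mul] at s7
  -- replacement of the true fields
  have hδ : ∀ y y' : KK, ‖y‖ ≤ η → ‖y'‖ ≤ η →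
      ‖g • y + (g • y' + γ k • (y₀ - (ym + yr)))‖ ≤ 2 * A * q * η := by
    intro y y' hy hy'
    refine (norm_add_le _ _).trans ((add_le_add le_rfl (norm_add_le _ _)).trans ?_)
    simp only [norm_smul, Real.norm_eq_abs]
    calc _ ≤ A * q / 2 * η + (A * q / 2 * η + A * q * η) := by gcongr; exact hγA.trans hAq
      _ = _ := by ring
  have d1 : ‖g • y₄ + ((-g) • y₂ + γ k • y₀) - u'‖ ≤ 2 * A * q * η := by
    refine le_of_eq_of_le ?_ (hδ _ (-(y₂ - (ym - yr))) f4 (by rwa [norm_neg]))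
    congr 1
    rw [hiy, show a k * q = 2 * g by rw [hg]; ring]
    module
  have d2 : ‖g • y₄ + (g • y₂ + (γ k • y₀ + w)) - w'‖ ≤ 2 * A * q * η := by
    refine le_of_eq_of_le ?_ (hδ _ _ f4 f2)
    congr 1
    rw [hiw, show a k * q = 2 * g by rw [hg]; ring]
    module
  have hq13 : q ≤ q ^ 3 := le_self_pow₀ hq (by norm_num)
  refine ⟨_, Inv2.mono m (Inv2.replace m s7 (e' := L * (q ^ 3 * η)) ?_ ?_) ?_⟩
  · intro s z hz hzA
    have e1 := (h3 _ _ _ (MC.coh s hz hzA)).nb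
    have e2 := e1.norm_D_sub m.isAxis_Z ru hiym
    change ‖rot m.X (β k) (m.D m.Z _ (Vm _)) - m.B (β k) (m.D m.Z _ (Vm _))‖ ≤ _
    rw [← B, ← map_sub, (m.fib_B _).norm_apply]
    refine e2.trans ?_
    calc _ ≤ 2 * (1 + 3 * A) * (2 * A * q ^ 3 * η) * (A₀ * 1 * (1 + 2 * (A₀ + A₀))) := by
          gcongr
          exact d1.trans (by gcongr)
      _ = 4 * A * (1 + 3 * A) * (A₀ * (1 + 4 * A₀)) * (q ^ 3 * η) := by ring
      _ ≤ _ := by
          rw [hL]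
          gcongr
          exact le_add_of_nonneg_right (by positivity)
  · intro s z hz hzv
    have e0 : ‖z‖ ≤ 2 * q := by
      have := m.norm_vv_le hq
      have := sqrt_le_q hq
      rcases hzv with rfl | rfl
      · linarith
      · rw [norm_neg]; linarith
    have e2 := (m.nb_coh s hz).norm_D_sub m.isAxis_Z rw3 hiwm
    refine e2.trans ?_
    have e3 : 1 ≤ A' * q := one_le_mul_of_one_le_of_one_le hA'1 hq
    calc _ ≤ 2 * (A' * q + A' * q) * (2 * A * q * η) * (q + 2 * (2 * q)) := by gcongr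
      _ = 40 * A * A' * (q ^ 3 * η) := by ring
      _ ≤ _ := by
          rw [hL]
          gcongr
          exact le_add_of_nonneg_left (by positivity)
  · linarith

/-- all layers: with `n = 2 (9 P + 2)` the error after `k` layers is at most `C_k q^{8k} q^{-n/2}` -/
theorem all_layers (P : ℕ) (hP : 1 ≤ P) (a γ β : ℕ → ℝ) (hβ : β 0 = Real.pi / 4) {A A₀ C₀ : ℝ} (hA : 1 ≤ A)
    (ha : ∀ k, |a k| ≤ A) (hγ : ∀ k, |γ k| ≤ A) (hA₀ : 1 ≤ A₀)
    (hmc : ∀ q, 1 ≤ q → m.MC (Metric.closedBall 0 A₀) A₀ (m.T1 q m.vac) ∧ ∀ k ≤ P,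
      m.MC (Metric.closedBall 0 A₀) A₀ (m.T1 q (m.xi (m.iT q a γ β k))) ∧
      m.MCop A₀ A₀ (m.iT q a γ β k * star (m.T1 q)))
    (hpos : ∀ᶠ q in atTop, ∀ k, 1 ≤ k → k < P → ∃ b ρ, 0 < b ∧ b ≤ 1 ∧ 1 ≤ ρ ∧
      b * ρ ≤ C₀ / Real.sqrt q ∧ m.Pos q a γ β k b ρ) :
    ∀ᶠ q in atTop, ∃ U, m.Inv q a γ β A₀ P U (1 / q) := by
  have hsmall : ∀ (j : ℕ) (E q : ℝ), j ≤ P → 1 ≤ q → E ≤ q →
      E * q ^ (8 * j) / q ^ (9 * P + 2) ≤ 1 / q := by
    intro j E q hj hq hE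
    have hq0 : 0 < q := by linarith
    rw [div_le_div_iff₀ (by positivity) hq0, one_mul]
    calc E * q ^ (8 * j) * q ≤ q * q ^ (8 * j) * q := by gcongr
      _ = q ^ (8 * j + 2) := by ring
      _ ≤ _ := pow_le_pow_right₀ hq (by omega)
  have key : ∀ k, 1 ≤ k → k ≤ P → ∃ E : ℝ, 0 ≤ E ∧ ∀ᶠ q in atTop,
      ∃ U, m.Inv q a γ β A₀ k U (E * q ^ (8 * k) / q ^ (9 * P + 2)) := by
    intro k hk
    induction k, hk using Nat.le_induction with
    | base =>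
      intro _
      refine ⟨0, le_rfl, Eventually.of_forall fun q => ⟨m.U1 q, ?_⟩⟩
      rw [zero_mul, zero_div]
      exact m.inv_one a γ β q A₀ hβ
    | succ k hk ih =>
      intro hkP
      obtain ⟨E, hE, ih⟩ := ih (by omega)
      obtain ⟨C, hC, H₀⟩ := m.layer_step (2 * (9 * P + 2)) P a γ β hA ha hγ hA₀ hk (by omega)
      refine ⟨C * (E + (C₀ ^ 2) ^ (9 * P + 2)), by positivity, ?_⟩
      filter_upwards [ih, hpos, eventually_ge_atTop 1,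
        eventually_ge_atTop (C * (E + (C₀ ^ 2) ^ (9 * P + 2)))] with q ⟨U, hU⟩ hp hq hq'
      have hq0 : 0 < q := by linarith
      obtain ⟨b, ρ, hb, hb1, hρ, hbρ, hp⟩ := hp k hk (by omega)
      have h1 : (b * ρ) ^ (2 * (9 * P + 2)) ≤
          (C₀ ^ 2) ^ (9 * P + 2) * q ^ (8 * k) / q ^ (9 * P + 2) := by
        calc _ ≤ (C₀ / Real.sqrt q) ^ (2 * (9 * P + 2)) := by gcongr
          _ = (C₀ ^ 2) ^ (9 * P + 2) * 1 / q ^ (9 * P + 2) := by
            rw [pow_mul, div_pow, Real.sq_sqrt hq0.le, div_pow, mul_one]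
          _ ≤ _ := by
            gcongr
            exact one_le_pow₀ hq
      have h2 : C * q ^ 8 * (E * q ^ (8 * k) / q ^ (9 * P + 2) + (b * ρ) ^ (2 * (9 * P + 2))) ≤
          C * (E + (C₀ ^ 2) ^ (9 * P + 2)) * q ^ (8 * (k + 1)) / q ^ (9 * P + 2) := by
        calc _ ≤ C * q ^ 8 * (E * q ^ (8 * k) / q ^ (9 * P + 2) +
              (C₀ ^ 2) ^ (9 * P + 2) * q ^ (8 * k) / q ^ (9 * P + 2)) := by gcongr
          _ = _ := by ring
      obtain ⟨U', hU'⟩ := H₀ q b ρ _ U hq hb hb1 hρ (by positivity) (hmc q hq).1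
        ((hmc q hq).2 k (by omega)).1 ((hmc q hq).2 k (by omega)).2 hU hp
        (h2.trans (hsmall _ _ _ hkP hq hq'))
      exact ⟨U', Inv2.mono m hU' h2⟩
  obtain ⟨E, -, h⟩ := key P hP le_rfl
  filter_upwards [h, eventually_ge_atTop 1, eventually_ge_atTop E] with q ⟨U, hU⟩ hq hq'
  exact ⟨U, Inv2.mono m hU (hsmall _ _ _ le_rfl hq hq')⟩

end Model

end Crest.Agent.R339
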