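import Crest.Agent.R339.Q.Path

/-!
# Row 339, part Q: response formula, Gram matrices of words
-/

set_option autoImplicit false

namespace Crest.Agent.R339

open MeasureTheory ProbabilityTheory Filter Topology Crest.MathPhysics.SpinGlass
open scoped InnerProductSpace ComplexConjugate

namespace Model

variable {K : ℕ} {I : Iamp K} {H KK : Type} [NormedAddCommGroup H] [InnerProductSpace ℂ H]
  [CompleteSpace H] [NormedAddCommGroup KK] [InnerProductSpace ℂ KK] (m : Model I H KK)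

/-- `A'` is the commutator of the annihilation operator of `u` with `A` -/
def RspGood (u : KK) (A A' : H →L[ℂ] H) : Prop :=
  ∀ b, ∀ z ∈ m.R, ⟪m.io u, A (m.coh b z)⟫_ℂ =
    ⟪m.vac, A' (m.coh b z)⟫_ℂ + Complex.I * ⟪u, z⟫_ℂ * ⟪m.vac, A (m.coh b z)⟫_ℂ

/-- product rule -/
def RspDer (u : KK) (G G' : H →L[ℂ] H) : Prop :=
  ∀ A A', m.RspGood u A A' → m.RspGood u (A * G) (A' * G + A * G')

theorem rsp_good_one (u : KK) : m.RspGood u 1 0 := by
  intro b z hz
  cases b
  · rw [one_apply_eq_self, m.coh_false, m.inner_vac_W hz, ← inner_conj_symm,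
      m.io_W z hz]
    simp only [map_mul, map_neg, Complex.conj_I, Complex.conj_ofReal, inner_conj_symm,
      zero_apply, inner_zero_right]
    ring
  · have h1 : ∀ v, m.X v = v → ⟪v, m.coh true z⟫_ℂ = 0 := fun v hv => by
      have h2 := (ContinuousLinearMap.adjoint_inner_left m.X (m.coh true z) v).symm
      rw [← ContinuousLinearMap.star_eq_adjoint, m.X_star, hv] at h2
      have h3 : m.X (m.coh true z) = -m.coh true z := by
        rw [m.coh_true, ← mul_apply_eq_comp, ← neg_neg (m.X * m.Z), ← m.ZX,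
          neg_apply, mul_apply_eq_comp,
          ← mul_apply_eq_comp m.X, (m.X_W z).eq, mul_apply_eq_comp, m.X_vac]
      rw [h3, inner_neg_right] at h2
      linear_combination (-1 / 2) * h2
    simp [h1 _ (m.X_io u), h1 _ m.X_vac]

variable {m} {u : KK} {G G' F F' : H →L[ℂ] H}

theorem RspDer.shift {y : KK} (hy : y ∈ m.R)
    (h : ∀ b, ∀ z ∈ m.R, ∃ (c : ℂ) (b' : Bool), G (m.coh b z) = c • m.coh b' (y + z)) :
    m.RspDer u G ((Complex.I * ⟪u, y⟫_ℂ) • G) := by
  intro A A' hA b z hz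
  obtain ⟨c, b', e⟩ := h b z hz
  simp only [mul_apply_eq_comp, add_apply,
    smul_apply, e, map_smul, inner_add_right, inner_smul_right,
    hA b' _ (m.R.add_mem hy hz)]
  ring

theorem RspDer.fix (h : ∀ b z, ∃ (c : ℂ) (b' : Bool), G (m.coh b z) = c • m.coh b' z) :
    m.RspDer u G 0 := by
  simpa using RspDer.shift (u := u) (G := G) m.R.zero_mem fun b z _ => by simpa using h b z

theorem RspDer.comb (h : m.RspDer u G G') (h' : m.RspDer u F F') (c d : ℂ) :
    m.RspDer u (c • G + d • F) (c • G' + d • F') := by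
  intro A A' hA b z hz
  have h1 := h A A' hA b z hz
  have h2 := h' A A' hA b z hz
  simp only [mul_apply_eq_comp, add_apply,
    smul_apply, map_smul, map_add, inner_add_right, inner_smul_right] at h1 h2 ⊢
  linear_combination c * h1 + d * h2

theorem RspDer.mul (h : m.RspDer u G G') (h' : m.RspDer u F F') :
    m.RspDer u (G * F) (G' * F + G * F') := by
  intro A A' hA
  simpa only [add_mul, _root_.mul_add, mul_assoc, add_assoc] using h' _ _ (h A A' hA)

theorem rsp_Z : m.RspDer u m.Z 0 := .fix fun b z => ⟨1, !b, by rw [m.Z_coh, one_smul]⟩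

theorem rsp_B (β : ℝ) : m.RspDer u (m.B β) 0 := .fix fun b z => ⟨_, b, by
  rw [B, rot, sub_apply, smul_apply,
    smul_apply, m.X_coh, one_apply_eq_self, smul_smul, ← sub_smul]⟩

theorem rsp_D {y : KK} (hy : y ∈ m.R) :
    m.RspDer u (m.D m.Z y) (-(Complex.I * ⟪u, y⟫_ℂ) • (m.Z * m.D m.Z y)) := by
  have h : ∀ y ∈ m.R, m.RspDer u (m.W y) ((Complex.I * ⟪u, y⟫_ℂ) • m.W y) := fun y hy =>
    .shift hy fun b z hz => ⟨_, b, m.W_coh b hy hz⟩
  have h1 := h y hy
  have h2 := h _ (m.R.neg_mem hy)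
  have e : m.D m.Z y = (1 / 2 : ℂ) • ((1 : ℂ) • m.W y + (1 : ℂ) • m.W (-y)) +
      (1 / 2 : ℂ) • (m.Z * ((-1 : ℂ) • m.W y + (1 : ℂ) • m.W (-y))) := by
    simp only [D, cosW, sinW, mul_smul_comm, _root_.mul_sub, _root_.mul_add]
    match_scalars <;> grind [Complex.I_mul_I]
  convert (h1.comb h2 1 1).comb (rsp_Z.mul (h1.comb h2 (-1) 1)) (1 / 2) (1 / 2) using 1
  simp only [e, mul_smul_comm, _root_.mul_add, ← mul_assoc, m.Z_sq, one_mul, zero_mul,
    inner_neg_right]
  module

theorem rsp_genU {y : ℕ → KK} (hy : ∀ k, y k ∈ m.R) (β : ℕ → ℝ) {S : ℕ → H →L[ℂ] H}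
    (hS : ∀ p, S p = ∑ i ∈ Finset.range p, (Complex.I * ⟪u, y i⟫_ℂ) •
      (star (m.genU y β i) * m.Z * m.genU y β i)) (p : ℕ) :
    m.RspDer u (m.genU y β p) (-(m.genU y β p * S p)) ∧
      m.RspDer u (star (m.genU y β p)) (S p * star (m.genU y β p)) := by
  induction p with
  | zero =>
    have h : m.RspDer u 1 0 := .fix fun b z => ⟨1, b, by simp⟩
    simpa [hS, genU] using h
  | succ p ih =>
    have hU := (m.fib_genU hy β p).mul_star_self
    have hU' : ∀ A, m.genU y β p * (star (m.genU y β p) * A) = A := fun A => by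
      rw [← mul_assoc, hU, one_mul]
    have e : S (p + 1) = S p + (Complex.I * ⟪u, y p⟫_ℂ) •
        (star (m.genU y β p) * m.Z * m.genU y β p) := by rw [hS, Finset.sum_range_succ, ← hS]
    constructor
    · convert ((rsp_B (β p)).mul (rsp_D (hy p))).mul ih.1 using 1
      · rfl
      simp only [genU, e, _root_.mul_add, mul_smul_comm, smul_mul_assoc, mul_assoc, hU', zero_mul,
        _root_.mul_neg, (m.isAxis_Z.commute_D_self (y p)).eq, zero_add]
      module
    · have e' : star (m.genU y β (p + 1)) =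
          star (m.genU y β p) * (m.D m.Z (-y p) * m.B (-β p)) := by
        rw [genU, star_mul, star_mul, m.isAxis_Z.star_D, B, star_rot m.X_star, B]
      convert ih.2.mul ((rsp_D (m.R.neg_mem (hy p))).mul (rsp_B (-β p))) using 1
      simp only [e', e, add_mul, mul_smul_comm, smul_mul_assoc, mul_assoc, hU', mul_zero,
        add_zero, inner_neg_right, _root_.mul_neg, neg_neg]

variable (m)

/-- response formula.  Hint: call `(A, A')` good if for all `b`, `z ∈ R`
`⟪io u, A (coh b z)⟫ = ⟪vac, A' (coh b z)⟫ + I * ⟪u, z⟫ * ⟪vac, A (coh b z)⟫`; `(1,0)` is good, and so are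
`(A * B β, A' * B β)`, `(A * Z, A' * Z)`, `(A * D Z y, A' * D Z y - I ⟪u,y⟫ • (A * Z * D Z y))`. -/
theorem inner_io_xi {y : ℕ → KK} (hy : ∀ k, y k ∈ m.R) (β : ℕ → ℝ) (p : ℕ) (u : KK) :
    ⟪m.io u, m.xi (m.genU y β p)⟫_ℂ = ∑ i ∈ Finset.range p, 2 * ⟪u, y i⟫_ℂ *
      (((⟪m.xi (m.genU y β p), m.xi (m.genU y β i)⟫_ℂ).im : ℝ) : ℂ) := by
  obtain ⟨h1, h2⟩ := rsp_genU (u := u) hy β (fun _ => rfl) p
  have h3 := ((h2.mul rsp_Z).mul h1) _ _ (m.rsp_good_one u) false 0 m.R.zero_mem
  simp only [m.coh_zero, inner_zero_right, mul_zero, zero_mul, add_zero, zero_add, one_mul] at h3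
  have h4 : ∀ A B : H →L[ℂ] H, ⟪m.vac, (star A * (m.Z * (A * (star B * (m.Z * B))))) m.vac⟫_ℂ =
      ⟪m.xi A, m.xi B⟫_ℂ := by
    intro A B
    change ⟪m.vac, (star A * m.Z * A) (m.xi B)⟫_ℂ = _
    rw [← ContinuousLinearMap.adjoint_inner_left, ← ContinuousLinearMap.star_eq_adjoint, star_mul,
      star_mul, star_star, m.Z_star, ← mul_assoc]
    rfl
  refine h3.trans ?_
  simp only [Finset.sum_mul, Finset.mul_sum, smul_mul_assoc, mul_smul_comm, add_apply, neg_apply,
    sum_apply, smul_apply, inner_add_right, inner_neg_right, inner_sum, inner_smul_right,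
    _root_.mul_neg, mul_assoc, h4, ← Finset.sum_neg_distrib, ← Finset.sum_add_distrib]
  refine Finset.sum_congr rfl fun i _ => ?_
  have h5 := Complex.sub_conj ⟪m.xi (m.genU y β p), m.xi (m.genU y β i)⟫_ℂ
  rw [inner_conj_symm] at h5
  push_cast at h5
  grind [Complex.I_mul_I]

/-- field vectors of a word -/
noncomputable def wy (w : List (Layer K)) (k : ℕ) : KK := m.fld (m.run (w.take k)) (w.getD k 0)

theorem wy_mem (w : List (Layer K)) (k : ℕ) : m.wy w k ∈ m.R := (m.fib_run _).fld_mem _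

theorem run_take_eq (w : List (Layer K)) {k : ℕ} (hk : k ≤ w.length) :
    m.run (w.take k) = m.genU (m.wy w) (fun i => (w.getD i 0).2.2) k := by
  induction k with
  | zero => rfl
  | succ k ih =>
    rw [List.take_succ_eq_append_getElem hk, m.run_snoc, genU, ← ih (by omega), wy,
      List.getD_eq_getElem _ _ hk, step]

/-- Gram matrix of a word -/
noncomputable def wG (w : List (Layer K)) (p : ℕ) (s t : Fin (p + 1)) : ℂ :=
  ⟪m.xi (m.run (w.take s)), m.xi (m.run (w.take t))⟫_ℂ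

theorem rsp_wy {w : List (Layer K)} (hw : Lev 1 w) {k : ℕ} (hk : k < w.length) :
    m.wy w k = ((w.getD k 0).2.1 : ℂ) • m.j (m.xi (m.run (w.take k))) +
      ((w.getD k 0).1 0 : ℂ) • m.d 0 := by
  rw [wy, fld, labv, Finset.sum_eq_single 0 (fun i _ hi => ?_) (by simp), Complex.coe_smul,
    Complex.coe_smul]
  rw [List.getD_eq_getElem _ _ hk, hw _ (List.getElem_mem hk) i (Fin.pos_iff_ne_zero.2 hi),
    zero_smul]

theorem rsp_d0 : ⟪m.d 0, m.d 0⟫_ℂ = 1 := by
  simp [m.d_on.1 0]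

theorem rsp_j_d0 (ξ : H) : ⟪m.j ξ, m.d 0⟫_ℂ = 0 := inner_eq_zero_symm.1 (m.j_d0 ξ)

theorem rsp_io (w : List (Layer K)) {k : ℕ} (hk : k ≤ w.length) (u : KK) :
    ⟪m.io u, m.xi (m.run (w.take k))⟫_ℂ = ∑ i ∈ Finset.range k, 2 * ⟪u, m.wy w i⟫_ℂ *
      (((⟪m.xi (m.run (w.take k)), m.xi (m.run (w.take i))⟫_ℂ).im : ℝ) : ℂ) := by
  rw [m.run_take_eq w hk, m.inner_io_xi (m.wy_mem w)]
  exact Finset.sum_congr rfl fun i hi => by
    rw [m.run_take_eq w ((Finset.mem_range.1 hi).le.trans hk)]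

theorem isGram1_wG {w : List (Layer K)} (hw : Lev 1 w) {p : ℕ} (hp : w.length = p) :
    IsGram1 (fun k : Fin p => (w.getD k 0).1 0) (fun k : Fin p => (w.getD k 0).2.1)
      (fun k : Fin p => (w.getD k 0).2.2) (m.wG w p) := by
  subst hp
  refine ⟨fun t => ?_, fun s t => (inner_conj_symm _ _).symm, fun s t => ?_⟩
  · rw [wG, inner_self_eq_norm_sq_to_K, (m.fib_run _).norm_xi]
    simp
  · rw [wG, m.run_take_eq w s.is_le, m.run_take_eq w t.is_le, m.inner_xi_genU (m.wy_mem w)]
    congr 1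
    funext k l
    simp only [m.rsp_wy hw k.2, m.rsp_wy hw l.2, inner_add_left, inner_add_right, inner_smul_left,
      inner_smul_right, m.j_d0, m.rsp_j_d0, m.rsp_d0, Complex.conj_ofReal, m.j.inner_map_map, wG,
      Fin.val_castSucc]
    ring

theorem isGram_wG {w : List (Layer K)} (hw : Lev 0 w) {p : ℕ} (hp : w.length = p) :
    IsGram (fun k : Fin p => (w.getD k 0).2.1) (fun k : Fin p => (w.getD k 0).2.2) (m.wG w p) := by
  obtain ⟨h1, h2, h3⟩ := m.isGram1_wG (hw.mono zero_le_one) hp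
  refine ⟨h1, h2, fun s t => (h3 s t).trans ?_⟩
  congr 1
  funext k l
  have hk : (k : ℕ) < w.length := hp ▸ k.2
  simp only [List.getD_eq_getElem _ _ hk, hw _ (List.getElem_mem hk) 0 (Nat.zero_le _),
    Complex.ofReal_zero, zero_mul, add_zero]

theorem En_run {w : List (Layer K)} (hw : Lev 1 w) {p : ℕ} (hp : w.length = p) :
    m.En (m.run w) = limE (fun k : Fin p => (w.getD k 0).2.1) (m.wG w p) := by
  subst hp
  have h := m.rsp_io w le_rfl (m.j (m.xi (m.run (w.take w.length))))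
  rw [← List.take_length (l := w), En, ← inner_conj_symm, Complex.conj_re, List.take_length]
  rw [List.take_length] at h
  rw [h, limE, Finset.sum_range, Complex.re_sum]
  refine Finset.sum_congr rfl fun k _ => ?_
  simp only [m.rsp_wy hw k.2, inner_add_right, inner_smul_right, m.rsp_j_d0, m.j.inner_map_map, wG,
    Fin.val_castSucc, Fin.val_last, List.take_length, sq]
  simp
  ring

theorem Fz_run {w : List (Layer K)} (hw : Lev 1 w) {p : ℕ} (hp : w.length = p) (k : Fin p) :
    m.Fz (m.run (w.take k)) = 2 * ∑ i : Fin p,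
      if i < k then (w.getD i 0).1 0 * (m.wG w p k.castSucc i.castSucc).im else 0 := by
  subst hp
  rw [Fz, m.rsp_io w k.2.le, Complex.re_sum, Finset.mul_sum]
  refine Eq.trans ?_ (Finset.sum_range fun i => 2 * if i < k then (w.getD i 0).1 0 *
    (⟪m.xi (m.run (w.take k)), m.xi (m.run (w.take i))⟫_ℂ).im else 0)
  refine Finset.sum_subset_zero_on_sdiff (Finset.range_mono k.2.le) (fun i hi => ?_) fun i hi => ?_
  · rw [if_neg (by simpa using (Finset.mem_sdiff.1 hi).2), mul_zero]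
  · have hi' := Finset.mem_range.1 hi
    simp only [m.rsp_wy hw (hi'.trans k.2), inner_add_right, inner_smul_right, m.j_d0, m.rsp_d0,
      if_pos hi']
    simp
    ring

end Model

end Crest.Agent.R339
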