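import Crest.Agent.R339.Q.BS1
import Crest.Agent.R339.Q.Resp

/-!
# Row 339, part Q: limits of the ideal process
-/

set_option autoImplicit false

namespace Crest.Agent.R339

open MeasureTheory ProbabilityTheory Filter Topology Crest.MathPhysics.SpinGlass
open scoped InnerProductSpace ComplexConjugate

namespace Model

variable {I : Iamp 0} {H KK : Type} [NormedAddCommGroup H] [InnerProductSpace ℂ H]
  [CompleteSpace H] [NormedAddCommGroup KK] [InnerProductSpace ℂ KK] (m : Model I H KK)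

variable (a γ β : ℕ → ℝ)

theorem h8_inner_far {n n' r ρ : ℝ} {S : Set KK} {ψ φ : H} (hφ : m.MC S n' φ)
    (hS : ∀ v ∈ S, (∀ i, ⟪m.d i, v⟫_ℂ = 0) ∧ ‖v‖ = ρ) (hψ : m.MC (Metric.closedBall 0 r) n ψ) :
    ‖⟪ψ, φ⟫_ℂ‖ ≤ n' * n * Real.exp (-(ρ * (ρ - 2 * r)) / 2) := by
  induction hφ with
  | base g c b z hg hc hz hzS =>
    have hg' : Measurable fun x => conj (g x) := Complex.continuous_conj.measurable.comp hg
    have h1 := (hψ.mul hg' (c := c) (fun x => by simpa using hc x)).inner_far b (hS z hzS).1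
    rwa [(hS z hzS).2, ← m.mul_star g ⟨hg, c, hc⟩, ContinuousLinearMap.star_eq_adjoint,
      ContinuousLinearMap.adjoint_inner_left] at h1
  | add _ _ ih ih' =>
    rw [inner_add_right]
    refine (norm_add_le _ _).trans ?_
    rw [add_mul, add_mul]
    exact add_le_add ih ih'
  | mono _ hn ih =>
    refine ih.trans ?_
    have := hψ.nonneg
    gcongr

theorem h8_norm_Z_vac : ‖m.Z m.vac‖ = 1 := by
  rw [m.isAxis_Z.fib.norm_apply, m.norm_vac]

theorem h8_norm_eta0 : ‖m.eta0‖ = 1 := by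
  rw [eta0, m.j.norm_map, m.h8_norm_Z_vac]

theorem h8_fib_U1 (q : ℝ) : m.Fib (m.U1 q) := m.fib_run _

theorem h8_tendsto_vv : Tendsto (fun q : ℝ => ‖m.vv q‖) atTop atTop := by
  refine tendsto_atTop_mono' atTop ?_
    (tendsto_atTop_add_const_right _ (-4) (Real.tendsto_sqrt_atTop.const_mul_atTop two_pos))
  filter_upwards [eventually_ge_atTop 1] with q hq
  have h1 := m.norm_vv_sub hq
  have h2 : 1 ≤ Real.sqrt q := Real.one_le_sqrt.2 hq
  have h3 : ‖(2 * Real.sqrt q) • m.eta0‖ = 2 * Real.sqrt q := by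
    rw [norm_smul, m.h8_norm_eta0, mul_one, Real.norm_of_nonneg (by positivity)]
  have h4 := norm_sub_norm_le ((2 * Real.sqrt q) • m.eta0) (m.vv q)
  rw [norm_sub_rev] at h1
  have h5 : 4 / Real.sqrt q ≤ 4 := div_le_self (by norm_num) h2
  linarith

theorem h8_inv_lim : Tendsto (fun q : ℝ => ((q : ℂ))⁻¹) atTop (𝓝 0) := by
  have h := (Complex.continuous_ofReal.tendsto 0).comp (tendsto_inv_atTop_zero (𝕜 := ℝ))
  simpa [Function.comp_def] using h

theorem h8_sqrt_lim (C : ℝ) : Tendsto (fun q : ℝ => C / Real.sqrt q) atTop (𝓝 0) :=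
  Real.tendsto_sqrt_atTop.const_div_atTop C

/-- `Jm` is asymptotically isometric -/
theorem h8_Jm_lim {ξ ξ' : ℝ → H} {g : ℂ} (h : Tendsto (fun q => ⟪ξ q, ξ' q⟫_ℂ) atTop (𝓝 g)) :
    Tendsto (fun q => ⟪m.Jm q (ξ q), m.Jm q (ξ' q)⟫_ℂ) atTop (𝓝 g) := by
  have h1 := ((h8_inv_lim.pow 2).const_sub 1).mul h
  simp only [ne_eq, OfNat.ofNat_ne_zero, not_false_eq_true, zero_pow, sub_zero, one_mul] at h1
  refine h1.congr' ?_
  filter_upwards [eventually_ge_atTop 1] with q hq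
  rw [m.inner_Jm hq]
  push_cast
  rw [one_div, inv_pow]

/-- `j ξ` and `Jm ξ` differ by the rare component -/
theorem h8_j_sub_Jm {q : ℝ} (hq : 1 ≤ q) (ξ : H) : ‖m.j ξ - m.Jm q ξ‖ ≤ ‖ξ‖ / q := by
  have h1 : ξ = star (m.U1 q) (m.U1 q ξ) := by
    rw [← mul_apply_eq_comp, (m.h8_fib_U1 q).star_mul_self, one_apply_eq_self]
  have h2 : m.U1 q ξ = m.cm q • m.T1 q ξ + m.cr q • m.Rr q ξ := by
    rw [m.U1_eq hq]
    rfl
  have h3 : ξ - star (m.U1 q) (m.cm q • m.T1 q ξ) = star (m.U1 q) (m.cr q • m.Rr q ξ) := by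
    rw [sub_eq_iff_eq_add', ← map_add, ← h2, ← h1]
  rw [Jm, ← m.j.map_sub, m.j.norm_map, h3, (m.h8_fib_U1 q).star.norm_apply, norm_smul,
    m.norm_cr hq, (m.fib_Rr q).norm_apply]
  rw [one_div, div_eq_inv_mul]

/-- limits of inner products with the ideal field -/
theorem h8_iy_lim (ha0 : a 0 = 0) (hγ0 : γ 0 = 0) (k : ℕ) {y : ℝ → KK} {C : ℝ}
    (hy : ∀ q, 1 ≤ q → ‖y q‖ ≤ C) {c₁ c₂ : ℂ}
    (h1 : Tendsto (fun q => ⟪y q, m.ym q a γ β k⟫_ℂ) atTop (𝓝 c₁))
    (h2 : Tendsto (fun q : ℝ => (q : ℂ) * ⟪y q, m.yr q⟫_ℂ) atTop (𝓝 c₂)) :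
    Tendsto (fun q => ⟪y q, m.iy q a γ β k⟫_ℂ) atTop (𝓝 (γ k * c₁ + a k * c₂)) := by
  rcases eq_or_ne k 0 with rfl | hk
  · rw [ha0, hγ0, Complex.ofReal_zero, zero_mul, zero_mul, add_zero]
    refine squeeze_zero_norm' ?_ (h8_sqrt_lim (C * 4))
    filter_upwards [eventually_ge_atTop 1] with q hq
    rw [iy, iyf, if_pos rfl, mul_div_assoc]
    exact (norm_inner_le_norm _ _).trans (mul_le_mul (hy q hq) (m.norm_ys_le hq) (norm_nonneg _)
      ((norm_nonneg _).trans (hy q hq)))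
  · have h3 := (h1.const_mul (γ k : ℂ)).add
      (((h8_inv_lim.const_mul (γ k : ℂ)).add_const (a k : ℂ)).mul h2)
    rw [mul_zero, zero_add] at h3
    refine h3.congr' ?_
    filter_upwards [eventually_ge_atTop 1] with q hq
    have hq0 : (q : ℂ) ≠ 0 := by exact_mod_cast (one_pos.trans_le hq).ne'
    rw [iy, iyf, if_neg hk, ← Complex.coe_smul, ← Complex.coe_smul, inner_add_right,
      inner_smul_right, inner_smul_right, inner_add_right, ym]
    push_cast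
    field_simp
    ring

/-- main and rare fields are asymptotically orthogonal, even after the amplification by `q`
(`MC.inner_far`, `‖vv‖ ≥ √q`) -/
theorem tendsto_cross {A : ℝ} (hA : 1 ≤ A) (ha : ∀ k, |a k| ≤ A) (hγ : ∀ k, |γ k| ≤ A) (k : ℕ) :
    Tendsto (fun q : ℝ => (q : ℂ) * ⟪m.ym q a γ β k, m.yr q⟫_ℂ) atTop (𝓝 0) := by
  obtain ⟨A₀, hA₀, h⟩ := m.mc_ideal a γ β hA ha hγ k
  have h1 := m.h8_tendsto_vv
  have h2 := (Real.tendsto_exp_atBot.comp ((tendsto_neg_atTop_atBot.comp (h1.atTop_mul_atTop₀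
    (tendsto_atTop_add_const_right _ (-(2 * A₀)) h1))).atBot_div_const two_pos)).const_mul (4 * A₀)
  rw [mul_zero] at h2
  refine squeeze_zero_norm' ?_ h2
  filter_upwards [eventually_ge_atTop 1] with q hq
  have hq0 : 0 < q := one_pos.trans_le hq
  have h3 := m.h8_inner_far (m.mc_Rr q).Z (ρ := ‖m.vv q‖) (by
    rintro v (rfl | rfl)
    · exact ⟨m.d_vv q, rfl⟩
    · exact ⟨fun i => by rw [inner_neg_right, m.d_vv q, neg_zero], norm_neg _⟩)
    ((h q hq).2 k le_rfl).1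
  rw [ym, Jm, yr, m.j.inner_map_map, (m.h8_fib_U1 q).star.inner_apply, inner_smul_left,
    inner_smul_right, norm_mul, norm_mul, norm_mul, m.norm_cr hq, Complex.norm_real,
    Real.norm_of_nonneg hq0.le, RCLike.norm_conj]
  refine le_trans ?_ h3
  have h4 := m.norm_cm_le hq
  calc q * (‖m.cm q‖ * (1 / q * _)) = ‖m.cm q‖ * _ := by field_simp
    _ ≤ _ := mul_le_of_le_one_left (norm_nonneg _) h4

theorem h8_ym_iy {A : ℝ} (hA : 1 ≤ A) (ha : ∀ k, |a k| ≤ A) (hγ : ∀ k, |γ k| ≤ A)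
    (ha0 : a 0 = 0) (hγ0 : γ 0 = 0) (l k : ℕ) {g : ℂ}
    (h : Tendsto (fun q : ℝ => ⟪m.xi (m.iT q a γ β l), m.xi (m.iT q a γ β k)⟫_ℂ) atTop (𝓝 g)) :
    Tendsto (fun q => ⟪m.ym q a γ β l, m.iy q a γ β k⟫_ℂ) atTop (𝓝 (γ k * g)) := by
  have h1 := m.h8_iy_lim a γ β ha0 hγ0 k (fun q hq => m.norm_ym_le a γ β hq l) (m.h8_Jm_lim h)
    (m.tendsto_cross a γ β hA ha hγ l)
  rwa [mul_zero, add_zero] at h1

theorem h8_yr_iy {A : ℝ} (hA : 1 ≤ A) (ha : ∀ k, |a k| ≤ A) (hγ : ∀ k, |γ k| ≤ A)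
    (ha0 : a 0 = 0) (hγ0 : γ 0 = 0) (k : ℕ) :
    Tendsto (fun q : ℝ => ⟪(q : ℂ) • m.yr q, m.iy q a γ β k⟫_ℂ) atTop (𝓝 (a k)) := by
  have hn : ∀ q : ℝ, 1 ≤ q → ‖(q : ℂ) • m.yr q‖ = 1 := fun q hq => by
    have hq0 : 0 < q := one_pos.trans_le hq
    rw [norm_smul, m.norm_yr hq, Complex.norm_real, Real.norm_of_nonneg hq0.le,
      mul_one_div_cancel hq0.ne']
  have h1 : Tendsto (fun q : ℝ => ⟪(q : ℂ) • m.yr q, m.ym q a γ β k⟫_ℂ) atTop (𝓝 0) := by
    have h2 := (Complex.continuous_conj.tendsto _).comp (m.tendsto_cross a γ β hA ha hγ k)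
    rw [map_zero] at h2
    refine h2.congr fun q => ?_
    simp only [Function.comp, map_mul, inner_conj_symm, inner_smul_left]
  have h2 : Tendsto (fun q : ℝ => (q : ℂ) * ⟪(q : ℂ) • m.yr q, m.yr q⟫_ℂ) atTop (𝓝 1) := by
    refine tendsto_const_nhds.congr' ?_
    filter_upwards [eventually_ge_atTop 1] with q hq
    rw [← inner_smul_right, inner_self_eq_norm_sq_to_K, hn q hq]
    simp
  have h3 := m.h8_iy_lim a γ β ha0 hγ0 k (fun q hq => (hn q hq).le) h1 h2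
  rwa [mul_zero, zero_add, mul_one] at h3

theorem h8_iy_iy {A : ℝ} (hA : 1 ≤ A) (ha : ∀ k, |a k| ≤ A) (hγ : ∀ k, |γ k| ≤ A)
    (ha0 : a 0 = 0) (hγ0 : γ 0 = 0) (k l : ℕ) {g : ℂ}
    (h : Tendsto (fun q : ℝ => ⟪m.xi (m.iT q a γ β k), m.xi (m.iT q a γ β l)⟫_ℂ) atTop (𝓝 g)) :
    Tendsto (fun q => ⟪m.iy q a γ β k, m.iy q a γ β l⟫_ℂ) atTop
      (𝓝 ((γ k : ℂ) * (γ l : ℂ) * g + (a k : ℂ) * (a l : ℂ))) := by
  have h0 : Tendsto (fun q : ℝ => ⟪m.xi (m.iT q a γ β l), m.xi (m.iT q a γ β k)⟫_ℂ) atTop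
      (𝓝 (conj g)) :=
    ((Complex.continuous_conj.tendsto _).comp h).congr fun q => inner_conj_symm _ _
  have h1 : Tendsto (fun q => ⟪m.iy q a γ β k, m.ym q a γ β l⟫_ℂ) atTop (𝓝 (γ k * g)) := by
    have h2 := (Complex.continuous_conj.tendsto _).comp (m.h8_ym_iy a γ β hA ha hγ ha0 hγ0 l k h0)
    rw [map_mul, Complex.conj_ofReal, Complex.conj_conj] at h2
    exact h2.congr fun q => inner_conj_symm _ _
  have h2 : Tendsto (fun q : ℝ => (q : ℂ) * ⟪m.iy q a γ β k, m.yr q⟫_ℂ) atTop (𝓝 (a k)) := by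
    have h2 := (Complex.continuous_conj.tendsto _).comp (m.h8_yr_iy a γ β hA ha hγ ha0 hγ0 k)
    rw [Complex.conj_ofReal] at h2
    refine h2.congr fun q => ?_
    simp only [Function.comp, inner_conj_symm, inner_smul_right]
  convert m.h8_iy_lim a γ β ha0 hγ0 l (fun q hq => m.norm_iy_le a γ β hq hA ha hγ k) h1 h2 using 2
  ring

/-- convergence of the Gram matrix (strong induction on `max s t`, `inner_xi_genU`, `psiGen_congr`, `continuous_psiGen`) -/
theorem tendsto_gram {A : ℝ} (hA : 1 ≤ A) (ha : ∀ k, |a k| ≤ A) (hγ : ∀ k, |γ k| ≤ A) {P : ℕ}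
    {G : Fin (P + 1) → Fin (P + 1) → ℂ}
    (hG : IsGram1 (fun k : Fin P => a k) (fun k : Fin P => γ k) (fun k : Fin P => β k) G)
    (ha0 : a 0 = 0) (hγ0 : γ 0 = 0) (s t : Fin (P + 1)) :
    Tendsto (fun q : ℝ => ⟪m.xi (m.iT q a γ β s), m.xi (m.iT q a γ β t)⟫_ℂ) atTop (𝓝 (G s t)) := by
  classical
  obtain ⟨n, hn⟩ : ∃ n, max (s : ℕ) t = n := ⟨_, rfl⟩
  induction n using Nat.strong_induction_on generalizing s t with
  | _ n ih =>
    set Γ : Fin P → Fin P → ℂ := fun k l =>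
      (γ k : ℂ) * (γ l : ℂ) * G k.castSucc l.castSucc + (a k : ℂ) * (a l : ℂ) with hΓ
    have h1 : Tendsto (fun q : ℝ => fun k l : Fin P => if (k : ℕ) < n ∧ (l : ℕ) < n then
        ⟪m.iy q a γ β k, m.iy q a γ β l⟫_ℂ else Γ k l) atTop (𝓝 Γ) := by
      refine tendsto_pi_nhds.2 fun k => tendsto_pi_nhds.2 fun l => ?_
      by_cases h : (k : ℕ) < n ∧ (l : ℕ) < n
      · simp only [if_pos h]
        exact m.h8_iy_iy a γ β hA ha hγ ha0 hγ0 k l
          (ih _ (max_lt h.1 h.2) k.castSucc l.castSucc rfl)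
      · simp only [if_neg h]
        exact tendsto_const_nhds
    have h2 := ((continuous_psiGen (fun k : Fin P => β k) s t).tendsto Γ).comp h1
    rw [hG.2.2 s t]
    refine h2.congr fun q => ?_
    rw [m.iT_eq_genU, m.iT_eq_genU, m.inner_xi_genU (m.iy_mem a γ β q)]
    exact psiGen_congr _ s t fun k l hk hl => if_pos ⟨hn ▸ hk, hn ▸ hl⟩

theorem h8_sign (s : Bool) (x : ℝ) : ∃ σ : Bool, spinSign σ * |x| = spinSign s * x := by
  rcases le_total 0 x with h | h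
  · exact ⟨s, by rw [abs_of_nonneg h]⟩
  · refine ⟨!s, ?_⟩
    rw [abs_of_nonpos h]
    cases s <;> simp [spinSign]

theorem h8_abs_sign (s : Bool) : |spinSign s| = 1 := by
  cases s <;> simp [spinSign]

theorem h8_pi_div {x : ℝ} (hx : 0 < x) : Real.pi / (2 * (Real.pi / (2 * x))) = x := by
  have := Real.pi_pos
  field_simp

theorem h8_xi_T1 : Tendsto (fun q : ℝ => m.xi (m.T1 q)) atTop (𝓝 (-(Complex.I • m.Z m.vac))) := by
  have h1 : Tendsto (fun q : ℝ => m.ys q) atTop (𝓝 0) := by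
    refine squeeze_zero_norm' ?_ (h8_sqrt_lim 4)
    filter_upwards [eventually_ge_atTop 1] with q hq
    exact m.norm_ys_le hq
  have h2 := m.stend_D (Q := m.Z) (Eventually.of_forall m.ys_mem) m.R.zero_mem h1
  rw [m.D_zero] at h2
  have h3 := m.tendsto_heis (Eventually.of_forall fun q => m.isAxis_Z.fib_D (m.ys_mem q))
    m.fib_one h2 m.Y
  rw [m.heis_one_left, m.Y_vac] at h3
  refine h3.congr fun q => ?_
  rw [T1, m.xi_B, show 2 * (Real.pi / 4) = Real.pi / 2 by ring, Real.cos_pi_div_two,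
    Real.sin_pi_div_two]
  simp

theorem h8_om_eta0 (hβ : β 0 = Real.pi / 4) :
    Tendsto (fun q : ℝ => om (m.ym q a γ β 1) m.eta0) atTop (𝓝 1) := by
  have h1 : Tendsto (fun q : ℝ => ⟪m.xi (m.T1 q), m.Z m.vac⟫_ℂ) atTop (𝓝 Complex.I) := by
    have h2 := m.h8_xi_T1.inner (𝕜 := ℂ) (tendsto_const_nhds (x := m.Z m.vac))
    rw [inner_neg_left, inner_smul_left, inner_self_eq_norm_sq_to_K, m.h8_norm_Z_vac] at h2
    simpa using h2
  have h2 := (Complex.continuous_im.tendsto _).comp (m.h8_Jm_lim h1)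
  have h3 : Tendsto (fun q : ℝ => om (m.ym q a γ β 1) (m.eta0 - m.Jm q (m.Z m.vac))) atTop (𝓝 0) := by
    refine squeeze_zero_norm' ?_ (tendsto_inv_atTop_zero (𝕜 := ℝ))
    filter_upwards [eventually_ge_atTop 1] with q hq
    have h4 := m.h8_j_sub_Jm hq (m.Z m.vac)
    rw [m.h8_norm_Z_vac, one_div] at h4
    refine (abs_om_le _ _).trans ?_
    exact (mul_le_of_le_one_left (norm_nonneg _) (m.norm_ym_le a γ β hq 1)).trans h4
  have h4 := h2.add h3
  rw [Complex.I_im, add_zero] at h4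
  refine h4.congr fun q => ?_
  rw [om_sub_right, ym, m.iT_one a γ β q hβ]
  simp [om]

/-- first layer: `om (ym 1) eta0 → 1` because `xi T1 → Y Ω = -i Z Ω`; take `b = π / (2 |2 om (ym 1) vv|)`, `ρ = 1` -/
theorem pos_one (hβ : β 0 = Real.pi / 4) : ∀ᶠ q in atTop, ∃ b ρ, 0 < b ∧ b ≤ 1 ∧ 1 ≤ ρ ∧
    b * ρ ≤ 2 / Real.sqrt q ∧ m.Pos q a γ β 1 b ρ := by
  filter_upwards [eventually_ge_atTop 16,
    (m.h8_om_eta0 a γ β hβ).eventually (lt_mem_nhds (show (3 / 4 : ℝ) < 1 by norm_num))] with q hq h1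
  have hq1 : 1 ≤ q := by linarith
  have h2 : 4 ≤ Real.sqrt q := Real.le_sqrt_of_sq_le (by linarith)
  have h3 : |om (m.ym q a γ β 1) (m.vv q - (2 * Real.sqrt q) • m.eta0)| ≤ 1 := by
    refine (abs_om_le _ _).trans ?_
    refine (mul_le_of_le_one_left (norm_nonneg _) (m.norm_ym_le a γ β hq1 1)).trans ?_
    exact (m.norm_vv_sub hq1).trans (div_le_one_of_le₀ h2 (by linarith))
  rw [om_sub_right, om_smul_right, abs_le] at h3
  set x := 2 * om (m.ym q a γ β 1) (m.vv q) with hx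
  have h4 : Real.sqrt q ≤ x := by nlinarith [h3.1]
  have hx0 : 0 < x := by linarith
  have h5 := Real.pi_le_four
  refine ⟨Real.pi / (2 * x), 1, by have := Real.pi_pos; positivity, ?_, le_rfl, ?_, fun s s' => ?_⟩
  · rw [div_le_one (by positivity)]
    linarith
  · rw [mul_one, div_le_div_iff₀ (by positivity) (by linarith)]
    nlinarith
  · refine ⟨s, ?_⟩
    rw [h8_pi_div hx0, iw, Finset.Ico_self, Finset.sum_empty, smul_zero, add_zero, om_smul_right, hx]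
    ring_nf
    simp

/-- later layers: `om (ym k) (iw k) / q → F ≠ 0`; take `b = π / (2 |2 om (ym k) (iw k)|)`, `ρ = 1 + 4 √q` -/
theorem pos_later {A : ℝ} (ha : ∀ k, |a k| ≤ A) (hγ : ∀ k, |γ k| ≤ A) {k : ℕ} {g : ℕ → ℂ}
    (hg : ∀ i < k, Tendsto (fun q : ℝ => ⟪m.xi (m.iT q a γ β k), m.xi (m.iT q a γ β i)⟫_ℂ) atTop (𝓝 (g i)))
    (hF : ∑ i ∈ Finset.Ico 1 k, a i * (g i).im ≠ 0) :
    ∃ C₀, ∀ᶠ q in atTop, ∃ b ρ, 0 < b ∧ b ≤ 1 ∧ 1 ≤ ρ ∧ b * ρ ≤ C₀ / Real.sqrt q ∧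
      m.Pos q a γ β k b ρ := by
  have _ := ha
  have _ := hγ
  set F := ∑ i ∈ Finset.Ico 1 k, a i * (g i).im with hFdef
  have hF0 : 0 < |F| := abs_pos.2 hF
  have h1 : Tendsto (fun q : ℝ => om (m.ym q a γ β k) (m.iw q a γ β k) / q) atTop (𝓝 F) := by
    have h2 : ∀ i ∈ Finset.Ico 1 k, Tendsto (fun q : ℝ => om (m.ym q a γ β k)
        (γ i • (m.ym q a γ β i + m.yr q) + (a i * q) • m.ym q a γ β i) / q) atTop
        (𝓝 (a i * (g i).im)) := by
      intro i hi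
      have h3 := ((Complex.continuous_im.tendsto _).comp
        (m.h8_Jm_lim (hg i (Finset.mem_Ico.1 hi).2))).const_mul (a i)
      have h4 : Tendsto (fun q : ℝ => γ i * om (m.ym q a γ β k) (m.ym q a γ β i + m.yr q) / q)
          atTop (𝓝 0) := by
        refine squeeze_zero_norm' ?_ (tendsto_id.const_div_atTop (|γ i| * 2))
        filter_upwards [eventually_ge_atTop 1] with q hq
        have hq0 : 0 < q := one_pos.trans_le hq
        rw [Real.norm_eq_abs, abs_div, abs_mul, abs_of_pos hq0, id]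
        gcongr
        refine (abs_om_le _ _).trans ?_
        refine (mul_le_of_le_one_left (norm_nonneg _) (m.norm_ym_le a γ β hq k)).trans ?_
        refine (norm_add_le _ _).trans ?_
        have h5 := m.norm_ym_le a γ β hq i
        have h6 : 1 / q ≤ 1 := (div_le_one hq0).2 hq
        rw [m.norm_yr hq]
        linarith
      have h5 := h4.add h3
      rw [zero_add] at h5
      refine h5.congr' ?_
      filter_upwards [eventually_ge_atTop 1] with q hq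
      have hq0 : 0 < q := one_pos.trans_le hq
      rw [om_add_right (m.ym q a γ β k) (γ i • _), om_smul_right, om_smul_right]
      simp only [Function.comp, om, ym]
      field_simp
    refine (tendsto_finsetSum _ h2).congr fun q => ?_
    simp only [iw, om, inner_sum, Complex.im_sum, Finset.sum_div]
  have h2 := h1.abs.eventually (lt_mem_nhds (half_lt_self hF0))
  refine ⟨10 / |F|, ?_⟩
  filter_upwards [eventually_ge_atTop 1, eventually_ge_atTop (2 / |F|), h2] with q hq hq2 h3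
  have hq0 : 0 < q := one_pos.trans_le hq
  set x := 2 * om (m.ym q a γ β k) (m.iw q a γ β k) with hx
  have h4 : |F| * q ≤ |x| := by
    rw [abs_div, abs_of_pos hq0, lt_div_iff₀ hq0] at h3
    rw [hx, abs_mul, abs_two]
    linarith
  have hx0 : 0 < |x| := lt_of_lt_of_le (by positivity) h4
  have h5 := Real.pi_le_four
  have h6 : 1 ≤ Real.sqrt q := Real.one_le_sqrt.2 hq
  have h7 : Real.sqrt q * Real.sqrt q = q := Real.mul_self_sqrt hq0.le
  rw [div_le_iff₀ hF0] at hq2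
  refine ⟨Real.pi / (2 * |x|), 1 + 4 * Real.sqrt q, by have := Real.pi_pos; positivity, ?_,
    by linarith, ?_, fun s s' => ?_⟩
  · rw [div_le_one (by positivity)]
    linarith
  · calc Real.pi / (2 * |x|) * (1 + 4 * Real.sqrt q) ≤ 4 / (2 * (|F| * q)) * (5 * Real.sqrt q) := by
          gcongr
          linarith
      _ = 10 / |F| / Real.sqrt q := by
          rw [div_mul_eq_mul_div, div_div, div_eq_div_iff (by positivity) (by positivity)]
          linear_combination (20 * |F|) * h7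
  · obtain ⟨σ, hσ⟩ := h8_sign s' x
    refine ⟨σ, ?_⟩
    rw [h8_pi_div hx0, hσ, om_add_right, om_smul_right, om_smul_right, hx]
    have h8 : |om (m.ym q a γ β k) (m.vv q)| ≤ 2 * Real.sqrt q :=
      (abs_om_le _ _).trans ((mul_le_of_le_one_left (norm_nonneg _) (m.norm_ym_le a γ β hq k)).trans
        (m.norm_vv_le hq))
    calc _ = |2 * (spinSign s * om (m.ym q a γ β k) (m.vv q))| := by
          congr 1
          ring
      _ ≤ _ := by
          rw [abs_mul, abs_mul, abs_two, h8_abs_sign]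
          linarith

theorem En_of_inv {q A₀ e : ℝ} {U : H →L[ℂ] H} {k : ℕ} (hq : 1 ≤ q) (he : 0 ≤ e) (he1 : e ≤ 1)
    (hA₀ : 1 ≤ A₀) (h : m.Inv q a γ β A₀ k U e)
    (h1 : m.MC (Metric.closedBall 0 A₀) A₀ (m.T1 q m.vac))
    (h2 : m.MC (Metric.closedBall 0 A₀) A₀ (m.T1 q (m.xi (m.iT q a γ β k)))) :
    |m.En U - (⟪m.xi (m.iT q a γ β k), m.io (m.ym q a γ β k)⟫_ℂ).re| ≤ 20 * A₀ * e + 4 / q := by
  have _ := he1
  have hq0 : 0 < q := one_pos.trans_le hq
  have hU : m.Fib U := m.reach_fib h.1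
  have hT := m.fib_iT a γ β q k
  have hD := m.isAxis_Z.fib_D (m.iw_mem a γ β q k)
  have h3 := Inv2.field m h hq he (hT.mul (m.fib_T1 q).star) hD h1 h2 (by
      rw [star_mul, star_star, xi, heis, ← mul_apply_eq_comp,
        ← mul_apply_eq_comp]
      simp only [mul_assoc, (m.fib_T1 q).star_mul_self, mul_one])
    (s := 1) (by
      rw [mul_assoc, (m.isAxis_Z.commute_D_self _).eq, ← mul_assoc, hD.star_mul_self]
      simp) abs_one
  set ξ := m.xi (m.iT q a γ β k) with hξ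
  have hξ1 : ‖ξ‖ = 1 := hT.norm_xi
  have h4 : ‖m.j (m.xi U) - m.Jm q ξ‖ ≤ 10 * A₀ * e + 1 / q := by
    have h5 := norm_add_le (m.j (m.xi U) - (m.Jm q ξ + (1 : ℝ) • m.yr q)) (m.yr q)
    rw [one_smul, show m.j (m.xi U) - (m.Jm q ξ + m.yr q) + m.yr q = m.j (m.xi U) - m.Jm q ξ by abel,
      m.norm_yr hq] at h5
    rw [one_smul] at h3
    nlinarith
  have h5 : ‖m.xi U - ξ‖ ≤ 10 * A₀ * e + 2 / q := by
    have h6 := m.h8_j_sub_Jm hq ξ
    rw [hξ1, norm_sub_rev] at h6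
    have h7 := norm_add_le (m.j (m.xi U) - m.Jm q ξ) (m.Jm q ξ - m.j ξ)
    rw [sub_add_sub_cancel, ← m.j.map_sub, m.j.norm_map] at h7
    have h8 : 2 / q = 1 / q + 1 / q := by ring
    linarith
  have h6 : ⟪m.xi U, m.io (m.j (m.xi U))⟫_ℂ - ⟪ξ, m.io (m.Jm q ξ)⟫_ℂ =
      ⟪m.xi U - ξ, m.io (m.j (m.xi U))⟫_ℂ + ⟪ξ, m.io (m.j (m.xi U) - m.Jm q ξ)⟫_ℂ := by
    rw [m.io.map_sub, inner_sub_left, inner_sub_right]
    ring
  rw [En, ym, ← hξ, ← Complex.sub_re, h6]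
  refine (Complex.abs_re_le_norm _).trans ((norm_add_le _ _).trans ?_)
  have h7 := norm_inner_le_norm (𝕜 := ℂ) (m.xi U - ξ) (m.io (m.j (m.xi U)))
  have h8 := norm_inner_le_norm (𝕜 := ℂ) ξ (m.io (m.j (m.xi U) - m.Jm q ξ))
  rw [m.io.norm_map, m.j.norm_map, hU.norm_xi, mul_one] at h7
  rw [m.io.norm_map, hξ1, one_mul] at h8
  have h9 : 4 / q = 2 / q + 1 / q + 1 / q := by ring
  have h10 : 0 < 1 / q := by positivity
  linarith

/-- response formula for the ideal process -/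
theorem tendsto_energy {A : ℝ} (hA : 1 ≤ A) (ha : ∀ k, |a k| ≤ A) (hγ : ∀ k, |γ k| ≤ A) {P : ℕ}
    {G : Fin (P + 1) → Fin (P + 1) → ℂ}
    (hG : IsGram1 (fun k : Fin P => a k) (fun k : Fin P => γ k) (fun k : Fin P => β k) G)
    (ha0 : a 0 = 0) (hγ0 : γ 0 = 0) :
    Tendsto (fun q : ℝ => (⟪m.xi (m.iT q a γ β P), m.io (m.ym q a γ β P)⟫_ℂ).re) atTop
      (𝓝 (limE (fun k : Fin P => γ k) G)) := by
  have h1 : ∀ k : Fin P, Tendsto (fun q : ℝ => (2 * ⟪m.ym q a γ β P, m.iy q a γ β k⟫_ℂ *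
      (((⟪m.xi (m.iT q a γ β P), m.xi (m.iT q a γ β k)⟫_ℂ).im : ℝ) : ℂ)).re) atTop
      (𝓝 (γ k * (G (Fin.last P) k.castSucc ^ 2).im)) := by
    intro k
    have h2 := m.tendsto_gram a γ β hA ha hγ hG ha0 hγ0 (Fin.last P) k.castSucc
    have h3 := (Complex.continuous_re.tendsto _).comp
      (((m.h8_ym_iy a γ β hA ha hγ ha0 hγ0 P k h2).const_mul 2).mul
        (((Complex.continuous_ofReal.comp Complex.continuous_im).tendsto _).comp h2))
    have e : (2 * ((γ k : ℂ) * G (Fin.last P) k.castSucc) *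
        (Complex.ofReal ∘ Complex.im) (G (Fin.last P) k.castSucc)).re =
        γ k * (G (Fin.last P) k.castSucc ^ 2).im := by
      simp [sq]
      ring
    rw [e] at h3
    exact h3
  refine (tendsto_finsetSum Finset.univ fun k _ => h1 k).congr fun q => ?_
  rw [← inner_conj_symm, Complex.conj_re, m.iT_eq_genU a γ β q P,
    m.inner_io_xi (m.iy_mem a γ β q), Finset.sum_range, Complex.re_sum]
  simp only [m.iT_eq_genU]

end Model

end Crest.Agent.R339
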