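import Crest.Agent.R339.Q.Alg5

/-!
# Row 339, part Q: coherent vectors, first order estimates
-/

set_option autoImplicit false

namespace Crest.Agent.R339

open MeasureTheory ProbabilityTheory Filter Topology Crest.MathPhysics.SpinGlass
open scoped InnerProductSpace ComplexConjugate

theorem coh1_gauss_char (a : ℝ) :
    ∫ g : ℝ, Complex.exp (Complex.I * ((a * g : ℝ) : ℂ)) ∂gaussianReal 0 1 =
      ((Real.exp (-a ^ 2 / 2) : ℝ) : ℂ) := by
  have h := complexMGF_id_gaussianReal (μ := 0) (v := 1) (Complex.I * a)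
  simp only [complexMGF, id] at h
  rw [Complex.ofReal_exp]
  convert h using 3
  · push_cast; ring
  · push_cast
    rw [mul_pow, Complex.I_sq]; simp

theorem coh1_gL_char {K : ℕ} (a : Fin (K + 1) → ℝ) :
    ∫ x, Complex.exp (Complex.I * ((∑ i, a i * x i : ℝ) : ℂ)) ∂gL K =
      ((Real.exp (-(∑ i, a i ^ 2) / 2) : ℝ) : ℂ) := by
  have h1 : ∀ x : Lab K, Complex.exp (Complex.I * ((∑ i, a i * x i : ℝ) : ℂ)) =
      ∏ i, Complex.exp (Complex.I * ((a i * x i : ℝ) : ℂ)) := by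
    intro x
    rw [← Complex.exp_sum, Complex.ofReal_sum, Finset.mul_sum]
  simp_rw [h1]
  unfold gL
  rw [integral_fintype_prod_eq_prod
    (fun i (g : ℝ) => Complex.exp (Complex.I * ((a i * g : ℝ) : ℂ)))]
  simp_rw [coh1_gauss_char]
  rw [← Complex.ofReal_prod, ← Real.exp_sum]
  congr 2
  rw [← Finset.sum_div, Finset.sum_neg_distrib]

theorem coh1_norm_expI (a : ℝ) : ‖Complex.exp (-(Complex.I * (a : ℂ)))‖ = 1 := by
  rw [← mul_neg, ← Complex.ofReal_neg, Complex.norm_exp_I_mul_ofReal]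

theorem coh1_norm_expI_sub (a : ℝ) : ‖Complex.exp (-(Complex.I * (a : ℂ))) - 1‖ ≤ |a| := by
  rw [← mul_neg, ← Complex.ofReal_neg]
  simpa using Real.norm_exp_I_mul_ofReal_sub_one_le (x := -a)

theorem coh1_bessel {K : ℕ} {KK : Type} [NormedAddCommGroup KK] [InnerProductSpace ℂ KK]
    {d : Fin (K + 1) → KK} (hd : Orthonormal ℂ d) (y : KK) :
    ∑ i, (⟪d i, y⟫_ℂ).re ^ 2 ≤ ‖y‖ ^ 2 := by
  refine le_trans (Finset.sum_le_sum fun i _ => ?_) (hd.sum_inner_products_le y (s := Finset.univ))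
  rw [← sq_abs]
  exact pow_le_pow_left₀ (abs_nonneg _) (Complex.abs_re_le_norm _) 2

theorem coh1_abs_sin_sub (u : ℝ) : |Real.sin u - u| ≤ u ^ 2 := by
  wlog hu : 0 ≤ u generalizing u
  · have := this (-u) (by linarith)
    rwa [Real.sin_neg, neg_sq, ← neg_sub', abs_neg] at this
  rw [abs_sub_comm, abs_of_nonneg (sub_nonneg.2 (Real.sin_le hu))]
  rcases hu.eq_or_lt with rfl | hu
  · simp
  by_cases h : u ≤ 6
  · have := Real.sin_gt_sub_cube hu
    nlinarith [mul_nonneg (sq_nonneg u) (sub_nonneg.2 h)]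
  · nlinarith [Real.neg_one_le_sin u]

theorem coh1_pow_four_le (g : ℝ) : g ^ 4 ≤ 3 / 2 * (Real.exp (2 * g) + Real.exp (-2 * g)) := by
  have h := Real.pow_div_factorial_le_exp (2 * |g|) (by positivity) 4
  have h1 : Real.exp (2 * |g|) ≤ Real.exp (2 * g) + Real.exp (-2 * g) := by
    rcases abs_cases g with h | h
    · rw [h.1]; linarith [Real.exp_pos (-2 * g)]
    · rw [h.1, show 2 * -g = -2 * g by ring]; linarith [Real.exp_pos (2 * g)]
  have h2 : (2 * |g|) ^ 4 = 16 * g ^ 4 := by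
    rw [mul_pow, show (4 : ℕ) = 2 * 2 from rfl, pow_mul |g|, sq_abs]; ring
  rw [h2] at h
  norm_num [Nat.factorial] at h
  linarith

theorem coh1_integral_exp (t : ℝ) :
    ∫ g, Real.exp (t * g) ∂gaussianReal 0 1 = Real.exp (t ^ 2 / 2) := by
  have h := congrFun (mgf_fun_id_gaussianReal (μ := 0) (v := 1)) t
  simpa [mgf] using h

theorem coh1_normSq_sum {ι : Type} (s : Finset ι) (u : ι → ℂ) :
    ((‖∑ i ∈ s, u i‖ ^ 2 : ℝ) : ℂ) = ∑ i ∈ s, ∑ j ∈ s, conj (u i) * u j := by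
  rw [← Finset.sum_mul_sum, ← map_sum, Complex.conj_mul']
  push_cast; rfl

namespace Model

variable {K : ℕ} {I : Iamp K} {H KK : Type} [NormedAddCommGroup H] [InnerProductSpace ℂ H]
  [CompleteSpace H] [NormedAddCommGroup KK] [InnerProductSpace ℂ KK] (m : Model I H KK)

theorem inner_vac_W {y : KK} (hy : y ∈ m.R) :
    ⟪m.vac, m.W y m.vac⟫_ℂ = ((Real.exp (-‖y‖ ^ 2 / 2) : ℝ) : ℂ) := by
  have h := m.vac_W (fun _ => 1) (BM.const 1) y hy
  rw [m.mul_one'] at h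
  simp only [one_apply_eq_self, one_mul] at h
  rw [h, coh1_gL_char, ← Complex.ofReal_mul, ← Real.exp_add]
  congr 2; ring
theorem coh_false (z : KK) : m.coh false z = m.W z m.vac := by
  simp [coh, zp]
theorem coh_true (z : KK) : m.coh true z = m.Z (m.W z m.vac) := by
  simp [coh, zp]
theorem coh_zero : m.coh false 0 = m.vac := by
  rw [coh_false, m.W_zero]; rfl
theorem coh1_fib (b : Bool) {z : KK} (hz : z ∈ m.R) : m.Fib (m.zp b * m.W z) :=
  (m.isAxis_zp b).fib.mul (m.fib_W hz)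
theorem coh1_eq (b : Bool) (z : KK) : m.coh b z = (m.zp b * m.W z) m.vac := rfl
theorem coh1_W_zp (b : Bool) (y : KK) (v : H) : m.W y (m.zp b v) = m.zp b (m.W y v) := by
  have h := ((m.isAxis_zp b).2.2.2 y).eq
  rw [← mul_apply_eq_comp, ← h, mul_apply_eq_comp]
/-- a Weyl operator passes through the displacement up to a phase -/
theorem coh1_W_apply (b : Bool) {y z : KK} (hy : y ∈ m.R) (hz : z ∈ m.R) :
    m.W y (m.coh b z) = (m.zp b * m.W z)
      (Complex.exp (-(Complex.I * ((2 * om y z : ℝ) : ℂ))) • m.W y m.vac) := by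
  unfold coh
  rw [coh1_W_zp, ← mul_apply_eq_comp (m.W y), m.W_comm hy hz]
  simp
theorem norm_coh (b : Bool) {z : KK} (hz : z ∈ m.R) : ‖m.coh b z‖ = 1 := by
  rw [coh1_eq, (m.coh1_fib b hz).norm_apply, m.norm_vac]
theorem W_coh (b : Bool) {y z : KK} (hy : y ∈ m.R) (hz : z ∈ m.R) :
    m.W y (m.coh b z) = Complex.exp (-(Complex.I * (om y z : ℂ))) • m.coh b (y + z) := by
  unfold coh
  rw [coh1_W_zp, ← mul_apply_eq_comp (m.W y), m.W_mul_W hy hz]
  simp
theorem Z_coh (b : Bool) (z : KK) : m.Z (m.coh b z) = m.coh (!b) z := by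
  cases b
  · simp [coh_false, coh_true]
  · rw [coh_true, Bool.not_true, coh_false, ← mul_apply_eq_comp, m.Z_sq]; rfl
theorem X_coh (b : Bool) (z : KK) : m.X (m.coh b z) = sg b • m.coh b z := by
  have h : m.X (m.W z m.vac) = m.W z m.vac := by
    rw [← mul_apply_eq_comp, (m.X_W z).eq, mul_apply_eq_comp, m.X_vac]
  cases b
  · rw [coh_false, h]; simp [sg, spinSign]
  · have h2 : m.X * m.Z = -(m.Z * m.X) := by rw [m.ZX, neg_neg]
    rw [coh_true, ← mul_apply_eq_comp, h2]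
    simp [sg, spinSign, h]
theorem inner_coh_W (b : Bool) {y z : KK} (hy : y ∈ m.R) (hz : z ∈ m.R) :
    ⟪m.coh b z, m.W y (m.coh b z)⟫_ℂ =
      Complex.exp (-(Complex.I * ((2 * om y z : ℝ) : ℂ))) * ((Real.exp (-‖y‖ ^ 2 / 2) : ℝ) : ℂ) := by
  rw [m.coh1_W_apply b hy hz, coh1_eq, (m.coh1_fib b hz).inner_apply, inner_smul_right,
    m.inner_vac_W hy]
theorem norm_mul_coh_sq {g : Lab K → ℂ} (hg : BM g) (b : Bool) {z : KK} (hz : z ∈ m.R) :
    ‖m.mul g (m.coh b z)‖ ^ 2 = ∫ x, ‖g x‖ ^ 2 ∂gL K := by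
  rw [coh1_eq, m.norm_mul_fib_sq (m.coh1_fib b hz) hg]
theorem coh1_inner_W_left (y : KK) (u v : H) : ⟪m.W y u, v⟫_ℂ = ⟪u, m.W (-y) v⟫_ℂ := by
  rw [← m.W_star, ContinuousLinearMap.star_eq_adjoint, ContinuousLinearMap.adjoint_inner_right]
theorem coh1_inner_smul (b : Bool) {y z : KK} (hy : y ∈ m.R) (hz : z ∈ m.R) (t t' : ℝ) :
    ⟪m.W (t • y) (m.coh b z), m.W (t' • y) (m.coh b z)⟫_ℂ =
      ∫ g : ℝ, conj (Complex.exp (Complex.I * ((t * (-(2 * om y z) + ‖y‖ * g) : ℝ) : ℂ))) *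
        Complex.exp (Complex.I * ((t' * (-(2 * om y z) + ‖y‖ * g) : ℝ) : ℂ)) ∂gaussianReal 0 1 := by
  have h1 : ∀ g : ℝ,
      conj (Complex.exp (Complex.I * ((t * (-(2 * om y z) + ‖y‖ * g) : ℝ) : ℂ))) *
        Complex.exp (Complex.I * ((t' * (-(2 * om y z) + ‖y‖ * g) : ℝ) : ℂ)) =
      Complex.exp (-(Complex.I * ((2 * ((t' - t) * om y z) : ℝ) : ℂ))) *
        Complex.exp (Complex.I * ((((t' - t) * ‖y‖) * g : ℝ) : ℂ)) := by
    intro g
    rw [← Complex.exp_conj, ← Complex.exp_add, ← Complex.exp_add, map_mul, Complex.conj_ofReal,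
      Complex.conj_I]
    congr 1
    push_cast; ring
  simp_rw [h1]
  rw [integral_const_mul, coh1_gauss_char, coh1_inner_W_left, ← mul_apply_eq_comp,
    m.W_mul_W (m.R.neg_mem (m.R.smul_mem t hy)) (m.R.smul_mem t' hy), om_neg_left, om_smul_left,
    om_smul_right, om_self, show -(t • y) + t' • y = (t' - t) • y by rw [sub_smul]; abel]
  simp only [mul_zero, neg_zero, Complex.ofReal_zero, Complex.exp_zero, one_smul]
  rw [m.inner_coh_W b (m.R.smul_mem _ hy) hz, om_smul_left, norm_smul, Real.norm_eq_abs, mul_pow,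
    mul_pow, sq_abs]
/-- Gaussian formula: along one direction the field is a Gaussian variable -/
theorem gauss_formula {ι : Type} (s : Finset ι) (c : ι → ℂ) (t : ι → ℝ) (b : Bool) {y z : KK}
    (hy : y ∈ m.R) (hz : z ∈ m.R) :
    ‖∑ i ∈ s, c i • m.W (t i • y) (m.coh b z)‖ ^ 2 =
      ∫ g, ‖∑ i ∈ s, c i * Complex.exp (Complex.I * ((t i * (-(2 * om y z) + ‖y‖ * g) : ℝ) : ℂ))‖ ^ 2
        ∂gaussianReal 0 1 := by
  apply Complex.ofReal_injective
  have hint : ∀ i j, Integrable (fun g : ℝ =>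
      conj (c i * Complex.exp (Complex.I * ((t i * (-(2 * om y z) + ‖y‖ * g) : ℝ) : ℂ))) *
        (c j * Complex.exp (Complex.I * ((t j * (-(2 * om y z) + ‖y‖ * g) : ℝ) : ℂ))))
      (gaussianReal 0 1) := by
    intro i j
    refine Integrable.of_bound (Continuous.aestronglyMeasurable (by fun_prop)) (‖c i‖ * ‖c j‖)
      (Eventually.of_forall fun g => ?_)
    rw [norm_mul, RCLike.norm_conj, norm_mul, norm_mul, Complex.norm_exp_I_mul_ofReal,
      Complex.norm_exp_I_mul_ofReal, mul_one, mul_one]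
  rw [← integral_complex_ofReal]
  simp only [coh1_normSq_sum]
  rw [integral_finset_sum _ fun i _ => integrable_finset_sum _ fun j _ => hint i j]
  have hn : ∀ v : H, ((‖v‖ ^ 2 : ℝ) : ℂ) = ⟪v, v⟫_ℂ := fun v => by
    rw [inner_self_eq_norm_sq_to_K]; push_cast; rfl
  rw [hn, sum_inner]
  refine Finset.sum_congr rfl fun i _ => ?_
  rw [integral_finset_sum _ fun j _ => hint i j, inner_sum]
  refine Finset.sum_congr rfl fun j _ => ?_
  rw [inner_smul_left, inner_smul_right, m.coh1_inner_smul b hy hz, ← mul_assoc,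
    ← integral_const_mul]
  refine integral_congr_ae (Eventually.of_forall fun g => ?_)
  simp only [map_mul]
  ring
theorem coh1_vac_sub {y : KK} (hy : y ∈ m.R) : ‖m.W y m.vac - m.vac‖ ≤ ‖y‖ := by
  refine (pow_le_pow_iff_left₀ (norm_nonneg _) (norm_nonneg _) two_ne_zero).1 ?_
  rw [norm_sub_rev, @norm_sub_sq ℂ, m.inner_vac_W hy, (m.fib_W hy).norm_apply, m.norm_vac]
  have h := Real.add_one_le_exp (-‖y‖ ^ 2 / 2)
  simp only [RCLike.re_to_complex, Complex.ofReal_re]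
  linarith
theorem coh1_sub (b : Bool) {y z : KK} (hy : y ∈ m.R) (hz : z ∈ m.R) {A : H →L[ℂ] H}
    (hA : ∀ v, ‖A ((m.zp b * m.W z) v)‖ = ‖A v‖) :
    ‖A (m.W y (m.coh b z) - m.coh b z)‖ ≤
      ‖A (m.W y m.vac - m.vac)‖ + 2 * ‖z‖ * ‖y‖ * ‖A m.vac‖ := by
  rw [m.coh1_W_apply b hy hz, coh1_eq, ← map_sub, hA]
  set e := Complex.exp (-(Complex.I * ((2 * om y z : ℝ) : ℂ))) with he
  have h1 : e • m.W y m.vac - m.vac = e • (m.W y m.vac - m.vac) + (e - 1) • m.vac := by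
    rw [smul_sub, sub_smul, one_smul]; abel
  rw [h1, map_add, map_smul, map_smul]
  refine (norm_add_le _ _).trans (add_le_add ?_ ?_)
  · rw [norm_smul, he, coh1_norm_expI, one_mul]
  · rw [norm_smul]
    refine mul_le_mul_of_nonneg_right ((coh1_norm_expI_sub _).trans ?_) (norm_nonneg _)
    have := abs_om_le y z
    rw [abs_mul, abs_two]
    linarith
theorem nb_coh (b : Bool) {z : KK} (hz : z ∈ m.R) : m.NB (1 + 2 * ‖z‖) (m.coh b z) := by
  refine ⟨by rw [m.norm_coh b hz]; linarith [norm_nonneg z], fun y hy => ?_⟩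
  have h := m.coh1_sub b hy hz (A := 1) fun v => (m.coh1_fib b hz).norm_apply v
  simp only [one_apply_eq_self, m.norm_vac] at h
  linarith [m.coh1_vac_sub hy]
theorem coh1_P_vac_sub {E : Set (Lab K)} (hE : MeasurableSet E) {ρ : ℝ} (hρ : 0 ≤ ρ)
    (hEρ : ∀ x ∈ E, ∀ i, |x i| ≤ ρ) {y : KK} (hy : y ∈ m.R) :
    ‖m.P E (m.W y m.vac - m.vac)‖ ≤ (1 + (K + 1) * ρ) * ‖y‖ * Real.sqrt ((gL K).real E) := by
  refine (pow_le_pow_iff_left₀ (norm_nonneg _) (by positivity) two_ne_zero).1 ?_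
  have hγ : 0 ≤ (gL K).real E := measureReal_nonneg
  have h0 : ‖m.P E m.vac‖ = Real.sqrt ((gL K).real E) := m.norm_P_fib m.fib_one hE
  have h1 : ⟪m.P E m.vac, m.P E (m.W y m.vac)⟫_ℂ = ⟪m.vac, m.P E (m.W y m.vac)⟫_ℂ := by
    rw [m.inner_P_left hE, ← mul_apply_eq_comp, m.P_idem hE]
  have h2 := m.vac_W _ ((BM.const 1).indicator hE) y hy
  set a : Fin (K + 1) → ℝ := fun i => (⟪m.d i, y⟫_ℂ).re with ha
  set s := ‖y‖ ^ 2 - ∑ i, a i ^ 2 with hs
  have hs0 : 0 ≤ s := sub_nonneg.2 (coh1_bessel m.d_on y)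
  have hs1 : s ≤ ‖y‖ ^ 2 := sub_le_self _ (Finset.sum_nonneg fun i _ => sq_nonneg _)
  have hai : ∀ i, |a i| ≤ ‖y‖ := fun i =>
    (Complex.abs_re_le_norm _).trans ((norm_inner_le_norm _ _).trans
      (by rw [m.d_on.1 i, one_mul]))
  have hmeas : Measurable fun x : Lab K => ∑ i, a i * x i := by fun_prop
  have hre : (∫ x, E.indicator (fun _ => (1 : ℂ)) x *
      Complex.exp (Complex.I * ((∑ i, a i * x i : ℝ) : ℂ)) ∂gL K).re =
      ∫ x in E, Real.cos (∑ i, a i * x i) ∂gL K := by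
    have hi := (((BM.const 1).indicator hE).mul (BM.expI hmeas)).integrable
    rw [← integral_indicator hE]
    refine ((integral_re hi).symm).trans (integral_congr_ae (Eventually.of_forall fun x => ?_))
    by_cases hx : x ∈ E
    · simp only [Pi.mul_apply, Set.indicator_of_mem hx, one_mul, RCLike.re_to_complex]
      rw [mul_comm, Complex.exp_ofReal_mul_I_re]
    · simp [Set.indicator_of_notMem hx]
  set B := ((K + 1 : ℝ) * ρ * ‖y‖) with hB
  have hB0 : 0 ≤ B := by positivity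
  have hcos : (1 - B ^ 2 / 2) * (gL K).real E ≤ ∫ x in E, Real.cos (∑ i, a i * x i) ∂gL K := by
    refine setIntegral_ge_of_const_le_real hE (measure_ne_top _ _) (fun x hx => ?_) ?_
    · have hu : |∑ i, a i * x i| ≤ B := by
        refine (Finset.abs_sum_le_sum_abs _ _).trans ?_
        calc ∑ i, |a i * x i| ≤ ∑ _i : Fin (K + 1), ‖y‖ * ρ := Finset.sum_le_sum fun i _ => by
              rw [abs_mul]; exact mul_le_mul (hai i) (hEρ x hx i) (abs_nonneg _) (norm_nonneg _)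
          _ = B := by simp [hB]; ring
      have h3 := Real.one_sub_sq_div_two_le_cos (x := ∑ i, a i * x i)
      have h4 : (∑ i, a i * x i) ^ 2 ≤ B ^ 2 := by
        rw [← sq_abs]; exact pow_le_pow_left₀ (abs_nonneg _) hu 2
      linarith
    · refine Integrable.integrableOn (Integrable.of_bound
        (Continuous.aestronglyMeasurable (by fun_prop)) 1 (Eventually.of_forall fun x => ?_))
      exact Real.abs_cos_le_one _
  rw [map_sub, norm_sub_rev, @norm_sub_sq ℂ, h1, m.norm_P_fib (m.fib_W hy) hE, h0,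
    mul_pow, Real.sq_sqrt hγ]
  unfold P
  rw [h2, RCLike.re_to_complex, Complex.re_mul_ofReal, hre]
  have e1 := Real.add_one_le_exp (-s / 2)
  have e2 : Real.exp (-s / 2) ≤ 1 := Real.exp_le_one_iff.2 (by linarith)
  have e3 := (Real.exp_pos (-s / 2)).le
  have e4 := mul_le_mul_of_nonneg_right hcos e3
  have e5 : ((1 + (K + 1) * ρ) * ‖y‖) ^ 2 = ‖y‖ ^ 2 + 2 * ‖y‖ * B + B ^ 2 := by rw [hB]; ring
  rw [e5]
  have e6 : 0 ≤ ‖y‖ * B * (gL K).real E := by positivity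
  have e7 : 0 ≤ (1 - Real.exp (-s / 2)) * (B ^ 2 * (gL K).real E) :=
    mul_nonneg (by linarith) (by positivity)
  have e8 : 0 ≤ (Real.exp (-s / 2) - (1 - ‖y‖ ^ 2 / 2)) * (gL K).real E :=
    mul_nonneg (by linarith) hγ
  nlinarith
/-- localised bound on a bounded label set -/
theorem nb_P_coh {E : Set (Lab K)} (hE : MeasurableSet E) {ρ : ℝ} (hρ : 0 ≤ ρ)
    (hEρ : ∀ x ∈ E, ∀ i, |x i| ≤ ρ) (b : Bool) {z : KK} (hz : z ∈ m.R) :
    m.NB ((1 + (K + 1) * ρ + 2 * ‖z‖) * Real.sqrt ((gL K).real E)) (m.P E (m.coh b z)) := by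
  have hF := m.coh1_fib b hz
  have hq := Real.sqrt_nonneg ((gL K).real E)
  refine ⟨?_, fun y hy => ?_⟩
  · rw [coh1_eq, m.norm_P_fib hF hE]
    refine le_mul_of_one_le_left hq ?_
    have : 0 ≤ (K + 1 : ℝ) * ρ + 2 * ‖z‖ := by positivity
    linarith
  · have h1 : m.W y (m.P E (m.coh b z)) = m.P E (m.W y (m.coh b z)) := by
      rw [← mul_apply_eq_comp, ((m.cen_W y).commute_P hE).eq,
        mul_apply_eq_comp]
    have h := m.coh1_sub b hy hz (A := m.P E) fun v => by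
      rw [← mul_apply_eq_comp, ← (hF.2.commute_P hE).eq,
        mul_apply_eq_comp, hF.norm_apply]
    have h0 : ‖m.P E m.vac‖ = Real.sqrt ((gL K).real E) := m.norm_P_fib m.fib_one hE
    have h2 := m.coh1_P_vac_sub hE hρ hEρ hy
    rw [h1, ← map_sub]
    rw [h0] at h
    linarith
/-- far away coherent vectors are almost orthogonal -/
theorem norm_inner_far {g : Lab K → ℂ} {c : ℝ} (hg : Measurable g) (hc : ∀ x, ‖g x‖ ≤ c) (b b' : Bool)
    {z v : KK} (hz : z ∈ m.R) (hv : ∀ i, ⟪m.d i, v⟫_ℂ = 0) {r : ℝ} (hr : ‖z‖ ≤ r) :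
    ‖⟪m.mul g (m.coh b z), m.coh b' v⟫_ℂ‖ ≤ c * Real.exp (-(‖v‖ * (‖v‖ - 2 * r)) / 2) := by
  have hc0 : 0 ≤ c := (norm_nonneg _).trans (hc 0)
  have hgB : BM g := ⟨hg, c, hc⟩
  have hvR : v ∈ m.R := fun i => by rw [hv i]; rfl
  have hzp : ∀ (b : Bool) (u w : H), ⟪m.zp b u, w⟫_ℂ = ⟪u, m.zp b w⟫_ℂ := fun b u w => by
    conv_rhs => rw [← (m.isAxis_zp b).1, ContinuousLinearMap.star_eq_adjoint,
      ContinuousLinearMap.adjoint_inner_right]
  have hmul : ∀ u w : H, ⟪m.mul g u, w⟫_ℂ = ⟪u, m.mul (fun x => conj (g x)) w⟫_ℂ := fun u w => by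
    rw [← m.mul_star g hgB, ContinuousLinearMap.star_eq_adjoint,
      ContinuousLinearMap.adjoint_inner_right]
  set g' : Lab K → ℂ := fun x => conj (g x) with hg'
  have hg'B : BM g' := hgB.conj
  have h1 : ⟪m.mul g (m.coh b z), m.coh b' v⟫_ℂ =
      ⟪m.vac, (m.zp b * m.zp b') ((m.mul g' * (m.W (-z) * m.W v)) m.vac)⟫_ℂ := by
    unfold coh
    rw [hmul, hzp, coh1_inner_W_left]
    congr 1
    have e : m.W (-z) * (m.zp b * (m.mul g' * (m.zp b' * m.W v))) =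
        m.zp b * m.zp b' * (m.mul g' * (m.W (-z) * m.W v)) := by
      rw [← mul_assoc (m.mul g'), ← ((m.isAxis_zp b').2.2.1 g' hg'B).eq, ← mul_assoc (m.W (-z)),
        ← ((m.isAxis_zp b).2.2.2 (-z)).eq, mul_assoc (m.zp b), mul_assoc (m.zp b'),
        ← mul_assoc (m.W (-z)), ← ((m.isAxis_zp b').2.2.2 (-z)).eq, mul_assoc (m.zp b'),
        ← mul_assoc (m.W (-z)), (m.W_mul (-z) g' hg'B).eq]
      simp only [mul_assoc]
    exact congrArg (fun A : H →L[ℂ] H => A m.vac) e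
  have hX : Commute m.X (m.mul g' * (m.W (-z) * m.W v)) :=
    (m.X_mul g' hg'B).mul_right ((m.X_W _).mul_right (m.X_W _))
  have hne : b ≠ b' → m.zp b * m.zp b' = m.Z := by
    cases b <;> cases b' <;> simp [zp]
  rw [h1]
  by_cases hb : b = b'
  swap
  · rw [hne hb, m.inner_vac_Z hX, norm_zero]; positivity
  subst hb
  rw [(m.isAxis_zp b).2.1, one_apply_eq_self, m.W_mul_W (m.R.neg_mem hz) hvR,
    mul_apply_eq_comp, ContinuousLinearMap.smul_apply, map_smul, inner_smul_right,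
    norm_mul, coh1_norm_expI, one_mul, m.vac_W g' hg'B _ (m.R.add_mem (m.R.neg_mem hz) hvR),
    norm_mul, Complex.norm_real, Real.norm_eq_abs, abs_of_pos (Real.exp_pos _)]
  refine mul_le_mul ?_ (Real.exp_le_exp.2 ?_) (Real.exp_pos _).le hc0
  · have := norm_integral_le_of_norm_le_const (μ := gL K) (C := c) (f := fun x => g' x *
      Complex.exp (Complex.I * ((∑ i, (⟪m.d i, -z + v⟫_ℂ).re * x i : ℝ) : ℂ)))
      (Eventually.of_forall fun x => by
        rw [norm_mul, Complex.norm_exp_I_mul_ofReal, mul_one, hg', RCLike.norm_conj]; exact hc x)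
    simpa using this
  · have e1 : ∑ i, (⟪m.d i, -z + v⟫_ℂ).re ^ 2 ≤ ‖z‖ ^ 2 := by
      have := coh1_bessel m.d_on (-z)
      rw [norm_neg] at this
      simpa only [inner_add_right, hv, add_zero] using this
    have e2 : ‖-z + v‖ ^ 2 = ‖v‖ ^ 2 - 2 * RCLike.re ⟪v, z⟫_ℂ + ‖z‖ ^ 2 := by
      rw [neg_add_eq_sub, @norm_sub_sq ℂ]
    have e3 : RCLike.re ⟪v, z⟫_ℂ ≤ ‖v‖ * ‖z‖ := re_inner_le_norm v z
    have e4 := mul_le_mul_of_nonneg_left hr (norm_nonneg v)
    nlinarith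
/-- `‖sin(λ φ) - λ sin φ‖` on a coherent vector (use `gauss_formula`, `|sin t - t| ≤ t²`) -/
theorem norm_sinW_smul_sub (b : Bool) {y z : KK} (hy : y ∈ m.R) (hz : z ∈ m.R) {t : ℝ} (ht : |t| ≤ 1) :
    ‖m.sinW (t • y) (m.coh b z) - (t : ℂ) • m.sinW y (m.coh b z)‖ ≤
      30 * |t| * (1 + ‖z‖) ^ 2 * ‖y‖ ^ 2 := by
  refine (pow_le_pow_iff_left₀ (norm_nonneg _) (by positivity) two_ne_zero).1 ?_
  have h := m.gauss_formula (Finset.univ : Finset (Fin 4))
    ![-(Complex.I / 2), Complex.I / 2, t * (Complex.I / 2), -(t * (Complex.I / 2))]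
    ![t, -t, 1, -1] b hy hz
  have e1 : m.sinW (t • y) (m.coh b z) - (t : ℂ) • m.sinW y (m.coh b z) =
      ∑ i : Fin 4, (![-(Complex.I / 2), Complex.I / 2, t * (Complex.I / 2),
        -(t * (Complex.I / 2))] : Fin 4 → ℂ) i •
          m.W ((![t, -t, 1, -1] : Fin 4 → ℝ) i • y) (m.coh b z) := by
    simp only [Fin.sum_univ_four, Matrix.cons_val_zero, Matrix.cons_val_one, Matrix.cons_val,
      sinW, neg_smul, one_smul, ContinuousLinearMap.smul_apply, ContinuousLinearMap.sub_apply,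
      ContinuousLinearMap.neg_apply]
    module
  rw [e1, h]
  set θ := -(2 * om y z) with hθ
  have hθ1 : |θ| ≤ 2 * (‖y‖ * ‖z‖) := by
    rw [hθ, abs_neg, abs_mul, abs_two]; linarith [abs_om_le y z]
  have hθ4 : θ ^ 4 ≤ 16 * (‖y‖ ^ 4 * ‖z‖ ^ 4) := by
    have := pow_le_pow_left₀ (abs_nonneg _) hθ1 4
    rw [show (4 : ℕ) = 2 * 2 from rfl, pow_mul |θ|, sq_abs] at this
    calc θ ^ 4 = (θ ^ 2) ^ 2 := by ring
      _ ≤ _ := this
      _ = _ := by ring
  have hpt : ∀ g : ℝ, ‖∑ i : Fin 4, (![-(Complex.I / 2), Complex.I / 2, t * (Complex.I / 2),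
        -(t * (Complex.I / 2))] : Fin 4 → ℂ) i * Complex.exp (Complex.I *
          (((![t, -t, 1, -1] : Fin 4 → ℝ) i * (θ + ‖y‖ * g) : ℝ) : ℂ))‖ ^ 2 ≤
      32 * t ^ 2 * θ ^ 4 + 48 * t ^ 2 * ‖y‖ ^ 4 * (Real.exp (2 * g) + Real.exp (-2 * g)) := by
    intro g
    set φ := θ + ‖y‖ * g with hφ
    have e2 : ∑ i : Fin 4, (![-(Complex.I / 2), Complex.I / 2, t * (Complex.I / 2),
        -(t * (Complex.I / 2))] : Fin 4 → ℂ) i * Complex.exp (Complex.I *
          (((![t, -t, 1, -1] : Fin 4 → ℝ) i * φ : ℝ) : ℂ)) =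
        ((Real.sin (t * φ) - t * Real.sin φ : ℝ) : ℂ) := by
      simp only [Fin.sum_univ_four, Matrix.cons_val_zero, Matrix.cons_val_one, Matrix.cons_val]
      push_cast
      simp only [Complex.sin]
      ring_nf
    rw [e2, Complex.norm_real, Real.norm_eq_abs]
    have a1 := coh1_abs_sin_sub (t * φ)
    have a2 := coh1_abs_sin_sub φ
    have a3 : |Real.sin (t * φ) - t * Real.sin φ| ≤ 2 * |t| * φ ^ 2 := by
      have b1 : Real.sin (t * φ) - t * Real.sin φ =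
          (Real.sin (t * φ) - t * φ) - t * (Real.sin φ - φ) := by ring
      have b2 : t ^ 2 ≤ |t| := by rw [← sq_abs]; nlinarith [abs_nonneg t]
      have b3 := mul_le_mul_of_nonneg_left a2 (abs_nonneg t)
      have b4 := mul_le_mul_of_nonneg_right b2 (sq_nonneg φ)
      rw [b1]
      refine (abs_sub _ _).trans ?_
      rw [abs_mul t (Real.sin φ - φ)]
      rw [mul_pow] at a1
      linarith
    have a4 := pow_le_pow_left₀ (abs_nonneg _) a3 2
    have a5 : (2 * |t| * φ ^ 2) ^ 2 = 4 * t ^ 2 * φ ^ 4 := by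
      rw [mul_pow, mul_pow, sq_abs]; ring
    have a6 : φ ^ 4 ≤ 8 * (θ ^ 4 + (‖y‖ * g) ^ 4) := by
      have c1 : φ ^ 2 ≤ 2 * (θ ^ 2 + (‖y‖ * g) ^ 2) := by
        rw [hφ]; nlinarith [sq_nonneg (θ - ‖y‖ * g)]
      have c2 := pow_le_pow_left₀ (sq_nonneg φ) c1 2
      nlinarith [sq_nonneg (θ ^ 2 - (‖y‖ * g) ^ 2)]
    have a7 := mul_le_mul_of_nonneg_left (coh1_pow_four_le g)
      (by positivity : 0 ≤ 32 * t ^ 2 * ‖y‖ ^ 4)
    have a8 := mul_le_mul_of_nonneg_left a6 (by positivity : 0 ≤ 4 * t ^ 2)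
    rw [a5] at a4
    nlinarith
  have i1 := integrable_exp_mul_gaussianReal (μ := 0) (v := 1) 2
  have i2 := integrable_exp_mul_gaussianReal (μ := 0) (v := 1) (-2)
  refine (integral_mono_of_nonneg (Eventually.of_forall fun g => sq_nonneg _)
    ((integrable_const _).add ((i1.add i2).const_mul _)) (Eventually.of_forall hpt)).trans ?_
  have i3 : Integrable (fun g : ℝ => 48 * t ^ 2 * ‖y‖ ^ 4 * (Real.exp (2 * g) + Real.exp (-2 * g)))
      (gaussianReal 0 1) := (i1.add i2).const_mul _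
  simp only [Pi.add_apply]
  rw [integral_add (integrable_const _) i3, integral_const, integral_const_mul,
    integral_add i1 i2, coh1_integral_exp, coh1_integral_exp]
  have f1 : Real.exp 2 ≤ 9 := by
    have := Real.exp_one_lt_d9
    rw [show (2 : ℝ) = 1 + 1 by norm_num, Real.exp_add]
    nlinarith [Real.exp_pos 1]
  have f2 : (1 + ‖z‖ ^ 4) ≤ (1 + ‖z‖) ^ 4 := by
    have := norm_nonneg z
    have : 0 ≤ 4 * ‖z‖ + 6 * ‖z‖ ^ 2 + 4 * ‖z‖ ^ 3 := by positivity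
    nlinarith
  have f3 : (30 * |t| * (1 + ‖z‖) ^ 2 * ‖y‖ ^ 2) ^ 2 = 900 * (t ^ 2 * ‖y‖ ^ 4) * (1 + ‖z‖) ^ 4 := by
    rw [mul_pow, mul_pow, mul_pow, sq_abs]; ring
  have f4 := mul_le_mul_of_nonneg_left f2 (by positivity : 0 ≤ 900 * (t ^ 2 * ‖y‖ ^ 4))
  have f5 := mul_le_mul_of_nonneg_left f1 (by positivity : 0 ≤ 96 * (t ^ 2 * ‖y‖ ^ 4))
  have f6 := mul_le_mul_of_nonneg_left hθ4 (by positivity : 0 ≤ 32 * t ^ 2)
  have f7 : 0 ≤ t ^ 2 * ‖y‖ ^ 4 := by positivity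
  have f8 : 0 ≤ t ^ 2 * ‖y‖ ^ 4 * ‖z‖ ^ 4 := by positivity
  rw [f3]
  norm_num
  nlinarith

end Model

end Crest.Agent.R339
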