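import Crest.Agent.R339.Q.Coh2

/-!
# Row 339, part Q: independence of orthogonal fields
-/

set_option autoImplicit false

namespace Crest.Agent.R339

open MeasureTheory ProbabilityTheory Filter Topology Crest.MathPhysics.SpinGlass
open scoped InnerProductSpace ComplexConjugate

section Aux

variable {E : Type} [NormedAddCommGroup E] [InnerProductSpace ℂ E]

theorem coh3_pyth {ι : Type} [Fintype ι] (x : ι → E) (h : ∀ l l', l ≠ l' → ⟪x l, x l'⟫_ℂ = 0) :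
    ‖∑ l, x l‖ ^ 2 = ∑ l, ‖x l‖ ^ 2 := by
  rw [norm_sq_eq_re_inner (𝕜 := ℂ), sum_inner, map_sum]
  refine Finset.sum_congr rfl fun l _ => ?_
  rw [inner_sum, Finset.sum_eq_single l (fun l' _ hl => h l l' hl.symm) (by simp),
    ← norm_sq_eq_re_inner]

theorem coh3_bessel {ι : Type} [Fintype ι] (w : ι → E) (h : ∀ l l', l ≠ l' → ⟪w l, w l'⟫_ℂ = 0)
    {η : ℝ} (hw : ∀ l, ‖w l‖ ≤ η) (z : E) :
    ∑ l, ‖⟪w l, z⟫_ℂ‖ ^ 2 ≤ (η * ‖z‖) ^ 2 := by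
  set S := ∑ l, ‖⟪w l, z⟫_ℂ‖ ^ 2 with hS
  have hS0 : 0 ≤ S := by positivity
  have h1 : ‖∑ l, ⟪w l, z⟫_ℂ • w l‖ ^ 2 ≤ η ^ 2 * S := by
    rw [coh3_pyth _ fun l l' hl => by rw [inner_smul_left, inner_smul_right, h l l' hl]; simp,
      hS, Finset.mul_sum]
    refine Finset.sum_le_sum fun l _ => ?_
    rw [norm_smul, mul_pow, mul_comm]
    gcongr
    exact hw l
  have h2 : ⟪∑ l, ⟪w l, z⟫_ℂ • w l, z⟫_ℂ = (S : ℂ) := by
    rw [sum_inner, hS]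
    push_cast
    refine Finset.sum_congr rfl fun l _ => ?_
    rw [inner_smul_left, Complex.conj_mul']
  have h3 : S ≤ ‖∑ l, ⟪w l, z⟫_ℂ • w l‖ * ‖z‖ := by
    have := norm_inner_le_norm (𝕜 := ℂ) (∑ l, ⟪w l, z⟫_ℂ • w l) z
    rwa [h2, Complex.norm_real, Real.norm_of_nonneg hS0] at this
  have h4 : S ^ 2 ≤ S * (η * ‖z‖) ^ 2 := by
    calc S ^ 2 ≤ (‖∑ l, ⟪w l, z⟫_ℂ • w l‖ * ‖z‖) ^ 2 := by gcongr
      _ ≤ η ^ 2 * S * ‖z‖ ^ 2 := by rw [mul_pow]; gcongr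
      _ = _ := by ring
  rcases hS0.eq_or_lt with h0 | h0
  · rw [← h0]; positivity
  · rw [sq] at h4
    exact le_of_mul_le_mul_left h4 h0

theorem coh3_exp (t : ℝ) : Complex.exp (-(Complex.I * (t : ℂ))) =
    (Real.cos t : ℂ) - (Real.sin t : ℂ) * Complex.I := by
  rw [show -(Complex.I * (t : ℂ)) = (-t) * Complex.I by ring, Complex.exp_mul_I]
  simp [sub_eq_add_neg]

theorem coh3_est {s : ℂ} (hs : ‖s‖ ≤ 1) (t u : ℝ) {e : ℝ} (he : 0 ≤ e) :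
    ‖(Real.exp (-e) : ℂ) * ((Real.cos t : ℂ) * (Real.cos u : ℂ) * ((Complex.exp s - Complex.exp (-s)) / 2)
      + (Real.sin t : ℂ) * (Real.sin u : ℂ) * ((Complex.exp s + Complex.exp (-s)) / 2)) - s‖ ≤
      ‖s‖ ^ 2 + (e + t ^ 2 / 2 + u ^ 2 / 2) * ‖s‖ + 3 * (|t| * |u|) := by
  have hs' : ‖-s‖ ≤ 1 := by rwa [norm_neg]
  have a1 : ‖(Complex.exp s - Complex.exp (-s)) / 2 - s‖ ≤ ‖s‖ ^ 2 := by
    have h1 := Complex.norm_exp_sub_one_sub_id_le hs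
    have h2 := Complex.norm_exp_sub_one_sub_id_le hs'
    rw [show (Complex.exp s - Complex.exp (-s)) / 2 - s =
      ((Complex.exp s - 1 - s) - (Complex.exp (-s) - 1 - -s)) / 2 by ring, norm_div]
    rw [norm_neg] at h2
    have := norm_sub_le (Complex.exp s - 1 - s) (Complex.exp (-s) - 1 - -s)
    simp only [Complex.norm_ofNat]
    linarith
  have a2 : ‖(Complex.exp s + Complex.exp (-s)) / 2‖ ≤ 3 := by
    have h1 := Complex.norm_exp_sub_one_le hs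
    have h2 := Complex.norm_exp_sub_one_le hs'
    rw [show (Complex.exp s + Complex.exp (-s)) / 2 =
      ((Complex.exp s - 1) + (Complex.exp (-s) - 1)) / 2 + 1 by ring]
    refine (norm_add_le _ _).trans ?_
    rw [norm_div]
    have := norm_add_le (Complex.exp s - 1) (Complex.exp (-s) - 1)
    simp only [Complex.norm_ofNat, norm_one]
    linarith
  have e0 : 0 < Real.exp (-e) := Real.exp_pos _
  have e1 : Real.exp (-e) ≤ 1 := Real.exp_le_one_iff.2 (by linarith)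
  have e2 : 1 - e ≤ Real.exp (-e) := by linarith [Real.add_one_le_exp (-e)]
  have c1 : |Real.exp (-e) * (Real.cos t * Real.cos u)| ≤ 1 := by
    rw [abs_mul, abs_mul, abs_of_pos e0]
    exact mul_le_one₀ e1 (by positivity)
      (mul_le_one₀ (Real.abs_cos_le_one _) (abs_nonneg _) (Real.abs_cos_le_one _))
  have c2 : |Real.exp (-e) * (Real.cos t * Real.cos u) - 1| ≤ e + t ^ 2 / 2 + u ^ 2 / 2 := by
    rw [abs_sub_comm, abs_of_nonneg (by linarith [le_abs_self (Real.exp (-e) * (Real.cos t * Real.cos u))])]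
    have h1 := Real.one_sub_sq_div_two_le_cos (x := t)
    have h2 := Real.one_sub_sq_div_two_le_cos (x := u)
    have h3 := Real.cos_le_one t
    have h4 := Real.cos_le_one u
    have h5 : 1 - t ^ 2 / 2 - u ^ 2 / 2 ≤ Real.cos t * Real.cos u := by
      nlinarith [mul_nonneg (sub_nonneg.2 h3) (sub_nonneg.2 h4)]
    have h6 : Real.cos t * Real.cos u ≤ 1 := (le_abs_self _).trans (by
      rw [abs_mul]
      exact mul_le_one₀ (Real.abs_cos_le_one _) (abs_nonneg _) (Real.abs_cos_le_one _))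
    nlinarith [mul_nonneg (sub_nonneg.2 e1) (sub_nonneg.2 h6)]
  have c3 : |Real.exp (-e) * (Real.sin t * Real.sin u)| ≤ |t| * |u| := by
    rw [abs_mul, abs_mul, abs_of_pos e0]
    refine (mul_le_of_le_one_left (by positivity) e1).trans ?_
    exact mul_le_mul Real.abs_sin_le_abs Real.abs_sin_le_abs (abs_nonneg _) (abs_nonneg _)
  rw [show (Real.exp (-e) : ℂ) * ((Real.cos t : ℂ) * (Real.cos u : ℂ) *
        ((Complex.exp s - Complex.exp (-s)) / 2)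
      + (Real.sin t : ℂ) * (Real.sin u : ℂ) * ((Complex.exp s + Complex.exp (-s)) / 2)) - s =
      ((Real.exp (-e) * (Real.cos t * Real.cos u) : ℝ) : ℂ) *
        ((Complex.exp s - Complex.exp (-s)) / 2 - s) +
      ((Real.exp (-e) * (Real.cos t * Real.cos u) - 1 : ℝ) : ℂ) * s +
      ((Real.exp (-e) * (Real.sin t * Real.sin u) : ℝ) : ℂ) *
        ((Complex.exp s + Complex.exp (-s)) / 2) by
    simp only [Complex.ofReal_mul, Complex.ofReal_sub, Complex.ofReal_one]; ring]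
  refine (norm_add₃_le).trans ?_
  rw [norm_mul, norm_mul, norm_mul, Complex.norm_real, Complex.norm_real, Complex.norm_real,
    Real.norm_eq_abs, Real.norm_eq_abs, Real.norm_eq_abs]
  refine add_le_add (add_le_add ?_ ?_) ?_
  · exact (mul_le_of_le_one_left (norm_nonneg _) c1).trans a1
  · gcongr
  · rw [mul_comm 3]
    gcongr

end Aux

namespace Model

variable {K : ℕ} {I : Iamp K} {H KK : Type} [NormedAddCommGroup H] [InnerProductSpace ℂ H]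
  [CompleteSpace H] [NormedAddCommGroup KK] [InnerProductSpace ℂ KK] (m : Model I H KK)

theorem coh3_adj (y : KK) (u v : H) : ⟪m.W y u, v⟫_ℂ = ⟪u, m.W (-y) v⟫_ℂ := by
  rw [← m.W_star, ContinuousLinearMap.star_eq_adjoint, ContinuousLinearMap.adjoint_inner_right]

theorem coh3_WW (b : Bool) {y y' z : KK} (hy : y ∈ m.R) (hy' : y' ∈ m.R) (hz : z ∈ m.R) :
    ⟪m.coh b z, (m.W y * m.W y') (m.coh b z)⟫_ℂ =
      Complex.exp (-⟪y, y'⟫_ℂ) * ⟪m.coh b z, m.W y (m.coh b z)⟫_ℂ *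
        ⟪m.coh b z, m.W y' (m.coh b z)⟫_ℂ := by
  rw [m.W_mul_W hy hy', ContinuousLinearMap.smul_apply, inner_smul_right,
    m.inner_coh_W b (m.R.add_mem hy hy') hz, m.inner_coh_W b hy hz, m.inner_coh_W b hy' hz,
    om_add_left, norm_add_sq (𝕜 := ℂ)]
  simp only [Complex.ofReal_exp, ← Complex.exp_add]
  congr 1
  conv_rhs => rw [← Complex.re_add_im ⟪y, y'⟫_ℂ]
  simp only [om, RCLike.re_to_complex]
  push_cast
  ring

theorem coh3_ss (β w : KK) (v : H) : (m.sinW β * m.sinW w) v = (-(1 / 4) : ℂ) •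
    ((m.W β * m.W w) v - (m.W β * m.W (-w)) v - (m.W (-β) * m.W w) v +
      (m.W (-β) * m.W (-w)) v) := by
  have h : (-(Complex.I / 2) : ℂ) * -(Complex.I / 2) = -(1 / 4) := by
    linear_combination (1 / 4 : ℂ) * Complex.I_mul_I
  rw [sinW, sinW, smul_mul_smul_comm, h, ContinuousLinearMap.smul_apply, sub_mul,
    _root_.mul_sub, _root_.mul_sub]
  congr 1
  simp only [ContinuousLinearMap.sub_apply]
  abel

/-- vacuum factorisation for orthogonal displacements -/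
theorem inner_coh_WW (b : Bool) {y y' z : KK} (hy : y ∈ m.R) (hy' : y' ∈ m.R) (hz : z ∈ m.R)
    (h : ⟪y, y'⟫_ℂ = 0) :
    ⟪m.W y (m.coh b z), m.W y' (m.coh b z)⟫_ℂ =
      ⟪m.W y (m.coh b z), m.coh b z⟫_ℂ * ⟪m.coh b z, m.W y' (m.coh b z)⟫_ℂ := by
  rw [m.coh3_adj, m.coh3_adj, ← ContinuousLinearMap.mul_apply,
    m.coh3_WW b (m.R.neg_mem hy) hy' hz, inner_neg_left, h]
  simp

/-- independence of the quadratic terms attached to orthogonal pairs of vectors -/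
theorem inner_ss_ss (b : Bool) {β w β' w' z : KK} (hβ : β ∈ m.R) (hw : w ∈ m.R) (hβ' : β' ∈ m.R)
    (hw' : w' ∈ m.R) (hz : z ∈ m.R) (h1 : ⟪β, β'⟫_ℂ = 0) (h2 : ⟪β, w'⟫_ℂ = 0) (h3 : ⟪w, β'⟫_ℂ = 0)
    (h4 : ⟪w, w'⟫_ℂ = 0) :
    ⟪(m.sinW β * m.sinW w) (m.coh b z), (m.sinW β' * m.sinW w') (m.coh b z)⟫_ℂ =
      ⟪(m.sinW β * m.sinW w) (m.coh b z), m.coh b z⟫_ℂ *
        ⟪m.coh b z, (m.sinW β' * m.sinW w') (m.coh b z)⟫_ℂ := by
  have key : ∀ a c a' c' : KK, a ∈ m.R → c ∈ m.R → a' ∈ m.R → c' ∈ m.R →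
      ⟪a + c, a' + c'⟫_ℂ = 0 → ⟪(m.W a * m.W c) (m.coh b z), (m.W a' * m.W c') (m.coh b z)⟫_ℂ =
        ⟪(m.W a * m.W c) (m.coh b z), m.coh b z⟫_ℂ *
          ⟪m.coh b z, (m.W a' * m.W c') (m.coh b z)⟫_ℂ := by
    intro a c a' c' ha hc ha' hc' h
    rw [m.W_mul_W ha hc, m.W_mul_W ha' hc']
    simp only [ContinuousLinearMap.smul_apply, inner_smul_left, inner_smul_right]
    rw [m.inner_coh_WW b (m.R.add_mem ha hc) (m.R.add_mem ha' hc') hz h]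
    ring
  have key2 : ∀ a c : KK, a ∈ m.R → c ∈ m.R → ⟪a + c, β'⟫_ℂ = 0 → ⟪a + c, w'⟫_ℂ = 0 →
      ⟪(m.W a * m.W c) (m.coh b z), (m.sinW β' * m.sinW w') (m.coh b z)⟫_ℂ =
        ⟪(m.W a * m.W c) (m.coh b z), m.coh b z⟫_ℂ *
          ⟪m.coh b z, (m.sinW β' * m.sinW w') (m.coh b z)⟫_ℂ := by
    intro a c ha hc e1 e2
    rw [m.coh3_ss β' w']
    simp only [inner_smul_right, inner_add_right, inner_sub_right]
    rw [key a c β' w' ha hc hβ' hw' (by simp [e1, e2]),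
      key a c β' (-w') ha hc hβ' (m.R.neg_mem hw') (by simp [e1, e2]),
      key a c (-β') w' ha hc (m.R.neg_mem hβ') hw' (by simp [e1, e2]),
      key a c (-β') (-w') ha hc (m.R.neg_mem hβ') (m.R.neg_mem hw')
        (by simp [e1, e2])]
    ring
  rw [m.coh3_ss β w]
  simp only [inner_smul_left, inner_add_left, inner_sub_left]
  rw [key2 β w hβ hw (by simp [h1, h3]) (by simp [h2, h4]),
    key2 β (-w) hβ (m.R.neg_mem hw) (by simp [h1, h3])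
      (by simp [h2, h4]),
    key2 (-β) w (m.R.neg_mem hβ) hw (by simp [h1, h3])
      (by simp [h2, h4]),
    key2 (-β) (-w) (m.R.neg_mem hβ) (m.R.neg_mem hw) (by simp [h1, h3])
      (by simp [h2, h4])]
  ring

/-- the mean: with `μ = -2 ω(β,z)`, `ν = -2 ω(w,z)`, `s = ⟪β,w⟫` it equals
`(cos μ cos ν sinh s + sin μ sin ν cosh s) exp (-(‖β‖² + ‖w‖²)/2)` -/
theorem mean_ss : ∃ C, 0 ≤ C ∧ ∀ (b : Bool) (β w z : KK), β ∈ m.R → w ∈ m.R → z ∈ m.R → ‖β‖ ≤ 1 →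
    ‖w‖ ≤ 1 → ‖⟪m.coh b z, (m.sinW β * m.sinW w) (m.coh b z)⟫_ℂ - ⟪β, w⟫_ℂ‖ ≤
      C * (|om β z| * |om w z| + (1 + ‖z‖) ^ 2 * ‖β‖ * ‖w‖ * (‖β‖ ^ 2 + ‖w‖ ^ 2)) := by
  refine ⟨12, by norm_num, fun b β w z hβ hw hz h1 h2 => ?_⟩
  have hs : ‖⟪β, w⟫_ℂ‖ ≤ ‖β‖ * ‖w‖ := norm_inner_le_norm _ _
  have hs1 : ‖⟪β, w⟫_ℂ‖ ≤ 1 := hs.trans (mul_le_one₀ h1 (norm_nonneg _) h2)
  have e : ⟪m.coh b z, (m.sinW β * m.sinW w) (m.coh b z)⟫_ℂ =
      (Real.exp (-((‖β‖ ^ 2 + ‖w‖ ^ 2) / 2)) : ℂ) *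
        ((Real.cos (2 * om β z) : ℂ) * (Real.cos (2 * om w z) : ℂ) *
          ((Complex.exp ⟪β, w⟫_ℂ - Complex.exp (-⟪β, w⟫_ℂ)) / 2)
        + (Real.sin (2 * om β z) : ℂ) * (Real.sin (2 * om w z) : ℂ) *
          ((Complex.exp ⟪β, w⟫_ℂ + Complex.exp (-⟪β, w⟫_ℂ)) / 2)) := by
    rw [m.coh3_ss β w]
    simp only [inner_smul_right, inner_add_right, inner_sub_right]
    rw [m.coh3_WW b hβ hw hz, m.coh3_WW b hβ (m.R.neg_mem hw) hz,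
      m.coh3_WW b (m.R.neg_mem hβ) hw hz, m.coh3_WW b (m.R.neg_mem hβ) (m.R.neg_mem hw) hz,
      m.inner_coh_W b hβ hz, m.inner_coh_W b hw hz, m.inner_coh_W b (m.R.neg_mem hβ) hz,
      m.inner_coh_W b (m.R.neg_mem hw) hz,
      show -((‖β‖ ^ 2 + ‖w‖ ^ 2) / 2) = -‖β‖ ^ 2 / 2 + -‖w‖ ^ 2 / 2 by ring, Real.exp_add]
    simp only [coh3_exp]
    simp only [om_neg_left, _root_.mul_neg, Real.cos_neg, Real.sin_neg, norm_neg,
      inner_neg_left, inner_neg_right, neg_neg, Complex.ofReal_neg]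
    rw [Complex.ofReal_mul]
    linear_combination (-(1 / 2 : ℂ)) * (Real.exp (-‖β‖ ^ 2 / 2) : ℂ) * (Real.exp (-‖w‖ ^ 2 / 2) : ℂ) *
      (Real.sin (2 * om β z) : ℂ) * (Real.sin (2 * om w z) : ℂ) *
      (Complex.exp ⟪β, w⟫_ℂ + Complex.exp (-⟪β, w⟫_ℂ)) * Complex.I_mul_I
  rw [e]
  refine (coh3_est hs1 _ _ (by positivity)).trans ?_
  have a1 : (2 * om β z) ^ 2 ≤ 4 * (‖β‖ * ‖z‖) ^ 2 := by
    rw [mul_pow, ← sq_abs (om β z)]
    have := pow_le_pow_left₀ (abs_nonneg _) (abs_om_le β z) 2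
    linarith
  have a2 : (2 * om w z) ^ 2 ≤ 4 * (‖w‖ * ‖z‖) ^ 2 := by
    rw [mul_pow, ← sq_abs (om w z)]
    have := pow_le_pow_left₀ (abs_nonneg _) (abs_om_le w z) 2
    linarith
  have hz0 := norm_nonneg z
  have hp : 0 ≤ ‖β‖ * ‖w‖ := by positivity
  have hq : 0 ≤ ‖β‖ ^ 2 + ‖w‖ ^ 2 := by positivity
  have b0 : 1 ≤ (1 + ‖z‖) ^ 2 := by nlinarith
  have b1 : ‖⟪β, w⟫_ℂ‖ ^ 2 ≤ (1 + ‖z‖) ^ 2 * (‖β‖ * ‖w‖ * (‖β‖ ^ 2 + ‖w‖ ^ 2)) := by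
    calc ‖⟪β, w⟫_ℂ‖ ^ 2 ≤ (‖β‖ * ‖w‖) ^ 2 := by gcongr
      _ ≤ ‖β‖ * ‖w‖ * (‖β‖ ^ 2 + ‖w‖ ^ 2) := by
        rw [sq]
        gcongr
        nlinarith [sq_nonneg (‖β‖ - ‖w‖)]
      _ ≤ _ := le_mul_of_one_le_left (by positivity) b0
  have b2 : (‖β‖ ^ 2 + ‖w‖ ^ 2) / 2 + (2 * om β z) ^ 2 / 2 + (2 * om w z) ^ 2 / 2 ≤
      2 * (1 + ‖z‖) ^ 2 * (‖β‖ ^ 2 + ‖w‖ ^ 2) := by
    nlinarith [mul_nonneg hq hz0]
  have b3 : ((‖β‖ ^ 2 + ‖w‖ ^ 2) / 2 + (2 * om β z) ^ 2 / 2 + (2 * om w z) ^ 2 / 2) * ‖⟪β, w⟫_ℂ‖ ≤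
      2 * (1 + ‖z‖) ^ 2 * (‖β‖ ^ 2 + ‖w‖ ^ 2) * (‖β‖ * ‖w‖) := by gcongr
  have b4 : 0 ≤ (1 + ‖z‖) ^ 2 * (‖β‖ * ‖w‖ * (‖β‖ ^ 2 + ‖w‖ ^ 2)) := by positivity
  rw [abs_mul, abs_mul, abs_two]
  nlinarith

/-- law of large numbers for the sum of the quadratic terms (fluctuation: orthogonal after subtracting
the means, `norm_sinW_sinW_coh`; means: `mean_ss`, Cauchy–Schwarz and Bessel for the `w l`) -/
theorem quad_sum : ∃ C, 0 ≤ C ∧ ∀ (k : ℕ) (b : Bool) (β w : Fin k → KK) (z : KK) (η Bβ Bw : ℝ),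
    (∀ l, β l ∈ m.R) → (∀ l, w l ∈ m.R) → z ∈ m.R →
    (∀ l l', l ≠ l' → ⟪β l, β l'⟫_ℂ = 0 ∧ ⟪β l, w l'⟫_ℂ = 0 ∧ ⟪w l, w l'⟫_ℂ = 0) →
    0 ≤ η → η ≤ 1 → (∀ l, ‖β l‖ ≤ η) → (∀ l, ‖w l‖ ≤ η) → 0 ≤ Bβ → 0 ≤ Bw →
    ∑ l, ‖β l‖ ^ 2 ≤ Bβ ^ 2 → ∑ l, ‖w l‖ ^ 2 ≤ Bw ^ 2 →
    ‖(∑ l, (m.sinW (β l) * m.sinW (w l) - ⟪β l, w l⟫_ℂ • (1 : H →L[ℂ] H))) (m.coh b z)‖ ≤
      C * (1 + ‖z‖) ^ 2 * (1 + Bw) * Bβ * η := by
  obtain ⟨C, hC, hm⟩ := m.mean_ss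
  refine ⟨20 + 2 * C, by positivity,
    fun k b β w z η Bβ Bw hβ hw hz ho hη hη1 hβη hwη hBβ hBw hsβ hsw => ?_⟩
  set v := m.coh b z with hv
  have hv1 : ‖v‖ = 1 := m.norm_coh b hz
  have hvv : ⟪v, v⟫_ℂ = 1 := by rw [inner_self_eq_norm_sq_to_K, hv1]; simp
  set A : Fin k → H := fun l => (m.sinW (β l) * m.sinW (w l)) v with hA
  have e : (∑ l, (m.sinW (β l) * m.sinW (w l) - ⟪β l, w l⟫_ℂ • (1 : H →L[ℂ] H))) v =
      ∑ l, (A l - ⟪v, A l⟫_ℂ • v) + ∑ l, (⟪v, A l⟫_ℂ - ⟪β l, w l⟫_ℂ) • v := by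
    rw [ContinuousLinearMap.sum_apply, ← Finset.sum_add_distrib]
    refine Finset.sum_congr rfl fun l _ => ?_
    simp only [hA, ContinuousLinearMap.sub_apply, ContinuousLinearMap.smul_apply,
      ContinuousLinearMap.one_apply, sub_smul]
    abel
  have hz0 := norm_nonneg z
  set Z := (1 + ‖z‖) ^ 2 with hZ
  have hZ0 : 0 ≤ Z := by positivity
  have f1 : ‖∑ l, (A l - ⟪v, A l⟫_ℂ • v)‖ ≤ 20 * Z * η * Bβ := by
    refine abs_le_of_sq_le_sq' ?_ (by positivity) |>.2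
    rw [coh3_pyth]
    · calc ∑ l, ‖A l - ⟪v, A l⟫_ℂ • v‖ ^ 2 ≤ ∑ l, (20 * Z * η) ^ 2 * ‖β l‖ ^ 2 := by
            refine Finset.sum_le_sum fun l _ => ?_
            rw [← mul_pow]
            gcongr
            have h1 : ‖A l‖ ≤ 10 * Z * ‖β l‖ * ‖w l‖ := m.norm_sinW_sinW_coh b (hβ l) (hw l) hz
            have h2 : ‖⟪v, A l⟫_ℂ • v‖ ≤ ‖A l‖ := by
              rw [norm_smul, hv1, mul_one]
              simpa [hv1] using norm_inner_le_norm (𝕜 := ℂ) v (A l)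
            have h3 : 10 * Z * ‖β l‖ * ‖w l‖ ≤ 10 * Z * ‖β l‖ * η := by gcongr; exact hwη l
            linarith [norm_sub_le (A l) (⟪v, A l⟫_ℂ • v)]
        _ ≤ _ := by rw [← Finset.mul_sum, mul_pow _ Bβ]; gcongr
    · intro l l' hl
      have h1 : ⟪A l, A l'⟫_ℂ = ⟪A l, v⟫_ℂ * ⟪v, A l'⟫_ℂ :=
        m.inner_ss_ss b (hβ l) (hw l) (hβ l') (hw l') hz (ho l l' hl).1 (ho l l' hl).2.1
          (inner_eq_zero_symm.1 (ho l' l hl.symm).2.1) (ho l l' hl).2.2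
      simp only [inner_sub_left, inner_sub_right, inner_smul_left, inner_smul_right, h1, hvv,
        inner_conj_symm]
      ring
  have g1 : ∑ l, |om (β l) z| * |om (w l) z| ≤ Z * Bβ * η := by
    have h1 : ∑ l, |om (β l) z| ^ 2 ≤ (Bβ * ‖z‖) ^ 2 := by
      calc ∑ l, |om (β l) z| ^ 2 ≤ ∑ l, ‖β l‖ ^ 2 * ‖z‖ ^ 2 := by
            refine Finset.sum_le_sum fun l _ => ?_
            rw [← mul_pow]
            gcongr
            exact abs_om_le _ _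
        _ ≤ _ := by rw [← Finset.sum_mul, mul_pow]; gcongr
    have h2 : ∑ l, |om (w l) z| ^ 2 ≤ (η * ‖z‖) ^ 2 := by
      refine le_trans (Finset.sum_le_sum fun l _ => ?_)
        (coh3_bessel w (fun l l' hl => (ho l l' hl).2.2) hwη z)
      gcongr
      exact abs_om_le_norm_inner _ _
    have h3 : ∑ l, |om (β l) z| * |om (w l) z| ≤ Bβ * ‖z‖ * (η * ‖z‖) := by
      refine abs_le_of_sq_le_sq' ?_ (by positivity) |>.2
      refine (Finset.sum_mul_sq_le_sq_mul_sq _ _ _).trans ?_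
      rw [mul_pow (Bβ * ‖z‖)]
      gcongr
    refine h3.trans ?_
    have : ‖z‖ ^ 2 ≤ Z := by rw [hZ]; gcongr; linarith
    calc Bβ * ‖z‖ * (η * ‖z‖) = ‖z‖ ^ 2 * Bβ * η := by ring
      _ ≤ _ := by gcongr
  have g2 : ∑ l, ‖β l‖ * ‖w l‖ ≤ Bβ * Bw := by
    refine abs_le_of_sq_le_sq' ?_ (by positivity) |>.2
    refine (Finset.sum_mul_sq_le_sq_mul_sq _ _ _).trans ?_
    rw [mul_pow]
    gcongr
  have f2 : ‖∑ l, (⟪v, A l⟫_ℂ - ⟪β l, w l⟫_ℂ) • v‖ ≤ C * (Z * Bβ * η + 2 * η * Z * (Bβ * Bw)) := by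
    calc _ ≤ ∑ l, C * (|om (β l) z| * |om (w l) z| + 2 * η * Z * (‖β l‖ * ‖w l‖)) := by
          refine norm_sum_le_of_le _ fun l _ => ?_
          rw [norm_smul, hv1, mul_one]
          refine (hm b _ _ z (hβ l) (hw l) hz ((hβη l).trans hη1) ((hwη l).trans hη1)).trans ?_
          refine mul_le_mul_of_nonneg_left (add_le_add le_rfl ?_) hC
          have h1 : ‖β l‖ ^ 2 + ‖w l‖ ^ 2 ≤ 2 * η := by
            nlinarith [hβη l, hwη l, norm_nonneg (β l), norm_nonneg (w l)]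
          calc Z * ‖β l‖ * ‖w l‖ * (‖β l‖ ^ 2 + ‖w l‖ ^ 2) ≤ Z * ‖β l‖ * ‖w l‖ * (2 * η) := by
                gcongr
            _ = _ := by ring
      _ ≤ _ := by
          rw [← Finset.mul_sum, Finset.sum_add_distrib, ← Finset.mul_sum]
          gcongr
  rw [e]
  refine (norm_add_le _ _).trans ((add_le_add f1 f2).trans ?_)
  have p1 : 0 ≤ Z * Bβ * η := by positivity
  nlinarith [mul_nonneg hC p1, mul_nonneg p1 hBw]


end Model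

end Crest.Agent.R339
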