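import Crest.Agent.R339.Q.Coh3

/-!
# Row 339, part Q: a second law of large numbers
-/

set_option autoImplicit false

namespace Crest.Agent.R339

open MeasureTheory ProbabilityTheory Filter Topology Crest.MathPhysics.SpinGlass
open scoped InnerProductSpace ComplexConjugate

namespace Model

variable {K : ℕ} {I : Iamp K} {H KK : Type} [NormedAddCommGroup H] [InnerProductSpace ℂ H]
  [CompleteSpace H] [NormedAddCommGroup KK] [InnerProductSpace ℂ KK] (m : Model I H KK)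

/-- the span of the displaced vectors with displacement in `T` -/
def coh4_S (T : Submodule ℂ KK) (v : H) : Submodule ℂ H :=
  Submodule.span ℂ {ψ | ∃ y ∈ m.R, y ∈ T ∧ ψ = m.W y v}

theorem coh4_self (T : Submodule ℂ KK) (v : H) : v ∈ m.coh4_S T v :=
  Submodule.subset_span ⟨0, m.R.zero_mem, T.zero_mem, by rw [m.W_zero]; rfl⟩

theorem coh4_W {T : Submodule ℂ KK} {v ψ : H} {y : KK} (hy : y ∈ m.R) (hT : y ∈ T)
    (h : ψ ∈ m.coh4_S T v) : m.W y ψ ∈ m.coh4_S T v := by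
  induction h using Submodule.span_induction with
  | mem ψ h =>
    obtain ⟨y', hy', hT', rfl⟩ := h
    rw [← mul_apply_eq_comp, m.W_mul_W hy hy', _root_.smul_apply]
    exact Submodule.smul_mem _ _
      (Submodule.subset_span ⟨y + y', m.R.add_mem hy hy', T.add_mem hT hT', rfl⟩)
  | zero => rw [map_zero]; exact Submodule.zero_mem _
  | add a c _ _ ha hc => rw [map_add]; exact Submodule.add_mem _ ha hc
  | smul c a _ ha => rw [map_smul]; exact Submodule.smul_mem _ _ ha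

theorem coh4_mem {T : Submodule ℂ KK} (v : H) {β w : KK} (hβ : β ∈ m.R) (hw : w ∈ m.R)
    (hβT : β ∈ T) (hwT : w ∈ T) : (m.sinW β * (m.cosW w - 1)) v ∈ m.coh4_S T v := by
  have h0 := m.coh4_self T v
  have h1 : (m.cosW w - 1) v ∈ m.coh4_S T v :=
    Submodule.sub_mem _ (Submodule.smul_mem _ _ (Submodule.add_mem _ (m.coh4_W hw hwT h0)
      (m.coh4_W (m.R.neg_mem hw) (T.neg_mem hwT) h0))) h0
  exact Submodule.smul_mem _ _ (Submodule.sub_mem _ (m.coh4_W hβ hβT h1)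
    (m.coh4_W (m.R.neg_mem hβ) (T.neg_mem hβT) h1))

theorem coh4_fact (b : Bool) {z : KK} (hz : z ∈ m.R) {T : Submodule ℂ KK} {ψ ψ' : H}
    (h : ψ ∈ m.coh4_S Tᗮ (m.coh b z)) (h' : ψ' ∈ m.coh4_S T (m.coh b z)) :
    ⟪ψ, ψ'⟫_ℂ = ⟪ψ, m.coh b z⟫_ℂ * ⟪m.coh b z, ψ'⟫_ℂ := by
  induction h using Submodule.span_induction with
  | mem ψ h =>
    obtain ⟨y, hy, hT, rfl⟩ := h
    induction h' using Submodule.span_induction with
    | mem ψ' h' =>
      obtain ⟨y', hy', hT', rfl⟩ := h'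
      exact m.inner_coh_WW b hy hy' hz (Submodule.inner_left_of_mem_orthogonal hT' hT)
    | zero => simp
    | add a c _ _ ha hc => rw [inner_add_right, inner_add_right, ha, hc]; ring
    | smul c a _ ha => rw [inner_smul_right, inner_smul_right, ha]; ring
  | zero => simp
  | add a c _ _ ha hc => rw [inner_add_left, inner_add_left, ha, hc]; ring
  | smul c a _ ha => rw [inner_smul_left, inner_smul_left, ha]; ring

theorem coh4_norm (b : Bool) {β w z : KK} (hβ : β ∈ m.R) (hw : w ∈ m.R) (hz : z ∈ m.R) :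
    ‖(m.sinW β * (m.cosW w - 1)) (m.coh b z)‖ ≤ 10 * (1 + ‖z‖) ^ 2 * ‖w‖ * ‖β‖ := by
  have h1 := ((m.nb_W_sub_coh b hw hz).add (m.nb_W_sub_coh b (m.R.neg_mem hw) hz)).smul (1 / 2 : ℂ)
  have e : (m.cosW w - 1) (m.coh b z) =
      (1 / 2 : ℂ) • ((m.W w - 1) (m.coh b z) + (m.W (-w) - 1) (m.coh b z)) := by
    simp only [cosW, _root_.sub_apply, _root_.smul_apply,
      _root_.add_apply, one_apply_eq_self]
    module
  rw [mul_apply_eq_comp, e]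
  refine (h1.norm_sinW hβ).trans (le_of_eq ?_)
  rw [norm_neg, norm_div, norm_one, Complex.norm_ofNat]
  ring

theorem coh4_est {s : ℂ} (hs : ‖s‖ ≤ 1) (t u : ℝ) {e e' : ℝ} (he : 0 ≤ e) (he' : 0 ≤ e') :
    ‖(Real.exp (-e') : ℂ) * ((Real.sin t : ℂ) * ((Real.exp (-e) : ℂ) * (Real.cos u : ℂ) *
        ((Complex.exp s + Complex.exp (-s)) / 2) - 1) -
      (Real.exp (-e) : ℂ) * (Real.cos t : ℂ) * (Real.sin u : ℂ) *
        ((Complex.exp s - Complex.exp (-s)) / 2))‖ ≤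
      |t| * (‖s‖ ^ 2 + (e + u ^ 2 / 2)) + |u| * (2 * ‖s‖) := by
  have hs' : ‖-s‖ ≤ 1 := by rwa [norm_neg]
  have a1 : ‖(Complex.exp s + Complex.exp (-s)) / 2 - 1‖ ≤ ‖s‖ ^ 2 := by
    have h1 := Complex.norm_exp_sub_one_sub_id_le hs
    have h2 := Complex.norm_exp_sub_one_sub_id_le hs'
    rw [show (Complex.exp s + Complex.exp (-s)) / 2 - 1 =
      ((Complex.exp s - 1 - s) + (Complex.exp (-s) - 1 - -s)) / 2 by ring, norm_div]
    rw [norm_neg] at h2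
    have := norm_add_le (Complex.exp s - 1 - s) (Complex.exp (-s) - 1 - -s)
    simp only [Complex.norm_ofNat]
    linarith
  have a2 : ‖(Complex.exp s - Complex.exp (-s)) / 2‖ ≤ 2 * ‖s‖ := by
    have h1 := Complex.norm_exp_sub_one_le hs
    have h2 := Complex.norm_exp_sub_one_le hs'
    rw [show (Complex.exp s - Complex.exp (-s)) / 2 =
      ((Complex.exp s - 1) - (Complex.exp (-s) - 1)) / 2 by ring, norm_div]
    rw [norm_neg] at h2
    have := norm_sub_le (Complex.exp s - 1) (Complex.exp (-s) - 1)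
    simp only [Complex.norm_ofNat]
    linarith
  have e0 : 0 < Real.exp (-e) := Real.exp_pos _
  have e1 : Real.exp (-e) ≤ 1 := Real.exp_le_one_iff.2 (by linarith)
  have e2 : 1 - e ≤ Real.exp (-e) := by linarith [Real.add_one_le_exp (-e)]
  have e3 : ‖(Real.exp (-e') : ℂ)‖ ≤ 1 := by
    rw [Complex.norm_real, Real.norm_of_nonneg (Real.exp_pos _).le]
    exact Real.exp_le_one_iff.2 (by linarith)
  have c1 : |Real.exp (-e) * Real.cos u| ≤ 1 := by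
    rw [abs_mul, abs_of_pos e0]
    exact mul_le_one₀ e1 (abs_nonneg _) (Real.abs_cos_le_one _)
  have c2 : |Real.exp (-e) * Real.cos u - 1| ≤ e + u ^ 2 / 2 := by
    rw [abs_sub_comm, abs_of_nonneg (by linarith [le_abs_self (Real.exp (-e) * Real.cos u)])]
    have h2 := Real.one_sub_sq_div_two_le_cos (x := u)
    have h4 := Real.cos_le_one u
    nlinarith [mul_nonneg (sub_nonneg.2 e1) (sub_nonneg.2 h4)]
  have c3 : |Real.exp (-e) * Real.cos t * Real.sin u| ≤ |u| := by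
    rw [abs_mul, abs_mul, abs_of_pos e0]
    exact (mul_le_of_le_one_left (abs_nonneg _)
      (mul_le_one₀ e1 (abs_nonneg _) (Real.abs_cos_le_one _))).trans Real.abs_sin_le_abs
  have c4 : ‖(Real.exp (-e) : ℂ) * (Real.cos u : ℂ) *
      ((Complex.exp s + Complex.exp (-s)) / 2) - 1‖ ≤ ‖s‖ ^ 2 + (e + u ^ 2 / 2) := by
    rw [show (Real.exp (-e) : ℂ) * (Real.cos u : ℂ) * ((Complex.exp s + Complex.exp (-s)) / 2) - 1 =
      ((Real.exp (-e) * Real.cos u : ℝ) : ℂ) * ((Complex.exp s + Complex.exp (-s)) / 2 - 1) +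
        ((Real.exp (-e) * Real.cos u - 1 : ℝ) : ℂ) by
      simp only [Complex.ofReal_mul, Complex.ofReal_sub, Complex.ofReal_one]; ring]
    refine (norm_add_le _ _).trans ?_
    rw [norm_mul, Complex.norm_real, Complex.norm_real, Real.norm_eq_abs, Real.norm_eq_abs]
    exact add_le_add ((mul_le_of_le_one_left (norm_nonneg _) c1).trans a1) c2
  rw [norm_mul]
  refine (mul_le_of_le_one_left (norm_nonneg _) e3).trans ((norm_sub_le _ _).trans ?_)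
  rw [← Complex.ofReal_mul (Real.exp (-e)) (Real.cos t), ← Complex.ofReal_mul _ (Real.sin u),
    norm_mul, norm_mul, Complex.norm_real, Complex.norm_real, Real.norm_eq_abs, Real.norm_eq_abs]
  exact add_le_add (mul_le_mul Real.abs_sin_le_abs c4 (norm_nonneg _) (abs_nonneg _))
    (mul_le_mul c3 a2 (norm_nonneg _) (abs_nonneg _))

theorem coh4_sc (β w : KK) (v : H) : (m.sinW β * (m.cosW w - 1)) v = (-(Complex.I / 4) : ℂ) •
    ((m.W β * m.W w) v + (m.W β * m.W (-w)) v - (m.W (-β) * m.W w) v -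
      (m.W (-β) * m.W (-w)) v - (2 : ℂ) • (m.W β v - m.W (-β) v)) := by
  simp only [sinW, cosW, mul_apply_eq_comp, _root_.sub_apply,
    _root_.smul_apply, _root_.add_apply, one_apply_eq_self,
    map_sub, map_add, map_smul]
  module

theorem coh4_mean (b : Bool) {β w z : KK} (hβ : β ∈ m.R) (hw : w ∈ m.R) (hz : z ∈ m.R)
    (h1 : ‖β‖ ≤ 1) (h2 : ‖w‖ ≤ 1) :
    ‖⟪m.coh b z, (m.sinW β * (m.cosW w - 1)) (m.coh b z)⟫_ℂ‖ ≤
      4 * (1 + ‖z‖) ^ 3 * (‖β‖ * ‖w‖ * ‖w‖) := by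
  have hs : ‖⟪β, w⟫_ℂ‖ ≤ ‖β‖ * ‖w‖ := norm_inner_le_norm _ _
  have hs1 : ‖⟪β, w⟫_ℂ‖ ≤ 1 := hs.trans (mul_le_one₀ h1 (norm_nonneg _) h2)
  have e : ⟪m.coh b z, (m.sinW β * (m.cosW w - 1)) (m.coh b z)⟫_ℂ =
      -((Real.exp (-(‖β‖ ^ 2 / 2)) : ℂ) * ((Real.sin (2 * om β z) : ℂ) *
        ((Real.exp (-(‖w‖ ^ 2 / 2)) : ℂ) * (Real.cos (2 * om w z) : ℂ) *
          ((Complex.exp ⟪β, w⟫_ℂ + Complex.exp (-⟪β, w⟫_ℂ)) / 2) - 1) -
        (Real.exp (-(‖w‖ ^ 2 / 2)) : ℂ) * (Real.cos (2 * om β z) : ℂ) * (Real.sin (2 * om w z) : ℂ) *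
          ((Complex.exp ⟪β, w⟫_ℂ - Complex.exp (-⟪β, w⟫_ℂ)) / 2))) := by
    rw [m.coh4_sc β w]
    simp only [inner_smul_right, inner_add_right, inner_sub_right]
    rw [m.coh3_WW b hβ hw hz, m.coh3_WW b hβ (m.R.neg_mem hw) hz,
      m.coh3_WW b (m.R.neg_mem hβ) hw hz, m.coh3_WW b (m.R.neg_mem hβ) (m.R.neg_mem hw) hz,
      m.inner_coh_W b hβ hz, m.inner_coh_W b hw hz, m.inner_coh_W b (m.R.neg_mem hβ) hz,
      m.inner_coh_W b (m.R.neg_mem hw) hz, ← neg_div (2 : ℝ), ← neg_div (2 : ℝ)]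
    simp only [coh3_exp]
    simp only [om_neg_left, _root_.mul_neg, Real.cos_neg, Real.sin_neg, norm_neg,
      inner_neg_left, inner_neg_right, neg_neg, Complex.ofReal_neg]
    linear_combination ((Real.exp (-‖β‖ ^ 2 / 2) : ℂ) * ((Real.sin (2 * om β z) : ℂ) *
        ((Real.exp (-‖w‖ ^ 2 / 2) : ℂ) * (Real.cos (2 * om w z) : ℂ) *
          ((Complex.exp ⟪β, w⟫_ℂ + Complex.exp (-⟪β, w⟫_ℂ)) / 2) - 1) -
        (Real.exp (-‖w‖ ^ 2 / 2) : ℂ) * (Real.cos (2 * om β z) : ℂ) * (Real.sin (2 * om w z) : ℂ) *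
          ((Complex.exp ⟪β, w⟫_ℂ - Complex.exp (-⟪β, w⟫_ℂ)) / 2))) * Complex.I_mul_I
  rw [e, norm_neg]
  refine (coh4_est hs1 _ _ (by positivity) (by positivity)).trans ?_
  have hz0 := norm_nonneg z
  have hb0 := norm_nonneg β
  have hw0 := norm_nonneg w
  have a1 : |2 * om β z| ≤ 2 * (‖β‖ * ‖z‖) := by
    rw [abs_mul, abs_two]
    linarith [abs_om_le β z]
  have a2 : |2 * om w z| ≤ 2 * (‖w‖ * ‖z‖) := by
    rw [abs_mul, abs_two]
    linarith [abs_om_le w z]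
  have a3 : (2 * om w z) ^ 2 ≤ (2 * (‖w‖ * ‖z‖)) ^ 2 := by
    rw [← sq_abs (2 * om w z)]
    gcongr
  have a4 : ‖⟪β, w⟫_ℂ‖ ≤ ‖w‖ := hs.trans (mul_le_of_le_one_left hw0 h1)
  calc _ ≤ 2 * (‖β‖ * ‖z‖) * (‖w‖ ^ 2 + (‖w‖ ^ 2 / 2 + (2 * (‖w‖ * ‖z‖)) ^ 2 / 2)) +
        2 * (‖w‖ * ‖z‖) * (2 * (‖β‖ * ‖w‖)) := by gcongr
    _ = (7 * ‖z‖ + 4 * ‖z‖ ^ 3) * (‖β‖ * ‖w‖ * ‖w‖) := by ring
    _ ≤ _ := by
        gcongr
        nlinarith [sq_nonneg ‖z‖]

/-- as `quad_sum`, for `sin φ(β) (cos φ(w) - 1)`.  Fluctuation: after subtracting the means the terms are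
orthogonal (`inner_coh_WW`) and each is `O(‖β‖ ‖w‖)` (`norm_WW_coh`).  Means, with `μ = -2 ω(β,z)`, `ν = -2 ω(w,z)`,
`s = ⟪β,w⟫`, `N = (‖β‖² + ‖w‖²)/2`:  `e^{-N}(sin μ cos ν cosh s - cos μ sin ν sinh s) - sin μ e^{-‖β‖²/2}`,
which is `O((1+‖z‖)³ ‖β‖ ‖w‖²)`. -/
theorem quad_sum2 : ∃ C, 0 ≤ C ∧ ∀ (k : ℕ) (b : Bool) (β w : Fin k → KK) (z : KK) (η Bβ Bw : ℝ),
    (∀ l, β l ∈ m.R) → (∀ l, w l ∈ m.R) → z ∈ m.R →
    (∀ l l', l ≠ l' → ⟪β l, β l'⟫_ℂ = 0 ∧ ⟪β l, w l'⟫_ℂ = 0 ∧ ⟪w l, w l'⟫_ℂ = 0) →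
    0 ≤ η → η ≤ 1 → (∀ l, ‖β l‖ ≤ η) → (∀ l, ‖w l‖ ≤ η) → 0 ≤ Bβ → 0 ≤ Bw →
    ∑ l, ‖β l‖ ^ 2 ≤ Bβ ^ 2 → ∑ l, ‖w l‖ ^ 2 ≤ Bw ^ 2 →
    ‖(∑ l, m.sinW (β l) * (m.cosW (w l) - 1)) (m.coh b z)‖ ≤
      C * (1 + ‖z‖) ^ 3 * (1 + Bw) * Bβ * η := by
  refine ⟨20, by norm_num,
    fun k b β w z η Bβ Bw hβ hw hz ho hη hη1 hβη hwη hBβ hBw hsβ hsw => ?_⟩
  set v := m.coh b z with hv
  have hv1 : ‖v‖ = 1 := m.norm_coh b hz
  have hvv : ⟪v, v⟫_ℂ = 1 := by rw [inner_self_eq_norm_sq_to_K, hv1]; simp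
  set A : Fin k → H := fun l => (m.sinW (β l) * (m.cosW (w l) - 1)) v with hA
  have e : (∑ l, m.sinW (β l) * (m.cosW (w l) - 1)) v =
      ∑ l, (A l - ⟪v, A l⟫_ℂ • v) + ∑ l, ⟪v, A l⟫_ℂ • v := by
    rw [_root_.sum_apply, ← Finset.sum_add_distrib]
    exact Finset.sum_congr rfl fun l _ => (sub_add_cancel _ _).symm
  have hz0 := norm_nonneg z
  have hZ : (1 + ‖z‖) ^ 2 ≤ (1 + ‖z‖) ^ 3 := pow_le_pow_right₀ (by linarith) (by norm_num)
  set Z := (1 + ‖z‖) ^ 3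
  have hZ0 : 0 ≤ Z := by positivity
  have f1 : ‖∑ l, (A l - ⟪v, A l⟫_ℂ • v)‖ ≤ 20 * Z * η * Bβ := by
    refine abs_le_of_sq_le_sq' ?_ (by positivity) |>.2
    rw [coh3_pyth]
    · calc ∑ l, ‖A l - ⟪v, A l⟫_ℂ • v‖ ^ 2 ≤ ∑ l, (20 * Z * η) ^ 2 * ‖β l‖ ^ 2 := by
            refine Finset.sum_le_sum fun l _ => ?_
            rw [← mul_pow]
            gcongr
            have h1 : ‖A l‖ ≤ 10 * (1 + ‖z‖) ^ 2 * ‖w l‖ * ‖β l‖ := m.coh4_norm b (hβ l) (hw l) hz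
            have h2 : ‖⟪v, A l⟫_ℂ • v‖ ≤ ‖A l‖ := by
              rw [norm_smul, hv1, mul_one]
              simpa [hv1] using norm_inner_le_norm (𝕜 := ℂ) v (A l)
            have h3 : 10 * (1 + ‖z‖) ^ 2 * ‖w l‖ * ‖β l‖ ≤ 10 * Z * η * ‖β l‖ := by
              gcongr
              exact hwη l
            linarith [norm_sub_le (A l) (⟪v, A l⟫_ℂ • v)]
        _ ≤ _ := by rw [← Finset.mul_sum, mul_pow _ Bβ]; gcongr
    · intro l l' hl
      have horth : ∀ y : KK, ⟪y, β l'⟫_ℂ = 0 → ⟪y, w l'⟫_ℂ = 0 →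
          y ∈ (Submodule.span ℂ {β l', w l'})ᗮ := fun y e1 e2 =>
        (Submodule.mem_orthogonal' _ _).2 fun u hu => by
          obtain ⟨a, c, rfl⟩ := Submodule.mem_span_pair.1 hu
          rw [inner_add_right, inner_smul_right, inner_smul_right, e1, e2, mul_zero, mul_zero,
            add_zero]
      have h1 : ⟪A l, A l'⟫_ℂ = ⟪A l, v⟫_ℂ * ⟪v, A l'⟫_ℂ :=
        m.coh4_fact b hz (T := Submodule.span ℂ {β l', w l'})
          (m.coh4_mem v (hβ l) (hw l) (horth _ (ho l l' hl).1 (ho l l' hl).2.1)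
            (horth _ (inner_eq_zero_symm.1 (ho l' l hl.symm).2.1) (ho l l' hl).2.2))
          (m.coh4_mem v (hβ l') (hw l') (Submodule.subset_span (by simp))
            (Submodule.subset_span (by simp)))
      simp only [inner_sub_left, inner_sub_right, inner_smul_left, inner_smul_right, h1, hvv,
        inner_conj_symm]
      ring
  have g2 : ∑ l, ‖β l‖ * ‖w l‖ ≤ Bβ * Bw := by
    refine abs_le_of_sq_le_sq' ?_ (by positivity) |>.2
    refine (Finset.sum_mul_sq_le_sq_mul_sq _ _ _).trans ?_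
    rw [mul_pow]
    gcongr
  have f2 : ‖∑ l, ⟪v, A l⟫_ℂ • v‖ ≤ 4 * Z * η * (Bβ * Bw) := by
    calc _ ≤ ∑ l, 4 * Z * η * (‖β l‖ * ‖w l‖) := by
          refine norm_sum_le_of_le _ fun l _ => ?_
          rw [norm_smul, hv1, mul_one]
          refine (m.coh4_mean b (hβ l) (hw l) hz ((hβη l).trans hη1) ((hwη l).trans hη1)).trans ?_
          calc 4 * Z * (‖β l‖ * ‖w l‖ * ‖w l‖) ≤ 4 * Z * (‖β l‖ * ‖w l‖ * η) := by
                gcongr
                exact hwη l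
            _ = _ := by ring
      _ ≤ _ := by
          rw [← Finset.mul_sum]
          gcongr
  rw [e]
  refine (norm_add_le _ _).trans ((add_le_add f1 f2).trans ?_)
  have p1 : 0 ≤ Z * Bβ * η := by positivity
  nlinarith [mul_nonneg p1 hBw]

end Model

end Crest.Agent.R339
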