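import Crest.Agent.R339.Q.Free

/-!
# Row 339, part Q: two-body gates between label sets
-/

set_option autoImplicit false

namespace Crest.Agent.R339

open MeasureTheory ProbabilityTheory Filter Topology Crest.MathPhysics.SpinGlass
open scoped InnerProductSpace ComplexConjugate

namespace Model

variable {K : ℕ} {I : Iamp K} {H KK : Type} [NormedAddCommGroup H] [InnerProductSpace ℂ H]
  [CompleteSpace H] [NormedAddCommGroup KK] [InnerProductSpace ℂ KK] (m : Model I H KK)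

theorem h34_gaxis {M : ℕ} {V : H →L[ℂ] H} (h1 : m.Free M V) (h2 : m.Free M (star V))
    (hW : ∀ y, Commute V (m.W y)) : m.GAxis M (star V * m.Z * V) := by
  refine ⟨⟨?_, ?_, (h1.1.2.star.mul m.cen_Z).mul h1.1.2, fun y => ?_⟩, V, h1, h2, rfl, hW⟩
  · simp only [star_mul, star_star, m.Z_star, mul_assoc]
  · calc star V * m.Z * V * (star V * m.Z * V) = star V * m.Z * (V * star V) * m.Z * V := by
          simp only [mul_assoc]
      _ = star V * (m.Z * m.Z) * V := by rw [h1.1.mul_star_self]; simp only [mul_assoc, one_mul]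
      _ = 1 := by rw [m.Z_sq, mul_one, h1.1.star_mul_self]
  · have h3 : Commute (star V) (m.W y) := by
      have := (hW (-y)).star_star
      rwa [m.W_star, neg_neg] at this
    exact (h3.mul_left (m.Z_W y)).mul_left (hW y)

theorem h34_P_W {E : Set (Lab K)} (hE : MeasurableSet E) (y : KK) : Commute (m.P E) (m.W y) :=
  ((m.cen_W y).commute_P hE).symm

/-- conjugation by a block gate -/
theorem h34_conj {E : Set (Lab K)} (hE : MeasurableSet E) {R A : H →L[ℂ] H} (hR : m.Cen R)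
    (hA : m.Cen A) : star (m.P E * R + m.P Eᶜ) * A * (m.P E * R + m.P Eᶜ) =
      m.P E * (star R * A * R) + m.P Eᶜ * A := by
  have c1 := (hR.star.commute_P hE).eq
  have c2 := (hA.commute_P hE).eq
  have c3 := (hA.commute_P hE.compl).eq
  have p1 := m.P_idem hE
  have p2 := m.P_idem hE.compl
  have p3 := m.P_mul_of_disjoint hE hE.compl disjoint_compl_right
  have p4 := m.P_mul_of_disjoint hE.compl hE disjoint_compl_left
  rw [star_add, star_mul, m.P_star hE, m.P_star hE.compl]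
  have e1 : star R * m.P E * A * (m.P E * R) = m.P E * (star R * A * R) := by
    calc star R * m.P E * A * (m.P E * R) = star R * m.P E * (A * m.P E) * R := by
          simp only [mul_assoc]
      _ = star R * (m.P E * m.P E) * A * R := by rw [c2]; simp only [mul_assoc]
      _ = _ := by rw [p1, c1]; simp only [mul_assoc]
  have e2 : star R * m.P E * A * m.P Eᶜ = 0 := by
    rw [mul_assoc, c3, ← mul_assoc, mul_assoc (star R), p3, mul_zero, zero_mul]
  have e3 : m.P Eᶜ * A * (m.P E * R) = 0 := by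
    rw [← mul_assoc, mul_assoc (m.P Eᶜ), c2, ← mul_assoc, p4, zero_mul, zero_mul]
  have e4 : m.P Eᶜ * A * m.P Eᶜ = m.P Eᶜ * A := by
    rw [mul_assoc, c3, ← mul_assoc, p2]
  rw [add_mul, add_mul, _root_.mul_add, _root_.mul_add, e1, e2, e3, e4, add_zero, zero_add]

theorem h34_star_gate {E : Set (Lab K)} (hE : MeasurableSet E) {A : H →L[ℂ] H} (hA : m.IsAxis A)
    (α : ℝ) : star (m.P E * rot A α + m.P Eᶜ) = m.P E * rot A (-α) + m.P Eᶜ := by
  rw [star_add, star_mul, m.P_star hE, m.P_star hE.compl, star_rot hA.1,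
    ((m.fib_rot hA.1 hA.2.1 hA.2.2.1 _).2.commute_P hE).eq]

theorem h34_gate_W {E : Set (Lab K)} (hE : MeasurableSet E) {A : H →L[ℂ] H} (hA : m.IsAxis A)
    (α : ℝ) (y : KK) : Commute (m.P E * rot A α + m.P Eᶜ) (m.W y) :=
  ((m.h34_P_W hE y).mul_left (commute_rot (hA.2.2.2 y).symm α).symm).add_left
    (m.h34_P_W hE.compl y)

theorem h34_conj_blk {V A A' : H →L[ℂ] H} (hV : m.Cen V) {E : Set (Lab K)} (hE : MeasurableSet E) :
    star V * (m.P E * A + m.P Eᶜ * A') * V =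
      m.P E * (star V * A * V) + m.P Eᶜ * (star V * A' * V) := by
  rw [_root_.mul_add, add_mul, ← mul_assoc, ← mul_assoc, (hV.star.commute_P hE).eq,
    (hV.star.commute_P hE.compl).eq]
  simp only [mul_assoc]

theorem gaxis_Z (M : ℕ) : m.GAxis M m.Z := by
  have := m.h34_gaxis (m.free_one M) (by rw [star_one]; exact m.free_one M)
    fun y => Commute.one_left _
  simpa using this

/-- cost gate along an available axis -/
theorem cost_axis_mem_Cl {M : ℕ} {Q : H →L[ℂ] H} (hQ : m.GAxis M Q) {U : H →L[ℂ] H} (hU : U ∈ m.Cl M)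
    (γ : ℝ) : m.D Q (γ • m.j (m.heis U Q)) * U ∈ m.Cl M := by
  obtain ⟨-, V, h1, h2, h3, hW⟩ := hQ
  have := h2.2 _ (m.cost_mem_Cl (h1.2 U hU) γ)
  rw [xi, m.heis_mul, h3, ← mul_assoc, ← mul_assoc, m.conj_D h1.1.star_mul_self hW, h3] at this
  exact this

/-- flipping the axis on an even set (compose with the flip `rot X (π/2)` on `E`, applied after `V`) -/
theorem GAxis.flip {M : ℕ} {Q : H →L[ℂ] H} (hQ : m.GAxis M Q) {E : Set (Lab K)} (hE : EvS M E) :
    m.GAxis M (m.P E * (-Q) + m.P Eᶜ * Q) := by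
  obtain ⟨-, V, h1, h2, h3, hW⟩ := hQ
  have hX := m.isAxis_X
  have := m.h34_gaxis ((m.free_X_on hE (Real.pi / 2)).mul h1)
    (by rw [star_mul, m.h34_star_gate hE.1 hX]; exact h2.mul (m.free_X_on hE _))
    fun y => (m.h34_gate_W hE.1 hX _ y).mul_left (hW y)
  have e : star (rot m.X (Real.pi / 2)) * m.Z * rot m.X (Real.pi / 2) = -m.Z := by
    rw [star_rot_mul_mul_rot m.X_star m.X_sq m.ZX, mul_div_cancel₀ _ two_ne_zero, rot]
    simp
  rw [star_mul, mul_assoc (star V), ← mul_assoc, mul_assoc (star V),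
    m.h34_conj hE.1 (m.fib_rot hX.1 hX.2.1 hX.2.2.1 _).2 m.cen_Z, e,
    m.h34_conj_blk h1.1.2 hE.1, _root_.mul_neg, neg_mul, h3] at this
  exact this

theorem h34_in {E F : Set (Lab K)} (hE : MeasurableSet E) (hF : MeasurableSet F) (h : E ⊆ F)
    (A A' : H →L[ℂ] H) : m.P E * (m.P F * A + m.P Fᶜ * A') = m.P E * A := by
  rw [_root_.mul_add, ← mul_assoc, ← mul_assoc, m.P_mul_of_subset hE hF h,
    m.P_mul_of_disjoint hE hF.compl (disjoint_compl_right.mono_left h), zero_mul, add_zero]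

theorem h34_out {E F : Set (Lab K)} (hE : MeasurableSet E) (hF : MeasurableSet F) (h : E ⊆ Fᶜ)
    (A A' : H →L[ℂ] H) : m.P E * (m.P F * A + m.P Fᶜ * A') = m.P E * A' := by
  rw [_root_.mul_add, ← mul_assoc, ← mul_assoc, m.P_mul_of_subset hE hF.compl h,
    m.P_mul_of_disjoint hE hF (disjoint_compl_left.mono_left h), zero_mul, zero_add]

theorem h34_blk {Q : H →L[ℂ] H} (hQ : m.IsAxis Q) {E : Set (Lab K)} (hE : MeasurableSet E)
    {z y : KK} (hz : z ∈ m.R) (hy : y ∈ m.R) {G G' : H →L[ℂ] H} {c : ℝ}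
    (h1 : m.P E * G' = m.P E * m.D Q z)
    (h2 : m.P E * G = Complex.exp (Complex.I * (c : ℂ)) • (m.P E * m.D Q y)) :
    m.P E * (G' * G) =
      Complex.exp (Complex.I * ((c - om z y : ℝ) : ℂ)) • (m.P E * m.D Q (z + y)) := by
  have c1 := ((hQ.fib_D hz).2.commute_P hE).eq
  rw [← mul_assoc, h1, ← c1, mul_assoc, h2, mul_smul_comm, ← mul_assoc, c1, mul_assoc,
    hQ.D_mul hz hy, mul_smul_comm, smul_smul, ← Complex.exp_add]
  congr 2
  push_cast
  ring

/-- the state after some echoes -/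
def h34_St (M : ℕ) (Q : H →L[ℂ] H) (A B : Set (Lab K)) (U : H →L[ℂ] H) (yA yB yC : KK) : Prop :=
  ∃ G, G * U ∈ m.Cl M ∧ m.Fib G ∧ Commute G Q ∧ yA ∈ m.R ∧ yB ∈ m.R ∧ yC ∈ m.R ∧ ∃ cA cB cC : ℝ,
    m.P A * G = Complex.exp (Complex.I * (cA : ℂ)) • (m.P A * m.D Q yA) ∧
    m.P B * G = Complex.exp (Complex.I * (cB : ℂ)) • (m.P B * m.D Q yB) ∧
    m.P (A ∪ B)ᶜ * G = Complex.exp (Complex.I * (cC : ℂ)) • (m.P (A ∪ B)ᶜ * m.D Q yC)

/-- four sign patterns `(s_A, s_B)` with weights `γ s_A s_B / 4`; the scalar phases produced by `D_mul` on the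
three blocks are removed with `free_ph`; the Heisenberg vectors `P E (heis U Q)` are not changed by the gates -/
theorem cross_mem_Cl {M : ℕ} {Q : H →L[ℂ] H} (hQ : m.GAxis M Q) {A B : Set (Lab K)} (hA : EvS M A)
    (hB : EvS M B) (h : Disjoint A B) (γ : ℝ) {U : H →L[ℂ] H} (hU : U ∈ m.Cl M) :
    m.cross Q A B γ U * U ∈ m.Cl M := by
  have hq := hQ.1
  have hAm := hA.1
  have hBm := hB.1
  have hCm : MeasurableSet (A ∪ B)ᶜ := (hAm.union hBm).compl
  have hUf : m.Fib U := hU.1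
  have hsum : m.P A + m.P B + m.P (A ∪ B)ᶜ = 1 := by
    rw [← m.P_union hAm hBm h, m.P_add_compl (hAm.union hBm)]
  set a := m.j (m.P A (m.heis U Q)) with ha
  set b := m.j (m.P B (m.heis U Q)) with hb
  set c := m.j (m.P (A ∪ B)ᶜ (m.heis U Q)) with hc
  have haR : a ∈ m.R := hUf.j_P_heis_mem hq.1 hq.2.2.1 hAm
  have hbR : b ∈ m.R := hUf.j_P_heis_mem hq.1 hq.2.2.1 hBm
  have hcR : c ∈ m.R := hUf.j_P_heis_mem hq.1 hq.2.2.1 hCm
  -- one echo
  have step : ∀ (Q' : H →L[ℂ] H) (s t w : ℝ), m.GAxis M Q' → (s = 1 ∨ s = -1) → (t = 1 ∨ t = -1) →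
      m.P A * Q' = m.P A * ((s : ℂ) • Q) → m.P B * Q' = m.P B * ((t : ℂ) • Q) →
      m.P (A ∪ B)ᶜ * Q' = m.P (A ∪ B)ᶜ * Q → ∀ yA yB yC, m.h34_St M Q A B U yA yB yC →
      m.h34_St M Q A B U (s • w • (s • a + t • b + c) + yA) (t • w • (s • a + t • b + c) + yB)
        (w • (s • a + t • b + c) + yC) := by
    rintro Q' s t w hQ' hs ht e1 e2 e3 yA yB yC ⟨G, g1, g2, g3, rA, rB, rC, cA, cB, cC, gA, gB, gC⟩
    have eQ : Q' = (s : ℂ) • (m.P A * Q) + (t : ℂ) • (m.P B * Q) + m.P (A ∪ B)ᶜ * Q := by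
      rw [← mul_smul_comm, ← mul_smul_comm, ← e1, ← e2, ← e3, ← add_mul, ← add_mul, hsum, one_mul]
    have hcm : ∀ G : H →L[ℂ] H, m.Cen G → Commute G Q → Commute G Q' := fun G h1 h2 => by
      rw [eQ]
      exact ((((h1.commute_P hAm).mul_right h2).smul_right _).add_right
        (((h1.commute_P hBm).mul_right h2).smul_right _)).add_right
        ((h1.commute_P hCm).mul_right h2)
    have hy : m.j (m.heis (G * U) Q') = s • a + t • b + c := by
      rw [m.heis_mul, mul_assoc, ← (hcm G g2.2 g3).eq, ← mul_assoc, g2.star_mul_self, one_mul, eQ,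
        m.heis_add, m.heis_add, m.heis_smul, m.heis_smul, ← hUf.P_heis hAm, ← hUf.P_heis hBm,
        ← hUf.P_heis hCm, map_add, map_add, map_smul, map_smul, Complex.coe_smul, Complex.coe_smul]
    have hyR : w • (s • a + t • b + c) ∈ m.R :=
      m.R.smul_mem _ (m.R.add_mem (m.R.add_mem (m.R.smul_mem _ haR) (m.R.smul_mem _ hbR)) hcR)
    have hD : ∀ r : ℝ, (r = 1 ∨ r = -1) → ∀ y, m.D ((r : ℂ) • Q) y = m.D Q (r • y) := by
      rintro r (rfl | rfl) y
      · simp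
      · simp [m.D_neg_axis]
    have k := m.cost_axis_mem_Cl hQ' g1 w
    rw [hy, ← mul_assoc] at k
    refine ⟨_, k, (hQ'.1.fib_D hyR).mul g2,
      (m.commute_D hq.2.2.2 (hcm Q hq.2.2.1 (Commute.refl Q)) _).symm.mul_left g3,
      m.R.add_mem (m.R.smul_mem _ hyR) rA, m.R.add_mem (m.R.smul_mem _ hyR) rB,
      m.R.add_mem hyR rC, _, _, _,
      m.h34_blk hq hAm (m.R.smul_mem _ hyR) rA (by rw [m.P_mul_D hAm e1, hD s hs]) gA,
      m.h34_blk hq hBm (m.R.smul_mem _ hyR) rB (by rw [m.P_mul_D hBm e2, hD t ht]) gB,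
      m.h34_blk hq hCm hyR rC (m.P_mul_D hCm e3 _) gC⟩
  have s0 : m.h34_St M Q A B U 0 0 0 :=
    ⟨1, by rwa [one_mul], m.fib_one, Commute.one_left _, m.R.zero_mem, m.R.zero_mem, m.R.zero_mem,
      0, 0, 0, by simp [m.D_zero], by simp [m.D_zero], by simp [m.D_zero]⟩
  have hCA : (A ∪ B)ᶜ ⊆ Aᶜ := Set.compl_subset_compl.2 Set.subset_union_left
  have hCB : (A ∪ B)ᶜ ⊆ Bᶜ := Set.compl_subset_compl.2 Set.subset_union_right
  have hAB : A ⊆ Bᶜ := h.subset_compl_right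
  have hBA : B ⊆ Aᶜ := h.symm.subset_compl_right
  have s1 := step Q 1 1 (γ / 4) hQ (.inl rfl) (.inl rfl) (by simp) (by simp) rfl _ _ _ s0
  have s2 := step _ (-1) 1 (-(γ / 4)) (hQ.flip m hA) (.inr rfl) (.inl rfl)
    (by rw [m.h34_in hAm hAm subset_rfl]; simp) (by rw [m.h34_out hBm hAm hBA]; simp)
    (m.h34_out hCm hAm hCA _ _) _ _ _ s1
  have s3 := step _ 1 (-1) (-(γ / 4)) (hQ.flip m hB) (.inl rfl) (.inr rfl)
    (by rw [m.h34_out hAm hBm hAB]; simp) (by rw [m.h34_in hBm hBm subset_rfl]; simp)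
    (m.h34_out hCm hBm hCB _ _) _ _ _ s2
  have s4 := step _ (-1) (-1) (γ / 4) ((hQ.flip m hA).flip m hB) (.inr rfl) (.inr rfl)
    (by rw [m.h34_out hAm hBm hAB, m.h34_in hAm hAm subset_rfl]; simp)
    (by rw [m.h34_in hBm hBm subset_rfl, _root_.mul_neg, m.h34_out hBm hAm hBA]; simp)
    (by rw [m.h34_out hCm hBm hCB, m.h34_out hCm hAm hCA]) _ _ _ s3
  have s5 : m.h34_St M Q A B U (γ • b) (γ • a) 0 := by
    convert s4 using 1 <;> module
  obtain ⟨G, g1, g2, -, -, -, -, cA, cB, cC, gA, gB, gC⟩ := s5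
  classical
  set κ : Lab K → ℝ := fun x => if x ∈ A then -cA else if x ∈ B then -cB else -cC with hκ
  have hκm : Measurable κ :=
    Measurable.ite hAm measurable_const (Measurable.ite hBm measurable_const measurable_const)
  have key : ∀ {E : Set (Lab K)} {r : ℝ} {S : H →L[ℂ] H}, MeasurableSet E → (∀ x ∈ E, κ x = -r) →
      m.P E * G = Complex.exp (Complex.I * (r : ℂ)) • S → m.P E * (m.ph κ * G) = S := by
    intro E r S hE h1 h2
    rw [← mul_assoc, m.P_mul_ph hE hκm h1, smul_mul_assoc, h2, smul_smul, ← Complex.exp_add]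
    simp
  have e : m.cross Q A B γ U = m.ph κ * G := by
    rw [← one_mul (m.ph κ * G), ← hsum, add_mul, add_mul,
      key hAm (fun x hx => by simp [hκ, hx]) gA,
      key hBm (fun x hx => by simp [hκ, hx, show x ∉ A from hBA hx]) gB,
      key hCm (fun x hx => by simp [hκ, show x ∉ A from hCA hx, show x ∉ B from hCB hx]) gC,
      m.D_zero, mul_one]
    rfl
  rw [e, mul_assoc]
  exact (m.free_ph M hκm).2 _ g1

theorem h34_XZ : star (rot m.X (Real.pi / 4)) * m.Z * rot m.X (Real.pi / 4) = m.Y := by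
  have := m.B_conj_Z (Real.pi / 4)
  rw [show 2 * (Real.pi / 4) = Real.pi / 2 by ring] at this
  simpa [B] using this

/-- `Y` on `E`, `Z` elsewhere -/
theorem gaxis_Y_on {M : ℕ} {E : Set (Lab K)} (hE : EvS M E) :
    m.GAxis M (m.P E * m.Y + m.P Eᶜ * m.Z) := by
  have hX := m.isAxis_X
  have := m.h34_gaxis (m.free_X_on hE (Real.pi / 4))
    (by rw [m.h34_star_gate hE.1 hX]; exact m.free_X_on hE _) (m.h34_gate_W hE.1 hX _)
  rwa [m.h34_conj hE.1 (m.fib_rot hX.1 hX.2.1 hX.2.2.1 _).2 m.cen_Z, m.h34_XZ] at this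

/-- `Y` on `T`, `σ X` on `E`, `Z` elsewhere -/
theorem gaxis_Y_SgX {M : ℕ} (hM : 1 ≤ M) {T E : Set (Lab K)} (hT : EvS M T) (hE : EvS M E)
    (h : Disjoint T E) :
    m.GAxis M (m.P T * m.Y + m.P E * (m.Sg * m.X) + m.P (T ∪ E)ᶜ * m.Z) := by
  have hX := m.isAxis_X
  have hY := m.isAxis_Y.sg
  have := m.h34_gaxis ((m.free_X_on hT (Real.pi / 4)).mul (m.free_SgY_on hM hE (-(Real.pi / 4))))
    (by
      rw [star_mul, m.h34_star_gate hT.1 hX, m.h34_star_gate hE.1 hY]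
      exact (m.free_SgY_on hM hE _).mul (m.free_X_on hT _))
    fun y => (m.h34_gate_W hT.1 hX _ y).mul_left (m.h34_gate_W hE.1 hY _ y)
  have hr := (m.fib_rot hY.1 hY.2.1 hY.2.2.1 (-(Real.pi / 4))).2
  have cS : m.Z * m.Sg = m.Sg * m.Z := m.cen_Z.commute_Sg.eq
  have e : star (rot (m.Sg * m.Y) (-(Real.pi / 4))) * m.Z * rot (m.Sg * m.Y) (-(Real.pi / 4)) =
      m.Sg * m.X := by
    rw [star_rot_mul_mul_rot hY.1 hY.2.1 (Q' := m.Z)
      (by rw [← mul_assoc, cS, mul_assoc, mul_assoc, m.ZY, m.YZ, _root_.mul_neg]),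
      show 2 * -(Real.pi / 4) = -(Real.pi / 2) by ring, rot]
    simp only [Real.cos_neg, Real.cos_pi_div_two, Real.sin_neg, Real.sin_pi_div_two,
      Complex.ofReal_zero, zero_smul, Complex.ofReal_neg, Complex.ofReal_one, _root_.mul_neg, mul_one,
      neg_smul, zero_sub, neg_neg, mul_smul_comm]
    rw [← mul_assoc, cS, mul_assoc, m.ZY, _root_.mul_neg, mul_smul_comm, smul_neg, smul_smul,
      Complex.I_mul_I]
    simp
  rw [star_mul, mul_assoc (star _), ← mul_assoc, mul_assoc (star _),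
    m.h34_conj hT.1 (m.fib_rot hX.1 hX.2.1 hX.2.2.1 _).2 m.cen_Z, m.h34_XZ,
    m.h34_conj hE.1 hr (m.isAxis_Y.block m.isAxis_Z hT.1).2.2.1, m.h34_conj_blk hr hT.1,
    m.h34_out hE.1 hT.1 h.symm.subset_compl_right, e, _root_.mul_add, ← mul_assoc (m.P Eᶜ),
    ← mul_assoc (m.P Eᶜ), m.P_mul_P hE.1.compl hT.1, m.P_mul_P hE.1.compl hT.1.compl,
    Set.inter_eq_right.2 h.subset_compl_right, ← Set.compl_union, Set.union_comm E T] at this
  convert this using 1
  abel


end Model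

end Crest.Agent.R339
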