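import Crest.Agent.R339.Q.Loc

/-!
# Row 339, part Q: identity hubs: the nested pulse
-/

set_option autoImplicit false

namespace Crest.Agent.R339

open MeasureTheory ProbabilityTheory Filter Topology Crest.MathPhysics.SpinGlass
open scoped InnerProductSpace ComplexConjugate

/-- data for the identity hub construction: targets `S`, mediators `Md`, sources `T l` -/
structure DSet (K M k : ℕ) where
  S : Set (Lab K)
  Md : Set (Lab K)
  T : Fin k → Set (Lab K)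
  ρ : ℝ
  η : ℝ
  hS : EvS M S
  hMd : EvS M Md
  hT : ∀ l, EvS M (T l)
  dTT : Pairwise fun l l' => Disjoint (T l) (T l')
  dTS : ∀ l, Disjoint (T l) S
  dTM : ∀ l, Disjoint (T l) Md
  dSM : Disjoint S Md
  hρ : 0 ≤ ρ
  bT : ∀ l, Bd M ρ (T l)
  bM : Bd M ρ Md
  hη0 : 0 ≤ η
  hη1 : 2 * η ≤ 1
  hη : ∀ l, Real.sqrt ((gL K).real (T l)) ≤ η

/-- index of a nested pulse: block and three signs -/
abbrev PIdx (k : ℕ) := Fin k × Bool × Bool × Bool

def PIdx.e1 {k : ℕ} (p : PIdx k) : ℝ := spinSign p.2.1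
def PIdx.e2 {k : ℕ} (p : PIdx k) : ℝ := spinSign p.2.2.1
def PIdx.e3 {k : ℕ} (p : PIdx k) : ℝ := spinSign p.2.2.2

def DSet.Tt {K M k : ℕ} (ds : DSet K M k) : Set (Lab K) := ⋃ l, ds.T l

namespace Model

variable {K : ℕ} {I : Iamp K} {H KK : Type} [NormedAddCommGroup H] [InnerProductSpace ℂ H]
  [CompleteSpace H] [NormedAddCommGroup KK] [InnerProductSpace ℂ KK] (m : Model I H KK)

section defs
variable {M k : ℕ} (ds : DSet K M k) (s δ : ℝ) (p : PIdx k) (U : H →L[ℂ] H)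

noncomputable def a1 : KK := m.j (m.P ds.Md (m.heis U m.Y))
noncomputable def a20 : KK := m.j (m.P ds.Md (m.heis U (m.Sg * m.X)))
noncomputable def bb (l : Fin k) (U : H →L[ℂ] H) : KK := m.j (m.P (ds.T l) (m.xi U))
noncomputable def yS : KK := m.j (m.P ds.S (m.xi U))
/-- the commutator of the two mediator fields -/
noncomputable def cc : ℝ := om (m.a1 ds U) (m.a20 ds U)
noncomputable def G1T : H →L[ℂ] H := m.D m.Z (p.e1 • m.a1 ds U)
noncomputable def G1M : H →L[ℂ] H := m.D m.Y (p.e1 • m.bb ds p.1 U)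
noncomputable def a2 : KK :=
  m.j (m.P ds.Md (m.heis U (star (m.G1M ds p U) * (m.Sg * m.X) * m.G1M ds p U)))
noncomputable def yy : KK := (p.e2 * s / 2) • (p.e1 • m.a2 ds p U + p.e3 • m.yS ds U)
/-- the pulse axis in the interaction frame -/
noncomputable def AT : H →L[ℂ] H :=
  star (m.G1T ds p U) * (star (m.D m.Y (m.yy ds s p U)) * (m.Sg * m.Z) * m.D m.Y (m.yy ds s p U))
    * m.G1T ds p U
noncomputable def ET : H →L[ℂ] H := rot (m.AT ds s p U) (p.e3 * δ)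
noncomputable def Yf : H →L[ℂ] H := star (m.G1T ds p U) * m.Y * m.G1T ds p U
noncomputable def GG : H →L[ℂ] H :=
  star (m.G1T ds p U) * (m.Sg * m.X * m.D m.Y ((2 : ℝ) • m.yy ds s p U)) * m.G1T ds p U
noncomputable def dg : KK := m.j (m.P (ds.T p.1) (m.heis U
  (star (m.ET ds s δ p U) * m.Yf ds p U * m.ET ds s δ p U - m.Yf ds p U)))
noncomputable def bM : KK := (-(p.e1 * p.e2 * s / 2)) • m.dg ds s δ p U
noncomputable def bS : KK := (-(p.e2 * p.e3 * s / 2)) • m.dg ds s δ p U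
noncomputable def db : KK := (-p.e1) • m.j (m.P (ds.T p.1) (m.heis U
  (star (m.ET ds s δ p U) * m.Z * m.ET ds s δ p U - m.Z)))
noncomputable def da : KK := (-p.e1) • m.j (m.P ds.Md (m.heis U (star (m.G1M ds p U) *
  (star (m.D (m.Sg * m.X) (m.bM ds s δ p U)) * m.Y * m.D (m.Sg * m.X) (m.bM ds s δ p U) - m.Y)
    * m.G1M ds p U)))
noncomputable def NT : H →L[ℂ] H := m.D m.Z (m.da ds s δ p U) * m.ET ds s δ p U
noncomputable def NS : H →L[ℂ] H := m.D m.Z (m.bS ds s δ p U)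
noncomputable def NM : H →L[ℂ] H := m.D m.Y (m.db ds s δ p U) *
  (star (m.G1M ds p U) * m.D (m.Sg * m.X) (m.bM ds s δ p U) * m.G1M ds p U)
/-- the nested pulse with all scalar phases removed -/
noncomputable def NP : H →L[ℂ] H :=
  m.P (ds.T p.1) * m.NT ds s δ p U + m.P ds.S * m.NS ds s δ p U + m.P ds.Md * m.NM ds s δ p U
    + m.P (ds.T p.1 ∪ ds.S ∪ ds.Md)ᶜ
/-- mean rotation angle of the mediators in one round -/
noncomputable def mu : ℝ := ∑ q : PIdx k, 2 * (⟪m.bM ds s δ q U, q.e1 • m.bb ds q.1 U⟫_ℂ).re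
noncomputable def comp : H →L[ℂ] H := m.P ds.Md * rot (m.Sg * m.Z) (-m.mu ds s δ U) + m.P ds.Mdᶜ
/-- state after a list of pulses -/
noncomputable def st (L : List (PIdx k)) : H →L[ℂ] H := L.foldl (fun V q => m.NP ds s δ q V * V) U
/-- all pulses, in the order of application -/
noncomputable def allP (k : ℕ) : List (PIdx k) := (Finset.univ : Finset (PIdx k)).toList
/-- state before the pulse `p` -/
noncomputable def Up : H →L[ℂ] H := m.st ds s δ U ((allP k).takeWhile (· ≠ p))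
noncomputable def round : H →L[ℂ] H := m.comp ds s δ U * m.st ds s δ U (allP k)
/-- vector localised in the block `l` -/
def Loc (l : Fin k) (c : ℝ) (u : KK) : Prop :=
  ∃ v, u = m.j (m.P (ds.T l) v) ∧ ‖u‖ ≤ c * Real.sqrt ((gL K).real (ds.T l))
/-- a priori smoothness of the true state -/
def Ap (Λ : ℝ) (U : H →L[ℂ] H) : Prop :=
  (∀ l, m.NB (Λ * Real.sqrt ((gL K).real (ds.T l))) (m.P (ds.T l) (U m.vac))) ∧
    m.NB Λ (m.P ds.Md (U m.vac))
end defs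

variable {m} {M k : ℕ} (ds : DSet K M k) (s δ : ℝ) (p : PIdx k) {U : H →L[ℂ] H}

private theorem d0_sq (b : Bool) : spinSign b * spinSign b = 1 := by
  cases b <;> simp [spinSign]
private theorem d0_abs (b : Bool) : |spinSign b| = 1 := by
  cases b <;> simp [spinSign]
private theorem d0_sa (G : H →L[ℂ] H) {A : H →L[ℂ] H} (hA : star A = A) :
    star (star G * A * G) = star G * A * G := by
  rw [star_mul, star_mul, star_star, hA, mul_assoc]
private theorem d0_sa' (G : H →L[ℂ] H) {A : H →L[ℂ] H} (hA : star A = A) :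
    star (star G * A * G - A) = star G * A * G - A := by
  rw [star_sub, d0_sa G hA, hA]
private theorem d0_cen {G A : H →L[ℂ] H} (hG : m.Fib G) (hA : m.Cen A) :
    m.Cen (star G * A * G) := (hG.2.star.mul hA).mul hG.2
private theorem d0_fib {G A : H →L[ℂ] H} (hG : m.Fib G) (hA : m.Fib A) :
    m.Fib (star G * A * G) := (hG.star.mul hA).mul hG
private theorem d0_inv {G A : H →L[ℂ] H} (hG : m.Fib G) (hA : A * A = 1) :
    star G * A * G * (star G * A * G) = 1 := by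
  calc star G * A * G * (star G * A * G) = star G * (A * (G * star G) * A) * G := by
        simp only [mul_assoc]
    _ = 1 := by rw [hG.mul_star_self, mul_one, hA, mul_one, hG.star_mul_self]
private theorem d0_norm (hU : m.Fib U) {E : Set (Lab K)} (hE : MeasurableSet E) {A : H →L[ℂ] H}
    (hA : m.Fib A) : ‖m.j (m.P E (m.heis U A))‖ ≤ 1 := by
  rw [m.j.norm_map]
  refine (m.norm_P_apply_le hE _).trans ?_
  rw [hU.norm_heis, hA.norm_apply, hU.norm_apply, m.norm_vac]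
private theorem d0_loc (hU : m.Fib U) (l : Fin k) {A : H →L[ℂ] H} (hA : m.Cen A) {c : ℝ}
    (hc : ‖A‖ ≤ c) : m.Loc ds l c (m.j (m.P (ds.T l) (m.heis U A))) := by
  refine ⟨_, rfl, ?_⟩
  rw [m.j.norm_map]
  exact (hU.norm_P_heis_le (ds.hT l).1 hA).trans
    (mul_le_mul_of_nonneg_right hc (Real.sqrt_nonneg _))
private theorem d0_rn (t : ℝ) (u : KK) : ‖t • u‖ = |t| * ‖u‖ := by
  rw [← Complex.coe_smul, norm_smul, Complex.norm_real, Real.norm_eq_abs]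
private theorem d0_inner {A B : Set (Lab K)} (hA : MeasurableSet A) (hB : MeasurableSet B)
    (h : Disjoint A B) (u v : H) : ⟪m.j (m.P A u), m.j (m.P B v)⟫_ℂ = 0 := by
  rw [m.j.inner_map_map, m.inner_P_P hA hB h]

theorem e1_sq : p.e1 * p.e1 = 1 :=
  d0_sq _
theorem e2_sq : p.e2 * p.e2 = 1 :=
  d0_sq _
theorem e3_sq : p.e3 * p.e3 = 1 :=
  d0_sq _
theorem abs_e1 : |p.e1| = 1 :=
  d0_abs _
theorem abs_e2 : |p.e2| = 1 :=
  d0_abs _
theorem abs_e3 : |p.e3| = 1 :=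
  d0_abs _
theorem a1_mem (hU : m.Fib U) : m.a1 ds U ∈ m.R :=
  hU.j_P_heis_mem m.Y_star m.cen_Y ds.hMd.1
theorem a20_mem (hU : m.Fib U) : m.a20 ds U ∈ m.R :=
  hU.j_P_heis_mem m.isAxis_X.sg.1 m.isAxis_X.sg.2.2.1 ds.hMd.1
theorem bb_mem (hU : m.Fib U) (l : Fin k) : m.bb ds l U ∈ m.R :=
  hU.j_P_heis_mem m.Z_star m.cen_Z (ds.hT l).1
theorem yS_mem (hU : m.Fib U) : m.yS ds U ∈ m.R :=
  hU.j_P_heis_mem m.Z_star m.cen_Z ds.hS.1
theorem fib_G1T (hU : m.Fib U) : m.Fib (m.G1T ds p U) :=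
  m.isAxis_Z.fib_D (m.R.smul_mem _ (a1_mem ds hU))
theorem fib_G1M (hU : m.Fib U) : m.Fib (m.G1M ds p U) :=
  m.isAxis_Y.fib_D (m.R.smul_mem _ (bb_mem ds hU _))
theorem a2_mem (hU : m.Fib U) : m.a2 ds p U ∈ m.R :=
  hU.j_P_heis_mem (d0_sa _ m.isAxis_X.sg.1) (d0_cen (fib_G1M ds p hU) m.isAxis_X.sg.2.2.1)
    ds.hMd.1
theorem yy_mem (hU : m.Fib U) : m.yy ds s p U ∈ m.R :=
  m.R.smul_mem _ (m.R.add_mem (m.R.smul_mem _ (a2_mem ds p hU)) (m.R.smul_mem _ (yS_mem ds hU)))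
theorem AT_star (hU : m.Fib U) : star (m.AT ds s p U) = m.AT ds s p U :=
  d0_sa _ (d0_sa _ m.isAxis_Z.sg.1)
theorem AT_sq (hU : m.Fib U) : m.AT ds s p U * m.AT ds s p U = 1 :=
  d0_inv (fib_G1T ds p hU) (d0_inv (m.isAxis_Y.fib_D (yy_mem ds s p hU)) m.isAxis_Z.sg.2.1)
theorem AT_cen (hU : m.Fib U) : m.Cen (m.AT ds s p U) :=
  d0_cen (fib_G1T ds p hU) (d0_cen (m.isAxis_Y.fib_D (yy_mem ds s p hU)) m.isAxis_Z.sg.2.2.1)
theorem fib_ET (hU : m.Fib U) : m.Fib (m.ET ds s δ p U) :=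
  m.fib_rot (AT_star ds s p hU) (AT_sq ds s p hU) (AT_cen ds s p hU) _
theorem fib_Yf (hU : m.Fib U) : m.Fib (m.Yf ds p U) :=
  d0_fib (fib_G1T ds p hU) m.isAxis_Y.fib
theorem fib_GG (hU : m.Fib U) : m.Fib (m.GG ds s p U) :=
  d0_fib (fib_G1T ds p hU)
    (m.isAxis_X.sg.fib.mul (m.isAxis_Y.fib_D (m.R.smul_mem _ (yy_mem ds s p hU))))
theorem dg_mem (hU : m.Fib U) : m.dg ds s δ p U ∈ m.R :=
  hU.j_P_heis_mem (d0_sa' _ (d0_sa _ m.Y_star))
    ((d0_cen (fib_ET ds s δ p hU) (fib_Yf ds p hU).2).sub (fib_Yf ds p hU).2) (ds.hT _).1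
theorem bM_mem (hU : m.Fib U) : m.bM ds s δ p U ∈ m.R :=
  m.R.smul_mem _ (dg_mem ds s δ p hU)
theorem bS_mem (hU : m.Fib U) : m.bS ds s δ p U ∈ m.R :=
  m.R.smul_mem _ (dg_mem ds s δ p hU)
theorem db_mem (hU : m.Fib U) : m.db ds s δ p U ∈ m.R :=
  m.R.smul_mem _ (hU.j_P_heis_mem (d0_sa' _ m.Z_star)
    ((d0_cen (fib_ET ds s δ p hU) m.cen_Z).sub m.cen_Z) (ds.hT _).1)
theorem da_mem (hU : m.Fib U) : m.da ds s δ p U ∈ m.R :=
  m.R.smul_mem _ (hU.j_P_heis_mem (d0_sa _ (d0_sa' _ m.Y_star))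
    (d0_cen (fib_G1M ds p hU)
      ((d0_cen (m.isAxis_X.sg.fib_D (bM_mem ds s δ p hU)) m.cen_Y).sub m.cen_Y)) ds.hMd.1)
theorem fib_NT (hU : m.Fib U) : m.Fib (m.NT ds s δ p U) :=
  (m.isAxis_Z.fib_D (da_mem ds s δ p hU)).mul (fib_ET ds s δ p hU)
theorem fib_NS (hU : m.Fib U) : m.Fib (m.NS ds s δ p U) :=
  m.isAxis_Z.fib_D (bS_mem ds s δ p hU)
theorem fib_NM (hU : m.Fib U) : m.Fib (m.NM ds s δ p U) :=
  (m.isAxis_Y.fib_D (db_mem ds s δ p hU)).mul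
    (d0_fib (fib_G1M ds p hU) (m.isAxis_X.sg.fib_D (bM_mem ds s δ p hU)))
theorem fib_NP (hU : m.Fib U) : m.Fib (m.NP ds s δ p U) :=
  m.fib_block4 (ds.hT _).1 ds.hS.1 ds.hMd.1 (ds.dTS _) (ds.dTM _) ds.dSM (fib_NT ds s δ p hU)
    (fib_NS ds s δ p hU) (fib_NM ds s δ p hU)
theorem fib_comp (U : H →L[ℂ] H) : m.Fib (m.comp ds s δ U) := by
  have h := m.fib_block2 ds.hMd.1 (m.fib_rot m.isAxis_Z.sg.1 m.isAxis_Z.sg.2.1 m.isAxis_Z.sg.2.2.1
    (-m.mu ds s δ U)) m.fib_one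
  rwa [mul_one] at h
theorem fib_st (hU : m.Fib U) (L : List (PIdx k)) : m.Fib (m.st ds s δ U L) := by
  induction L generalizing U with
  | nil => exact hU
  | cons q L ih => exact ih ((fib_NP ds s δ q hU).mul hU)
theorem fib_Up (hU : m.Fib U) : m.Fib (m.Up ds s δ p U) :=
  fib_st ds s δ hU _
theorem fib_round (hU : m.Fib U) : m.Fib (m.round ds s δ U) :=
  (fib_comp ds s δ U).mul (fib_st ds s δ hU _)
theorem norm_a1_le (hU : m.Fib U) : ‖m.a1 ds U‖ ≤ 1 :=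
  d0_norm hU ds.hMd.1 m.isAxis_Y.fib
theorem norm_a20_le (hU : m.Fib U) : ‖m.a20 ds U‖ ≤ 1 :=
  d0_norm hU ds.hMd.1 m.isAxis_X.sg.fib
theorem norm_a2_le (hU : m.Fib U) : ‖m.a2 ds p U‖ ≤ 1 :=
  d0_norm hU ds.hMd.1 (d0_fib (fib_G1M ds p hU) m.isAxis_X.sg.fib)
theorem norm_yS_le (hU : m.Fib U) : ‖m.yS ds U‖ ≤ 1 :=
  d0_norm hU ds.hS.1 m.isAxis_Z.fib
theorem norm_yy_le (hU : m.Fib U) : ‖m.yy ds s p U‖ ≤ |s| := by
  have h1 : ‖p.e1 • m.a2 ds p U + p.e3 • m.yS ds U‖ ≤ 2 := by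
    refine (norm_add_le _ _).trans ?_
    rw [d0_rn, d0_rn, abs_e1, abs_e3]
    linarith [norm_a2_le ds p hU, norm_yS_le ds hU]
  rw [yy, d0_rn, abs_div, abs_mul, abs_e2, abs_two]
  nlinarith [abs_nonneg s]
theorem abs_cc_le (hU : m.Fib U) : |m.cc ds U| ≤ 1 := by
  refine (abs_om_le _ _).trans ?_
  exact mul_le_one₀ (norm_a1_le ds hU) (norm_nonneg _) (norm_a20_le ds hU)
theorem inner_a1_yS : ⟪m.a1 ds U, m.yS ds U⟫_ℂ = 0 :=
  d0_inner ds.hMd.1 ds.hS.1 ds.dSM.symm _ _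
theorem inner_a2_yS : ⟪m.a2 ds p U, m.yS ds U⟫_ℂ = 0 :=
  d0_inner ds.hMd.1 ds.hS.1 ds.dSM.symm _ _
theorem inner_a20_yS : ⟪m.a20 ds U, m.yS ds U⟫_ℂ = 0 :=
  d0_inner ds.hMd.1 ds.hS.1 ds.dSM.symm _ _
theorem cc_eq (hU : m.Fib U) :
    m.cc ds U = -(⟪U m.vac, m.P ds.Md ((m.Sg * m.Z) (U m.vac))⟫_ℂ).re := by
  have h1 : star (m.P ds.Md * m.Y) * (m.P ds.Md * (m.Sg * m.X)) =
      -(Complex.I • (m.P ds.Md * (m.Sg * m.Z))) := by
    rw [star_mul, m.Y_star, m.P_star ds.hMd.1, mul_assoc, ← mul_assoc (m.P ds.Md),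
      m.P_idem ds.hMd.1, ← mul_assoc, (m.cen_Y.commute_P ds.hMd.1).eq, mul_assoc,
      ← mul_assoc m.Y, m.cen_Y.commute_Sg.eq, mul_assoc, m.YX]
    simp only [_root_.mul_neg, mul_smul_comm]
  rw [cc, a1, a20, m.om_j, hU.P_heis ds.hMd.1, hU.P_heis ds.hMd.1, hU.inner_heis,
    ← ContinuousLinearMap.adjoint_inner_right, ← ContinuousLinearMap.star_eq_adjoint,
    ← ContinuousLinearMap.mul_apply (star _), h1, neg_apply, smul_apply, inner_neg_right,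
    inner_smul_right]
  simp
theorem Loc.mono {l : Fin k} {c c' : ℝ} {u : KK} (h : m.Loc ds l c u) (hc : c ≤ c') : m.Loc ds l c' u := by
  obtain ⟨v, h1, h2⟩ := h
  exact ⟨v, h1, h2.trans (mul_le_mul_of_nonneg_right hc (Real.sqrt_nonneg _))⟩
theorem Loc.smul {l : Fin k} {c : ℝ} {u : KK} (h : m.Loc ds l c u) (t : ℝ) :
    m.Loc ds l (|t| * c) (t • u) := by
  obtain ⟨v, h1, h2⟩ := h
  refine ⟨(t : ℂ) • v, ?_, ?_⟩
  · rw [map_smul, map_smul, Complex.coe_smul, h1]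
  · rw [d0_rn, mul_assoc]
    exact mul_le_mul_of_nonneg_left h2 (abs_nonneg t)
theorem Loc.norm_le {l : Fin k} {c : ℝ} {u : KK} (h : m.Loc ds l c u) (hc : 0 ≤ c) : ‖u‖ ≤ c * ds.η := by
  obtain ⟨v, -, h2⟩ := h
  exact h2.trans (mul_le_mul_of_nonneg_left (ds.hη l) hc)
theorem Loc.inner_eq_zero {l l' : Fin k} {c c' : ℝ} {u u' : KK} (h : m.Loc ds l c u)
    (h' : m.Loc ds l' c' u') (hl : l ≠ l') : ⟪u, u'⟫_ℂ = 0 := by
  obtain ⟨v, rfl, -⟩ := h
  obtain ⟨v', rfl, -⟩ := h'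
  exact d0_inner (ds.hT l).1 (ds.hT l').1 (ds.dTT hl) _ _
theorem loc_sum_sq {c : ℝ} {u : Fin k → KK} (h : ∀ l, m.Loc ds l c (u l)) : ∑ l, ‖u l‖ ^ 2 ≤ c ^ 2 := by
  calc ∑ l, ‖u l‖ ^ 2 ≤ ∑ l, c ^ 2 * (gL K).real (ds.T l) := by
        refine Finset.sum_le_sum fun l _ => ?_
        obtain ⟨v, -, h2⟩ := h l
        refine (pow_le_pow_left₀ (norm_nonneg _) h2 2).trans_eq ?_
        rw [mul_pow, Real.sq_sqrt measureReal_nonneg]
    _ ≤ c ^ 2 := by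
        rw [← Finset.mul_sum]
        exact mul_le_of_le_one_right (sq_nonneg c)
          (sum_real_le_one _ (fun l => (ds.hT l).1) ds.dTT)
theorem loc_norm_sum {c : ℝ} (hc : 0 ≤ c) {u : Fin k → KK} (h : ∀ l, m.Loc ds l c (u l)) :
    ‖∑ l, u l‖ ≤ c := by
  choose v h1 h2 using h
  simp only [h1, m.j.norm_map] at h2 ⊢
  rw [← map_sum, m.j.norm_map]
  exact m.norm_sum_P_le _ (fun l => (ds.hT l).1) ds.dTT v hc fun l _ => h2 l
theorem loc_sum_om {c : ℝ} (hc : 0 ≤ c) {u : PIdx k → KK} (t : Finset (PIdx k))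
    (h : ∀ q ∈ t, m.Loc ds q.1 c (u q)) (y : KK) : ∑ q ∈ t, |om y (u q)| ≤ 8 * c * ‖y‖ := by
  have h0 : ∀ q : PIdx k, ∃ v, (q ∈ t → u q = m.j (m.P (ds.T q.1) v)) ∧
      ‖m.P (ds.T q.1) v‖ ≤ c * Real.sqrt ((gL K).real (ds.T q.1)) := by
    intro q
    by_cases hq : q ∈ t
    · obtain ⟨v, h1, h2⟩ := h q hq
      exact ⟨v, fun _ => h1, by rwa [h1, m.j.norm_map] at h2⟩
    · exact ⟨0, fun h => absurd h hq, by rw [map_zero, norm_zero]; positivity⟩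
  choose v h1 h2 using h0
  calc ∑ q ∈ t, |om y (u q)| ≤ ∑ q ∈ t, ‖⟪y, m.j (m.P (ds.T q.1) (v q))⟫_ℂ‖ :=
        Finset.sum_le_sum fun q hq => by rw [← h1 q hq]; exact abs_om_le_norm_inner _ _
    _ ≤ ∑ q : PIdx k, ‖⟪y, m.j (m.P (ds.T q.1) (v q))⟫_ℂ‖ :=
        Finset.sum_le_sum_of_subset_of_nonneg (Finset.subset_univ t) fun _ _ _ => norm_nonneg _
    _ = ∑ b : Bool × Bool × Bool, ∑ l : Fin k, ‖⟪y, m.j (m.P (ds.T l) (v (l, b)))⟫_ℂ‖ :=
        Fintype.sum_prod_type_right _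
    _ ≤ ∑ _b : Bool × Bool × Bool, c * ‖y‖ :=
        Finset.sum_le_sum fun b _ => m.sum_inner_P_le _ (fun l => (ds.hT l).1) ds.dTT
          (fun l => v (l, b)) hc (fun l _ => h2 (l, b)) y
    _ = 8 * c * ‖y‖ := by
        simp only [Finset.sum_const, Finset.card_univ, Fintype.card_prod, Fintype.card_bool,
          nsmul_eq_mul]
        push_cast
        ring
theorem loc_bb (hU : m.Fib U) (l : Fin k) : m.Loc ds l 1 (m.bb ds l U) :=
  d0_loc ds hU l m.cen_Z m.isAxis_Z.fib.norm_le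
theorem loc_dg (hU : m.Fib U) : m.Loc ds p.1 (2 * |δ|) (m.dg ds s δ p U) := by
  refine d0_loc ds hU _ ((d0_cen (fib_ET ds s δ p hU) (fib_Yf ds p hU).2).sub (fib_Yf ds p hU).2) ?_
  refine (norm_conj_rot_sub' (AT_star ds s p hU) (AT_sq ds s p hU) _ _).trans ?_
  rw [abs_mul, abs_e3, one_mul]
  exact mul_le_of_le_one_right (by positivity) (fib_Yf ds p hU).norm_le
theorem loc_bM (hU : m.Fib U) : m.Loc ds p.1 (|s| * |δ|) (m.bM ds s δ p U) := by
  refine ((loc_dg ds s δ p hU).smul ds _).mono ds (le_of_eq ?_)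
  rw [abs_neg, abs_div, abs_mul, abs_mul, abs_e1, abs_e2, abs_two]
  ring
theorem loc_bS (hU : m.Fib U) : m.Loc ds p.1 (|s| * |δ|) (m.bS ds s δ p U) := by
  refine ((loc_dg ds s δ p hU).smul ds _).mono ds (le_of_eq ?_)
  rw [abs_neg, abs_div, abs_mul, abs_mul, abs_e2, abs_e3, abs_two]
  ring
theorem loc_db (hU : m.Fib U) : m.Loc ds p.1 (2 * |δ|) (m.db ds s δ p U) := by
  refine ((d0_loc ds hU _ ((d0_cen (fib_ET ds s δ p hU) m.cen_Z).sub m.cen_Z)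
    (norm_conj_rot_sub' (AT_star ds s p hU) (AT_sq ds s p hU) _ _)).smul ds _).mono ds ?_
  rw [abs_neg, abs_e1, abs_mul, abs_e3, one_mul, one_mul]
  exact mul_le_of_le_one_right (by positivity) m.isAxis_Z.fib.norm_le
theorem abs_mu_le (hU : m.Fib U) : |m.mu ds s δ U| ≤ 16 * |s| * |δ| := by
  have h0 : 0 ≤ |s| * |δ| := by positivity
  calc |m.mu ds s δ U| ≤ ∑ q : PIdx k, |2 * (⟪m.bM ds s δ q U, q.e1 • m.bb ds q.1 U⟫_ℂ).re| :=
        Finset.abs_sum_le_sum_abs _ _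
    _ ≤ ∑ q : PIdx k, 2 * (|s| * |δ|) * (gL K).real (ds.T q.1) := by
        refine Finset.sum_le_sum fun q _ => ?_
        obtain ⟨-, -, h1⟩ := loc_bM ds s δ q hU
        obtain ⟨-, -, h2⟩ := loc_bb ds hU q.1
        have h3 := (Complex.abs_re_le_norm _).trans
          (norm_inner_le_norm (𝕜 := ℂ) (m.bM ds s δ q U) (q.e1 • m.bb ds q.1 U))
        rw [d0_rn, abs_e1, one_mul] at h3
        have h4 := mul_le_mul h1 h2 (norm_nonneg _) (by positivity)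
        rw [one_mul, mul_assoc, Real.mul_self_sqrt measureReal_nonneg] at h4
        rw [abs_mul, abs_two]
        linarith
    _ = 16 * (|s| * |δ|) * ∑ l : Fin k, (gL K).real (ds.T l) := by
        rw [Fintype.sum_prod_type, Finset.mul_sum]
        refine Finset.sum_congr rfl fun l _ => ?_
        simp only [Finset.sum_const, Finset.card_univ, Fintype.card_prod, Fintype.card_bool,
          nsmul_eq_mul]
        push_cast
        ring
    _ ≤ 16 * |s| * |δ| := by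
        rw [mul_assoc 16 |s|]
        exact mul_le_of_le_one_right (by positivity)
          (sum_real_le_one _ (fun l => (ds.hT l).1) ds.dTT)

end Model

end Crest.Agent.R339
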