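import Crest.Agent.R339.Q.D0

/-!
# Row 339, part Q: identity hubs: block structure of a round
-/

set_option autoImplicit false

namespace Crest.Agent.R339

open MeasureTheory ProbabilityTheory Filter Topology Crest.MathPhysics.SpinGlass
open scoped InnerProductSpace ComplexConjugate

namespace Model

variable {K : ℕ} {I : Iamp K} {H KK : Type} [NormedAddCommGroup H] [InnerProductSpace ℂ H]
  [CompleteSpace H] [NormedAddCommGroup KK] [InnerProductSpace ℂ KK] (m : Model I H KK)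

variable {m} {M k : ℕ} (ds : DSet K M k) (s δ : ℝ) (p : PIdx k) {U : H →L[ℂ] H}

theorem d0b_P_NP {E : Set (Lab K)} : m.P E * m.NP ds s δ p U =
    m.P E * m.P (ds.T p.1) * m.NT ds s δ p U + m.P E * m.P ds.S * m.NS ds s δ p U +
      m.P E * m.P ds.Md * m.NM ds s δ p U + m.P E * m.P (ds.T p.1 ∪ ds.S ∪ ds.Md)ᶜ := by
  simp only [NP, _root_.mul_add, mul_assoc]

theorem d0b_meas (l : Fin k) : MeasurableSet (ds.T l ∪ ds.S ∪ ds.Md)ᶜ :=
  (((ds.hT l).1.union ds.hS.1).union ds.hMd.1).compl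

theorem d0b_meas' : MeasurableSet (ds.Tt ∪ ds.S ∪ ds.Md)ᶜ :=
  (((MeasurableSet.iUnion fun l => (ds.hT l).1).union ds.hS.1).union ds.hMd.1).compl

theorem d0b_conj {E : Set (Lab K)} (hE : MeasurableSet E) {V V' A : H →L[ℂ] H} (hV : m.Cen V)
    (hV' : m.Cen V') (hA : m.Cen A) (h : m.P E * V = m.P E * V') :
    m.P E * (star V * A * V) = m.P E * (star V' * A * V') := by
  have h1 : m.P E * star V = m.P E * star V' := by
    have := congrArg star h
    rwa [star_mul, star_mul, m.P_star hE, (hV.star.commute_P hE).eq,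
      (hV'.star.commute_P hE).eq] at this
  rw [← mul_assoc, ← mul_assoc, h1, mul_assoc _ (star V'), ← ((hV'.star.mul hA).commute_P hE).eq,
    mul_assoc, h, ← mul_assoc, ((hV'.star.mul hA).commute_P hE).eq, mul_assoc]

theorem d0b_yS (hU : m.Fib U) {V V' : H →L[ℂ] H} (hV : m.Cen V) (hV' : m.Fib V')
    (hZ : Commute m.Z V') (h : m.P ds.S * V = m.P ds.S * V') : m.yS ds (V * U) = m.yS ds U := by
  rw [yS, yS, xi, xi, m.heis_mul, hU.P_heis ds.hS.1, hU.P_heis ds.hS.1,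
    d0b_conj ds.hS.1 hV hV'.2 m.cen_Z h, mul_assoc (star V'), hZ.eq, ← mul_assoc (star V'),
    hV'.star_mul_self, one_mul]

theorem d0b_P_comp {E : Set (Lab K)} (hE : MeasurableSet E) (h : Disjoint E ds.Md) :
    m.P E * m.comp ds s δ U = m.P E := by
  rw [comp, _root_.mul_add, ← mul_assoc, m.P_mul_of_disjoint hE ds.hMd.1 h, zero_mul, zero_add,
    m.P_mul_of_subset hE ds.hMd.1.compl h.subset_compl_right]

theorem d0b_prod {E : Set (Lab K)} (hE : MeasurableSet E) {ι : Type} (L : List ι)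
    {f g : ι → H →L[ℂ] H} (hg : ∀ q, m.Cen (g q)) (h : ∀ q, m.P E * f q = m.P E * g q) :
    m.P E * (L.map f).prod = m.P E * (L.map g).prod := by
  induction L with
  | nil => rfl
  | cons a L ih =>
    rw [List.map_cons, List.map_cons, List.prod_cons, List.prod_cons, ← mul_assoc, h,
      ← ((hg a).commute_P hE).eq, mul_assoc, ih, ← mul_assoc, ((hg a).commute_P hE).eq, mul_assoc]

theorem d0b_st (U : H →L[ℂ] H) (L : List (PIdx k)) (hL : L.Nodup) : m.st ds s δ U L =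
    (L.reverse.map fun q => m.NP ds s δ q (m.st ds s δ U (L.takeWhile (· ≠ q)))).prod * U := by
  induction L using List.reverseRecOn with
  | nil => simp [st]
  | append_singleton L a ih =>
    obtain ⟨h1, -, h2⟩ := List.nodup_append.1 hL
    have e1 : (L ++ [a]).takeWhile (· ≠ a) = L := by
      rw [List.takeWhile_append_of_pos fun x hx => by simpa using h2 x hx a (by simp)]
      simp
    have e2 : ∀ q ∈ L.reverse, (L ++ [a]).takeWhile (· ≠ q) = L.takeWhile (· ≠ q) := fun q hq => by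
      rw [List.takeWhile_append, if_neg]
      intro h
      have h3 := List.takeWhile_eq_self_iff.1
        ((List.takeWhile_prefix _).sublist.eq_of_length h) q (List.mem_reverse.1 hq)
      simp at h3
    rw [List.reverse_append, List.reverse_singleton, List.singleton_append, List.map_cons,
      List.prod_cons, e1, List.map_congr_left fun q hq => by rw [e2 q hq], mul_assoc, ← ih h1, st,
      List.foldl_append]
    rfl

theorem d0b_anti : m.Sg * m.X * m.Y = -(m.Y * (m.Sg * m.X)) := by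
  rw [← mul_assoc m.Y, m.cen_Y.commute_Sg.eq, mul_assoc, mul_assoc, m.XY, m.YX, _root_.mul_neg, neg_neg]

theorem d0b_norm_P_heis (hU : m.Fib U) {E : Set (Lab K)} (hE : MeasurableSet E) {A : H →L[ℂ] H}
    (hA : m.Cen A) : ‖m.j (m.P E (m.heis U A))‖ = ‖A (m.P E (U m.vac))‖ := by
  rw [m.j.norm_map, hU.P_heis hE, hU.norm_heis, ← (hA.commute_P hE).eq, mul_apply_eq_comp]

theorem d0b_norm_e1 (u : KK) : ‖p.e1 • u‖ = ‖u‖ := by
  rw [norm_smul, Real.norm_eq_abs, abs_e1, one_mul]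

theorem d0b_bb (hU : m.Fib U) : ‖p.e1 • m.bb ds p.1 U‖ ≤ ds.η := by
  rw [d0b_norm_e1]
  simpa using (loc_bb ds hU p.1).norm_le ds zero_le_one

theorem d0b_tame_G1M (hU : m.Fib U) : m.Tame 2 (m.G1M ds p U) :=
  (m.isAxis_Y.tame_D (m.R.smul_mem _ (bb_mem ds hU _))).mono (by
    have := d0b_bb ds p hU
    have := ds.hη1
    linarith)

theorem d0b_cl_D {Q : H →L[ℂ] H} (hQ : m.IsAxis Q) {u : KK} (hu : u ∈ m.R) {c : ℝ} (hc : ‖u‖ ≤ c) :
    m.CL (2 * c) (m.D Q u) ∧ m.CL (2 * c) (star (m.D Q u)) :=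
  ⟨(hQ.cl_D hu).mono (by linarith), by
    rw [hQ.star_D]; exact (hQ.cl_D (neg_mem hu)).mono (by rw [norm_neg]; linarith)⟩

theorem d0b_small (hs : |s| ≤ 1) : |s| * |δ| * ds.η ≤ |δ| * ds.η := by
  rw [mul_assoc]
  exact mul_le_of_le_one_left (mul_nonneg (abs_nonneg _) ds.hη0) hs

theorem d0b_small' : 2 * (|δ| * ds.η) ≤ |δ| := by
  have := mul_le_mul_of_nonneg_left ds.hη1 (abs_nonneg δ)
  linarith

theorem P_T_NP : m.P (ds.T p.1) * m.NP ds s δ p U = m.P (ds.T p.1) * m.NT ds s δ p U := by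
  rw [d0b_P_NP, m.P_idem (ds.hT _).1, m.P_mul_of_disjoint (ds.hT _).1 ds.hS.1 (ds.dTS _),
    m.P_mul_of_disjoint (ds.hT _).1 ds.hMd.1 (ds.dTM _), m.P_mul_of_disjoint (ds.hT _).1
      (d0b_meas ds _) (Set.disjoint_left.2 fun x hx hx' => hx' (Or.inl (Or.inl hx)))]
  simp
theorem P_T_NP_ne {l : Fin k} (hl : l ≠ p.1) : m.P (ds.T l) * m.NP ds s δ p U = m.P (ds.T l) := by
  rw [d0b_P_NP, m.P_mul_of_disjoint (ds.hT _).1 (ds.hT _).1 (ds.dTT hl),
    m.P_mul_of_disjoint (ds.hT _).1 ds.hS.1 (ds.dTS _),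
    m.P_mul_of_disjoint (ds.hT _).1 ds.hMd.1 (ds.dTM _), m.P_mul_of_subset (ds.hT _).1
      (d0b_meas ds _) (Disjoint.subset_compl_right (((ds.dTT hl).union_right (ds.dTS _)).union_right
        (ds.dTM _)))]
  simp
theorem P_S_NP : m.P ds.S * m.NP ds s δ p U = m.P ds.S * m.NS ds s δ p U := by
  rw [d0b_P_NP, m.P_idem ds.hS.1, m.P_mul_of_disjoint ds.hS.1 (ds.hT _).1 (ds.dTS _).symm,
    m.P_mul_of_disjoint ds.hS.1 ds.hMd.1 ds.dSM, m.P_mul_of_disjoint ds.hS.1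
      (d0b_meas ds _) (Set.disjoint_left.2 fun x hx hx' => hx' (Or.inl (Or.inr hx)))]
  simp
theorem P_M_NP : m.P ds.Md * m.NP ds s δ p U = m.P ds.Md * m.NM ds s δ p U := by
  rw [d0b_P_NP, m.P_idem ds.hMd.1, m.P_mul_of_disjoint ds.hMd.1 (ds.hT _).1 (ds.dTM _).symm,
    m.P_mul_of_disjoint ds.hMd.1 ds.hS.1 ds.dSM.symm, m.P_mul_of_disjoint ds.hMd.1
      (d0b_meas ds _) (Set.disjoint_left.2 fun x hx hx' => hx' (Or.inr hx))]
  simp
theorem P_rest_NP : m.P (ds.Tt ∪ ds.S ∪ ds.Md)ᶜ * m.NP ds s δ p U = m.P (ds.Tt ∪ ds.S ∪ ds.Md)ᶜ := by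
  have h : ds.T p.1 ⊆ ds.Tt := Set.subset_iUnion ds.T p.1
  rw [d0b_P_NP, m.P_mul_of_disjoint (d0b_meas' ds) (ds.hT _).1
      (Set.disjoint_left.2 fun x hx hx' => hx (Or.inl (Or.inl (h hx')))),
    m.P_mul_of_disjoint (d0b_meas' ds) ds.hS.1
      (Set.disjoint_left.2 fun x hx hx' => hx (Or.inl (Or.inr hx'))),
    m.P_mul_of_disjoint (d0b_meas' ds) ds.hMd.1
      (Set.disjoint_left.2 fun x hx hx' => hx (Or.inr hx')),
    m.P_mul_of_subset (d0b_meas' ds) (d0b_meas ds _) (Set.compl_subset_compl.2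
      (Set.union_subset_union_left _ (Set.union_subset_union_left _ h)))]
  simp
theorem yS_NP (hU : m.Fib U) : m.yS ds (m.NP ds s δ p U * U) = m.yS ds U := by
  exact d0b_yS ds hU (fib_NP ds s δ p hU).2 (fib_NS ds s δ p hU) (m.isAxis_Z.commute_D_self _)
    (P_S_NP ds s δ p)
theorem yS_st (hU : m.Fib U) (L : List (PIdx k)) : m.yS ds (m.st ds s δ U L) = m.yS ds U := by
  induction L generalizing U with
  | nil => rfl
  | cons q L ih => exact (ih ((fib_NP ds s δ q hU).mul hU)).trans (yS_NP ds s δ q hU)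
theorem yS_round (hU : m.Fib U) : m.yS ds (m.round ds s δ U) = m.yS ds U := by
  rw [round, d0b_yS ds (fib_st ds s δ hU _) (fib_comp ds s δ U).2 m.fib_one (Commute.one_right _)
    (by rw [d0b_P_comp ds s δ ds.hS.1 ds.dSM, mul_one]), yS_st ds s δ hU]
theorem mem_allP : p ∈ allP k := by
  simp [allP]
theorem nodup_allP : (allP k).Nodup := by
  exact Finset.nodup_toList _
theorem length_allP : (allP k).length = 8 * k := by
  simp [allP, mul_comm]
theorem sum_allP {α : Type} [AddCommMonoid α] (f : PIdx k → α) :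
    ((allP k).reverse.map f).sum = ∑ q, f q := by
  rw [List.map_reverse, List.sum_reverse, allP, Finset.sum_map_toList]
/-- the round as an ordered product -/
theorem st_eq_prod (U : H →L[ℂ] H) : m.st ds s δ U (allP k) =
    ((allP k).reverse.map fun q => m.NP ds s δ q (m.Up ds s δ q U)).prod * U := by
  exact d0b_st ds s δ U _ nodup_allP
theorem d0b_round (hU : m.Fib U) : m.round ds s δ U * star U = m.comp ds s δ U *
    ((allP k).reverse.map fun q => m.NP ds s δ q (m.Up ds s δ q U)).prod := by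
  rw [round, st_eq_prod, mul_assoc, mul_assoc, hU.mul_star_self, mul_one]
/-- the four blocks of one round -/
theorem P_T_round (hU : m.Fib U) (l : Fin k) : m.P (ds.T l) * (m.round ds s δ U * star U) =
    m.P (ds.T l) * ((allP k).reverse.map fun q =>
      if q.1 = l then m.NT ds s δ q (m.Up ds s δ q U) else 1).prod := by
  rw [d0b_round ds s δ hU, ← mul_assoc, d0b_P_comp ds s δ (ds.hT l).1 (ds.dTM l)]
  refine d0b_prod (ds.hT l).1 _ (fun q => ?_) fun q => ?_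
  · split_ifs
    · exact (fib_NT ds s δ q (fib_Up ds s δ q hU)).2
    · exact Cen.one m
  · split_ifs with h
    · rw [← h, P_T_NP]
    · rw [P_T_NP_ne ds s δ q (Ne.symm h), mul_one]
theorem P_S_round (hU : m.Fib U) : m.P ds.S * (m.round ds s δ U * star U) =
    m.P ds.S * ((allP k).reverse.map fun q => m.NS ds s δ q (m.Up ds s δ q U)).prod := by
  rw [d0b_round ds s δ hU, ← mul_assoc, d0b_P_comp ds s δ ds.hS.1 ds.dSM]
  exact d0b_prod ds.hS.1 _ (fun q => (fib_NS ds s δ q (fib_Up ds s δ q hU)).2)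
    fun q => P_S_NP ds s δ q
theorem P_M_round (hU : m.Fib U) : m.P ds.Md * (m.round ds s δ U * star U) =
    m.P ds.Md * (rot (m.Sg * m.Z) (-m.mu ds s δ U) *
      ((allP k).reverse.map fun q => m.NM ds s δ q (m.Up ds s δ q U)).prod) := by
  have h := (m.fib_rot m.isAxis_Z.sg.1 m.isAxis_Z.sg.2.1 m.isAxis_Z.sg.2.2.1
    (-m.mu ds s δ U)).2.commute_P ds.hMd.1
  rw [d0b_round ds s δ hU, ← mul_assoc, comp, _root_.mul_add, ← mul_assoc, m.P_idem ds.hMd.1,
    m.P_mul_of_disjoint ds.hMd.1 ds.hMd.1.compl disjoint_compl_right, add_zero, ← h.eq, mul_assoc,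
    d0b_prod ds.hMd.1 _ (fun q => (fib_NM ds s δ q (fib_Up ds s δ q hU)).2)
      fun q => P_M_NP ds s δ q, ← mul_assoc, h.eq, mul_assoc]
theorem P_rest_round (hU : m.Fib U) : m.P (ds.Tt ∪ ds.S ∪ ds.Md)ᶜ * (m.round ds s δ U * star U) =
    m.P (ds.Tt ∪ ds.S ∪ ds.Md)ᶜ := by
  rw [d0b_round ds s δ hU, ← mul_assoc, d0b_P_comp ds s δ (d0b_meas' ds)
    (Set.disjoint_left.2 fun x hx hx' => hx (Or.inr hx')),
    d0b_prod (g := fun _ => 1) (d0b_meas' ds) _ (fun _ => Cen.one m)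
      fun q => by rw [P_rest_NP, mul_one]]
  simp

/-- `‖a2 - a20‖`: `G† (σX) G - σX = σX (D Y (2 e₁ b) - 1)` -/
theorem norm_a2_sub (hU : m.Fib U) {Λ : ℝ} (h : m.NB Λ (m.P ds.Md (U m.vac))) :
    ‖m.a2 ds p U - m.a20 ds U‖ ≤ 4 * ds.η * Λ := by
  have hb := m.R.smul_mem p.e1 (bb_mem ds hU p.1)
  have hb2 := m.R.smul_mem 2 hb
  have hQ := m.isAxis_X.sg
  have h1 := m.isAxis_Y.near1_D hb2 Λ _ h
  have h2 := mul_le_mul_of_nonneg_right (d0b_bb ds p hU) h.nonneg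
  rw [a2, a20, ← map_sub, ← map_sub, ← m.heis_sub, G1M, m.isAxis_Y.conj_anti hQ d0b_anti hb,
    d0b_norm_P_heis hU ds.hMd.1 ((hQ.2.2.1.mul (m.isAxis_Y.fib_D hb2).2).sub hQ.2.2.1),
    sub_apply, mul_apply_eq_comp, ← map_sub, hQ.fib.norm_apply]
  rw [norm_smul, Real.norm_two] at h1
  linarith
/-- `D₂† Y D₂ - Y = Y (D (σX) (2β) - 1)` -/
theorem norm_da_le (hU : m.Fib U) (hs : |s| ≤ 1) {Λ : ℝ} (h : m.NB Λ (m.P ds.Md (U m.vac))) :
    ‖m.da ds s δ p U‖ ≤ 12 * |δ| * ds.η * Λ := by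
  have hb := bM_mem ds s δ p hU
  have hb2 := m.R.smul_mem 2 hb
  have hQ := m.isAxis_X.sg
  have hG := fib_G1M ds p hU
  have h1 := hQ.near1_D hb2 _ _ (d0b_tame_G1M ds p hU Λ _ h)
  have h2 := mul_le_mul_of_nonneg_right
    (((loc_bM ds s δ p hU).norm_le ds (by positivity)).trans (d0b_small ds s δ hs)) h.nonneg
  have h3 := mul_nonneg (mul_nonneg (abs_nonneg δ) ds.hη0) h.nonneg
  rw [da, neg_smul, norm_neg, d0b_norm_e1, hQ.conj_anti m.isAxis_Y (by rw [d0b_anti, neg_neg]) hb,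
    d0b_norm_P_heis hU ds.hMd.1
      ((hG.2.star.mul ((m.cen_Y.mul (hQ.fib_D hb2).2).sub m.cen_Y)).mul hG.2),
    mul_apply_eq_comp, mul_apply_eq_comp, hG.star.norm_apply, sub_apply, mul_apply_eq_comp,
    ← map_sub, m.isAxis_Y.fib.norm_apply]
  rw [norm_smul, Real.norm_two] at h1
  linarith
theorem cl_AT (hU : m.Fib U) (hs : |s| ≤ 1) : m.CL 8 (m.AT ds s p U) := by
  have hG := fib_G1T ds p hU
  have hD := m.isAxis_Y.fib_D (yy_mem ds s p hU)
  have hQ := m.isAxis_Z.sg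
  obtain ⟨a1, a2⟩ := d0b_cl_D m.isAxis_Z (m.R.smul_mem p.e1 (a1_mem ds hU))
    ((d0b_norm_e1 p _).trans_le (norm_a1_le ds hU))
  obtain ⟨b1, b2⟩ := d0b_cl_D m.isAxis_Y (yy_mem ds s p hU) ((norm_yy_le ds s p hU).trans hs)
  exact ((a2.mul ((b2.mul (cl_of_commute hQ.2.2.2) hD.star.norm_le hQ.fib.norm_le).mul b1
    (hD.star.mul hQ.fib).norm_le hD.norm_le) hG.star.norm_le
    ((hD.star.mul hQ.fib).mul hD).norm_le).mul a1
    (hG.star.mul ((hD.star.mul hQ.fib).mul hD)).norm_le hG.norm_le).mono (by norm_num)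
theorem tame_GG (hU : m.Fib U) (hs : |s| ≤ 1) : m.Tame 9 (m.GG ds s p U) := by
  have hG := fib_G1T ds p hU
  have hy := m.R.smul_mem 2 (yy_mem ds s p hU)
  have hD := m.isAxis_Y.fib_D hy
  have hQ := m.isAxis_X.sg
  obtain ⟨a1, a2⟩ := d0b_cl_D m.isAxis_Z (m.R.smul_mem p.e1 (a1_mem ds hU))
    ((d0b_norm_e1 p _).trans_le (norm_a1_le ds hU))
  obtain ⟨b1, -⟩ := d0b_cl_D m.isAxis_Y hy (c := 2) (by
    have := (norm_yy_le ds s p hU).trans hs
    rw [norm_smul, Real.norm_two]; linarith)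
  exact (((a2.mul ((cl_of_commute hQ.2.2.2).mul b1 hQ.fib.norm_le hD.norm_le) hG.star.norm_le
    (hQ.fib.mul hD).norm_le).mul a1 (hG.star.mul (hQ.fib.mul hD)).norm_le hG.norm_le).tame
    (by norm_num) (fib_GG ds s p hU).norm_le).mono (by norm_num)
theorem near1_NT (hU : m.Fib U) (hs : |s| ≤ 1) {Λ : ℝ} (hΛ : 1 ≤ Λ) (h : m.NB Λ (m.P ds.Md (U m.vac))) :
    m.Near1 (13 * |δ| * Λ) (m.NT ds s δ p U) := by
  have hd := da_mem ds s δ p hU
  have h1 := norm_rot_sub_one (AT_star ds s p hU) (AT_sq ds s p hU) (p.e3 * δ)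
  rw [abs_mul, abs_e3, one_mul] at h1
  refine ((m.isAxis_Z.near1_D hd).mul (near1_of_norm h1) (m.isAxis_Z.fib_D hd).norm_le).mono ?_
  have h2 := norm_da_le ds s δ p hU hs h
  have h3 := mul_le_mul_of_nonneg_right (d0b_small' ds δ) h.nonneg
  have h4 := mul_le_mul_of_nonneg_left hΛ (abs_nonneg δ)
  linarith
theorem near1_NS (hU : m.Fib U) (hs : |s| ≤ 1) : m.Near1 (|δ|) (m.NS ds s δ p U) := by
  refine (m.isAxis_Z.near1_D (bS_mem ds s δ p hU)).mono ?_
  have h1 := ((loc_bS ds s δ p hU).norm_le ds (by positivity)).trans (d0b_small ds s δ hs)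
  have h2 := d0b_small' ds δ
  linarith
theorem near1_NM (hU : m.Fib U) (hs : |s| ≤ 1) : m.Near1 (4 * |δ|) (m.NM ds s δ p U) := by
  have hd := db_mem ds s δ p hU
  refine ((m.isAxis_Y.near1_D hd).mul ((m.isAxis_X.sg.near1_D (bM_mem ds s δ p hU)).conj
    (fib_G1M ds p hU) (d0b_tame_G1M ds p hU)) (m.isAxis_Y.fib_D hd).norm_le).mono ?_
  have h1 := ((loc_bM ds s δ p hU).norm_le ds (by positivity)).trans (d0b_small ds s δ hs)
  have h2 := d0b_small' ds δ
  have h3 := (loc_db ds s δ p hU).norm_le ds (by positivity)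
  linarith
theorem near1_NP (hU : m.Fib U) (hs : |s| ≤ 1) {Λ : ℝ} (hΛ : 1 ≤ Λ) (h : m.NB Λ (m.P ds.Md (U m.vac))) :
    m.Near1 (18 * |δ| * Λ) (m.NP ds s δ p U) := by
  intro lam ψ hψ
  have h1 := (m.norm_P_apply_le (ds.hT p.1).1 _).trans (near1_NT ds s δ p hU hs hΛ h lam ψ hψ)
  have h2 := (m.norm_P_apply_le ds.hS.1 _).trans (near1_NS ds s δ p hU hs lam ψ hψ)
  have h3 := (m.norm_P_apply_le ds.hMd.1 _).trans (near1_NM ds s δ p hU hs lam ψ hψ)
  have h4 := m.P_add_compl (((ds.hT p.1).1.union ds.hS.1).union ds.hMd.1)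
  rw [m.P_union ((ds.hT p.1).1.union ds.hS.1) ds.hMd.1 ((ds.dTM _).union_left ds.dSM),
    m.P_union (ds.hT p.1).1 ds.hS.1 (ds.dTS _)] at h4
  have h5 : m.NP ds s δ p U ψ - ψ = m.P (ds.T p.1) (m.NT ds s δ p U ψ - ψ) +
      m.P ds.S (m.NS ds s δ p U ψ - ψ) + m.P ds.Md (m.NM ds s δ p U ψ - ψ) := by
    have h6 := congrArg (fun A : H →L[ℂ] H => A ψ) h4
    simp only [add_apply, one_apply_eq_self] at h6
    simp only [NP, add_apply, mul_apply_eq_comp, map_sub]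
    linear_combination (norm := module) h6
  have h7 := mul_le_mul_of_nonneg_left hΛ (mul_nonneg (abs_nonneg δ) hψ.nonneg)
  rw [h5]
  refine (norm_add₃_le).trans ?_
  linarith

end Model

end Crest.Agent.R339
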