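import Crest.Agent.R339.Q.D0b

/-!
# Row 339, part Q: identity hubs: a priori bounds
-/

set_option autoImplicit false

namespace Crest.Agent.R339

open MeasureTheory ProbabilityTheory Filter Topology Crest.MathPhysics.SpinGlass
open scoped InnerProductSpace ComplexConjugate

namespace Model

variable {K : ℕ} {I : Iamp K} {H KK : Type} [NormedAddCommGroup H] [InnerProductSpace ℂ H]
  [CompleteSpace H] [NormedAddCommGroup KK] [InnerProductSpace ℂ KK] (m : Model I H KK)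

variable {m} {M k : ℕ} (ds : DSet K M k) (s δ : ℝ) (p : PIdx k) {U : H →L[ℂ] H}

private theorem d1_P {E : Set (Lab K)} (hE : MeasurableSet E) {A B : H →L[ℂ] H} (hB : m.Cen B)
    (h : m.P E * A = m.P E * B) (U : H →L[ℂ] H) :
    m.P E ((A * U) m.vac) = B (m.P E (U m.vac)) := by
  change (m.P E * A) (U m.vac) = (B * m.P E) (U m.vac)
  rw [h, (hB.commute_P hE).eq]

private theorem d1_norm_M (hU : m.Fib U) : ‖m.P ds.Md (U m.vac)‖ ≤ 1 := by
  refine (m.norm_P_apply_le ds.hMd.1 _).trans ?_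
  rw [hU.norm_apply, m.norm_vac]

private theorem d1_ap_mono {Λ Λ' : ℝ} (h : m.Ap ds Λ U) (hΛ : Λ ≤ Λ') : m.Ap ds Λ' U :=
  ⟨fun l => (h.1 l).mono (mul_le_mul_of_nonneg_right hΛ (Real.sqrt_nonneg _)), h.2.mono hΛ⟩

private theorem d1_st_snoc (U : H →L[ℂ] H) (L : List (PIdx k)) (q : PIdx k) :
    m.st ds s δ U (L ++ [q]) = m.NP ds s δ q (m.st ds s δ U L) * m.st ds s δ U L := by
  simp only [st, List.foldl_append, List.foldl_cons, List.foldl_nil]

/-- one pulse on its own block: `CL.nb` with `cl_D`, `CL.rot`, `cl_AT`, `norm_da_le` -/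
theorem nb_NP_T (hU : m.Fib U) (hs : |s| ≤ 1) {Λ Λ' : ℝ} (hΛ' : 1 ≤ Λ')
    (hM : m.NB Λ' (m.P ds.Md (U m.vac)))
    (hT : m.NB (Λ * Real.sqrt ((gL K).real (ds.T p.1))) (m.P (ds.T p.1) (U m.vac))) :
    m.NB ((Λ + 20 * |δ| * Λ') * Real.sqrt ((gL K).real (ds.T p.1)))
      (m.P (ds.T p.1) ((m.NP ds s δ p U * U) m.vac)) := by
  rw [d1_P (ds.hT p.1).1 (fib_NT ds s δ p hU).2 (P_T_NP ds s δ p)]
  have hδ := abs_nonneg δ
  have h1 := m.isAxis_Z.cl_D (da_mem ds s δ p hU)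
  have h2 : m.CL (|p.e3 * δ| * 8) (m.ET ds s δ p U) := (cl_AT ds s p hU hs).rot _
  have h3 : m.CL (20 * |δ| * Λ') (m.NT ds s δ p U) := by
    refine (h1.mul h2 (m.isAxis_Z.fib_D (da_mem ds s δ p hU)).norm_le
      (fib_ET ds s δ p hU).norm_le).mono ?_
    have a1 := norm_da_le ds s δ p hU hs hM
    have a2 : |δ| * Λ' * (2 * ds.η) ≤ |δ| * Λ' * 1 :=
      mul_le_mul_of_nonneg_left ds.hη1 (by positivity)
    have a3 : |δ| * 1 ≤ |δ| * Λ' := mul_le_mul_of_nonneg_left hΛ' hδ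
    rw [abs_mul, abs_e3]
    linarith
  have h4 := h3.nb (by positivity) (fib_NT ds s δ p hU).norm_le hT
    (m.norm_P_fib hU (ds.hT p.1).1).le
  rwa [← add_mul] at h4
/-- one pulse on the mediators, in a fixed direction `y`.  Write `(W y - 1) E ψ = E (W y - 1) ψ + W y (E - (W y)† E (W y)) ψ`,
use `W_mul_D`; for the middle factor `r₁⁻¹ D₂ r₁ - D₂ = -i (r₁⁻¹ Q₂ r₁ - Q₂) sinW β`. -/
theorem nb_NP_M (hU : m.Fib U) {Λ' : ℝ} (hM : m.NB Λ' (m.P ds.Md (U m.vac))) {y : KK} (hy : y ∈ m.R) :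
    ‖m.W y (m.P ds.Md ((m.NP ds s δ p U * U) m.vac)) - m.P ds.Md ((m.NP ds s δ p U * U) m.vac)‖ ≤
      ‖m.W y (m.P ds.Md (U m.vac)) - m.P ds.Md (U m.vac)‖ + 2 * |om y (m.db ds s δ p U)|
        + 2 * |om y (m.bM ds s δ p U)|
        + 8 * |om y (m.bb ds p.1 U)| * ‖m.bM ds s δ p U‖ * Λ' := by
  rw [d1_P ds.hMd.1 (fib_NM ds s δ p hU).2 (P_M_NP ds s δ p)]
  have hψ := d1_norm_M ds hU
  set ψ := m.P ds.Md (U m.vac) with hψd
  have hY := m.isAxis_Y
  have hQ : m.IsAxis (m.Sg * m.X) := m.isAxis_X.sg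
  have hb : p.e1 • m.bb ds p.1 U ∈ m.R := m.R.smul_mem _ (bb_mem ds hU p.1)
  have hd := db_mem ds s δ p hU
  have hβ := bM_mem ds s δ p hU
  have nb : ‖p.e1 • m.bb ds p.1 U‖ ≤ 1 / 2 := by
    have := (loc_bb ds hU p.1).norm_le ds zero_le_one
    rw [norm_smul, Real.norm_eq_abs, abs_e1]
    linarith [ds.hη1]
  have ob : |om y (p.e1 • m.bb ds p.1 U)| = |om y (m.bb ds p.1 U)| := by
    rw [om_smul_right, abs_mul, abs_e1, one_mul]
  rw [← ob]
  unfold NM G1M
  generalize p.e1 • m.bb ds p.1 U = b at hb nb ⊢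
  generalize m.db ds s δ p U = d at hd ⊢
  generalize m.bM ds s δ p U = β at hβ ⊢
  generalize m.Sg * m.X = Q at hQ ⊢
  have fr : ∀ {A : H →L[ℂ] H}, m.IsAxis A → ∀ α, m.Fib (rot A α) := fun hA α =>
    m.fib_rot hA.1 hA.2.1 hA.2.2.1 α
  have f1 := hY.fib_D hd
  have fG := hY.fib_D hb
  have f2 := hQ.fib_D hβ
  have fr1 := fr hY (-(2 * om y d))
  have fr2 := fr hQ (-(2 * om y β))
  have fr3 := fr hY (-(2 * om y b))
  have n1 := norm_rot_sub_one hY.1 hY.2.1 (-(2 * om y d))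
  have n2 := norm_rot_sub_one hQ.1 hQ.2.1 (-(2 * om y β))
  have n3 := norm_conj_rot_sub' hY.1 hY.2.1 Q (-(2 * om y b))
  have w1 := hY.W_mul_D hy hd
  have w2 := hQ.W_mul_D hy hβ
  have w3 := hY.W_mul_D hy hb
  have w4 : m.W y * star (m.D m.Y b) = star (m.D m.Y b) * star (rot m.Y (-(2 * om y b))) * m.W y := by
    rw [hY.star_D, hY.W_mul_D hy (m.R.neg_mem hb), star_rot hY.1, om_neg_right, _root_.mul_neg]
  have c3 : m.D m.Y b * rot m.Y (-(2 * om y b)) = rot m.Y (-(2 * om y b)) * m.D m.Y b :=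
    (commute_rot (hY.commute_D_self b).symm _).eq
  have c4 : star (rot m.Y (-(2 * om y b))) * m.D Q β * rot m.Y (-(2 * om y b)) - m.D Q β =
      -(Complex.I • ((star (rot m.Y (-(2 * om y b))) * Q * rot m.Y (-(2 * om y b)) - Q) *
        m.sinW β)) := by
    rw [m.conj_D fr3.star_mul_self (fun y' => (commute_rot (hY.2.2.2 y').symm _).symm)]
    simp only [D, sub_mul, smul_sub]
    abel
  have t3 := (hY.tame_D hb _ _ hM).norm_sinW hβ
  rw [abs_neg, abs_mul, abs_two] at n1 n2 n3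
  generalize rot m.Y (-(2 * om y d)) = r1 at *
  generalize rot Q (-(2 * om y β)) = r2 at *
  generalize rot m.Y (-(2 * om y b)) = r at *
  generalize m.D m.Y d = D1 at *
  generalize m.D m.Y b = G at *
  generalize m.D Q β = D2 at *
  have e1 : m.W y * (D1 * (star G * D2 * G)) =
      D1 * r1 * star G * star r * D2 * r2 * r * G * m.W y := by
    calc m.W y * (D1 * (star G * D2 * G)) = (m.W y * D1) * star G * D2 * G := by
          simp only [mul_assoc]
      _ = D1 * r1 * (m.W y * star G) * D2 * G := by rw [w1]; simp only [mul_assoc]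
      _ = D1 * r1 * star G * star r * (m.W y * D2) * G := by rw [w4]; simp only [mul_assoc]
      _ = D1 * r1 * star G * star r * D2 * r2 * (m.W y * G) := by rw [w2]; simp only [mul_assoc]
      _ = _ := by rw [w3, c3]; simp only [mul_assoc]
  have e2 : m.W y ((D1 * (star G * D2 * G)) ψ) - (D1 * (star G * D2 * G)) ψ =
      (D1 * r1 * star G * star r * D2 * r2 * r * G) (m.W y ψ - ψ) +
        D1 ((r1 - 1) ((star G * star r * D2 * r2 * r * G) ψ)) +
        (D1 * star G * star r * D2) ((r2 - 1) ((r * G) ψ)) +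
        (D1 * star G) ((star r * D2 * r - D2) (G ψ)) := by
    rw [← mul_apply_eq_comp (m.W y), e1]
    simp only [map_sub, sub_apply, mul_apply_eq_comp, one_apply_eq_self]
    abel
  have a1 : ‖(r1 - 1) ((star G * star r * D2 * r2 * r * G) ψ)‖ ≤ 2 * |om y d| := by
    refine ((r1 - 1).le_opNorm _).trans ?_
    rw [(((((fG.star.mul fr3.star).mul f2).mul fr2).mul fr3).mul fG).norm_apply]
    exact (mul_le_of_le_one_right (norm_nonneg _) hψ).trans n1
  have a2 : ‖(r2 - 1) ((r * G) ψ)‖ ≤ 2 * |om y β| := by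
    refine ((r2 - 1).le_opNorm _).trans ?_
    rw [(fr3.mul fG).norm_apply]
    exact (mul_le_of_le_one_right (norm_nonneg _) hψ).trans n2
  have a3 : ‖(star r * D2 * r - D2) (G ψ)‖ ≤ 8 * |om y b| * ‖β‖ * Λ' := by
    rw [c4, neg_apply, norm_neg, smul_apply, norm_smul, Complex.norm_I, one_mul, mul_apply_eq_comp]
    refine ((star r * Q * r - Q).le_opNorm _).trans ?_
    have b1 : ‖star r * Q * r - Q‖ ≤ 4 * |om y b| :=
      n3.trans ((mul_le_of_le_one_right (by positivity) hQ.fib.norm_le).trans (le_of_eq (by ring)))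
    have b2 : (1 + 2 * ‖b‖) * Λ' * ‖β‖ ≤ 2 * Λ' * ‖β‖ :=
      mul_le_mul_of_nonneg_right (mul_le_mul_of_nonneg_right (by linarith) hM.nonneg)
        (norm_nonneg _)
    exact (mul_le_mul b1 (t3.trans b2) (norm_nonneg _) (by positivity)).trans (le_of_eq (by ring))
  rw [e2]
  refine (norm_add_le _ _).trans (add_le_add ((norm_add_le _ _).trans (add_le_add
    ((norm_add_le _ _).trans (add_le_add (le_of_eq ?_) ?_)) ?_)) ?_)
  · exact (((((((f1.mul fr1).mul fG.star).mul fr3.star).mul f2).mul fr2).mul fr3).mul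
      fG).norm_apply _
  · rwa [f1.norm_apply]
  · rwa [(((f1.mul fG.star).mul fr3.star).mul f2).norm_apply]
  · rwa [(f1.mul fG.star).norm_apply]

private theorem d1_sumT (t : Finset (PIdx k)) (l : Fin k) {c : ℝ} (hc : 0 ≤ c) :
    ∑ q ∈ t, (if q.1 = l then c else 0) ≤ 8 * c := by
  refine (Finset.sum_le_sum_of_subset_of_nonneg (Finset.subset_univ t) fun q _ _ => by
    split_ifs <;> simp [hc]).trans (le_of_eq ?_)
  have : ∀ x : Fin k, ∑ y : Bool × Bool × Bool, (if ((x, y) : PIdx k).1 = l then c else 0) =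
      if x = l then 8 * c else 0 := fun x => by
    by_cases h : x = l
    · simp only [h, if_true, Finset.sum_const, Finset.card_univ, Fintype.card_prod,
        Fintype.card_bool, nsmul_eq_mul]
      norm_num
    · simp only [h, if_false, Finset.sum_const_zero]
  rw [Fintype.sum_prod_type, Finset.sum_congr rfl fun x _ => this x, Finset.sum_ite_eq',
    if_pos (Finset.mem_univ _)]

private theorem d1_sumM (hs : |s| ≤ 1) {Λ : ℝ} (hΛ : 1 ≤ Λ) (t : Finset (PIdx k))
    {V : PIdx k → H →L[ℂ] H} (hV : ∀ q, m.Fib (V q)) (y : KK) :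
    ∑ q ∈ t, (2 * |om y (m.db ds s δ q (V q))| + 2 * |om y (m.bM ds s δ q (V q))| +
      8 * |δ| * Λ * |om y (m.bb ds q.1 (V q))|) ≤ 112 * |δ| * Λ * ‖y‖ := by
  have hδ := abs_nonneg δ
  have h1 := loc_sum_om ds (c := 2 * |δ|) (by positivity) (u := fun q => m.db ds s δ q (V q)) t
    (fun q _ => loc_db ds s δ q (hV q)) y
  have h2 := loc_sum_om ds (c := |δ|) hδ (u := fun q => m.bM ds s δ q (V q)) t
    (fun q _ => (loc_bM ds s δ q (hV q)).mono ds (mul_le_of_le_one_left hδ hs)) y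
  have h3 := loc_sum_om ds (c := 1) zero_le_one (u := fun q => m.bb ds q.1 (V q)) t
    (fun q _ => loc_bb ds (hV q) q.1) y
  have h4 := mul_le_mul_of_nonneg_left h3 (by positivity : 0 ≤ 8 * |δ| * Λ)
  have h5 : |δ| * ‖y‖ * 1 ≤ |δ| * ‖y‖ * Λ := mul_le_mul_of_nonneg_left hΛ (by positivity)
  rw [Finset.sum_add_distrib, Finset.sum_add_distrib, ← Finset.mul_sum, ← Finset.mul_sum,
    ← Finset.mul_sum]
  linarith

private theorem d1_inv (hU : m.Fib U) (hs : |s| ≤ 1) (hδ : 400 * |δ| ≤ 1) {Λ : ℝ} (hΛ : 1 ≤ Λ)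
    (h : m.Ap ds Λ U) {L : List (PIdx k)} (hL : L.Nodup) :
    (∀ l, m.NB ((Λ + ∑ q ∈ L.toFinset, (if q.1 = l then 40 * |δ| * Λ else 0)) *
      Real.sqrt ((gL K).real (ds.T l))) (m.P (ds.T l) (m.st ds s δ U L m.vac))) ∧
    ∃ V : PIdx k → H →L[ℂ] H, (∀ q, m.Fib (V q)) ∧ ∀ y ∈ m.R,
      ‖m.W y (m.P ds.Md (m.st ds s δ U L m.vac)) - m.P ds.Md (m.st ds s δ U L m.vac)‖ ≤
        Λ * ‖y‖ + ∑ q ∈ L.toFinset, (2 * |om y (m.db ds s δ q (V q))| +
          2 * |om y (m.bM ds s δ q (V q))| + 8 * |δ| * Λ * |om y (m.bb ds q.1 (V q))|) := by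
  have hδ0 := abs_nonneg δ
  induction L using List.reverseRecOn with
  | nil =>
    simp only [List.toFinset_nil, Finset.sum_empty, add_zero]
    exact ⟨h.1, fun _ => U, fun _ => hU, h.2.2⟩
  | append_singleton L q ih =>
    have hq : q ∉ L.toFinset := by
      rw [List.mem_toFinset]
      exact fun hq => List.disjoint_of_nodup_append hL hq (List.mem_singleton_self q)
    obtain ⟨ih1, V, hV, ih2⟩ := ih (List.Nodup.of_append_left hL)
    have hS := fib_st ds s δ hU L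
    have e : (L ++ [q]).toFinset = insert q L.toFinset := by
      ext x
      simp
    rw [e, d1_st_snoc]
    generalize m.st ds s δ U L = S at *
    have hM : m.NB (2 * Λ) (m.P ds.Md (S m.vac)) := by
      refine ⟨(d1_norm_M ds hS).trans (by linarith), fun y hy => (ih2 y hy).trans ?_⟩
      have a1 := d1_sumM ds s δ hs hΛ L.toFinset hV y
      have a2 : 400 * |δ| * (Λ * ‖y‖) ≤ 1 * (Λ * ‖y‖) :=
        mul_le_mul_of_nonneg_right hδ (by positivity)
      have a3 : 0 ≤ |δ| * (Λ * ‖y‖) := by positivity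
      linarith
    refine ⟨fun l => ?_, Function.update V q S, fun q' => ?_, fun y hy => ?_⟩
    · rw [Finset.sum_insert hq]
      by_cases hl : q.1 = l
      · subst hl
        refine (nb_NP_T ds s δ q hS hs (by linarith) hM (ih1 q.1)).mono (le_of_eq ?_)
        rw [if_pos rfl]
        ring
      · rw [if_neg hl, zero_add, d1_P (ds.hT l).1 (Cen.one m)
          ((P_T_NP_ne ds s δ q (Ne.symm hl)).trans (mul_one _).symm)]
        exact ih1 l
    · by_cases hq' : q' = q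
      · rw [hq', Function.update_self]
        exact hS
      · rw [Function.update_of_ne hq']
        exact hV q'
    · have hne : ∀ q' ∈ L.toFinset, Function.update V q S q' = V q' := fun q' hq' =>
        Function.update_of_ne (ne_of_mem_of_not_mem hq' hq) _ _
      rw [Finset.sum_insert hq, Function.update_self, Finset.sum_congr rfl fun q' hq' => by
        rw [hne q' hq']]
      have a1 := nb_NP_M ds s δ q hS hM hy
      have a2 := ih2 y hy
      have a3 : ‖m.bM ds s δ q S‖ ≤ |δ| / 2 := by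
        have b1 := ((loc_bM ds s δ q hS).mono ds (mul_le_of_le_one_left hδ0 hs)).norm_le ds hδ0
        have b2 := mul_le_mul_of_nonneg_left ds.hη1 hδ0
        linarith
      have a4 := mul_le_mul_of_nonneg_left a3
        (by positivity : 0 ≤ 16 * |om y (m.bb ds q.1 S)| * Λ)
      linarith

/-- inside one round the a priori bound grows by a factor `1 + O(δ)` that does not depend on `k`
(induction on the list with the bootstrap bound `2Λ`, `loc_sum_om` for the mediators) -/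
theorem ap_st (hU : m.Fib U) (hs : |s| ≤ 1) (hδ : 400 * |δ| ≤ 1) {Λ : ℝ} (hΛ : 1 ≤ Λ) (h : m.Ap ds Λ U)
    {L : List (PIdx k)} (hL : L.Nodup) : m.Ap ds (Λ * (1 + 400 * |δ|)) (m.st ds s δ U L) := by
  obtain ⟨h1, V, hV, h2⟩ := d1_inv ds s δ hU hs hδ hΛ h hL
  have hδ0 := abs_nonneg δ
  have h0 : 0 ≤ |δ| * Λ := by positivity
  refine ⟨fun l => (h1 l).mono (mul_le_mul_of_nonneg_right ?_ (Real.sqrt_nonneg _)),
    (d1_norm_M ds (fib_st ds s δ hU L)).trans (by linarith), fun y hy => (h2 y hy).trans ?_⟩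
  · have := d1_sumT L.toFinset l (c := 40 * |δ| * Λ) (by positivity)
    linarith
  · have a1 := d1_sumM ds s δ hs hΛ L.toFinset hV y
    have a3 : 0 ≤ |δ| * (Λ * ‖y‖) := by positivity
    linarith
theorem ap_round (hU : m.Fib U) (hs : |s| ≤ 1) (hδ : 400 * |δ| ≤ 1) {Λ : ℝ} (hΛ : 1 ≤ Λ)
    (h : m.Ap ds Λ U) : m.Ap ds (Λ * (1 + 400 * |δ|)) (m.round ds s δ U) := by
  obtain ⟨h1, h2⟩ := ap_st ds s δ hU hs hδ hΛ h (nodup_allP (k := k))
  have hM := ds.hMd.1
  have hQ : m.IsAxis (m.Sg * m.Z) := m.isAxis_Z.sg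
  have hr : m.Fib (rot (m.Sg * m.Z) (-m.mu ds s δ U)) := m.fib_rot hQ.1 hQ.2.1 hQ.2.2.1 _
  refine ⟨fun l => ?_, ?_⟩
  · have e : m.P (ds.T l) * m.comp ds s δ U = m.P (ds.T l) * 1 := by
      rw [comp, _root_.mul_add, ← mul_assoc, m.P_mul_of_disjoint (ds.hT l).1 hM (ds.dTM l), zero_mul,
        zero_add, m.P_mul_of_subset (ds.hT l).1 hM.compl (ds.dTM l).subset_compl_right, mul_one]
    rw [round, d1_P (ds.hT l).1 (Cen.one m) e]
    exact h1 l
  · have e : m.P ds.Md * m.comp ds s δ U = m.P ds.Md * rot (m.Sg * m.Z) (-m.mu ds s δ U) := by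
      rw [comp, _root_.mul_add, ← mul_assoc, m.P_idem hM,
        m.P_mul_of_disjoint hM hM.compl disjoint_compl_right, add_zero]
    rw [round, d1_P hM hr.2 e]
    have := tame_of_commute hr.norm_le (fun y => (commute_rot (hQ.2.2.2 y).symm _).symm) _ _ h2
    rwa [one_mul] at this

private theorem d1_close (hU : m.Fib U) (hs : |s| ≤ 1) (hδ : 400 * |δ| ≤ 1) {Λ : ℝ} (hΛ : 1 ≤ Λ)
    (h : m.Ap ds Λ U) {L : List (PIdx k)} (hL : L.Nodup) :
    m.Ap ds (2 * Λ) (m.st ds s δ U L) ∧ ∃ E, m.Fib E ∧ m.st ds s δ U L = E * U ∧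
      m.Near1 (L.length * (36 * |δ| * Λ)) E := by
  have h2 : ∀ {L' : List (PIdx k)}, L'.Nodup → m.Ap ds (2 * Λ) (m.st ds s δ U L') := fun hL' =>
    d1_ap_mono ds (ap_st ds s δ hU hs hδ hΛ h hL') (by nlinarith)
  refine ⟨h2 hL, ?_⟩
  induction L using List.reverseRecOn with
  | nil => exact ⟨1, m.fib_one, (one_mul _).symm, fun lam ψ _ => by simp⟩
  | append_singleton L q ih =>
    have hL' := List.Nodup.of_append_left hL
    obtain ⟨E, hE, e, hn⟩ := ih hL'
    have hS := fib_st ds s δ hU L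
    have hN := fib_NP ds s δ q hS
    refine ⟨_, hN.mul hE, by rw [d1_st_snoc, mul_assoc, ← e], ?_⟩
    refine ((near1_NP ds s δ q hS hs (by linarith) (h2 hL').2).mul hn hN.norm_le).mono (le_of_eq ?_)
    rw [List.length_append, List.length_singleton]
    push_cast
    ring

/-- the states inside a round are close to the state at the start -/
theorem Up_close (hU : m.Fib U) (hs : |s| ≤ 1) (hδ : 400 * |δ| ≤ 1) {Λ : ℝ} (hΛ : 1 ≤ Λ)
    (h : m.Ap ds Λ U) : m.Ap ds (2 * Λ) (m.Up ds s δ p U) ∧ ∃ E, m.Fib E ∧ m.Up ds s δ p U = E * U ∧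
      m.Near1 (288 * k * |δ| * Λ) E ∧ m.yS ds (E * U) = m.yS ds U := by
  have hsub : ((allP k).takeWhile (· ≠ p)).Sublist (allP k) := List.takeWhile_sublist _
  obtain ⟨h1, E, hE, e, hn⟩ := d1_close ds s δ hU hs hδ hΛ h (nodup_allP.sublist hsub)
  refine ⟨h1, E, hE, e, hn.mono ?_, by rw [← e, yS_st ds s δ hU]⟩
  have h2 : ((((allP k).takeWhile (· ≠ p)).length : ℕ) : ℝ) ≤ 8 * k := by
    exact_mod_cast hsub.length_le.trans length_allP.le
  have hδ0 := abs_nonneg δ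
  have := mul_le_mul_of_nonneg_right h2 (by positivity : 0 ≤ 36 * |δ| * Λ)
  linarith

end Model

end Crest.Agent.R339
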