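import Crest.Agent.R339.Q.D1

/-!
# Row 339, part Q: identity hubs: freezing the parameters
-/

set_option autoImplicit false

namespace Crest.Agent.R339

open MeasureTheory ProbabilityTheory Filter Topology Crest.MathPhysics.SpinGlass
open scoped InnerProductSpace ComplexConjugate

namespace Model

variable {K : ℕ} {I : Iamp K} {H KK : Type} [NormedAddCommGroup H] [InnerProductSpace ℂ H]
  [CompleteSpace H] [NormedAddCommGroup KK] [InnerProductSpace ℂ KK] (m : Model I H KK)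

/-- two tame operators which are close on smooth vectors -/
structure D2G (c ε : ℝ) (A' A : H →L[ℂ] H) : Prop where
  norm : ‖A'‖ ≤ c
  tame' : m.Tame c A'
  tame : m.Tame c A
  cl : ∀ lam ψ, m.NB lam ψ → ‖A' ψ - A ψ‖ ≤ c * ε * lam
  cen' : m.Cen A'
  cen : m.Cen A

section D2G
variable {m} {c c' ε ε' : ℝ} {A' A B' B Q : H →L[ℂ] H}

theorem D2G.nonneg (h : m.D2G c ε A' A) : 0 ≤ c := (norm_nonneg _).trans h.norm

theorem D2G.mono (h : m.D2G c ε A' A) (hε : 0 ≤ ε) (hc : c ≤ c') (hε' : ε ≤ ε') :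
    m.D2G c' ε' A' A :=
  ⟨h.norm.trans hc, h.tame'.mono hc, h.tame.mono hc, fun lam ψ hψ => (h.cl lam ψ hψ).trans
    (mul_le_mul_of_nonneg_right (mul_le_mul hc hε' hε (h.nonneg.trans hc)) hψ.nonneg),
    h.cen', h.cen⟩

theorem D2G.mul (h : m.D2G c ε A' A) (h' : m.D2G c' ε B' B) (hε : 0 ≤ ε) :
    m.D2G (2 * c * c') ε (A' * B') (A * B) := by
  have hc := h.nonneg
  have hc' := h'.nonneg
  have hcc : c * c' ≤ 2 * c * c' := by nlinarith [mul_nonneg hc hc']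
  refine ⟨((norm_mul_le _ _).trans (mul_le_mul h.norm h'.norm (norm_nonneg _) hc)).trans hcc,
    (h.tame'.mul h'.tame').mono hcc, (h.tame.mul h'.tame).mono hcc, fun lam ψ hψ => ?_,
    h.cen'.mul h'.cen', h.cen.mul h'.cen⟩
  have e : (A' * B') ψ - (A * B) ψ = A' (B' ψ - B ψ) + (A' (B ψ) - A (B ψ)) := by
    rw [map_sub]
    simp only [ContinuousLinearMap.mul_apply]
    abel
  rw [e]
  have h1 : ‖A' (B' ψ - B ψ)‖ ≤ c * (c' * ε * lam) :=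
    (A'.le_opNorm _).trans (mul_le_mul h.norm (h'.cl lam ψ hψ) (norm_nonneg _) hc)
  have h2 := h.cl _ _ (h'.tame lam ψ hψ)
  refine (norm_add_le _ _).trans ((add_le_add h1 h2).trans (le_of_eq ?_))
  ring

theorem D2G.add (h : m.D2G c ε A' A) (h' : m.D2G c' ε B' B) :
    m.D2G (c + c') ε (A' + B') (A + B) := by
  refine ⟨(norm_add_le _ _).trans (add_le_add h.norm h'.norm), h.tame'.add h'.tame',
    h.tame.add h'.tame, fun lam ψ hψ => ?_, h.cen'.add h'.cen', h.cen.add h'.cen⟩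
  have e : (A' + B') ψ - (A + B) ψ = (A' ψ - A ψ) + (B' ψ - B ψ) := by
    simp only [ContinuousLinearMap.add_apply]
    abel
  rw [e]
  refine (norm_add_le _ _).trans ((add_le_add (h.cl lam ψ hψ) (h'.cl lam ψ hψ)).trans (le_of_eq ?_))
  ring

theorem D2G.smul (h : m.D2G c ε A' A) (z : ℂ) : m.D2G (‖z‖ * c) ε (z • A') (z • A) := by
  refine ⟨(norm_smul_le _ _).trans (mul_le_mul_of_nonneg_left h.norm (norm_nonneg _)),
    h.tame'.smul z, h.tame.smul z, fun lam ψ hψ => ?_, h.cen'.smul z, h.cen.smul z⟩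
  rw [ContinuousLinearMap.smul_apply, ContinuousLinearMap.smul_apply, ← smul_sub, norm_smul,
    mul_assoc, mul_assoc, ← mul_assoc c]
  exact mul_le_mul_of_nonneg_left (h.cl lam ψ hψ) (norm_nonneg _)

theorem D2G.axis (hQ : m.IsAxis Q) (hε : 0 ≤ ε) : m.D2G 1 ε Q Q :=
  ⟨hQ.fib.norm_le, hQ.tame, hQ.tame, fun lam ψ hψ => by
    rw [sub_self, norm_zero]; have := hψ.nonneg; positivity, hQ.2.2.1, hQ.2.2.1⟩

theorem D2G.ofD (hQ : m.IsAxis Q) {u' u : KK} (hu' : u' ∈ m.R) (hu : u ∈ m.R) (h1' : ‖u'‖ ≤ 1)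
    (h1 : ‖u‖ ≤ 1) {b : ℝ} (hb : 0 ≤ b) (hε : 0 ≤ ε) (h : ‖u' - u‖ ≤ b * ε) :
    m.D2G (3 + 4 * b) ε (m.D Q u') (m.D Q u) := by
  refine ⟨(hQ.fib_D hu').norm_le.trans (by linarith), (hQ.tame_D hu').mono (by linarith),
    (hQ.tame_D hu).mono (by linarith), fun lam ψ hψ => (hψ.norm_D_sub hQ hu' hu).trans ?_,
    (hQ.fib_D hu').2, (hQ.fib_D hu).2⟩
  refine mul_le_mul_of_nonneg_right ?_ hψ.nonneg
  have : 2 * (1 + ‖u'‖) * ‖u' - u‖ ≤ 4 * (b * ε) :=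
    mul_le_mul (by linarith) h (norm_nonneg _) (by norm_num)
  nlinarith

theorem D2G.ofD_star (hQ : m.IsAxis Q) {u' u : KK} (hu' : u' ∈ m.R) (hu : u ∈ m.R) (h1' : ‖u'‖ ≤ 1)
    (h1 : ‖u‖ ≤ 1) {b : ℝ} (hb : 0 ≤ b) (hε : 0 ≤ ε) (h : ‖u' - u‖ ≤ b * ε) :
    m.D2G (3 + 4 * b) ε (star (m.D Q u')) (star (m.D Q u)) := by
  rw [hQ.star_D, hQ.star_D]
  refine D2G.ofD hQ (neg_mem hu') (neg_mem hu) (by rwa [norm_neg]) (by rwa [norm_neg]) hb hε ?_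
  rwa [← neg_sub', norm_neg]

theorem D2G.conjD (hQ : m.IsAxis Q) {u' u : KK} (hu' : u' ∈ m.R) (hu : u ∈ m.R) (h1' : ‖u'‖ ≤ 1)
    (h1 : ‖u‖ ≤ 1) {b : ℝ} (hb : 0 ≤ b) (hε : 0 ≤ ε) (h : ‖u' - u‖ ≤ b * ε)
    (hA : m.D2G c ε A' A) :
    m.D2G (4 * (3 + 4 * b) ^ 2 * c) ε (star (m.D Q u') * A' * m.D Q u')
      (star (m.D Q u) * A * m.D Q u) :=
  (((D2G.ofD_star hQ hu' hu h1' h1 hb hε h).mul hA hε).mul
    (D2G.ofD hQ hu' hu h1' h1 hb hε h) hε).mono hε (le_of_eq (by ring)) le_rfl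

theorem D2G.rot_sub (h : m.D2G c ε A' A) (hε : 0 ≤ ε) (α : ℝ) :
    m.D2G (|α| * (1 + c)) ε (rot A' α - 1) (rot A α - 1) := by
  have e : ∀ X : H →L[ℂ] H, rot X α - 1 = ((Real.cos α - 1 : ℝ) : ℂ) • (1 : H →L[ℂ] H) +
      (-(Complex.I * ((Real.sin α : ℝ) : ℂ))) • X := by
    intro X
    rw [rot, Complex.ofReal_sub, sub_smul, neg_smul, Complex.ofReal_one, one_smul]
    abel
  rw [e, e]
  refine (((D2G.axis m.isAxis_one hε).smul _).add (h.smul _)).mono hε ?_ le_rfl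
  have h1 : |Real.cos α - 1| ≤ |α| := by
    simpa using Real.abs_cos_sub_cos_le α 0
  have h2 : |Real.sin α| ≤ |α| := Real.abs_sin_le_abs
  rw [norm_neg, norm_mul, Complex.norm_I, one_mul, Complex.norm_real, Complex.norm_real,
    Real.norm_eq_abs, Real.norm_eq_abs]
  nlinarith [h.nonneg]

theorem D2G.conj_rot (h : m.D2G c ε A' A) (h' : m.D2G c' ε B' B) (hε : 0 ≤ ε) (hA' : star A' = A')
    (hA : star A = A) {α : ℝ} (hα : |α| ≤ 1) :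
    m.D2G (6 * c' * (2 + c) ^ 2 * |α|) ε (star (rot A' α) * B' * rot A' α - B')
      (star (rot A α) * B * rot A α - B) := by
  have e : ∀ X Y : H →L[ℂ] H, rot X (-α) * Y * rot X α - Y =
      (1 + (rot X (-α) - 1)) * Y * (rot X α - 1) + (rot X (-α) - 1) * Y := by
    intro X Y
    noncomm_ring
  rw [star_rot hA', star_rot hA, e, e]
  have h1 := h.rot_sub hε α
  have h2 := h.rot_sub hε (-α)
  rw [abs_neg] at h2
  have hc := h.nonneg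
  have hc' := h'.nonneg
  have h3 : m.D2G (2 + c) ε (1 + (rot A' (-α) - 1)) (1 + (rot A (-α) - 1)) :=
    ((D2G.axis m.isAxis_one hε).add h2).mono hε (by nlinarith) le_rfl
  refine (((h3.mul h' hε).mul h1 hε).add (h2.mul h' hε)).mono hε ?_ le_rfl
  have h4 : 0 ≤ c' * |α| := by positivity
  have h5 : 0 ≤ c' * |α| * c := by positivity
  have h6 : 0 ≤ c' * |α| * c ^ 2 := by positivity
  nlinarith

theorem D2G.heis (h : m.D2G c ε A' A) {U E : H →L[ℂ] H} (hU : m.Fib U) (hE : m.Fib E) {ζ Λ : ℝ}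
    (hζ : 0 ≤ ζ) (hζε : ζ ≤ ε) (hn : m.Near1 ζ E) {F : Set (Lab K)} (hF : MeasurableSet F)
    (hΛ : m.NB Λ (m.P F (U m.vac))) :
    ‖m.j (m.P F (m.heis (E * U) A')) - m.j (m.P F (m.heis U A))‖ ≤ 3 * c * (ε * Λ) := by
  have hc := h.nonneg
  have hΛ0 := hΛ.nonneg
  have hP : ∀ X : H →L[ℂ] H, m.Cen X → ∀ v, (m.P F * X) v = X (m.P F v) := by
    intro X hX v
    rw [← (hX.commute_P hF).eq]
    rfl
  rw [← map_sub, LinearIsometry.norm_map, (hE.mul hU).P_heis hF, hU.P_heis hF]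
  have h1 := hU.heis_stab hE (m.P F * A')
  have h2 : ‖m.heis U (m.P F * A') - m.heis U (m.P F * A)‖ ≤ c * ε * Λ := by
    rw [← heis_sub, hU.norm_heis, ContinuousLinearMap.sub_apply, hP _ h.cen', hP _ h.cen]
    exact h.cl _ _ hΛ
  have h3 : m.P F (E (U m.vac)) = E (m.P F (U m.vac)) := hP E hE.2 _
  rw [hP _ h.cen', hP _ h.cen', h3, ← map_sub] at h1
  have h4 : ‖A' (E (m.P F (U m.vac)) - m.P F (U m.vac))‖ ≤ c * (ζ * Λ) :=
    (A'.le_opNorm _).trans (mul_le_mul h.norm (hn _ _ hΛ) (norm_nonneg _) hc)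
  have h5 := hn _ _ (h.tame' _ _ hΛ)
  have h6 : c * (ζ * Λ) ≤ c * (ε * Λ) := by gcongr
  have h7 := norm_sub_le_norm_sub_add_norm_sub (m.heis (E * U) (m.P F * A'))
    (m.heis U (m.P F * A')) (m.heis U (m.P F * A))
  nlinarith

theorem D2_norm_bb {M k : ℕ} (ds : DSet K M k) {U : H →L[ℂ] H} (hU : m.Fib U) (l : Fin k) :
    ‖m.bb ds l U‖ ≤ 1 := by
  have := (loc_bb ds hU l).norm_le ds zero_le_one
  linarith [ds.hη0, ds.hη1]

theorem D2_smul {t : ℝ} (ht : |t| ≤ 1) (u : KK) : ‖t • u‖ ≤ ‖u‖ := by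
  rw [norm_smul, Real.norm_eq_abs]
  exact mul_le_of_le_one_left (norm_nonneg _) ht

end D2G

/-- freezing the parameters (`heis_stab` with `P F * A`, `Tame`, `NB.norm_D_sub`) -/
theorem freeze : ∃ C, 0 ≤ C ∧ ∀ {M k : ℕ} (ds : DSet K M k) (s δ : ℝ) (p : PIdx k) (U E : H →L[ℂ] H)
    (ζ Λ : ℝ), |s| ≤ 1 → |δ| ≤ 1 → m.Fib U → m.Fib E → 0 ≤ ζ → m.Near1 ζ E → 1 ≤ Λ → m.Ap ds Λ U →
    m.yS ds (E * U) = m.yS ds U →
    ‖m.a1 ds (E * U) - m.a1 ds U‖ ≤ C * ζ * Λ ^ 3 ∧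
    ‖m.bb ds p.1 (E * U) - m.bb ds p.1 U‖ ≤ C * ζ * Λ ^ 3 ∧
    ‖m.yy ds s p (E * U) - m.yy ds s p U‖ ≤ C * ζ * Λ ^ 3 ∧
    ‖m.dg ds s δ p (E * U) - m.dg ds s δ p U‖ ≤ C * |δ| * ζ * Λ ^ 3 ∧
    ‖m.db ds s δ p (E * U) - m.db ds s δ p U‖ ≤ C * |δ| * ζ * Λ ^ 3 ∧
    ∀ lam ψ, m.NB lam ψ →
      ‖m.AT ds s p (E * U) ψ - m.AT ds s p U ψ‖ ≤ C * ζ * Λ ^ 3 * lam := by
  refine ⟨10 ^ 30, by positivity, ?_⟩
  intro M k ds s δ p U E ζ Λ hs hδ hU hE hζ hn hΛ hAp hyS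
  have hU' := hE.mul hU
  have hΛ0 : 0 ≤ Λ := by linarith
  have hT : m.NB Λ (m.P (ds.T p.1) (U m.vac)) := (hAp.1 p.1).mono
    (mul_le_of_le_one_right hΛ0 (by linarith [ds.hη p.1, ds.hη0, ds.hη1]))
  have hM := hAp.2
  have e1 : 0 ≤ ζ * Λ := by positivity
  have e2 : 0 ≤ ζ * Λ * Λ := by positivity
  have e3 : 0 ≤ ζ * Λ * Λ * Λ := by positivity
  have l1 : ζ ≤ ζ * Λ := le_mul_of_one_le_right hζ hΛ
  have l2 : ζ * Λ ≤ ζ * Λ * Λ := le_mul_of_one_le_right e1 hΛ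
  have l3 : ζ * Λ * Λ ≤ ζ * Λ * Λ * Λ := le_mul_of_one_le_right e2 hΛ
  have ha1 : ‖m.a1 ds (E * U) - m.a1 ds U‖ ≤ 3 * (ζ * Λ) := by
    exact ((D2G.axis m.isAxis_Y hζ).heis hU hE hζ le_rfl hn ds.hMd.1 hM).trans
      (le_of_eq (by rw [mul_one]))
  have hbb : ‖m.bb ds p.1 (E * U) - m.bb ds p.1 U‖ ≤ 3 * (ζ * Λ) := by
    exact ((D2G.axis m.isAxis_Z hζ).heis hU hE hζ le_rfl hn (ds.hT p.1).1 hT).trans
      (le_of_eq (by rw [mul_one]))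
  have he1 := (abs_e1 p).le
  have ha2 : ‖m.a2 ds p (E * U) - m.a2 ds p U‖ ≤ 2700 * (ζ * Λ * Λ) := by
    have h := (D2G.conjD m.isAxis_Y (m.R.smul_mem p.e1 (bb_mem ds hU' p.1))
      (m.R.smul_mem p.e1 (bb_mem ds hU p.1)) ((D2_smul he1 _).trans (D2_norm_bb ds hU' _))
      ((D2_smul he1 _).trans (D2_norm_bb ds hU _)) (b := 3) (by norm_num) e1
      (by rw [← smul_sub]; exact (D2_smul he1 _).trans hbb)
      (D2G.axis m.isAxis_X.sg e1)).heis hU hE hζ l1 hn ds.hMd.1 hM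
    exact h.trans (le_of_eq (by norm_num))
  have hyy : ‖m.yy ds s p (E * U) - m.yy ds s p U‖ ≤ 2700 * (ζ * Λ * Λ) := by
    rw [yy, yy, hyS, ← smul_sub, add_sub_add_right_eq_sub, ← smul_sub]
    refine (D2_smul ?_ _).trans ((D2_smul he1 _).trans ha2)
    rw [abs_div, abs_mul, abs_e2, abs_two]
    linarith
  have hG1T : ∀ {c : ℝ} {A' A : H →L[ℂ] H}, m.D2G c (ζ * Λ * Λ) A' A →
      m.D2G (900 * c) (ζ * Λ * Λ) (star (m.G1T ds p (E * U)) * A' * m.G1T ds p (E * U))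
        (star (m.G1T ds p U) * A * m.G1T ds p U) := by
    intro c A' A hA
    refine (D2G.conjD m.isAxis_Z (m.R.smul_mem p.e1 (a1_mem ds hU'))
      (m.R.smul_mem p.e1 (a1_mem ds hU)) ((D2_smul he1 _).trans (norm_a1_le ds hU'))
      ((D2_smul he1 _).trans (norm_a1_le ds hU)) (b := 3) (by norm_num) e2
      (by rw [← smul_sub]; exact ((D2_smul he1 _).trans ha1).trans (by linarith)) hA).mono e2
      (le_of_eq (by norm_num)) le_rfl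
  have hAT : m.D2G (10 ^ 12) (ζ * Λ * Λ) (m.AT ds s p (E * U)) (m.AT ds s p U) :=
    (hG1T (D2G.conjD m.isAxis_Y (yy_mem ds s p hU') (yy_mem ds s p hU)
      ((norm_yy_le ds s p hU').trans hs) ((norm_yy_le ds s p hU).trans hs) (b := 2700)
      (by norm_num) e2 hyy (D2G.axis m.isAxis_Z.sg e2))).mono e2 (by norm_num) le_rfl
  have hYf : m.D2G (900 * 1) (ζ * Λ * Λ) (m.Yf ds p (E * U)) (m.Yf ds p U) :=
    hG1T (D2G.axis m.isAxis_Y e2)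
  have hα : |p.e3 * δ| = |δ| := by rw [abs_mul, abs_e3, one_mul]
  have hδ0 := abs_nonneg δ
  have e4 : 0 ≤ |δ| * (ζ * Λ * Λ * Λ) := by positivity
  have hdg := (hAT.conj_rot hYf e2 (AT_star ds s p hU') (AT_star ds s p hU)
    (hα.le.trans hδ)).heis hU hE hζ (l1.trans l2) hn (ds.hT p.1).1 hT
  have hdb := (hAT.conj_rot (D2G.axis m.isAxis_Z e2) e2 (AT_star ds s p hU') (AT_star ds s p hU)
    (hα.le.trans hδ)).heis hU hE hζ (l1.trans l2) hn (ds.hT p.1).1 hT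
  rw [hα] at hdg hdb
  have q3 : ∀ C : ℝ, C * ζ * Λ ^ 3 = C * (ζ * Λ * Λ * Λ) := fun C => by ring
  simp only [q3]
  refine ⟨by linarith, by linarith, by linarith, hdg.trans ?_, ?_, fun lam ψ hψ => ?_⟩
  · nlinarith
  · rw [db, db, ← smul_sub]
    refine (D2_smul (by rwa [abs_neg]) _).trans (hdb.trans ?_)
    nlinarith
  · refine (hAT.cl lam ψ hψ).trans (mul_le_mul_of_nonneg_right ?_ hψ.nonneg)
    linarith

/-- the frozen form used in the block estimates -/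
theorem freeze_Up : ∃ C, 0 ≤ C ∧ ∀ {M k : ℕ} (ds : DSet K M k) (s δ : ℝ) (p : PIdx k) (U : H →L[ℂ] H)
    (Λ : ℝ), |s| ≤ 1 → 400 * |δ| ≤ 1 → m.Fib U → 1 ≤ Λ → m.Ap ds Λ U →
    ‖m.bb ds p.1 (m.Up ds s δ p U) - m.bb ds p.1 U‖ ≤ C * k * |δ| * Λ ^ 4 ∧
    ‖m.bM ds s δ p (m.Up ds s δ p U) - m.bM ds s δ p U‖ ≤ C * k * δ ^ 2 * Λ ^ 4 ∧
    ‖m.bS ds s δ p (m.Up ds s δ p U) - m.bS ds s δ p U‖ ≤ C * k * δ ^ 2 * Λ ^ 4 ∧
    ‖m.db ds s δ p (m.Up ds s δ p U) - m.db ds s δ p U‖ ≤ C * k * δ ^ 2 * Λ ^ 4 ∧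
    ‖m.da ds s δ p (m.Up ds s δ p U)‖ ≤ C * |δ| * ds.η * Λ ∧
    ∀ lam ψ, m.NB lam ψ → ‖m.ET ds s δ p (m.Up ds s δ p U) ψ - m.ET ds s δ p U ψ‖ ≤
      C * k * δ ^ 2 * Λ ^ 4 * lam := by
  obtain ⟨C, hC, h⟩ := m.freeze
  refine ⟨288 * C + 24, by positivity, ?_⟩
  intro M k ds s δ p U Λ hs hδ hU hΛ hAp
  obtain ⟨hAp', E, hE, hEq, hn, hyS⟩ := Up_close ds s δ p hU hs hδ hΛ hAp
  have hδ0 := abs_nonneg δ
  have hΛ0 : 0 ≤ Λ := by linarith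
  obtain ⟨-, h2, -, h4, h5, h6⟩ := h ds s δ p U E _ Λ hs (by linarith) hU hE (by positivity) hn hΛ
    hAp hyS
  have hda := norm_da_le ds s δ p (fib_Up ds s δ p hU) hs hAp'.2
  rw [← hEq] at h2 h4 h5 h6
  have e1 : 0 ≤ k * |δ| * Λ ^ 4 := by positivity
  have e2 : 0 ≤ k * δ ^ 2 * Λ ^ 4 := by positivity
  have q : C * |δ| * (288 * k * |δ| * Λ) * Λ ^ 3 ≤ (288 * C + 24) * k * δ ^ 2 * Λ ^ 4 := by
    have : C * |δ| * (288 * k * |δ| * Λ) * Λ ^ 3 = 288 * C * (k * |δ| ^ 2 * Λ ^ 4) := by ring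
    rw [this, sq_abs]
    nlinarith
  refine ⟨h2.trans (by nlinarith), ?_, ?_, h5.trans q, hda.trans ?_, fun lam ψ hψ => ?_⟩
  · rw [bM, bM, ← smul_sub]
    refine (D2_smul ?_ _).trans (h4.trans q)
    rw [abs_neg, abs_div, abs_mul, abs_mul, abs_e1, abs_e2, abs_two]
    linarith
  · rw [bS, bS, ← smul_sub]
    refine (D2_smul ?_ _).trans (h4.trans q)
    rw [abs_neg, abs_div, abs_mul, abs_mul, abs_e2, abs_e3, abs_two]
    linarith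
  · have : 0 ≤ C * (|δ| * ds.η * Λ) := by have := ds.hη0; positivity
    nlinarith
  · rw [← ContinuousLinearMap.sub_apply, ET, ET, rot_sub_rot_axis, ContinuousLinearMap.neg_apply,
      norm_neg, ContinuousLinearMap.smul_apply, norm_smul, norm_mul, Complex.norm_I, one_mul,
      Complex.norm_real, Real.norm_eq_abs, ContinuousLinearMap.sub_apply]
    have h7 : |Real.sin (p.e3 * δ)| ≤ |δ| := by
      have := Real.abs_sin_le_abs (x := p.e3 * δ)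
      rwa [abs_mul, abs_e3, one_mul] at this
    refine (mul_le_mul h7 (h6 lam ψ hψ) (norm_nonneg _) hδ0).trans ?_
    refine le_trans (le_of_eq ?_) (mul_le_mul_of_nonneg_right q hψ.nonneg)
    ring

end Model

end Crest.Agent.R339
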