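import Crest.Agent.R339.Q.DAlg
import Crest.Agent.R339.Q.D2
import Crest.Agent.R339.Q.Coh4

/-!
# Row 339, part Q: identity hubs: the mediator block
-/

set_option autoImplicit false

namespace Crest.Agent.R339

open MeasureTheory ProbabilityTheory Filter Topology Crest.MathPhysics.SpinGlass
open scoped InnerProductSpace ComplexConjugate

namespace Model

variable {K : ℕ} {I : Iamp K} {H KK : Type} [NormedAddCommGroup H] [InnerProductSpace ℂ H]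
  [CompleteSpace H] [NormedAddCommGroup KK] [InnerProductSpace ℂ KK] (m : Model I H KK)

variable {M k : ℕ}

/-- first order generator of one pulse on the mediators -/
noncomputable def HM (ds : DSet K M k) (s δ : ℝ) (p : PIdx k) (U : H →L[ℂ] H) : H →L[ℂ] H :=
  m.Y * m.sinW (m.db ds s δ p U) +
    star (m.G1M ds p U) * (m.Sg * m.X * m.sinW (m.bM ds s δ p U)) * m.G1M ds p U

theorem h22_mcop_prod {κ ρ₁ : ℝ} (L : List (H →L[ℂ] H)) (h : ∀ A ∈ L, m.MCop κ ρ₁ A) :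
    m.MCop (κ ^ L.length) (L.length * ρ₁) L.prod := by
  induction L with
  | nil => simpa using m.mcop_one
  | cons A L ih =>
    have h1 := (h A List.mem_cons_self).mul (ih fun B hB => h B (List.mem_cons_of_mem _ hB))
    rw [List.prod_cons, List.length_cons]
    refine h1.mono (le_of_eq ?_) (le_of_eq ?_)
    · rw [pow_succ']
    · push_cast; ring

/-- telescoping on coherent vectors -/
theorem prod_compare_mc {κ ρ₁ a r : ℝ} (Es : List ((H →L[ℂ] H) × (H →L[ℂ] H))) (hκ : 1 ≤ κ) (hρ : 0 ≤ ρ₁)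
    (ha : 0 ≤ a) (h1 : ∀ p ∈ Es, ‖p.1‖ ≤ 1 ∧ m.Cen p.1 ∧ m.Cen p.2 ∧ m.MCop κ ρ₁ p.2)
    (h2 : ∀ p ∈ Es, ∀ b, ∀ z ∈ m.R, ‖z‖ ≤ r + Es.length * ρ₁ → ‖p.1 (m.coh b z) - p.2 (m.coh b z)‖ ≤ a)
    (b : Bool) {z : KK} (hz : z ∈ m.R) (hr : ‖z‖ ≤ r) :
    ‖(Es.map Prod.fst).prod (m.coh b z) - (Es.map Prod.snd).prod (m.coh b z)‖ ≤
      Es.length * κ ^ Es.length * a := by
  induction Es with
  | nil => simp
  | cons p Es ih =>
    have hp := h1 p List.mem_cons_self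
    have hlen : r + (Es.length : ℝ) * ρ₁ ≤ r + ((p :: Es).length : ℝ) * ρ₁ := by
      rw [List.length_cons]; push_cast; nlinarith
    have ih' := ih (fun q hq => h1 q (List.mem_cons_of_mem _ hq))
      (fun q hq b z hz hz' => h2 q (List.mem_cons_of_mem _ hq) b z hz (hz'.trans hlen))
    have hop : m.MCop (κ ^ Es.length) (Es.length * ρ₁) (Es.map Prod.snd).prod := by
      have := m.h22_mcop_prod (κ := κ) (ρ₁ := ρ₁) (Es.map Prod.snd) (by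
        intro A hA
        obtain ⟨q, hq, rfl⟩ := List.mem_map.1 hA
        exact (h1 q (List.mem_cons_of_mem _ hq)).2.2.2)
      simpa using this
    have hmc := hop r 1 (m.coh b z) (MC.coh b hz (by simpa using hr))
    have herr : m.ErrLe (Metric.closedBall 0 (r + Es.length * ρ₁)) p.1 p.2 a := by
      intro b' z' hz' hS
      exact h2 p List.mem_cons_self b' z' hz' (le_trans (by simpa using hS) hlen)
    have h3 := herr.mc ha hp.2.1 hp.2.2.1 hmc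
    simp only [List.map_cons, List.prod_cons, List.length_cons, ContinuousLinearMap.mul_apply]
    set x := (Es.map Prod.fst).prod (m.coh b z)
    set y := (Es.map Prod.snd).prod (m.coh b z)
    have e : p.1 x - p.2 y = p.1 (x - y) + (p.1 y - p.2 y) := by rw [map_sub]; abel
    have h4 : ‖p.1 (x - y)‖ ≤ ‖x - y‖ := by
      calc ‖p.1 (x - y)‖ ≤ ‖p.1‖ * ‖x - y‖ := p.1.le_opNorm _
        _ ≤ 1 * ‖x - y‖ := by gcongr; exact hp.1
        _ = _ := one_mul _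
    have hk : 0 ≤ κ ^ Es.length := by positivity
    have hk' : κ ^ Es.length ≤ κ ^ (Es.length + 1) := pow_le_pow_right₀ hκ (Nat.le_succ _)
    rw [e]
    calc ‖p.1 (x - y) + (p.1 y - p.2 y)‖ ≤ ‖p.1 (x - y)‖ + ‖p.1 y - p.2 y‖ := norm_add_le _ _
      _ ≤ Es.length * κ ^ Es.length * a + κ ^ Es.length * 1 * a := add_le_add (h4.trans ih') h3
      _ = ((Es.length + 1 : ℕ) : ℝ) * κ ^ Es.length * a := by push_cast; ring
      _ ≤ ((Es.length + 1 : ℕ) : ℝ) * κ ^ (Es.length + 1) * a := by gcongr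

variable {m} in
theorem h22_nb_D_sub {Q : H →L[ℂ] H} (hQ : m.IsAxis Q) (b : Bool) {y z : KK} (hy : y ∈ m.R) (hz : z ∈ m.R) :
    m.NB (20 * (1 + ‖z‖) ^ 2 * ‖y‖) ((m.D Q y - 1) (m.coh b z)) := by
  have h1 := m.nb_W_sub_coh b hy hz
  have h2 := m.nb_W_sub_coh b (neg_mem hy) hz
  have h3 := hQ.tame _ _ (m.nb_sinW_coh b hy hz)
  have h4 := ((h1.add h2).smul (1 / 2 : ℂ)).sub (h3.smul Complex.I)
  have e : (m.D Q y - 1) (m.coh b z) = (1 / 2 : ℂ) • ((m.W y - 1) (m.coh b z) + (m.W (-y) - 1) (m.coh b z))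
      - Complex.I • Q (m.sinW y (m.coh b z)) := by
    simp only [Model.D, Model.cosW, ContinuousLinearMap.sub_apply, ContinuousLinearMap.smul_apply,
      ContinuousLinearMap.add_apply, ContinuousLinearMap.one_apply, ContinuousLinearMap.mul_apply]
    module
  rw [e]
  refine h4.mono (le_of_eq ?_)
  simp only [norm_neg, Complex.norm_I, norm_div, norm_one, Complex.norm_ofNat]
  ring

variable {m} in
theorem h22_nb_D_diff {Q : H →L[ℂ] H} (hQ : m.IsAxis Q) (b : Bool) {v v' z : KK} (hv : v ∈ m.R)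
    (hv' : v' ∈ m.R) (hz : z ∈ m.R) (h1 : ‖v‖ ≤ 1) :
    m.NB (66 * (1 + ‖z‖) ^ 2 * ‖v' - v‖) (m.D Q v' (m.coh b z) - m.D Q v (m.coh b z)) := by
  have hd : v' - v ∈ m.R := sub_mem hv' hv
  have hm := hQ.D_mul hv hd
  rw [add_sub_cancel] at hm
  set c : ℂ := Complex.exp (-(Complex.I * ((-om v (v' - v) : ℝ) : ℂ))) with hc
  have hcc : c * Complex.exp (-(Complex.I * (om v (v' - v) : ℂ))) = 1 := by
    rw [hc, ← Complex.exp_add]; push_cast; ring_nf; exact Complex.exp_zero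
  have hD : m.D Q v' = c • (m.D Q v * m.D Q (v' - v)) := by
    rw [hm, smul_smul, hcc, one_smul]
  have hc1 : ‖c‖ = 1 := coh1_norm_expI _
  have hc2 : ‖c - 1‖ ≤ ‖v' - v‖ := by
    refine (coh1_norm_expI_sub _).trans ?_
    rw [abs_neg]
    refine (abs_om_le _ _).trans ?_
    nlinarith [norm_nonneg (v' - v)]
  have e : m.D Q v' (m.coh b z) - m.D Q v (m.coh b z) =
      m.D Q v (c • (m.D Q (v' - v) - 1) (m.coh b z) + (c - 1) • m.coh b z) := by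
    rw [hD]
    simp only [ContinuousLinearMap.sub_apply, ContinuousLinearMap.smul_apply,
      ContinuousLinearMap.one_apply, ContinuousLinearMap.mul_apply, map_add, map_smul, map_sub]
    module
  have h2 := ((h22_nb_D_sub hQ b hd hz).smul c).add ((m.nb_coh b hz).smul (c - 1))
  have h3 := hQ.tame_D hv _ _ h2
  rw [e]
  refine h3.mono ?_
  rw [hc1]
  have hz0 := norm_nonneg z
  have hd0 := norm_nonneg (v' - v)
  have h4 : ‖c - 1‖ * (1 + 2 * ‖z‖) ≤ ‖v' - v‖ * (2 * (1 + ‖z‖) ^ 2) := by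
    gcongr; nlinarith
  calc (1 + 2 * ‖v‖) * (1 * (20 * (1 + ‖z‖) ^ 2 * ‖v' - v‖) + ‖c - 1‖ * (1 + 2 * ‖z‖))
      ≤ (1 + 2 * 1) * (1 * (20 * (1 + ‖z‖) ^ 2 * ‖v' - v‖) + ‖v' - v‖ * (2 * (1 + ‖z‖) ^ 2)) := by
        gcongr
    _ = _ := by ring

theorem h22_mc_G (b : Bool) {v z : KK} (hv : v ∈ m.R) (hz : z ∈ m.R) (h1 : ‖v‖ ≤ 1) :
    m.MC (Metric.closedBall 0 (‖z‖ + 1)) 2 (m.D m.Y v (m.coh b z)) := by
  have := ((m.mcop_Y.D hv).mono le_rfl h1) ‖z‖ 1 (m.coh b z) (MC.coh b hz (by simp))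
  simpa using this

theorem h22_sq_shift {z w : KK} (hw : w ∈ Metric.closedBall (0 : KK) (‖z‖ + 1)) :
    (1 + ‖w‖) ^ 2 ≤ 4 * (1 + ‖z‖) ^ 2 := by
  have h : ‖w‖ ≤ ‖z‖ + 1 := by simpa using hw
  have := norm_nonneg w
  have := norm_nonneg z
  nlinarith

/-- dependence of the mediator gate on its parameters; the change of the frame `v` only matters at order `‖β‖`:
`G'†(D₂ - 1)G' - G†(D₂ - 1)G = (G'† - G†)(D₂ - 1)G' + G†(D₂ - 1)(G' - G)`, second order bounds of `Coh2` on `MC` vectors -/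
theorem NM_compare : ∃ C, 0 ≤ C ∧ ∀ (u u' β β' v v' z : KK) (b : Bool), u ∈ m.R → u' ∈ m.R → β ∈ m.R →
    β' ∈ m.R → v ∈ m.R → v' ∈ m.R → z ∈ m.R → ‖u‖ ≤ 1 → ‖β‖ ≤ 1 → ‖β'‖ ≤ 1 → ‖v‖ ≤ 1 → ‖v'‖ ≤ 1 →
    ‖(m.D m.Y u' * (star (m.D m.Y v') * m.D (m.Sg * m.X) β' * m.D m.Y v')) (m.coh b z)
      - (m.D m.Y u * (star (m.D m.Y v) * m.D (m.Sg * m.X) β * m.D m.Y v)) (m.coh b z)‖ ≤
      C * (1 + ‖z‖) ^ 2 * (‖u' - u‖ + ‖β' - β‖ + ‖v' - v‖ * ‖β‖) := by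
  refine ⟨800, by norm_num, ?_⟩
  intro u u' β β' v v' z b hu hu' hβ hβ' hv hv' hz nu nβ nβ' nv nv'
  have hY := m.isAxis_Y
  have hQ := m.isAxis_X.sg
  have hz0 := norm_nonneg z
  set ψ := m.coh b z with hψ
  set G := m.D m.Y v with hG
  set G' := m.D m.Y v' with hG'
  set D₂ := m.D (m.Sg * m.X) β with hD₂
  set D₂' := m.D (m.Sg * m.X) β' with hD₂'
  set A := m.D m.Y u with hA
  set A' := m.D m.Y u' with hA'
  have fG : m.Fib G := hY.fib_D hv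
  have fG' : m.Fib G' := hY.fib_D hv'
  have fA' : m.Fib A' := hY.fib_D hu'
  have fD₂ : m.Fib D₂ := hQ.fib_D hβ
  have hψn : m.NB (1 + 2 * ‖z‖) ψ := m.nb_coh b hz
  have tG : m.Tame 3 G := (hY.tame_D hv).mono (by linarith)
  have tG' : m.Tame 3 G' := (hY.tame_D hv').mono (by linarith)
  have tD₂ : m.Tame 3 D₂ := (hQ.tame_D hβ).mono (by linarith)
  have tGs : m.Tame 3 (star G) := by
    rw [hG, hY.star_D]
    exact (hY.tame_D (neg_mem hv)).mono (by rw [norm_neg]; linarith)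
  -- term 1
  have t1 : ‖D₂' (G' ψ) - D₂ (G' ψ)‖ ≤ 24 * (1 + ‖z‖) ^ 2 * ‖β' - β‖ := by
    refine ((tG' _ _ hψn).norm_D_sub hQ hβ' hβ).trans ?_
    have h0 := norm_nonneg (β' - β)
    calc 2 * (1 + ‖β'‖) * ‖β' - β‖ * (3 * (1 + 2 * ‖z‖))
        ≤ 2 * (1 + 1) * ‖β' - β‖ * (3 * (2 * (1 + ‖z‖) ^ 2)) := by gcongr; nlinarith
      _ = _ := by ring
  -- term 3
  have t3 : ‖A' (star G (D₂ (G ψ))) - A (star G (D₂ (G ψ)))‖ ≤ 216 * (1 + ‖z‖) ^ 2 * ‖u' - u‖ := by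
    rw [norm_sub_rev]
    refine ((tGs _ _ (tD₂ _ _ (tG _ _ hψn))).norm_D_sub hY hu hu').trans ?_
    rw [norm_sub_rev u u']
    have h0 := norm_nonneg (u' - u)
    calc 2 * (1 + ‖u‖) * ‖u' - u‖ * (3 * (3 * (3 * (1 + 2 * ‖z‖))))
        ≤ 2 * (1 + 1) * ‖u' - u‖ * (3 * (3 * (3 * (2 * (1 + ‖z‖) ^ 2)))) := by gcongr; nlinarith
      _ = _ := by ring
  -- term 2a
  have hβ0 := norm_nonneg β
  have hv0 := norm_nonneg (v' - v)
  have n2 : m.NB (2 * (80 * (1 + ‖z‖) ^ 2 * ‖β‖)) ((D₂ - 1) (G' ψ)) := by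
    refine (m.h22_mc_G b hv' hz nv').nb_apply (fD₂.2.sub (Cen.one m)) ?_ (by positivity)
    intro b' w hw hS
    refine (h22_nb_D_sub hQ b' hβ hw).mono ?_
    have := h22_sq_shift hS
    nlinarith
  have t2a : ‖star G' ((D₂ - 1) (G' ψ)) - star G ((D₂ - 1) (G' ψ))‖ ≤
      640 * (1 + ‖z‖) ^ 2 * (‖v' - v‖ * ‖β‖) := by
    rw [hG, hG', hY.star_D, hY.star_D]
    refine (n2.norm_D_sub hY (neg_mem hv') (neg_mem hv)).trans ?_
    have e : ‖-v' - -v‖ = ‖v' - v‖ := by rw [← norm_neg]; congr 1; abel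
    rw [e, norm_neg]
    calc 2 * (1 + ‖v'‖) * ‖v' - v‖ * (2 * (80 * (1 + ‖z‖) ^ 2 * ‖β‖))
        ≤ 2 * (1 + 1) * ‖v' - v‖ * (2 * (80 * (1 + ‖z‖) ^ 2 * ‖β‖)) := by gcongr
      _ = _ := by ring
  -- term 2b
  have t2b : ‖D₂ (G' ψ - G ψ) - (G' ψ - G ψ)‖ ≤ 132 * (1 + ‖z‖) ^ 2 * (‖v' - v‖ * ‖β‖) := by
    refine (hQ.near1_D hβ _ _ (h22_nb_D_diff hY b hv hv' hz nv)).trans (le_of_eq ?_)
    ring
  have hGG : star G (G ψ) = ψ := by
    rw [← ContinuousLinearMap.mul_apply, fG.star_mul_self]; rfl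
  have hGG' : star G' (G' ψ) = ψ := by
    rw [← ContinuousLinearMap.mul_apply, fG'.star_mul_self]; rfl
  have e : (A' * (star G' * D₂' * G')) ψ - (A * (star G * D₂ * G)) ψ =
      A' (star G' (D₂' (G' ψ) - D₂ (G' ψ)))
      + A' (star G' ((D₂ - 1) (G' ψ)) - star G ((D₂ - 1) (G' ψ)))
      + A' (star G (D₂ (G' ψ - G ψ) - (G' ψ - G ψ)))
      + (A' (star G (D₂ (G ψ))) - A (star G (D₂ (G ψ)))) := by
    simp only [ContinuousLinearMap.mul_apply, ContinuousLinearMap.sub_apply,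
      ContinuousLinearMap.one_apply, map_sub, hGG, hGG']
    abel
  rw [e]
  have hu0 := norm_nonneg (u' - u)
  have hb0 := norm_nonneg (β' - β)
  have hP : 0 ≤ (1 + ‖z‖) ^ 2 := by positivity
  calc _ ≤ ‖A' (star G' (D₂' (G' ψ) - D₂ (G' ψ)))‖
      + ‖A' (star G' ((D₂ - 1) (G' ψ)) - star G ((D₂ - 1) (G' ψ)))‖
      + ‖A' (star G (D₂ (G' ψ - G ψ) - (G' ψ - G ψ)))‖
      + ‖A' (star G (D₂ (G ψ))) - A (star G (D₂ (G ψ)))‖ :=
        (norm_add_le _ _).trans (add_le_add_left norm_add₃_le _)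
    _ ≤ 24 * (1 + ‖z‖) ^ 2 * ‖β' - β‖ + 640 * (1 + ‖z‖) ^ 2 * (‖v' - v‖ * ‖β‖)
        + 132 * (1 + ‖z‖) ^ 2 * (‖v' - v‖ * ‖β‖) + 216 * (1 + ‖z‖) ^ 2 * ‖u' - u‖ := by
        rw [fA'.norm_apply, fA'.norm_apply, fA'.norm_apply, fG'.star.norm_apply, fG.star.norm_apply]
        linarith
    _ ≤ _ := by
        have h1 := mul_nonneg hP hu0
        have h2 := mul_nonneg hP hb0
        have h3 := mul_nonneg hP (mul_nonneg hv0 hβ0)
        nlinarith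

theorem h22_lin (b : Bool) {u β v z : KK} {t : ℝ} (hu : u ∈ m.R) (hβ : β ∈ m.R) (hv : v ∈ m.R)
    (hz : z ∈ m.R) (nu : ‖u‖ ≤ t) (nβ : ‖β‖ ≤ t) (nv : ‖v‖ ≤ 1) :
    ‖(m.D m.Y u * (star (m.D m.Y v) * m.D (m.Sg * m.X) β * m.D m.Y v)) (m.coh b z) - m.coh b z
      - (-Complex.I) • (m.Y * m.sinW u +
        star (m.D m.Y v) * (m.Sg * m.X * m.sinW β) * m.D m.Y v) (m.coh b z)‖ ≤
      525 * (1 + ‖z‖) ^ 2 * t ^ 2 ∧
    m.NB (250 * (1 + ‖z‖) ^ 2 * t) ((-Complex.I) • (m.Y * m.sinW u +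
        star (m.D m.Y v) * (m.Sg * m.X * m.sinW β) * m.D m.Y v) (m.coh b z)) := by
  have hY := m.isAxis_Y
  have hQ := m.isAxis_X.sg
  have hz0 := norm_nonneg z
  have hu0 := norm_nonneg u
  have hβ0 := norm_nonneg β
  have ht : 0 ≤ t := hu0.trans nu
  have hP : 0 ≤ (1 + ‖z‖) ^ 2 := by positivity
  set ψ := m.coh b z with hψ
  set G := m.D m.Y v with hG
  set D₂ := m.D (m.Sg * m.X) β with hD₂
  set A := m.D m.Y u with hA
  have fG : m.Fib G := hY.fib_D hv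
  have fA : m.Fib A := hY.fib_D hu
  have fD₂ : m.Fib D₂ := hQ.fib_D hβ
  have tGs : m.Tame 3 (star G) := by
    rw [hG, hY.star_D]
    exact (hY.tame_D (neg_mem hv)).mono (by rw [norm_neg]; linarith)
  have hmc : m.MC (Metric.closedBall 0 (‖z‖ + 1)) 2 (G ψ) := m.h22_mc_G b hv hz nv
  have n1 : m.NB (2 * (40 * (1 + ‖z‖) ^ 2 * t)) (m.sinW β (G ψ)) := by
    refine hmc.nb_apply (m.cen_sinW β) ?_ (by positivity)
    intro b' w hw hS
    refine (m.nb_sinW_coh b' hβ hw).mono ?_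
    have := h22_sq_shift hS
    calc 10 * (1 + ‖w‖) ^ 2 * ‖β‖ ≤ 10 * (4 * (1 + ‖z‖) ^ 2) * t := by gcongr
      _ = _ := by ring
  set φ := star G ((m.Sg * m.X) (m.sinW β (G ψ))) with hφ
  have n2 : m.NB (240 * (1 + ‖z‖) ^ 2 * t) φ :=
    (tGs _ _ (hQ.tame _ _ n1)).mono (le_of_eq (by ring))
  have n3 : m.NB (10 * (1 + ‖z‖) ^ 2 * t) (m.Y (m.sinW u ψ)) := by
    refine (hY.tame _ _ (m.nb_sinW_coh b hu hz)).mono ?_
    rw [one_mul]; gcongr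
  have eH : (m.Y * m.sinW u + star G * (m.Sg * m.X * m.sinW β) * G) ψ = m.Y (m.sinW u ψ) + φ := rfl
  refine ⟨?_, ?_⟩
  · have t1 : ‖(D₂ - 1 + Complex.I • (m.Sg * m.X * m.sinW β)) (G ψ)‖ ≤ 2 * (20 * (1 + ‖z‖) ^ 2 * t ^ 2) := by
      refine hmc.bound ((fD₂.2.sub (Cen.one m)).add ((hQ.2.2.1.mul (m.cen_sinW β)).smul _)) ?_ (by positivity)
      intro b' w hw hS
      refine (m.norm_D_sub_lin_coh b' hβ hw).trans ?_
      have := h22_sq_shift hS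
      calc 5 * (1 + ‖w‖) ^ 2 * ‖β‖ ^ 2 ≤ 5 * (4 * (1 + ‖z‖) ^ 2) * t ^ 2 := by gcongr
        _ = _ := by ring
    have t2 : ‖(A - 1 + Complex.I • (m.Y * m.sinW u)) ψ‖ ≤ 5 * (1 + ‖z‖) ^ 2 * t ^ 2 := by
      refine (m.norm_D_sub_lin_coh b hu hz).trans ?_
      gcongr
    have t3 : ‖A φ - φ‖ ≤ 480 * (1 + ‖z‖) ^ 2 * t ^ 2 := by
      refine (hY.near1_D hu _ _ n2).trans ?_
      calc 2 * ‖u‖ * (240 * (1 + ‖z‖) ^ 2 * t) ≤ 2 * t * (240 * (1 + ‖z‖) ^ 2 * t) := by gcongr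
        _ = _ := by ring
    have hGG : star G (G ψ) = ψ := by
      rw [← ContinuousLinearMap.mul_apply, fG.star_mul_self]; rfl
    have e : (A * (star G * D₂ * G)) ψ - ψ - (-Complex.I) • (m.Y (m.sinW u ψ) + φ) =
        A (star G ((D₂ - 1 + Complex.I • (m.Sg * m.X * m.sinW β)) (G ψ)))
        + (A - 1 + Complex.I • (m.Y * m.sinW u)) ψ + (-Complex.I) • (A φ - φ) := by
      simp only [hφ, ContinuousLinearMap.mul_apply, ContinuousLinearMap.sub_apply,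
        ContinuousLinearMap.add_apply, ContinuousLinearMap.smul_apply,
        ContinuousLinearMap.one_apply, map_sub, map_add, map_smul, hGG]
      module
    rw [eH, e]
    refine norm_add₃_le.trans ?_
    rw [fA.norm_apply, fG.star.norm_apply, norm_smul, norm_neg, Complex.norm_I, one_mul]
    linarith
  · rw [eH]
    refine ((n3.add n2).smul _).mono (le_of_eq ?_)
    rw [norm_neg, Complex.norm_I]; ring

variable {m} in
theorem h22_norms (ds : DSet K M k) {s : ℝ} (δ : ℝ) (p : PIdx k) {U : H →L[ℂ] H} (hU : m.Fib U) (hs : |s| ≤ 1) :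
    ‖m.db ds s δ p U‖ ≤ |δ| ∧ ‖m.bM ds s δ p U‖ ≤ |δ| * ds.η ∧ ‖p.e1 • m.bb ds p.1 U‖ ≤ ds.η := by
  have h0 := ds.hη0
  have h1 := ds.hη1
  have hδ := abs_nonneg δ
  refine ⟨?_, ?_, ?_⟩
  · refine ((loc_db ds s δ p hU).norm_le ds (by positivity)).trans ?_
    nlinarith
  · refine ((loc_bM ds s δ p hU).norm_le ds (by positivity)).trans ?_
    have : |s| * |δ| ≤ |δ| := by nlinarith
    gcongr
  · rw [norm_smul, Real.norm_eq_abs, abs_e1, one_mul]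
    simpa using (loc_bb ds hU p.1).norm_le ds zero_le_one

/-- freeze (`prod_compare_mc`, `NM_compare`, `freeze_Up`), then expand (`prod_expand`, `near1_NM`) -/
theorem block_M1 : ∀ k : ℕ, ∃ C, 0 ≤ C ∧ ∀ {M : ℕ} (ds : DSet K M k) (s δ : ℝ) (U : H →L[ℂ] H) (Λ r : ℝ)
    (z : KK) (b : Bool), |s| ≤ 1 → 400 * |δ| ≤ 1 → m.Fib U → 1 ≤ Λ → m.Ap ds Λ U → z ∈ m.R → ‖z‖ ≤ r →
    ‖(rot (m.Sg * m.Z) (-m.mu ds s δ U) *
        ((allP k).reverse.map fun q => m.NM ds s δ q (m.Up ds s δ q U)).prod) (m.coh b z) - m.coh b z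
      + Complex.I • ((∑ p : PIdx k, m.HM ds s δ p U) (m.coh b z)
        - (m.mu ds s δ U : ℂ) • (m.Sg * m.Z) (m.coh b z))‖ ≤ C * (1 + r) ^ 2 * δ ^ 2 * Λ ^ 4 := by
  intro k
  obtain ⟨C1, hC1, H1⟩ := m.NM_compare
  obtain ⟨Cf, hCf, Hf⟩ := m.freeze_Up
  refine ⟨(8 * k) * 16 ^ (8 * k) * (3 * C1 * Cf * k * (1 + (8 * k) * 4) ^ 2)
    + (8 * k) * (525 + (8 * k) * 1000) + 256 + 16 * (8 * k) * 250, by positivity, ?_⟩
  intro M ds s δ U Λ r z b hs hδ hU hΛ hAp hz hr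
  have hr0 : 0 ≤ r := (norm_nonneg z).trans hr
  have hδ0 := abs_nonneg δ
  have hδ1 : |δ| ≤ 1 := by linarith
  have hη0 := ds.hη0
  have hη1 := ds.hη1
  have hΛ4 : 1 ≤ Λ ^ 4 := one_le_pow₀ hΛ
  have hY := m.isAxis_Y
  have hQ := m.isAxis_X.sg
  have hQZ := m.isAxis_Z.sg
  have hlen : ((allP k).reverse.length : ℝ) = 8 * k := by
    rw [List.length_reverse, length_allP]; push_cast; ring
  have hlen' : (allP k).reverse.length = 8 * k := by rw [List.length_reverse, length_allP]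
  have hn : ∀ (q : PIdx k) {V : H →L[ℂ] H}, m.Fib V → ‖m.db ds s δ q V‖ ≤ |δ| ∧ ‖m.bM ds s δ q V‖ ≤ |δ| ∧
      ‖q.e1 • m.bb ds q.1 V‖ ≤ 1 := by
    intro q V hV
    obtain ⟨a1, a2, a3⟩ := h22_norms ds δ q hV hs
    exact ⟨a1, a2.trans (by nlinarith), a3.trans (by linarith)⟩
  have hvm : ∀ (q : PIdx k) {V : H →L[ℂ] H}, m.Fib V → q.e1 • m.bb ds q.1 V ∈ m.R :=
    fun q V hV => m.R.smul_mem _ (bb_mem ds hV q.1)
  set ψ := m.coh b z with hψ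
  have hψ1 : ‖ψ‖ = 1 := m.norm_coh b hz
  -- freezing
  have hA := m.prod_compare_mc (κ := 16) (ρ₁ := 4)
    (a := 3 * C1 * Cf * k * (1 + (8 * k) * 4) ^ 2 * ((1 + r) ^ 2 * δ ^ 2 * Λ ^ 4)) (r := r)
    ((allP k).reverse.map fun q => (m.NM ds s δ q (m.Up ds s δ q U), m.NM ds s δ q U))
    (by norm_num) (by norm_num) (by positivity) (by
      intro p hp
      obtain ⟨q, -, rfl⟩ := List.mem_map.1 hp
      have f1 := fib_NM ds s δ q (fib_Up ds s δ q hU)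
      have f2 := fib_NM ds s δ q hU
      refine ⟨f1.norm_le, f1.2, f2.2, ?_⟩
      obtain ⟨a1, a2, a3⟩ := hn q hU
      have m1 := m.mcop_Y.D (db_mem ds s δ q hU)
      have m2 := m.mcop_Y.D (hvm q hU)
      have m3 := m.mcop_Y.D (neg_mem (hvm q hU))
      have m4 : m.MCop 1 0 (m.Sg * m.X) := by simpa using m.mcop_Sg.mul m.mcop_X
      have m5 := m4.D (bM_mem ds s δ q hU)
      have m6 := m1.mul ((m3.mul m5).mul m2)
      rw [← hY.star_D] at m6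
      refine m6.mono (by norm_num) ?_
      rw [norm_neg]; linarith) (by
      intro p hp b' w hw hw'
      obtain ⟨q, -, rfl⟩ := List.mem_map.1 hp
      rw [List.length_map, hlen] at hw'
      have fU := fib_Up ds s δ q hU
      obtain ⟨a1, a2, a3⟩ := hn q hU
      obtain ⟨a1', a2', a3'⟩ := hn q fU
      obtain ⟨g1, g2, -, g4, -, -⟩ := Hf ds s δ q U Λ hs hδ hU hΛ hAp
      have h := H1 _ _ _ _ _ _ w b' (db_mem ds s δ q hU) (db_mem ds s δ q fU) (bM_mem ds s δ q hU)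
        (bM_mem ds s δ q fU) (hvm q hU) (hvm q fU) hw (a1.trans hδ1) (a2.trans hδ1) (a2'.trans hδ1) a3 a3'
      refine h.trans ?_
      have g5 : ‖q.e1 • m.bb ds q.1 (m.Up ds s δ q U) - q.e1 • m.bb ds q.1 U‖ * ‖m.bM ds s δ q U‖ ≤
          Cf * k * δ ^ 2 * Λ ^ 4 := by
        rw [← smul_sub, norm_smul, Real.norm_eq_abs, abs_e1, one_mul]
        calc _ ≤ (Cf * k * |δ| * Λ ^ 4) * |δ| := by gcongr
          _ = Cf * k * |δ| ^ 2 * Λ ^ 4 := by ring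
          _ = _ := by rw [sq_abs]
      have g6 : (1 + ‖w‖) ^ 2 ≤ ((1 + (8 * k) * 4) * (1 + r)) ^ 2 := by
        have hk : (0 : ℝ) ≤ k := Nat.cast_nonneg k
        have := mul_nonneg hk hr0
        gcongr; nlinarith
      calc _ ≤ C1 * ((1 + (8 * k) * 4) * (1 + r)) ^ 2 * (Cf * k * δ ^ 2 * Λ ^ 4 + Cf * k * δ ^ 2 * Λ ^ 4
            + Cf * k * δ ^ 2 * Λ ^ 4) := by gcongr
        _ = _ := by ring) b hz hr
  rw [List.map_map, List.map_map, List.length_map, hlen, hlen'] at hA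
  -- expansion
  have hlin : ∀ q : PIdx k, ‖m.NM ds s δ q U ψ - ψ - (-Complex.I) • m.HM ds s δ q U ψ‖ ≤
      525 * (1 + r) ^ 2 * δ ^ 2 ∧ m.NB (250 * (1 + r) ^ 2 * |δ|) ((-Complex.I) • m.HM ds s δ q U ψ) := by
    intro q
    obtain ⟨a1, a2, a3⟩ := hn q hU
    obtain ⟨g1, g2⟩ := m.h22_lin b (db_mem ds s δ q hU) (bM_mem ds s δ q hU) (hvm q hU) hz a1 a2 a3
    refine ⟨g1.trans ?_, g2.mono ?_⟩
    · rw [sq_abs]; gcongr
    · gcongr
  have hB := m.prod_expand (η := 4 * |δ|) (a := 525 * (1 + r) ^ 2 * δ ^ 2) (lam := 250 * (1 + r) ^ 2 * |δ|)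
    ((allP k).reverse.map fun q => (m.NM ds s δ q U, (-Complex.I) • m.HM ds s δ q U ψ)) ψ (by
      intro p hp
      obtain ⟨q, -, rfl⟩ := List.mem_map.1 hp
      exact ⟨near1_NM ds s δ q hU hs, (fib_NM ds s δ q hU).norm_le⟩) (by
      intro p hp
      obtain ⟨q, -, rfl⟩ := List.mem_map.1 hp
      exact (hlin q).1) (by
      intro p hp
      obtain ⟨q, -, rfl⟩ := List.mem_map.1 hp
      exact (hlin q).2) (by positivity)
  rw [List.map_map, List.map_map, List.length_map, hlen] at hB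
  have hsum : (List.map (Prod.snd ∘ fun q => (m.NM ds s δ q U, (-Complex.I) • m.HM ds s δ q U ψ))
      (allP k).reverse).sum = (-Complex.I) • (∑ p : PIdx k, m.HM ds s δ p U) ψ := by
    rw [sum_allP, ContinuousLinearMap.sum_apply, Finset.smul_sum]; rfl
  rw [hsum] at hB
  have hS : ‖(∑ p : PIdx k, m.HM ds s δ p U) ψ‖ ≤ (8 * k) * (250 * (1 + r) ^ 2 * |δ|) := by
    rw [ContinuousLinearMap.sum_apply]
    refine (norm_sum_le _ _).trans ?_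
    refine (Finset.sum_le_card_nsmul _ _ (250 * (1 + r) ^ 2 * |δ|) fun q _ => ?_).trans (le_of_eq ?_)
    · have := (hlin q).2.1
      rwa [norm_smul, norm_neg, Complex.norm_I, one_mul] at this
    · have hcard : (Fintype.card (PIdx k) : ℝ) = 8 * k := by simp [PIdx]; ring
      rw [Finset.card_univ, nsmul_eq_mul, hcard]
  set S := (∑ p : PIdx k, m.HM ds s δ p U) ψ with hSdef
  set x := (List.map (Prod.fst ∘ fun q => (m.NM ds s δ q (m.Up ds s δ q U), m.NM ds s δ q U))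
    (allP k).reverse).prod ψ with hx
  set y := (List.map (Prod.snd ∘ fun q => (m.NM ds s δ q (m.Up ds s δ q U), m.NM ds s δ q U))
    (allP k).reverse).prod ψ with hy
  have hy' : (List.map (Prod.fst ∘ fun q => (m.NM ds s δ q U, (-Complex.I) • m.HM ds s δ q U ψ))
      (allP k).reverse).prod ψ = y := rfl
  rw [hy'] at hB
  set μ := m.mu ds s δ U with hμ
  have hμ1 : |μ| ≤ 16 * |δ| := (abs_mu_le ds s δ hU).trans (by nlinarith)
  set R := rot (m.Sg * m.Z) (-μ) with hR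
  have fR : m.Fib R := m.fib_rot hQZ.1 hQZ.2.1 hQZ.2.2.1 _
  have t3 : ‖(R - 1 + (Complex.I * ((-μ : ℝ) : ℂ)) • (m.Sg * m.Z)) ψ‖ ≤ 256 * δ ^ 2 := by
    refine (ContinuousLinearMap.le_opNorm _ _).trans ?_
    rw [hψ1, mul_one]
    refine (norm_rot_sub_lin hQZ.1 hQZ.2.1 _).trans ?_
    calc (-μ) ^ 2 = |μ| ^ 2 := by rw [sq_abs]; ring
      _ ≤ (16 * |δ|) ^ 2 := by gcongr
      _ = _ := by rw [mul_pow, sq_abs]; norm_num
  have t4 : ‖(R - 1) S‖ ≤ 16 * |δ| * ((8 * k) * (250 * (1 + r) ^ 2 * |δ|)) := by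
    refine (ContinuousLinearMap.le_opNorm _ _).trans ?_
    have : ‖R - 1‖ ≤ 16 * |δ| :=
      (norm_rot_sub_one hQZ.1 hQZ.2.1 (-μ)).trans (by rw [abs_neg]; exact hμ1)
    gcongr
  have e : (R * ((allP k).reverse.map fun q => m.NM ds s δ q (m.Up ds s δ q U)).prod) ψ - ψ
      + Complex.I • (S - (μ : ℂ) • (m.Sg * m.Z) ψ) =
      R (x - y) + R (y - ψ - (-Complex.I) • S)
        + (R - 1 + (Complex.I * ((-μ : ℝ) : ℂ)) • (m.Sg * m.Z)) ψ + (-Complex.I) • (R - 1) S := by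
    have : (R * ((allP k).reverse.map fun q => m.NM ds s δ q (m.Up ds s δ q U)).prod) ψ = R x := rfl
    rw [this]
    simp only [ContinuousLinearMap.sub_apply, ContinuousLinearMap.add_apply,
      ContinuousLinearMap.smul_apply, ContinuousLinearMap.one_apply, map_sub, map_smul]
    push_cast
    module
  rw [e]
  refine ((norm_add_le _ _).trans (add_le_add_left norm_add₃_le _)).trans ?_
  rw [fR.norm_apply, fR.norm_apply, norm_smul, norm_neg, Complex.norm_I, one_mul]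
  have hk : (0 : ℝ) ≤ k := Nat.cast_nonneg k
  have hP1 : 1 ≤ (1 + r) ^ 2 := one_le_pow₀ (by linarith)
  have hδ2 : 0 ≤ δ ^ 2 := sq_nonneg δ
  set P := (1 + r) ^ 2 * δ ^ 2 with hP
  have hP0 : 0 ≤ P := by positivity
  have hPΛ : P ≤ P * Λ ^ 4 := le_mul_of_one_le_right hP0 hΛ4
  have hδP : δ ^ 2 ≤ P := le_mul_of_one_le_left hδ2 hP1
  have eB : (8 * (k : ℝ)) * (525 * (1 + r) ^ 2 * δ ^ 2 + 8 * k * (4 * |δ|) * (250 * (1 + r) ^ 2 * |δ|)) =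
      (8 * k) * (525 + (8 * k) * 1000) * P := by
    rw [hP, ← sq_abs δ]; ring
  have e4 : 16 * |δ| * ((8 * (k : ℝ)) * (250 * (1 + r) ^ 2 * |δ|)) = 16 * (8 * k) * 250 * P := by
    rw [hP, ← sq_abs δ]; ring
  rw [eB] at hB
  rw [e4] at t4
  calc _ ≤ 8 * k * 16 ^ (8 * k) * (3 * C1 * Cf * k * (1 + (8 * k) * 4) ^ 2 * (P * Λ ^ 4))
        + (8 * k) * (525 + (8 * k) * 1000) * (P * Λ ^ 4) + 256 * (P * Λ ^ 4)
        + 16 * (8 * k) * 250 * (P * Λ ^ 4) := by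
        gcongr
        · exact hB.trans (by gcongr)
        · exact t3.trans (by gcongr; exact hδP.trans hPΛ)
        · exact t4.trans (by gcongr)
    _ = _ := by rw [hP]; ring

theorem h22_conj_est (b : Bool) {β v z : KK} {η : ℝ} (hβ : β ∈ m.R) (hv : v ∈ m.R) (hz : z ∈ m.R)
    (hη1 : η ≤ 1) (nβ : ‖β‖ ≤ η) (nv : ‖v‖ ≤ η) :
    ‖(star (m.D m.Y v) * (m.Sg * m.X * m.sinW β) * m.D m.Y v) (m.coh b z)
      - ((m.Sg * m.X) (m.sinW β (m.coh b z))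
        + (m.Sg * m.X) ((m.sinW β * (m.cosW ((2 : ℝ) • v) - 1)) (m.coh b z))
        + (m.Sg * m.Z) ((m.sinW β * m.sinW ((2 : ℝ) • v)
            - ⟪β, (2 : ℝ) • v⟫_ℂ • (1 : H →L[ℂ] H)) (m.coh b z))
        + ((2 * (⟪β, v⟫_ℂ).re : ℝ) : ℂ) • (m.Sg * m.Z) (m.coh b z))‖ ≤
      18 * (‖β‖ * ‖v‖) * η * (1 + 2 * ‖z‖) := by
  have hQ := m.isAxis_X.sg
  have hQZ := m.isAxis_Z.sg
  have hz0 := norm_nonneg z
  have hβ0 := norm_nonneg β
  have hv0 := norm_nonneg v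
  have hη0 : 0 ≤ η := hβ0.trans nβ
  have hw : (2 : ℝ) • v ∈ m.R := m.R.smul_mem _ hv
  have nw : ‖(2 : ℝ) • v‖ ≤ 2 * η := by
    rw [norm_smul, Real.norm_eq_abs, abs_two]; linarith
  rw [conj_M hv hβ]
  set w := (2 : ℝ) • v with hwdef
  set ψ := m.coh b z with hψ
  have hψ1 : ‖ψ‖ = 1 := m.norm_coh b hz
  have hψn : m.NB (1 + 2 * ‖z‖) ψ := m.nb_coh b hz
  set ω := om v β with hω
  set t := ‖β‖ * ‖v‖ with ht
  have ht0 : 0 ≤ t := by positivity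
  have hωt : |ω| ≤ t := (abs_om_le v β).trans (le_of_eq (mul_comm _ _))
  have htη : t ≤ η := by
    calc t ≤ η * 1 := by rw [ht]; gcongr; exact nv.trans hη1
      _ = η := mul_one _
  have hω2 : ω ^ 2 ≤ t * η := by
    rw [← sq_abs, sq]; gcongr; exact hωt.trans htη
  have hcos : |Real.cos (2 * ω) - 1| ≤ 2 * (t * η) := by
    have h1 := Real.one_sub_sq_div_two_le_cos (x := 2 * ω)
    have h2 := Real.cos_le_one (2 * ω)
    rw [abs_le]; constructor <;> nlinarith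
  have hsin : |Real.sin (2 * ω) - 2 * ω| ≤ 4 * (t * η) := by
    refine (coh1_abs_sin_sub _).trans ?_
    nlinarith
  have hsin' : |Real.sin (2 * ω)| ≤ 2 * t := by
    refine Real.abs_sin_le_abs.trans ?_
    rw [abs_mul, abs_two]; linarith
  have hin : ((2 * (⟪β, v⟫_ℂ).re : ℝ) : ℂ) = ⟪β, w⟫_ℂ + Complex.I * ((2 * ω : ℝ) : ℂ) := by
    have h1 : ⟪β, w⟫_ℂ = 2 * ⟪β, v⟫_ℂ := by
      rw [hwdef, ← Complex.coe_smul, inner_smul_right]; norm_num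
    have h2 : ω = -(⟪β, v⟫_ℂ).im := by rw [hω, om_swap β v]; rfl
    rw [h1, h2]
    apply Complex.ext <;> simp
  have con : ∀ {A : H →L[ℂ] H}, ‖A‖ ≤ 1 → ∀ x : H, ‖A x‖ ≤ ‖x‖ := fun {A} hA x =>
    (A.le_opNorm x).trans (mul_le_of_le_one_left (norm_nonneg _) hA)
  have s1 := m.norm_sinW_le hβ
  have s2 := m.norm_sinW_le hw
  have c1 := m.norm_cosW_le hβ
  have c2 := m.norm_cosW_le hw
  have e : (((Real.cos (2 * ω) : ℝ) : ℂ) • (m.Sg * m.X * (m.sinW β * m.cosW w))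
      + ((Real.cos (2 * ω) : ℝ) : ℂ) • (m.Sg * m.Z * (m.sinW β * m.sinW w))
      + (Complex.I * ((Real.sin (2 * ω) : ℝ) : ℂ)) • (m.Sg * m.Z * (m.cosW β * m.cosW w))
      - (Complex.I * ((Real.sin (2 * ω) : ℝ) : ℂ)) • (m.Sg * m.X * (m.cosW β * m.sinW w))) ψ
      - ((m.Sg * m.X) (m.sinW β ψ) + (m.Sg * m.X) ((m.sinW β * (m.cosW w - 1)) ψ)
        + (m.Sg * m.Z) ((m.sinW β * m.sinW w - ⟪β, w⟫_ℂ • (1 : H →L[ℂ] H)) ψ)
        + ((2 * (⟪β, v⟫_ℂ).re : ℝ) : ℂ) • (m.Sg * m.Z) ψ) =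
      (((Real.cos (2 * ω) - 1 : ℝ) : ℂ) • (m.Sg * m.X) (m.sinW β (m.cosW w ψ))
      + ((Real.cos (2 * ω) - 1 : ℝ) : ℂ) • (m.Sg * m.Z) (m.sinW β (m.sinW w ψ))
      + (Complex.I * ((Real.sin (2 * ω) - 2 * ω : ℝ) : ℂ)) • (m.Sg * m.Z) (m.cosW β (m.cosW w ψ)))
      + (Complex.I * ((2 * ω : ℝ) : ℂ)) • (m.Sg * m.Z) (m.cosW β (m.cosW w ψ - ψ) + (m.cosW β ψ - ψ))
      + (-(Complex.I * ((Real.sin (2 * ω) : ℝ) : ℂ))) • (m.Sg * m.X) (m.cosW β (m.sinW w ψ)) := by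
    rw [hin]
    generalize m.Sg * m.X = QX
    generalize m.Sg * m.Z = QZ
    generalize Real.cos (2 * ω) = cc
    generalize Real.sin (2 * ω) = ss
    simp only [ContinuousLinearMap.mul_apply, ContinuousLinearMap.sub_apply,
      ContinuousLinearMap.add_apply, ContinuousLinearMap.smul_apply,
      ContinuousLinearMap.one_apply, map_sub, map_add, map_smul]
    push_cast
    module
  rw [e]
  have r1 : ‖((Real.cos (2 * ω) - 1 : ℝ) : ℂ) • (m.Sg * m.X) (m.sinW β (m.cosW w ψ))‖ ≤ 2 * (t * η) := by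
    rw [norm_smul, Complex.norm_real, Real.norm_eq_abs, hQ.fib.norm_apply]
    have : ‖m.sinW β (m.cosW w ψ)‖ ≤ 1 := (con s1 _).trans ((con c2 _).trans hψ1.le)
    calc _ ≤ 2 * (t * η) * 1 := by gcongr
      _ = _ := mul_one _
  have r2 : ‖((Real.cos (2 * ω) - 1 : ℝ) : ℂ) • (m.Sg * m.Z) (m.sinW β (m.sinW w ψ))‖ ≤ 2 * (t * η) := by
    rw [norm_smul, Complex.norm_real, Real.norm_eq_abs, hQZ.fib.norm_apply]
    have : ‖m.sinW β (m.sinW w ψ)‖ ≤ 1 := (con s1 _).trans ((con s2 _).trans hψ1.le)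
    calc _ ≤ 2 * (t * η) * 1 := by gcongr
      _ = _ := mul_one _
  have r3 : ‖(Complex.I * ((Real.sin (2 * ω) - 2 * ω : ℝ) : ℂ)) •
      (m.Sg * m.Z) (m.cosW β (m.cosW w ψ))‖ ≤ 4 * (t * η) := by
    rw [norm_smul, norm_mul, Complex.norm_I, one_mul, Complex.norm_real, Real.norm_eq_abs,
      hQZ.fib.norm_apply]
    have : ‖m.cosW β (m.cosW w ψ)‖ ≤ 1 := (con c1 _).trans ((con c2 _).trans hψ1.le)
    calc _ ≤ 4 * (t * η) * 1 := by gcongr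
      _ = _ := mul_one _
  have r4 : ‖(Complex.I * ((2 * ω : ℝ) : ℂ)) •
      (m.Sg * m.Z) (m.cosW β (m.cosW w ψ - ψ) + (m.cosW β ψ - ψ))‖ ≤ 6 * (t * η) * (1 + 2 * ‖z‖) := by
    rw [norm_smul, norm_mul, Complex.norm_I, one_mul, Complex.norm_real, Real.norm_eq_abs,
      hQZ.fib.norm_apply, abs_mul, abs_two]
    have h1 : ‖m.cosW β (m.cosW w ψ - ψ) + (m.cosW β ψ - ψ)‖ ≤
        (1 + 2 * ‖z‖) * (2 * η) + (1 + 2 * ‖z‖) * η := by
      refine (norm_add_le _ _).trans (add_le_add ((con c1 _).trans ?_) ?_)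
      · exact (hψn.norm_cosW_sub hw).trans (by gcongr)
      · exact (hψn.norm_cosW_sub hβ).trans (by gcongr)
    calc _ ≤ 2 * t * ((1 + 2 * ‖z‖) * (2 * η) + (1 + 2 * ‖z‖) * η) := by gcongr
      _ = _ := by ring
  have r5 : ‖(-(Complex.I * ((Real.sin (2 * ω) : ℝ) : ℂ))) • (m.Sg * m.X) (m.cosW β (m.sinW w ψ))‖ ≤
      4 * (t * η) * (1 + 2 * ‖z‖) := by
    rw [norm_smul, norm_neg, norm_mul, Complex.norm_I, one_mul, Complex.norm_real, Real.norm_eq_abs,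
      hQ.fib.norm_apply]
    have h1 : ‖m.cosW β (m.sinW w ψ)‖ ≤ (1 + 2 * ‖z‖) * (2 * η) :=
      (con c1 _).trans ((hψn.norm_sinW hw).trans (by gcongr))
    calc _ ≤ 2 * t * ((1 + 2 * ‖z‖) * (2 * η)) := by gcongr
      _ = _ := by ring
  refine norm_add₃_le.trans ?_
  have r123 := norm_add₃_le.trans (add_le_add (add_le_add r1 r2) r3)
  have htη0 : 0 ≤ t * η := by positivity
  nlinarith [mul_nonneg htη0 hz0]

theorem h22_sum_sin {ι : Type} [Fintype ι] (b : Bool) {y : ι → KK} {z : KK} {t : ℝ} (hy : ∀ i, y i ∈ m.R)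
    (hz : z ∈ m.R) (ht : ∀ i, ‖y i‖ ≤ t) :
    ‖∑ i, m.sinW (y i) (m.coh b z)‖ ≤
      (1 + 2 * ‖z‖) * ‖∑ i, y i‖ + 11 * (1 + ‖z‖) ^ 2 * (Fintype.card ι * t) ^ 2 := by
  have h1 := m.norm_sinW_sum_coh Finset.univ b hy hz
  have h2 := (m.nb_coh b hz).norm_sinW (m.R.sum_mem fun i (_ : i ∈ Finset.univ) => hy i)
  have h3 : ∑ i, ‖y i‖ ≤ Fintype.card ι * t := by
    refine (Finset.sum_le_card_nsmul _ _ t fun i _ => ht i).trans (le_of_eq ?_)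
    simp
  have h4 : 0 ≤ ∑ i, ‖y i‖ := Finset.sum_nonneg fun i _ => norm_nonneg _
  rw [ContinuousLinearMap.sub_apply, ContinuousLinearMap.sum_apply] at h1
  have e : ∑ i, m.sinW (y i) (m.coh b z) = m.sinW (∑ i, y i) (m.coh b z) -
      (m.sinW (∑ i, y i) (m.coh b z) - ∑ i, m.sinW (y i) (m.coh b z)) := by abel
  rw [e]
  refine (norm_sub_le _ _).trans (add_le_add h2 (h1.trans ?_))
  gcongr

theorem h22_sum8 {E : Type} [NormedAddCommGroup E] (f : PIdx k → E) {c : ℝ}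
    (h : ∀ e : Bool × Bool × Bool, ‖∑ l : Fin k, f (l, e)‖ ≤ c) : ‖∑ p, f p‖ ≤ 8 * c := by
  have e : ∑ p, f p = ∑ e : Bool × Bool × Bool, ∑ l : Fin k, f (l, e) := Fintype.sum_prod_type_right f
  rw [e]
  refine (norm_sum_le _ _).trans ?_
  refine (Finset.sum_le_card_nsmul _ _ c fun e _ => h e).trans (le_of_eq ?_)
  simp

/-- the generator is small after the compensation: `conj_M`, then for each of the 8 sign patterns `quad_sum`, `quad_sum2` with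
`β l = bM`, `w l = 2 e₁ b_l`, (`η ↦ 2 ds.η`, `Bβ = |δ|`, `Bw = 2`); linear terms by `norm_sinW_sum_coh`;
`⟪β, 2v⟫ + 2 i om v β = 2 Re ⟪β, v⟫`. -/
theorem block_M2 : ∃ C, 0 ≤ C ∧ ∀ {M k : ℕ} (ds : DSet K M k) (s δ : ℝ) (U : H →L[ℂ] H) (r : ℝ)
    (z : KK) (b : Bool), |s| ≤ 1 → 400 * |δ| ≤ 1 → m.Fib U → z ∈ m.R → ‖z‖ ≤ r →
    ‖(∑ p : PIdx k, m.HM ds s δ p U) (m.coh b z) - (m.mu ds s δ U : ℂ) • (m.Sg * m.Z) (m.coh b z)‖ ≤
      C * (1 + r) ^ 3 * (‖∑ p : PIdx k, m.bM ds s δ p U‖ + |δ| * ds.η + (1 + k) ^ 2 * δ ^ 2) := by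
  obtain ⟨C2, hC2, H2⟩ := m.quad_sum
  obtain ⟨C3, hC3, H3⟩ := m.quad_sum2
  refine ⟨48 * C2 + 48 * C3 + 1500, by positivity, ?_⟩
  intro M k ds s δ U r z b hs hδ hU hz hr
  have hz0 := norm_nonneg z
  have hr0 : 0 ≤ r := hz0.trans hr
  have hδ0 := abs_nonneg δ
  have hδ1 : |δ| ≤ 1 := by linarith
  have hη0 := ds.hη0
  have hη1 := ds.hη1
  have hY := m.isAxis_Y
  have hQ := m.isAxis_X.sg
  have hQZ := m.isAxis_Z.sg
  have hsδ : |s| * |δ| ≤ |δ| := by nlinarith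
  set ψ := m.coh b z with hψ
  set β : PIdx k → KK := fun p => m.bM ds s δ p U with hβ
  set v : PIdx k → KK := fun p => p.e1 • m.bb ds p.1 U with hv
  have βm : ∀ p, β p ∈ m.R := fun p => bM_mem ds s δ p hU
  have vm : ∀ p, v p ∈ m.R := fun p => m.R.smul_mem _ (bb_mem ds hU p.1)
  have wm : ∀ p, (2 : ℝ) • v p ∈ m.R := fun p => m.R.smul_mem _ (vm p)
  have βl : ∀ p : PIdx k, m.Loc ds p.1 |δ| (β p) := fun p => (loc_bM ds s δ p hU).mono ds hsδ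
  have vl : ∀ p : PIdx k, m.Loc ds p.1 1 (v p) := fun p =>
    ((loc_bb ds hU p.1).smul ds p.e1).mono ds (by rw [abs_e1]; norm_num)
  have wl : ∀ p : PIdx k, m.Loc ds p.1 2 ((2 : ℝ) • v p) := fun p =>
    ((vl p).smul ds 2).mono ds (by rw [abs_two]; norm_num)
  have βn : ∀ p, ‖β p‖ ≤ |δ| * ds.η := fun p => (h22_norms ds δ p hU hs).2.1
  have βn' : ∀ p, ‖β p‖ ≤ ds.η := fun p => (βn p).trans (by nlinarith)
  have vn : ∀ p, ‖v p‖ ≤ ds.η := fun p => (h22_norms ds δ p hU hs).2.2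
  have horth : ∀ e : Bool × Bool × Bool, ∀ l l' : Fin k, l ≠ l' →
      ⟪β (l, e), β (l', e)⟫_ℂ = 0 ∧ ⟪β (l, e), (2 : ℝ) • v (l', e)⟫_ℂ = 0 ∧
        ⟪(2 : ℝ) • v (l, e), (2 : ℝ) • v (l', e)⟫_ℂ = 0 := fun e l l' h =>
    ⟨(βl (l, e)).inner_eq_zero ds (βl (l', e)) h, (βl (l, e)).inner_eq_zero ds (wl (l', e)) h,
      (wl (l, e)).inner_eq_zero ds (wl (l', e)) h⟩
  have T3 : ‖∑ p, (m.sinW (β p) * m.sinW ((2 : ℝ) • v p)
      - ⟪β p, (2 : ℝ) • v p⟫_ℂ • (1 : H →L[ℂ] H)) ψ‖ ≤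
      8 * (C2 * (1 + ‖z‖) ^ 2 * (1 + 2) * |δ| * (2 * ds.η)) := by
    refine h22_sum8 _ fun e => ?_
    have := H2 k b (fun l => β (l, e)) (fun l => (2 : ℝ) • v (l, e)) z (2 * ds.η) |δ| 2
      (fun l => βm _) (fun l => wm _) hz (horth e) (by positivity) hη1
      (fun l => (βn' _).trans (by linarith)) (fun l => (wl (l, e)).norm_le ds (by norm_num)) hδ0
      (by norm_num) (loc_sum_sq ds fun l => βl (l, e)) (loc_sum_sq ds fun l => wl (l, e))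
    rwa [ContinuousLinearMap.sum_apply] at this
  have T2 : ‖∑ p, (m.sinW (β p) * (m.cosW ((2 : ℝ) • v p) - 1)) ψ‖ ≤
      8 * (C3 * (1 + ‖z‖) ^ 3 * (1 + 2) * |δ| * (2 * ds.η)) := by
    refine h22_sum8 _ fun e => ?_
    have := H3 k b (fun l => β (l, e)) (fun l => (2 : ℝ) • v (l, e)) z (2 * ds.η) |δ| 2
      (fun l => βm _) (fun l => wm _) hz (horth e) (by positivity) hη1
      (fun l => (βn' _).trans (by linarith)) (fun l => (wl (l, e)).norm_le ds (by norm_num)) hδ0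
      (by norm_num) (loc_sum_sq ds fun l => βl (l, e)) (loc_sum_sq ds fun l => wl (l, e))
    rwa [ContinuousLinearMap.sum_apply] at this
  have hcard : (Fintype.card (PIdx k) : ℝ) = 8 * k := by simp [PIdx]; ring
  have T1 := m.h22_sum_sin b βm hz (t := |δ|) fun p => (βn p).trans (by nlinarith)
  have T0 := m.h22_sum_sin b (fun p => db_mem ds s δ p hU) hz (t := |δ|)
    fun p => (h22_norms ds δ p hU hs).1
  rw [hcard] at T0 T1
  have hdb := norm_sum_db ds s δ hU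
  have hω : ∑ p, ‖β p‖ * ‖v p‖ ≤ 8 * |δ| := by
    have := h22_sum8 (fun p : PIdx k => ‖β p‖ * ‖v p‖) (c := |δ|) fun e => by
      rw [Real.norm_eq_abs, abs_of_nonneg (Finset.sum_nonneg fun l _ => by positivity)]
      have h1 := Finset.sum_mul_sq_le_sq_mul_sq Finset.univ (fun l : Fin k => ‖β (l, e)‖)
        (fun l : Fin k => ‖v (l, e)‖)
      have h2 := loc_sum_sq ds fun l => βl (l, e)
      have h3 := loc_sum_sq ds fun l => vl (l, e)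
      refine abs_le_of_sq_le_sq' ?_ hδ0 |>.2
      refine h1.trans ?_
      calc _ ≤ |δ| ^ 2 * 1 ^ 2 := by gcongr
        _ = _ := by ring
    exact (le_abs_self _).trans this
  set Rm : PIdx k → H := fun p =>
    (star (m.D m.Y (v p)) * (m.Sg * m.X * m.sinW (β p)) * m.D m.Y (v p)) ψ
      - ((m.Sg * m.X) (m.sinW (β p) ψ)
        + (m.Sg * m.X) ((m.sinW (β p) * (m.cosW ((2 : ℝ) • v p) - 1)) ψ)
        + (m.Sg * m.Z) ((m.sinW (β p) * m.sinW ((2 : ℝ) • v p)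
            - ⟪β p, (2 : ℝ) • v p⟫_ℂ • (1 : H →L[ℂ] H)) ψ)
        + ((2 * (⟪β p, v p⟫_ℂ).re : ℝ) : ℂ) • (m.Sg * m.Z) ψ) with hRm
  have T4 : ‖∑ p, Rm p‖ ≤ 18 * (8 * |δ|) * ds.η * (1 + 2 * ‖z‖) := by
    refine (norm_sum_le _ _).trans ?_
    calc ∑ p, ‖Rm p‖ ≤ ∑ p, 18 * (‖β p‖ * ‖v p‖) * ds.η * (1 + 2 * ‖z‖) :=
          Finset.sum_le_sum fun p _ => m.h22_conj_est b (βm p) (vm p) hz (by linarith) (βn' p) (vn p)
      _ = 18 * (∑ p, ‖β p‖ * ‖v p‖) * ds.η * (1 + 2 * ‖z‖) := by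
          rw [Finset.mul_sum, Finset.sum_mul, Finset.sum_mul]
      _ ≤ _ := by gcongr
  have e : (∑ p : PIdx k, m.HM ds s δ p U) ψ - (m.mu ds s δ U : ℂ) • (m.Sg * m.Z) ψ =
      (m.Y (∑ p, m.sinW (m.db ds s δ p U) ψ) + (m.Sg * m.X) (∑ p, m.sinW (β p) ψ)
        + (m.Sg * m.X) (∑ p, (m.sinW (β p) * (m.cosW ((2 : ℝ) • v p) - 1)) ψ))
        + (m.Sg * m.Z) (∑ p, (m.sinW (β p) * m.sinW ((2 : ℝ) • v p)
            - ⟪β p, (2 : ℝ) • v p⟫_ℂ • (1 : H →L[ℂ] H)) ψ) + ∑ p, Rm p := by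
    have hmu : (m.mu ds s δ U : ℂ) • (m.Sg * m.Z) ψ =
        ∑ p, ((2 * (⟪β p, v p⟫_ℂ).re : ℝ) : ℂ) • (m.Sg * m.Z) ψ := by
      rw [← Finset.sum_smul, ← Complex.ofReal_sum]; rfl
    rw [hmu, ContinuousLinearMap.sum_apply, map_sum, map_sum, map_sum, map_sum,
      ← Finset.sum_sub_distrib, ← Finset.sum_add_distrib, ← Finset.sum_add_distrib,
      ← Finset.sum_add_distrib, ← Finset.sum_add_distrib]
    refine Finset.sum_congr rfl fun p _ => ?_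
    have : m.HM ds s δ p U ψ = m.Y (m.sinW (m.db ds s δ p U) ψ) +
        (star (m.D m.Y (v p)) * (m.Sg * m.X * m.sinW (β p)) * m.D m.Y (v p)) ψ := rfl
    rw [this, hRm]
    simp only []
    abel
  rw [e]
  refine (norm_add₃_le.trans (add_le_add_left (add_le_add_left norm_add₃_le _) _)).trans ?_
  rw [hY.fib.norm_apply, hQ.fib.norm_apply, hQ.fib.norm_apply, hQZ.fib.norm_apply]
  have hk : (0 : ℝ) ≤ k := Nat.cast_nonneg k
  set P := (1 + r) ^ 3 with hP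
  have hP1 : 1 + ‖z‖ ≤ P := by
    calc 1 + ‖z‖ ≤ (1 + r) ^ 1 := by linarith
      _ ≤ P := pow_le_pow_right₀ (by linarith) (by norm_num)
  have hP2 : (1 + ‖z‖) ^ 2 ≤ P := by
    calc (1 + ‖z‖) ^ 2 ≤ (1 + r) ^ 2 := by gcongr
      _ ≤ P := pow_le_pow_right₀ (by linarith) (by norm_num)
  have hP3 : (1 + ‖z‖) ^ 3 ≤ P := by rw [hP]; gcongr
  have hP4 : 1 + 2 * ‖z‖ ≤ 2 * P := by linarith
  have hP0 : 0 ≤ P := by linarith
  set B := ‖∑ p, β p‖ with hB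
  have hB0 : 0 ≤ B := norm_nonneg _
  set a := |δ| * ds.η with ha
  have ha0 : 0 ≤ a := by positivity
  set c := (1 + (k : ℝ)) ^ 2 * δ ^ 2 with hc
  have hc0 : 0 ≤ c := by positivity
  have hc1 : δ ^ 2 ≤ c := le_mul_of_one_le_left (sq_nonneg δ) (one_le_pow₀ (by linarith))
  have hc2 : (8 * (k : ℝ) * |δ|) ^ 2 ≤ 64 * c := by
    rw [mul_pow, sq_abs, hc]
    nlinarith [sq_nonneg δ, mul_nonneg hk (sq_nonneg δ)]
  have U0 : ‖∑ p, m.sinW (m.db ds s δ p U) ψ‖ ≤ 768 * (P * c) := by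
    refine T0.trans ?_
    calc _ ≤ 2 * P * (32 * c) + 11 * P * (64 * c) := by
          gcongr
          exact hdb.trans (by gcongr)
      _ = _ := by ring
  have U1 : ‖∑ p, m.sinW (β p) ψ‖ ≤ 2 * (P * B) + 704 * (P * c) := by
    refine T1.trans ?_
    calc _ ≤ 2 * P * B + 11 * P * (64 * c) := by gcongr
      _ = _ := by ring
  have U2 : ‖∑ p, (m.sinW (β p) * (m.cosW ((2 : ℝ) • v p) - 1)) ψ‖ ≤ 48 * C3 * (P * a) := by
    refine T2.trans ?_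
    calc _ ≤ 8 * (C3 * P * (1 + 2) * |δ| * (2 * ds.η)) := by gcongr
      _ = _ := by rw [ha]; ring
  have U3 : ‖∑ p, (m.sinW (β p) * m.sinW ((2 : ℝ) • v p)
      - ⟪β p, (2 : ℝ) • v p⟫_ℂ • (1 : H →L[ℂ] H)) ψ‖ ≤ 48 * C2 * (P * a) := by
    refine T3.trans ?_
    calc _ ≤ 8 * (C2 * P * (1 + 2) * |δ| * (2 * ds.η)) := by gcongr
      _ = _ := by rw [ha]; ring
  have U4 : ‖∑ p, Rm p‖ ≤ 288 * (P * a) := by
    refine T4.trans ?_
    calc _ ≤ 18 * (8 * |δ|) * ds.η * (2 * P) := by gcongr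
      _ = _ := by rw [ha]; ring
  have q1 := mul_nonneg hP0 hB0
  have q2 := mul_nonneg hP0 ha0
  have q3 := mul_nonneg hP0 hc0
  have q4 := mul_nonneg hC2 q1
  have q5 := mul_nonneg hC2 q3
  have q6 := mul_nonneg hC3 q1
  have q7 := mul_nonneg hC3 q3
  calc _ ≤ 768 * (P * c) + (2 * (P * B) + 704 * (P * c)) + 48 * C3 * (P * a) + 48 * C2 * (P * a)
        + 288 * (P * a) := by gcongr
    _ ≤ (48 * C2 + 48 * C3 + 1500) * P * (B + a + c) := by nlinarith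

theorem block_M : ∃ C, 0 ≤ C ∧ ∀ k : ℕ, ∃ C', 0 ≤ C' ∧ ∀ {M : ℕ} (ds : DSet K M k) (s δ : ℝ)
    (U : H →L[ℂ] H) (Λ r : ℝ) (z : KK) (b : Bool), |s| ≤ 1 → 400 * |δ| ≤ 1 → m.Fib U → 1 ≤ Λ →
    m.Ap ds Λ U → z ∈ m.R → ‖z‖ ≤ r →
    ‖m.P ds.Md ((m.round ds s δ U * star U) (m.coh b z) - m.coh b z)‖ ≤
      C * (1 + r) ^ 3 * (‖∑ p : PIdx k, m.bM ds s δ p U‖ + |δ| * ds.η)
        + C' * (1 + r) ^ 3 * δ ^ 2 * Λ ^ 4 := by
  obtain ⟨C, hC, H2⟩ := m.block_M2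
  refine ⟨C, hC, fun k => ?_⟩
  obtain ⟨C1, hC1, H1⟩ := m.block_M1 k
  refine ⟨C * (1 + k) ^ 2 + C1, by positivity, ?_⟩
  intro M ds s δ U Λ r z b hs hδ hU hΛ hAp hz hr
  have hr0 : 0 ≤ r := (norm_nonneg z).trans hr
  have h1 := H1 ds s δ U Λ r z b hs hδ hU hΛ hAp hz hr
  have h2 := H2 ds s δ U r z b hs hδ hU hz hr
  have e : m.P ds.Md ((m.round ds s δ U * star U) (m.coh b z) - m.coh b z) =
      m.P ds.Md ((rot (m.Sg * m.Z) (-m.mu ds s δ U) *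
        ((allP k).reverse.map fun q => m.NM ds s δ q (m.Up ds s δ q U)).prod) (m.coh b z) - m.coh b z) := by
    rw [map_sub, map_sub, ← ContinuousLinearMap.mul_apply, P_M_round ds s δ hU]; rfl
  rw [e]
  refine (m.norm_P_apply_le ds.hMd.1 _).trans ?_
  set x := (rot (m.Sg * m.Z) (-m.mu ds s δ U) *
        ((allP k).reverse.map fun q => m.NM ds s δ q (m.Up ds s δ q U)).prod) (m.coh b z) - m.coh b z
  set y := (∑ p : PIdx k, m.HM ds s δ p U) (m.coh b z)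
        - (m.mu ds s δ U : ℂ) • (m.Sg * m.Z) (m.coh b z)
  have e2 : x = (x + Complex.I • y) - Complex.I • y := by abel
  have hΛ4 : 1 ≤ Λ ^ 4 := one_le_pow₀ hΛ
  have hP : (1 + r) ^ 2 ≤ (1 + r) ^ 3 := pow_le_pow_right₀ (by linarith) (by norm_num)
  have h3 : C * (1 + r) ^ 3 * ((1 + k) ^ 2 * δ ^ 2) ≤ C * (1 + r) ^ 3 * ((1 + k) ^ 2 * δ ^ 2) * Λ ^ 4 :=
    le_mul_of_one_le_right (by positivity) hΛ4
  have h4 : C1 * (1 + r) ^ 2 * δ ^ 2 * Λ ^ 4 ≤ C1 * (1 + r) ^ 3 * δ ^ 2 * Λ ^ 4 := by gcongr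
  rw [e2]
  refine (norm_sub_le _ _).trans ?_
  rw [norm_smul, Complex.norm_I, one_mul]
  nlinarith

end Model

end Crest.Agent.R339
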