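import Crest.Agent.R339.Q.D0b
import Crest.Agent.R339.Q.Cross

/-!
# Row 339, part Q: identity hubs: the nested pulse is available
-/

set_option autoImplicit false

namespace Crest.Agent.R339

open MeasureTheory ProbabilityTheory Filter Topology Crest.MathPhysics.SpinGlass
open scoped InnerProductSpace ComplexConjugate

namespace Model

variable {K : ℕ} {I : Iamp K} {H KK : Type} [NormedAddCommGroup H] [InnerProductSpace ℂ H]
  [CompleteSpace H] [NormedAddCommGroup KK] [InnerProductSpace ℂ KK] (m : Model I H KK)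

variable {m} {M k : ℕ} (ds : DSet K M k) (s δ : ℝ) (p : PIdx k) {U : H →L[ℂ] H}

/-- equality up to a scalar phase -/
def DR_Ph (A A' : H →L[ℂ] H) : Prop := ∃ c : ℝ, A = Complex.exp (Complex.I * (c : ℂ)) • A'

omit [CompleteSpace H] in
theorem DR_Ph.of_eq {A A' : H →L[ℂ] H} (h : A = A') : DR_Ph A A' := ⟨0, by simp [h]⟩

omit [CompleteSpace H] in
theorem DR_Ph.symm {A A' : H →L[ℂ] H} (h : DR_Ph A A') : DR_Ph A' A := by
  obtain ⟨c, rfl⟩ := h
  exact ⟨-c, by rw [smul_smul, ← Complex.exp_add]; simp⟩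

omit [CompleteSpace H] in
theorem DR_Ph.mul_right {A A' : H →L[ℂ] H} (h : DR_Ph A A') (R : H →L[ℂ] H) :
    DR_Ph (A * R) (A' * R) := by
  obtain ⟨c, rfl⟩ := h
  exact ⟨c, smul_mul_assoc _ _ _⟩

theorem DR_DD {Q : H →L[ℂ] H} (hQ : m.IsAxis Q) {y y' z : KK} (hy : y ∈ m.R) (hy' : y' ∈ m.R)
    (h : y + y' = z) (R : H →L[ℂ] H) : DR_Ph (m.D Q y * (m.D Q y' * R)) (m.D Q z * R) := by
  rw [← mul_assoc]
  refine DR_Ph.mul_right ⟨-om y y', ?_⟩ R
  rw [hQ.D_mul hy hy', h]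
  simp

theorem DR_P_mul {E : Set (Lab K)} (hE : MeasurableSet E) {V V' A A' : H →L[ℂ] H}
    (h1 : m.P E * V' = m.P E * A') (h2 : m.P E * V = m.P E * A) (hA' : m.Cen A') :
    m.P E * (V' * V) = m.P E * (A' * A) := by
  have c := (hA'.commute_P hE).eq
  rw [← mul_assoc, h1, ← c, mul_assoc, h2, ← mul_assoc, c, mul_assoc]

theorem DR_heis (hU : m.Fib U) {E : Set (Lab K)} (hE : MeasurableSet E) {V A Q Q' : H →L[ℂ] H}
    (hV : m.Cen V) (hA : m.Cen A) (hQ' : m.Cen Q') (h1 : m.P E * V = m.P E * A)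
    (h2 : m.P E * Q = m.P E * Q') :
    m.P E (m.heis (V * U) Q) = m.P E (m.heis U (star A * Q' * A)) := by
  have h3 : m.P E * star V = m.P E * star A := by
    have := congrArg star h1
    rwa [star_mul, star_mul, m.P_star hE, (hV.star.commute_P hE).eq,
      (hA.star.commute_P hE).eq] at this
  rw [m.heis_mul, hU.P_heis hE, hU.P_heis hE,
    DR_P_mul hE (DR_P_mul hE h3 h2 hA.star) h1 (hA.star.mul hQ')]

theorem DR_conj {G Q : H →L[ℂ] H} (hG : m.Fib G) (h : Commute Q G) (R : H →L[ℂ] H) :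
    star (G * R) * Q * (G * R) = star R * Q * R := by
  rw [star_mul]
  calc star R * star G * Q * (G * R) = star R * (star G * (Q * G)) * R := by
        simp only [mul_assoc]
    _ = _ := by rw [h.eq, ← mul_assoc (star G), hG.star_mul_self, one_mul]

theorem DR_crossA {A B : Set (Lab K)} (hA : MeasurableSet A) (hB : MeasurableSet B)
    (h : Disjoint A B) (Q W : H →L[ℂ] H) (γ : ℝ) :
    m.P A * m.cross Q A B γ W = m.P A * m.D Q (γ • m.j (m.P B (m.heis W Q))) := by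
  rw [cross, _root_.mul_add, _root_.mul_add, ← mul_assoc, ← mul_assoc, m.P_idem hA,
    m.P_mul_of_disjoint hA hB h, m.P_mul_of_disjoint hA (hA.union hB).compl
      (disjoint_compl_right.mono_left Set.subset_union_left), zero_mul, add_zero, add_zero]

theorem DR_crossB {A B : Set (Lab K)} (hA : MeasurableSet A) (hB : MeasurableSet B)
    (h : Disjoint A B) (Q W : H →L[ℂ] H) (γ : ℝ) :
    m.P B * m.cross Q A B γ W = m.P B * m.D Q (γ • m.j (m.P A (m.heis W Q))) := by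
  rw [cross, _root_.mul_add, _root_.mul_add, ← mul_assoc, ← mul_assoc, m.P_idem hB,
    m.P_mul_of_disjoint hB hA h.symm, m.P_mul_of_disjoint hB (hA.union hB).compl
      (disjoint_compl_right.mono_left Set.subset_union_right), zero_mul, add_zero, zero_add]

theorem DR_crossE {A B E : Set (Lab K)} (hA : MeasurableSet A) (hB : MeasurableSet B)
    (hE : MeasurableSet E) (h : Disjoint E A) (h' : Disjoint E B) (Q W : H →L[ℂ] H) (γ : ℝ) :
    m.P E * m.cross Q A B γ W = m.P E * 1 := by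
  rw [cross, _root_.mul_add, _root_.mul_add, ← mul_assoc, ← mul_assoc,
    m.P_mul_of_disjoint hE hA h, m.P_mul_of_disjoint hE hB h',
    m.P_mul_of_subset hE (hA.union hB).compl (Set.disjoint_union_right.2 ⟨h, h'⟩).subset_compl_right,
    zero_mul, zero_mul, zero_add, zero_add, mul_one]

variable (m) in
/-- the state is available and acts by `A`, `B`, `C` on the three blocks -/
def DR_St (ds : DSet K M k) (l : Fin k) (U A B C : H →L[ℂ] H) : Prop :=
  ∃ V, V * U ∈ m.Cl M ∧ m.Fib V ∧ m.Fib A ∧ m.Fib B ∧ m.Fib C ∧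
    m.P (ds.T l) * V = m.P (ds.T l) * A ∧ m.P ds.S * V = m.P ds.S * B ∧
    m.P ds.Md * V = m.P ds.Md * C ∧
    m.P (ds.T l ∪ ds.S ∪ ds.Md)ᶜ * V = m.P (ds.T l ∪ ds.S ∪ ds.Md)ᶜ * 1

section steps
variable {ds} {l : Fin k} {A B C : H →L[ℂ] H}

theorem DR_rest (l : Fin k) : MeasurableSet (ds.T l ∪ ds.S ∪ ds.Md)ᶜ :=
  (((ds.hT l).1.union ds.hS.1).union ds.hMd.1).compl

theorem DR_rT (l : Fin k) : Disjoint (ds.T l ∪ ds.S ∪ ds.Md)ᶜ (ds.T l) :=
  disjoint_compl_left.mono_right (Set.subset_union_left.trans Set.subset_union_left)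

theorem DR_rS (l : Fin k) : Disjoint (ds.T l ∪ ds.S ∪ ds.Md)ᶜ ds.S :=
  disjoint_compl_left.mono_right (Set.subset_union_right.trans Set.subset_union_left)

theorem DR_rM (l : Fin k) : Disjoint (ds.T l ∪ ds.S ∪ ds.Md)ᶜ ds.Md :=
  disjoint_compl_left.mono_right Set.subset_union_right

theorem DR_St.ph (h : m.DR_St ds l U A B C) {A' B' C' : H →L[ℂ] H} (hA : DR_Ph A A')
    (hB : DR_Ph B B') (hC : DR_Ph C C') : m.DR_St ds l U A' B' C' := by
  classical
  obtain ⟨V, v1, v2, fA, fB, fC, eA, eB, eC, eR⟩ := h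
  obtain ⟨a, rfl⟩ := hA.symm
  obtain ⟨b, rfl⟩ := hB.symm
  obtain ⟨c, rfl⟩ := hC.symm
  set κ : Lab K → ℝ := fun x =>
    if x ∈ ds.T l then a else if x ∈ ds.S then b else if x ∈ ds.Md then c else 0 with hκ
  have hκm : Measurable κ := Measurable.ite (ds.hT l).1 measurable_const (Measurable.ite ds.hS.1
    measurable_const (Measurable.ite ds.hMd.1 measurable_const measurable_const))
  have key : ∀ {E : Set (Lab K)} {r : ℝ} {S : H →L[ℂ] H}, MeasurableSet E → (∀ x ∈ E, κ x = r) →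
      m.P E * V = m.P E * S →
      m.P E * (m.ph κ * V) = m.P E * (Complex.exp (Complex.I * (r : ℂ)) • S) := by
    intro E r S hE h1 h2
    rw [← mul_assoc, m.P_mul_ph hE hκm h1, smul_mul_assoc, h2, mul_smul_comm]
  have hn : ∀ r : ℝ, ‖Complex.exp (Complex.I * (r : ℂ))‖ = 1 := Complex.norm_exp_I_mul_ofReal
  refine ⟨m.ph κ * V, ?_, (m.fib_ph hκm).mul v2, fA.smul (hn a), fB.smul (hn b), fC.smul (hn c),
    key (ds.hT l).1 (fun x hx => by simp [hκ, hx]) eA,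
    key ds.hS.1 (fun x hx => ?_) eB, key ds.hMd.1 (fun x hx => ?_) eC, ?_⟩
  · rw [mul_assoc]
    exact (m.free_ph M hκm).2 _ v1
  · simp [hκ, hx, Set.disjoint_right.1 (ds.dTS l) hx]
  · simp [hκ, hx, Set.disjoint_right.1 (ds.dTM l) hx, Set.disjoint_right.1 ds.dSM hx]
  · have := key (r := 0) (DR_rest l) (fun x hx => by
      simp [hκ, Set.disjoint_left.1 (DR_rT l) hx, Set.disjoint_left.1 (DR_rS l) hx,
        Set.disjoint_left.1 (DR_rM l) hx]) eR
    simpa using this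

theorem DR_St.crossM (hU : m.Fib U) (h : m.DR_St ds l U A B C) {Q QT QM : H →L[ℂ] H}
    (hQ : m.GAxis M Q) (hT : m.IsAxis QT) (hM : m.IsAxis QM)
    (eT : m.P (ds.T l) * Q = m.P (ds.T l) * QT) (eM : m.P ds.Md * Q = m.P ds.Md * QM) (γ : ℝ)
    {a b : KK} (ha : m.j (m.P ds.Md (m.heis U (star C * QM * C))) = a)
    (hb : m.j (m.P (ds.T l) (m.heis U (star A * QT * A))) = b) (ra : a ∈ m.R) (rb : b ∈ m.R) :
    m.DR_St ds l U (m.D QT (γ • a) * A) B (m.D QM (γ • b) * C) := by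
  obtain ⟨V, v1, v2, fA, fB, fC, eA, eB, eC, eR⟩ := h
  have mT := (ds.hT l).1
  have mM := ds.hMd.1
  have f1 := hT.fib_D (m.R.smul_mem γ ra)
  have f2 := hM.fib_D (m.R.smul_mem γ rb)
  refine ⟨m.cross Q (ds.T l) ds.Md γ (V * U) * V, ?_,
    (m.fib_cross hQ.1 mT mM (ds.dTM l) γ (v2.mul hU)).mul v2, f1.mul fA, fB, f2.mul fC,
    DR_P_mul mT ?_ eA f1.2, ?_, DR_P_mul mM ?_ eC f2.2, ?_⟩
  · rw [mul_assoc]
    exact m.cross_mem_Cl hQ (ds.hT l) ds.hMd (ds.dTM l) γ v1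
  · rw [DR_crossA mT mM (ds.dTM l), m.P_mul_D mT eT, DR_heis hU mM v2.2 fC.2 hM.2.2.1 eC eM, ha]
  · rw [DR_P_mul ds.hS.1 (DR_crossE mT mM ds.hS.1 (ds.dTS l).symm ds.dSM _ _ _) eB (Cen.one m),
      one_mul]
  · rw [DR_crossB mT mM (ds.dTM l), m.P_mul_D mM eM, DR_heis hU mT v2.2 fA.2 hT.2.2.1 eA eT, hb]
  · rw [DR_P_mul (DR_rest l) (DR_crossE mT mM (DR_rest l) (DR_rT l) (DR_rM l) _ _ _) eR
      (Cen.one m), one_mul]

theorem DR_St.crossS (hU : m.Fib U) (h : m.DR_St ds l U A B C) {Q QT QS : H →L[ℂ] H}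
    (hQ : m.GAxis M Q) (hT : m.IsAxis QT) (hS : m.IsAxis QS)
    (eT : m.P (ds.T l) * Q = m.P (ds.T l) * QT) (eS : m.P ds.S * Q = m.P ds.S * QS) (γ : ℝ)
    {a b : KK} (ha : m.j (m.P ds.S (m.heis U (star B * QS * B))) = a)
    (hb : m.j (m.P (ds.T l) (m.heis U (star A * QT * A))) = b) (ra : a ∈ m.R) (rb : b ∈ m.R) :
    m.DR_St ds l U (m.D QT (γ • a) * A) (m.D QS (γ • b) * B) C := by
  obtain ⟨V, v1, v2, fA, fB, fC, eA, eB, eC, eR⟩ := h
  have mT := (ds.hT l).1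
  have mS := ds.hS.1
  have f1 := hT.fib_D (m.R.smul_mem γ ra)
  have f2 := hS.fib_D (m.R.smul_mem γ rb)
  refine ⟨m.cross Q (ds.T l) ds.S γ (V * U) * V, ?_,
    (m.fib_cross hQ.1 mT mS (ds.dTS l) γ (v2.mul hU)).mul v2, f1.mul fA, f2.mul fB, fC,
    DR_P_mul mT ?_ eA f1.2, DR_P_mul mS ?_ eB f2.2, ?_, ?_⟩
  · rw [mul_assoc]
    exact m.cross_mem_Cl hQ (ds.hT l) ds.hS (ds.dTS l) γ v1
  · rw [DR_crossA mT mS (ds.dTS l), m.P_mul_D mT eT, DR_heis hU mS v2.2 fB.2 hS.2.2.1 eB eS, ha]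
  · rw [DR_crossB mT mS (ds.dTS l), m.P_mul_D mS eS, DR_heis hU mT v2.2 fA.2 hT.2.2.1 eA eT, hb]
  · rw [DR_P_mul ds.hMd.1 (DR_crossE mT mS ds.hMd.1 (ds.dTM l).symm ds.dSM.symm _ _ _) eC
      (Cen.one m), one_mul]
  · rw [DR_P_mul (DR_rest l) (DR_crossE mT mS (DR_rest l) (DR_rT l) (DR_rS l) _ _ _) eR
      (Cen.one m), one_mul]

theorem DR_St.pulse (hM : 1 ≤ M) (h : m.DR_St ds l U A B C) (α : ℝ) :
    m.DR_St ds l U (rot (m.Sg * m.Z) α * A) B C := by
  obtain ⟨V, v1, v2, fA, fB, fC, eA, eB, eC, eR⟩ := h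
  have mT := (ds.hT l).1
  have hZ := m.isAxis_Z.sg
  have f1 := m.fib_rot hZ.1 hZ.2.1 hZ.2.2.1 α
  have fr := m.free_SgZ_on hM (ds.hT l) α
  have out : ∀ {E : Set (Lab K)} {S : H →L[ℂ] H}, MeasurableSet E → Disjoint E (ds.T l) →
      m.P E * V = m.P E * S →
      m.P E * ((m.P (ds.T l) * rot (m.Sg * m.Z) α + m.P (ds.T l)ᶜ) * V) = m.P E * S := by
    intro E S hE hd e
    have := m.h34_out hE mT hd.subset_compl_right (rot (m.Sg * m.Z) α) 1
    rw [mul_one (m.P (ds.T l)ᶜ)] at this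
    rw [DR_P_mul hE this e (Cen.one m), one_mul]
  refine ⟨(m.P (ds.T l) * rot (m.Sg * m.Z) α + m.P (ds.T l)ᶜ) * V, ?_, fr.1.mul v2, f1.mul fA,
    fB, fC, DR_P_mul mT ?_ eA f1.2, out ds.hS.1 (ds.dTS l).symm eB,
    out ds.hMd.1 (ds.dTM l).symm eC, out (DR_rest l) (DR_rT l) eR⟩
  · rw [mul_assoc]
    exact fr.2 _ v1
  · have := m.h34_in mT mT subset_rfl (rot (m.Sg * m.Z) α) 1
    rwa [mul_one] at this

theorem DR_St.mem (h : m.DR_St ds l U A B C) :
    (m.P (ds.T l) * A + m.P ds.S * B + m.P ds.Md * C + m.P (ds.T l ∪ ds.S ∪ ds.Md)ᶜ) * U ∈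
      m.Cl M := by
  obtain ⟨V, v1, -, -, -, -, eA, eB, eC, eR⟩ := h
  have mT := (ds.hT l).1
  rw [mul_one] at eR
  rw [← eA, ← eB, ← eC, ← eR, ← add_mul, ← add_mul, ← add_mul,
    ← m.P_union mT ds.hS.1 (ds.dTS l),
    ← m.P_union (mT.union ds.hS.1) ds.hMd.1 (Set.disjoint_union_left.2 ⟨ds.dTM l, ds.dSM⟩),
    m.P_add_compl ((mT.union ds.hS.1).union ds.hMd.1), one_mul]
  exact v1

end steps

/-- The nested pulse is available.  With `Q₁ = Y` on `Md`, `Z` elsewhere and `Q₂ = Y` on `T l`, `σX` on `Md`, `Z` elsewhere apply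
`cross Q₁ (T l) Md e₁`, `cross Q₂ (T l) Md (e₁e₂s/2)`, `cross Q₂ (T l) S (e₂e₃s/2)`, the pulse `rot (σZ) (e₃δ)` on `T l`,
`cross Q₂ (T l) S (-e₂e₃s/2)`, `cross Q₂ (T l) Md (-e₁e₂s/2)`, `cross Q₁ (T l) Md (-e₁)` and compute block by block:
* on `T l` the vectors `a2`, `yS` are not changed between the two applications (`Md` only sees gates commuting with `σX`,
  `S` only gates commuting with `Z`), `D Y` is additive on `a2 ⊥ yS`; the product is
  `D Z (-e₁ a₁') * (G₂† pulse G₂) * G1T = phase • D Z da * ET`;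
* on `S`: `D Z (-(e₂e₃s/2) g') * D Z ((e₂e₃s/2) g) = phase • D Z bS` with `g' - g = dg`;
* on `Md`: `D Y (-e₁ b') * (phase • D (σX) bM) * G1M = phase • NM`.
The three scalar phases are removed with `free_ph`.  It is convenient to prove one lemma per intermediate state giving its four blocks. -/
theorem NP_mem_Cl (hM : 1 ≤ M) (hU : U ∈ m.Cl M) : m.NP ds s δ p U * U ∈ m.Cl M := by
  have fU : m.Fib U := hU.1
  have mT := (ds.hT p.1).1
  have mS := ds.hS.1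
  have mM := ds.hMd.1
  have aY := m.isAxis_Y
  have aZ := m.isAxis_Z
  have aX := m.isAxis_X.sg
  have q1 := m.gaxis_Y_on ds.hMd
  have q2 := m.gaxis_Y_SgX hM (ds.hT p.1) ds.hMd (ds.dTM p.1)
  have q1T := m.h34_out mT mM (ds.dTM p.1).subset_compl_right m.Y m.Z
  have q1M := m.h34_in mM mM subset_rfl m.Y m.Z
  have q2T : m.P (ds.T p.1) * (m.P (ds.T p.1) * m.Y + m.P ds.Md * (m.Sg * m.X) +
      m.P (ds.T p.1 ∪ ds.Md)ᶜ * m.Z) = m.P (ds.T p.1) * m.Y := by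
    rw [_root_.mul_add, _root_.mul_add, ← mul_assoc, ← mul_assoc _ (m.P ds.Md),
      ← mul_assoc _ (m.P (ds.T p.1 ∪ ds.Md)ᶜ), m.P_idem mT,
      m.P_mul_of_disjoint mT mM (ds.dTM p.1), m.P_mul_of_disjoint mT (mT.union mM).compl
        (disjoint_compl_right.mono_left Set.subset_union_left), zero_mul, zero_mul, add_zero,
      add_zero]
  have q2M : m.P ds.Md * (m.P (ds.T p.1) * m.Y + m.P ds.Md * (m.Sg * m.X) +
      m.P (ds.T p.1 ∪ ds.Md)ᶜ * m.Z) = m.P ds.Md * (m.Sg * m.X) := by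
    rw [_root_.mul_add, _root_.mul_add, ← mul_assoc, ← mul_assoc _ (m.P ds.Md),
      ← mul_assoc _ (m.P (ds.T p.1 ∪ ds.Md)ᶜ), m.P_idem mM,
      m.P_mul_of_disjoint mM mT (ds.dTM p.1).symm, m.P_mul_of_disjoint mM (mT.union mM).compl
        (disjoint_compl_right.mono_left Set.subset_union_right), zero_mul, zero_mul, add_zero,
      zero_add]
  have q2S : m.P ds.S * (m.P (ds.T p.1) * m.Y + m.P ds.Md * (m.Sg * m.X) +
      m.P (ds.T p.1 ∪ ds.Md)ᶜ * m.Z) = m.P ds.S * m.Z := by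
    rw [_root_.mul_add, _root_.mul_add, ← mul_assoc, ← mul_assoc _ (m.P ds.Md),
      ← mul_assoc _ (m.P (ds.T p.1 ∪ ds.Md)ᶜ), m.P_mul_of_disjoint mS mT (ds.dTS p.1).symm,
      m.P_mul_of_disjoint mS mM ds.dSM, m.P_mul_of_subset mS (mT.union mM).compl
        (Set.disjoint_union_right.2 ⟨(ds.dTS p.1).symm, ds.dSM⟩).subset_compl_right,
      zero_mul, zero_mul, zero_add, zero_add]
  have r1 := a1_mem ds fU
  have r2 := a2_mem ds p fU
  have rb := bb_mem ds fU p.1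
  have rS := yS_mem ds fU
  have ry := yy_mem ds s p fU
  have fT := fib_G1T ds p fU
  have fM := fib_G1M ds p fU
  have fE := fib_ET ds s δ p fU
  have rbM := bM_mem ds s δ p fU
  -- the vectors
  set g := m.j (m.P (ds.T p.1) (m.heis U (m.Yf ds p U))) with hg
  set g' := m.j (m.P (ds.T p.1) (m.heis U
    (star (m.ET ds s δ p U) * m.Yf ds p U * m.ET ds s δ p U))) with hg'
  have sa : ∀ {G Q : H →L[ℂ] H}, star Q = Q → star (star G * Q * G) = star G * Q * G := by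
    intro G Q h
    rw [star_mul, star_mul, star_star, h, mul_assoc]
  have sY : star (m.Yf ds p U) = m.Yf ds p U := sa aY.1
  have cY := (fib_Yf ds p fU).2
  have rg : g ∈ m.R := fU.j_P_heis_mem sY cY mT
  have rg' : g' ∈ m.R := fU.j_P_heis_mem (sa sY) ((fE.2.star.mul cY).mul fE.2) mT
  have hdg : m.dg ds s δ p U = g' - g := by
    rw [dg, m.heis_sub, map_sub, map_sub]
  set DM := m.D (m.Sg * m.X) (m.bM ds s δ p U) with hDM
  have fD : m.Fib DM := aX.fib_D rbM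
  set a' := m.j (m.P ds.Md (m.heis U (star (DM * m.G1M ds p U) * m.Y * (DM * m.G1M ds p U))))
    with ha'
  set b' := m.j (m.P (ds.T p.1) (m.heis U
    (star (m.ET ds s δ p U) * m.Z * m.ET ds s δ p U))) with hb'
  have ra' : a' ∈ m.R :=
    fU.j_P_heis_mem (sa aY.1) (((fD.mul fM).2.star.mul aY.2.2.1).mul (fD.mul fM).2) mM
  have rb' : b' ∈ m.R := fU.j_P_heis_mem (sa aZ.1) ((fE.2.star.mul aZ.2.2.1).mul fE.2) mT
  have hda : m.da ds s δ p U = (-p.e1) • (a' - m.a1 ds U) := by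
    have e1 := DR_conj fM (aY.commute_D_self _) 1
    simp only [mul_one, star_one, one_mul] at e1
    have e2 : star (m.G1M ds p U) * (star DM * m.Y * DM - m.Y) * m.G1M ds p U =
        star (DM * m.G1M ds p U) * m.Y * (DM * m.G1M ds p U) - m.Y := by
      rw [_root_.mul_sub, sub_mul, e1, star_mul]
      simp only [mul_assoc]
    rw [da, ← hDM, e2, m.heis_sub, map_sub, map_sub]
    rfl
  have hdb : m.db ds s δ p U = (-p.e1) • (b' - m.bb ds p.1 U) := by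
    rw [db, m.heis_sub, map_sub, map_sub]
    rfl
  have cY' : ∀ {y : KK}, y ∈ m.R → ∀ R : H →L[ℂ] H,
      star (m.D m.Y y * R) * m.Y * (m.D m.Y y * R) = star R * m.Y * R :=
    fun hy R => DR_conj (aY.fib_D hy) (aY.commute_D_self _) R
  have cE : star (m.G1T ds p U * m.ET ds s δ p U) * m.Y * (m.G1T ds p U * m.ET ds s δ p U) =
      star (m.ET ds s δ p U) * m.Yf ds p U * m.ET ds s δ p U := by
    rw [Yf, star_mul]
    simp only [mul_assoc]
  have one : ∀ Q : H →L[ℂ] H, star (1 : H →L[ℂ] H) * Q * 1 = Q := fun Q => by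
    rw [star_one, one_mul, mul_one]
  -- the seven gates
  have s0 : m.DR_St ds p.1 U 1 1 1 :=
    ⟨1, by rwa [one_mul], m.fib_one, m.fib_one, m.fib_one, m.fib_one, rfl, rfl, rfl, rfl⟩
  have s1 : m.DR_St ds p.1 U (m.G1T ds p U) 1 (m.G1M ds p U) := by
    have := s0.crossM fU q1 aZ aY q1T q1M p.e1 (a := m.a1 ds U) (b := m.bb ds p.1 U)
      (by rw [one]; rfl) (by rw [one]; rfl) r1 rb
    rwa [mul_one, mul_one] at this
  have s2 := s1.crossM fU q2 aY aX q2T q2M (p.e1 * p.e2 * s / 2) (a := m.a2 ds p U) (b := g)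
    rfl rfl r2 rg
  have s3 := (s2.crossS fU q2 aY aZ q2T q2S (p.e2 * p.e3 * s / 2) (a := m.yS ds U) (b := g)
    (by rw [one]; rfl) (by rw [cY' (m.R.smul_mem _ r2)]; rfl) rS rg).ph
    (DR_DD aY (m.R.smul_mem _ rS) (m.R.smul_mem _ r2) (z := m.yy ds s p U)
      (by rw [yy]; module) _) (.of_eq rfl) (.of_eq rfl)
  have s4 : m.DR_St ds p.1 U (m.D m.Y (m.yy ds s p U) * (m.G1T ds p U * m.ET ds s δ p U))
      (m.D m.Z ((p.e2 * p.e3 * s / 2) • g) * 1)
      (m.D (m.Sg * m.X) ((p.e1 * p.e2 * s / 2) • g) * m.G1M ds p U) := by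
    refine (s3.pulse hM (p.e3 * δ)).ph (.of_eq ?_) (.of_eq rfl) (.of_eq rfl)
    have fG := (aY.fib_D ry).mul fT
    have e := conj_rot (Q := m.Sg * m.Z) fG.star_mul_self (p.e3 * δ)
    have e' : m.ET ds s δ p U = star (m.D m.Y (m.yy ds s p U) * m.G1T ds p U) *
        rot (m.Sg * m.Z) (p.e3 * δ) * (m.D m.Y (m.yy ds s p U) * m.G1T ds p U) := by
      rw [e, ET, AT, star_mul]
      simp only [mul_assoc]
    rw [← mul_assoc (m.D m.Y (m.yy ds s p U)), e',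
      ← mul_assoc (m.D m.Y (m.yy ds s p U) * m.G1T ds p U),
      ← mul_assoc (m.D m.Y (m.yy ds s p U) * m.G1T ds p U), fG.mul_star_self, one_mul]
  have s5 := (s4.crossS fU q2 aY aZ q2T q2S (-(p.e2 * p.e3 * s / 2)) (a := m.yS ds U) (b := g')
    (by rw [DR_conj (aZ.fib_D (m.R.smul_mem _ rg)) (aZ.commute_D_self _), one]; rfl)
    (by rw [cY' ry, cE]) rS rg').ph
    (DR_DD aY (m.R.smul_mem _ rS) ry (z := (p.e1 * p.e2 * s / 2) • m.a2 ds p U)
      (by rw [yy]; module) _)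
    (DR_DD aZ (m.R.smul_mem _ rg') (m.R.smul_mem _ rg) (z := m.bS ds s δ p U)
      (by rw [bS, hdg]; module) _) (.of_eq rfl)
  have s6 := (s5.crossM fU q2 aY aX q2T q2M (-(p.e1 * p.e2 * s / 2)) (a := m.a2 ds p U) (b := g')
    (by rw [DR_conj (aX.fib_D (m.R.smul_mem _ rg)) (aX.commute_D_self _)]; rfl)
    (by rw [cY' (m.R.smul_mem _ r2), cE]) r2 rg').ph
    (DR_DD aY (m.R.smul_mem _ r2) (m.R.smul_mem _ r2) (z := 0) (by module) _) (.of_eq rfl)
    (DR_DD aX (m.R.smul_mem _ rg') (m.R.smul_mem _ rg) (z := m.bM ds s δ p U)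
      (by rw [bM, hdg]; module) _)
  rw [m.D_zero, one_mul, mul_one] at s6
  have s7 := s6.crossM fU q1 aZ aY q1T q1M (-p.e1) (a := a') (b := b') rfl
    (by rw [DR_conj fT (aZ.commute_D_self _)]) ra' rb'
  have s8 : m.DR_St ds p.1 U (m.NT ds s δ p U) (m.NS ds s δ p U) (m.NM ds s δ p U) := by
    refine s7.ph (DR_DD aZ (m.R.smul_mem _ ra') (m.R.smul_mem _ r1) (by rw [hda]; module) _)
      (.of_eq rfl) (DR_Ph.symm ?_)
    rw [NM, mul_assoc (star _), G1M, aY.star_D]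
    exact DR_DD aY (db_mem ds s δ p fU) (m.R.neg_mem (m.R.smul_mem _ rb))
      (by rw [hdb]; module) _
  exact s8.mem

theorem st_mem_Cl (hM : 1 ≤ M) (hU : U ∈ m.Cl M) (L : List (PIdx k)) : m.st ds s δ U L ∈ m.Cl M := by
  induction L generalizing U with
  | nil => exact hU
  | cons q L ih => exact ih (NP_mem_Cl ds s δ q hM hU)

theorem round_mem_Cl (hM : 1 ≤ M) (hU : U ∈ m.Cl M) : m.round ds s δ U ∈ m.Cl M :=
  (m.free_SgZ_on hM ds.hMd _).2 _ (st_mem_Cl ds s δ hM hU _)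

end Model

end Crest.Agent.R339
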