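import Crest.Agent.R339.Q.D2

/-!
# Row 339, part Q: identity hubs: the target block
-/

set_option autoImplicit false

namespace Crest.Agent.R339

open MeasureTheory ProbabilityTheory Filter Topology Crest.MathPhysics.SpinGlass
open scoped InnerProductSpace ComplexConjugate

namespace Model

variable {K : ℕ} {I : Iamp K} {H KK : Type} [NormedAddCommGroup H] [InnerProductSpace ℂ H]
  [CompleteSpace H] [NormedAddCommGroup KK] [InnerProductSpace ℂ KK] (m : Model I H KK)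

/-- a product of cost gates along one axis is a scalar phase close to `1` times one cost gate -/
theorem prod_D {Q : H →L[ℂ] H} (hQ : m.IsAxis Q) (L : List KK) (hL : ∀ y ∈ L, y ∈ m.R) :
    ∃ c : ℂ, ‖c‖ = 1 ∧ ‖c - 1‖ ≤ (L.map fun y => ‖y‖).sum ^ 2 ∧
      (L.map (m.D Q)).prod = c • m.D Q L.sum := by
  have hs : ∀ L : List KK, (∀ y ∈ L, y ∈ m.R) → L.sum ∈ m.R := fun L hL => list_sum_mem hL
  induction L with
  | nil => exact ⟨1, norm_one, by simp, by simp [m.D_zero]⟩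
  | cons y L ih =>
    have hL' : ∀ u ∈ L, u ∈ m.R := fun u hu => hL u (List.mem_cons_of_mem _ hu)
    have hy : y ∈ m.R := hL y List.mem_cons_self
    obtain ⟨c, h1, h2, h3⟩ := ih hL'
    have he : Complex.exp (-(Complex.I * (om y L.sum : ℂ))) =
        Complex.exp (Complex.I * ((-om y L.sum : ℝ) : ℂ)) := by
      congr 1
      push_cast
      ring
    have hn : ‖Complex.exp (-(Complex.I * (om y L.sum : ℂ)))‖ = 1 := by
      rw [he, mul_comm, Complex.norm_exp_ofReal_mul_I]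
    refine ⟨c * Complex.exp (-(Complex.I * (om y L.sum : ℂ))), by rw [norm_mul, h1, hn, one_mul], ?_, ?_⟩
    · have a1 : ‖Complex.exp (-(Complex.I * (om y L.sum : ℂ))) - 1‖ ≤ ‖y‖ * ‖L.sum‖ := by
        rw [he]
        refine Real.norm_exp_I_mul_ofReal_sub_one_le.trans ?_
        rw [norm_neg, Real.norm_eq_abs]
        exact abs_om_le _ _
      have a2 : ‖L.sum‖ ≤ (L.map fun y => ‖y‖).sum := by simpa using norm_multiset_sum_le (L : Multiset KK)
      have a3 : c * Complex.exp (-(Complex.I * (om y L.sum : ℂ))) - 1 =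
          c * (Complex.exp (-(Complex.I * (om y L.sum : ℂ))) - 1) + (c - 1) := by ring
      rw [a3, List.map_cons, List.sum_cons]
      refine (norm_add_le _ _).trans ?_
      rw [norm_mul, h1, one_mul]
      have a4 := norm_nonneg y
      have a5 := norm_nonneg L.sum
      nlinarith [mul_le_mul_of_nonneg_left a2 a4]
    · rw [List.map_cons, List.prod_cons, h3, mul_smul_comm, hQ.D_mul hy (hs L hL'), smul_smul,
        List.sum_cons]

/-- the target block (`prod_D`, `freeze_Up`, `NB.norm_D_sub`) -/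
theorem block_S : ∃ C, 0 ≤ C ∧ ∀ {M k : ℕ} (ds : DSet K M k) (s δ : ℝ) (U : H →L[ℂ] H) (Λ r : ℝ)
    (y z : KK) (b : Bool), |s| ≤ 1 → 400 * |δ| ≤ 1 → m.Fib U → 1 ≤ Λ → m.Ap ds Λ U → y ∈ m.R →
    ‖y‖ ≤ 1 → z ∈ m.R → ‖z‖ ≤ r →
    ‖m.P ds.S ((m.round ds s δ U * star U) (m.coh b z) - m.D m.Z y (m.coh b z))‖ ≤
      C * (1 + r) * (‖∑ p : PIdx k, m.bS ds s δ p U - y‖ + (1 + k) ^ 2 * δ ^ 2 * Λ ^ 4) := by
  obtain ⟨C0, hC0, hfr⟩ := m.freeze_Up
  refine ⟨16 + 64 * C0, by positivity, ?_⟩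
  intro M k ds s δ U Λ r y z b hs hδ hU hΛ hAp hy hy1 hz hzr
  set w : PIdx k → KK := fun q => m.bS ds s δ q (m.Up ds s δ q U) with hw
  have hwR : ∀ q, w q ∈ m.R := fun q => bS_mem ds s δ q (fib_Up ds s δ q hU)
  obtain ⟨c, h1, h2, h3⟩ := m.prod_D m.isAxis_Z ((allP k).reverse.map w) (by
    intro u hu
    obtain ⟨q, _, rfl⟩ := List.mem_map.1 hu
    exact hwR q)
  rw [List.map_map, sum_allP] at h2
  rw [List.map_map, sum_allP] at h3
  have hsum : ∑ q, w q ∈ m.R := Submodule.sum_mem _ fun q _ => hwR q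
  have e1 : m.P ds.S ((m.round ds s δ U * star U) (m.coh b z)) =
      m.P ds.S (c • m.D m.Z (∑ q, w q) (m.coh b z)) := by
    have h := P_S_round ds s δ hU
    have h' : ((allP k).reverse.map fun q => m.NS ds s δ q (m.Up ds s δ q U)).prod =
        c • m.D m.Z (∑ q, w q) := h3
    rw [h'] at h
    exact congrArg (fun A : H →L[ℂ] H => A (m.coh b z)) h
  rw [map_sub, e1, ← map_sub]
  refine (m.norm_P_apply_le ds.hS.1 _).trans ?_
  have hcard : (Fintype.card (PIdx k) : ℝ) = 8 * k := by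
    simp only [Fintype.card_prod, Fintype.card_fin, Fintype.card_bool]
    push_cast
    ring
  have hδ0 := abs_nonneg δ
  have hk0 : (0 : ℝ) ≤ k := Nat.cast_nonneg k
  have hr0 : 0 ≤ r := (norm_nonneg z).trans hzr
  have b1 : ∑ q, ‖w q‖ ≤ 4 * k * |δ| := by
    have : ∀ q, ‖w q‖ ≤ |δ| / 2 := fun q => by
      have h := Loc.norm_le ds (loc_bS ds s δ q (fib_Up ds s δ q hU))
        (mul_nonneg (abs_nonneg s) hδ0)
      have h5 : |s| * |δ| ≤ |δ| := mul_le_of_le_one_left hδ0 hs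
      have h6 := ds.hη0
      have h7 := ds.hη1
      refine h.trans ?_
      nlinarith [mul_le_mul_of_nonneg_right h5 h6]
    refine (Finset.sum_le_sum fun q _ => this q).trans (le_of_eq ?_)
    rw [Finset.sum_const, Finset.card_univ, nsmul_eq_mul, hcard]
    ring
  have b2 : ‖c - 1‖ ≤ 16 * (k ^ 2 * δ ^ 2) := by
    refine h2.trans ?_
    have h0 : 0 ≤ ∑ q, ‖w q‖ := Finset.sum_nonneg fun _ _ => norm_nonneg _
    calc _ = (∑ q, ‖w q‖) ^ 2 := rfl
      _ ≤ (4 * k * |δ|) ^ 2 := pow_le_pow_left₀ h0 b1 2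
      _ = _ := by rw [mul_pow, sq_abs]; ring
  have b3 : ‖y - ∑ q, w q‖ ≤ ‖∑ p : PIdx k, m.bS ds s δ p U - y‖ + 8 * C0 * (k ^ 2 * δ ^ 2 * Λ ^ 4) := by
    have e : y - ∑ q, w q = -(∑ p : PIdx k, m.bS ds s δ p U - y) - ∑ q, (w q - m.bS ds s δ q U) := by
      rw [Finset.sum_sub_distrib]; abel
    rw [e]
    refine (norm_sub_le _ _).trans (add_le_add (norm_neg _).le ((norm_sum_le _ _).trans ?_))
    refine (Finset.sum_le_sum fun q _ => (hfr ds s δ q U Λ hs hδ hU hΛ hAp).2.2.1).trans (le_of_eq ?_)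
    rw [Finset.sum_const, Finset.card_univ, nsmul_eq_mul, hcard]
    ring
  have b4 := (m.nb_coh b hz).norm_D_sub m.isAxis_Z hy hsum
  have b5 : ‖m.D m.Z (∑ q, w q) (m.coh b z)‖ = 1 := by
    rw [(m.isAxis_Z.fib_D hsum).norm_apply, m.norm_coh b hz]
  have e2 : c • m.D m.Z (∑ q, w q) (m.coh b z) - m.D m.Z y (m.coh b z) =
      (c - 1) • m.D m.Z (∑ q, w q) (m.coh b z) -
        (m.D m.Z y (m.coh b z) - m.D m.Z (∑ q, w q) (m.coh b z)) := by
    rw [sub_smul, one_smul]; abel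
  rw [e2]
  refine (norm_sub_le _ _).trans ?_
  rw [norm_smul, b5, mul_one]
  set a := ‖∑ p : PIdx k, m.bS ds s δ p U - y‖ with ha
  have ha0 : 0 ≤ a := norm_nonneg _
  set T := (1 + (k : ℝ)) ^ 2 * δ ^ 2 * Λ ^ 4 with hT
  have hΛ4 : 1 ≤ Λ ^ 4 := one_le_pow₀ hΛ
  have hk2 : (k : ℝ) ^ 2 ≤ (1 + k) ^ 2 := by nlinarith
  have c1 : (k : ℝ) ^ 2 * δ ^ 2 * Λ ^ 4 ≤ T := by rw [hT]; gcongr
  have c2 : (k : ℝ) ^ 2 * δ ^ 2 ≤ T :=
    (le_mul_of_one_le_right (by positivity) hΛ4).trans c1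
  have hT0 : 0 ≤ T := by positivity
  have c3 : ‖y - ∑ q, w q‖ ≤ a + 8 * C0 * T :=
    b3.trans (add_le_add le_rfl (mul_le_mul_of_nonneg_left c1 (by positivity)))
  have c4 : 2 * (1 + ‖y‖) * ‖y - ∑ q, w q‖ * (1 + 2 * ‖z‖) ≤ 4 * (a + 8 * C0 * T) * (2 * (1 + r)) := by
    have := norm_nonneg y
    have := norm_nonneg z
    gcongr <;> linarith
  have c5 : 0 ≤ C0 * a := mul_nonneg hC0 ha0
  have c6 : 0 ≤ C0 * T := mul_nonneg hC0 hT0
  nlinarith [mul_nonneg hr0 ha0, mul_nonneg hr0 hT0, mul_nonneg hr0 c5, mul_nonneg hr0 c6]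

end Model

end Crest.Agent.R339
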