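import Crest.Agent.R339.Q.DAlg
import Crest.Agent.R339.Q.D2
import Crest.Agent.R339.Q.Coh2

/-!
# Row 339, part Q: identity hubs: the source blocks
-/

set_option autoImplicit false

namespace Crest.Agent.R339

open MeasureTheory ProbabilityTheory Filter Topology Crest.MathPhysics.SpinGlass
open scoped InnerProductSpace ComplexConjugate

namespace Model

variable {K : ℕ} {I : Iamp K} {H KK : Type} [NormedAddCommGroup H] [InnerProductSpace ℂ H]
  [CompleteSpace H] [NormedAddCommGroup KK] [InnerProductSpace ℂ KK] (m : Model I H KK)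

theorem dt_prod_ite {α β : Type} [Monoid β] (p : α → Prop) [DecidablePred p] (f : α → β)
    (L : List α) : (L.map fun q => if p q then f q else 1).prod =
      ((L.filter fun q => decide (p q)).map f).prod := by
  induction L with
  | nil => rfl
  | cons a L ih => by_cases h : p a <;> simp [h, ih]

theorem dt_sum_ite {α β : Type} [AddMonoid β] (p : α → Prop) [DecidablePred p] (f : α → β)
    (L : List α) : (L.map fun q => if p q then f q else 0).sum =
      ((L.filter fun q => decide (p q)).map f).sum := by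
  induction L with
  | nil => rfl
  | cons a L ih => by_cases h : p a <;> simp [h, ih]

theorem dt_sum {k : ℕ} {β : Type} [AddCommMonoid β] (l : Fin k) (f : PIdx k → β) :
    (((allP k).reverse.filter fun q => decide (q.1 = l)).map f).sum =
      ∑ b1, ∑ b2, ∑ b3, f (l, b1, b2, b3) := by
  rw [← dt_sum_ite (fun q : PIdx k => q.1 = l), sum_allP, Fintype.sum_prod_type, Finset.sum_comm]
  simp only [Finset.sum_ite_eq', Finset.mem_univ, if_true, Fintype.sum_prod_type]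

theorem dt_length {k : ℕ} (l : Fin k) :
    ((allP k).reverse.filter fun q => decide (q.1 = l)).length = 8 := by
  have := dt_sum l fun _ => (1 : ℕ)
  simpa using this

omit [CompleteSpace H] in
theorem dt_contr {A : H →L[ℂ] H} (hA : ‖A‖ ≤ 1) (v : H) : ‖A v‖ ≤ ‖v‖ :=
  (A.le_opNorm v).trans (mul_le_of_le_one_left (norm_nonneg _) hA)

theorem dt_norm_I (t : ℝ) : ‖Complex.I * (t : ℂ)‖ = |t| := by
  rw [norm_mul, Complex.norm_I, one_mul, Complex.norm_real, Real.norm_eq_abs]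

theorem dt_norm_real (t : ℝ) : ‖(t : ℂ)‖ = |t| := by
  rw [Complex.norm_real, Real.norm_eq_abs]

omit [CompleteSpace H] in
theorem dt_trig {A A' : H →L[ℂ] H} {a a' e e' : ℝ} {ψ : H} (hA : ‖A‖ ≤ 1) (ha : |a - a'| ≤ e)
    (ha' : |a'| ≤ 1) (h : ‖A ψ - A' ψ‖ ≤ e') :
    ‖(a : ℂ) • A ψ - (a' : ℂ) • A' ψ‖ ≤ e * ‖ψ‖ + e' := by
  have : (a : ℂ) • A ψ - (a' : ℂ) • A' ψ =
      ((a - a' : ℝ) : ℂ) • A ψ + (a' : ℂ) • (A ψ - A' ψ) := by
    push_cast
    module
  rw [this]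
  refine (norm_add_le _ _).trans (add_le_add ?_ ?_)
  · rw [norm_smul, dt_norm_real]
    exact mul_le_mul ha (dt_contr hA _) (norm_nonneg _) ((abs_nonneg _).trans ha)
  · rw [norm_smul, dt_norm_real]
    exact (mul_le_of_le_one_left (norm_nonneg _) ha').trans h

/-- one source block: remove the junk factor `D Z da`, freeze, expand (all bounds carry the factor `√γ(T l)`
because `P (T l) v` satisfies the localised bound) -/
theorem block_T1 : ∃ C, 0 ≤ C ∧ ∀ {M k : ℕ} (ds : DSet K M k) (s δ : ℝ) (U : H →L[ℂ] H) (Λ lam : ℝ)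
    (l : Fin k) (w : H), |s| ≤ 1 → 400 * |δ| ≤ 1 → m.Fib U → 1 ≤ Λ → m.Ap ds Λ U → m.NB lam w →
    ‖((allP k).reverse.map fun q => if q.1 = l then m.NT ds s δ q (m.Up ds s δ q U) else 1).prod w - w
      + (Complex.I * (δ : ℂ)) • (∑ b1, ∑ b2, ∑ b3,
          ((spinSign b3 : ℝ) : ℂ) • m.AT ds s (l, b1, b2, b3) U) w‖ ≤
      C * lam * (|δ| * ds.η * Λ + (1 + k) * δ ^ 2 * Λ ^ 4) := by
  obtain ⟨C, hC, hfr⟩ := m.freeze_Up
  refine ⟨32 * C + 8 * C + 8 + 14976, by positivity, ?_⟩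
  intro M k ds s δ U Λ lam l w hs hδ hU hΛ hAp hw
  have hlam := hw.nonneg
  have hη := ds.hη0
  have hd := abs_nonneg δ
  have key := m.prod_expand (η := 13 * |δ| * (2 * Λ))
    (a := C * k * δ ^ 2 * Λ ^ 4 * lam + 2 * (C * |δ| * ds.η * Λ) * (2 * lam) + δ ^ 2 * lam)
    (lam := |δ| * (9 * lam))
    (((allP k).reverse.filter fun q => decide (q.1 = l)).map fun q =>
      (m.NT ds s δ q (m.Up ds s δ q U), -((Complex.I * ((q.e3 * δ : ℝ) : ℂ)) • m.AT ds s q U w)))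
    w ?_ ?_ ?_ (by positivity)
  · rw [List.map_map, List.map_map, List.length_map, dt_length, dt_sum] at key
    rw [dt_prod_ite (fun q : PIdx k => q.1 = l)]
    refine le_trans (le_of_eq ?_) (key.trans ?_)
    · congr 1
      rw [sub_eq_add_neg _ (∑ b1, _)]
      congr 1
      simp only [sum_apply, smul_apply, Finset.smul_sum, Function.comp_apply,
        Finset.sum_neg_distrib, neg_neg, smul_smul, PIdx.e3]
      refine Finset.sum_congr rfl fun _ _ => Finset.sum_congr rfl fun _ _ =>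
        Finset.sum_congr rfl fun _ _ => ?_
      congr 1
      push_cast
      ring
    · have h1 : Λ ≤ Λ ^ 4 := le_self_pow₀ hΛ (by norm_num)
      have h2 : 1 ≤ Λ ^ 4 := hΛ.trans h1
      have h3 : |δ| * |δ| = δ ^ 2 := by rw [abs_mul_abs_self, sq]
      have hk : (0 : ℝ) ≤ k := Nat.cast_nonneg k
      have h4 : 0 ≤ lam * δ ^ 2 := by positivity
      have h5 : 0 ≤ lam * (|δ| * ds.η * Λ) := by positivity
      have h6 : lam * δ ^ 2 * Λ ≤ lam * δ ^ 2 * Λ ^ 4 := mul_le_mul_of_nonneg_left h1 h4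
      have h7 : lam * δ ^ 2 ≤ lam * δ ^ 2 * Λ ^ 4 := le_mul_of_one_le_right h4 h2
      have h8 : 0 ≤ lam * δ ^ 2 * Λ ^ 4 := by positivity
      have h9 : 0 ≤ k * (lam * δ ^ 2 * Λ ^ 4) := by positivity
      have e : ((8 : ℕ) : ℝ) * (C * k * δ ^ 2 * Λ ^ 4 * lam + 2 * (C * |δ| * ds.η * Λ) * (2 * lam)
          + δ ^ 2 * lam + ((8 : ℕ) : ℝ) * (13 * |δ| * (2 * Λ)) * (|δ| * (9 * lam))) =
          8 * C * (k * (lam * δ ^ 2 * Λ ^ 4)) + 32 * C * (lam * (|δ| * ds.η * Λ))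
          + 8 * (lam * δ ^ 2) + 14976 * (lam * δ ^ 2 * Λ) := by
        rw [← h3]
        push_cast
        ring
      rw [e]
      nlinarith [mul_nonneg hC h5, mul_nonneg hC h8, mul_nonneg hC h9]
  · intro p hp
    obtain ⟨q, -, rfl⟩ := List.mem_map.1 hp
    exact ⟨near1_NT ds s δ q (fib_Up ds s δ q hU) hs (by linarith)
      (Up_close ds s δ q hU hs hδ hΛ hAp).1.2, (fib_NT ds s δ q (fib_Up ds s δ q hU)).norm_le⟩
  · intro p hp
    obtain ⟨q, -, rfl⟩ := List.mem_map.1 hp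
    obtain ⟨-, -, -, -, f1, f2⟩ := hfr ds s δ q U Λ hs hδ hU hΛ hAp
    have hda := da_mem ds s δ q (fib_Up ds s δ q hU)
    have e3 : |q.e3 * δ| = |δ| := by rw [abs_mul, abs_e3, one_mul]
    have n1 : m.NB (2 * lam) (m.ET ds s δ q U w) := by
      refine (((cl_AT ds s q hU hs).rot (q.e3 * δ)).tame (by positivity)
        (fib_ET ds s δ q hU).norm_le lam w hw).mono (mul_le_mul_of_nonneg_right ?_ hlam)
      rw [e3]
      linarith
    have e : m.NT ds s δ q (m.Up ds s δ q U) w - w -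
        -((Complex.I * ((q.e3 * δ : ℝ) : ℂ)) • m.AT ds s q U w) =
        m.D m.Z (m.da ds s δ q (m.Up ds s δ q U))
          (m.ET ds s δ q (m.Up ds s δ q U) w - m.ET ds s δ q U w)
        + (m.D m.Z (m.da ds s δ q (m.Up ds s δ q U)) (m.ET ds s δ q U w) - m.ET ds s δ q U w)
        + (rot (m.AT ds s q U) (q.e3 * δ) - 1
          + (Complex.I * ((q.e3 * δ : ℝ) : ℂ)) • m.AT ds s q U) w := by
      simp only [NT, ET, mul_apply_eq_comp, map_sub, add_apply, sub_apply, smul_apply,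
        one_apply_eq_self]
      abel
    show ‖m.NT ds s δ q (m.Up ds s δ q U) w - w -
        -((Complex.I * ((q.e3 * δ : ℝ) : ℂ)) • m.AT ds s q U w)‖ ≤ _
    rw [e]
    refine norm_add₃_le.trans (add_le_add (add_le_add ?_ ?_) ?_)
    · rw [(m.isAxis_Z.fib_D hda).norm_apply]
      exact f2 lam w hw
    · refine (m.isAxis_Z.near1_D hda _ _ n1).trans ?_
      gcongr
    · refine (ContinuousLinearMap.le_opNorm _ _).trans (mul_le_mul ?_ hw.1 (norm_nonneg _)
        (sq_nonneg _))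
      refine (norm_rot_sub_lin (AT_star ds s q hU) (AT_sq ds s q hU) _).trans_eq ?_
      rw [← sq_abs, e3, sq_abs]
  · intro p hp
    obtain ⟨q, -, rfl⟩ := List.mem_map.1 hp
    have := (((cl_AT ds s q hU hs).tame (by norm_num)
      (norm_axis_le (AT_star ds s q hU) (AT_sq ds s q hU)) lam w hw).smul
      (Complex.I * ((q.e3 * δ : ℝ) : ℂ))).neg
    rw [dt_norm_I, abs_mul, abs_e3, one_mul] at this
    exact this.mono (le_of_eq (by ring))

/-- replace the `l`-dependent parameters by the common ones (`sum_AT`, `norm_uu_sub`) -/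
theorem block_T2 : ∃ C, 0 ≤ C ∧ ∀ {M k : ℕ} (ds : DSet K M k) (s : ℝ) (U : H →L[ℂ] H) (Λ lam : ℝ)
    (l : Fin k) (w : H), |s| ≤ 1 → m.Fib U → 1 ≤ Λ → m.Ap ds Λ U → m.NB lam w →
    ‖(∑ b1, ∑ b2, ∑ b3, ((spinSign b3 : ℝ) : ℂ) • m.AT ds s (l, b1, b2, b3) U) w
      - ((8 * Real.sin (2 * s * m.cc ds U) : ℝ) : ℂ) •
        (m.Sg * (m.cosW (s • m.a20 ds U) * m.sinW (s • m.yS ds U))) w‖ ≤ C * lam * ds.η * Λ := by
  refine ⟨768, by norm_num, ?_⟩
  intro M k ds s U Λ lam l w hs hU hΛ hAp hw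
  have hlam := hw.nonneg
  have hη := ds.hη0
  have hy : s • m.yS ds U ∈ m.R := m.R.smul_mem _ (yS_mem ds hU)
  have hψ : m.NB (3 * lam) (m.sinW (s • m.yS ds U) w) := by
    refine (m.tame_sinW hy lam w hw).mono (mul_le_mul_of_nonneg_right ?_ hlam)
    have : ‖s • m.yS ds U‖ ≤ 1 := by
      rw [norm_smul, Real.norm_eq_abs]
      exact mul_le_one₀ hs (norm_nonneg _) (norm_yS_le ds hU)
    linarith
  simp only [sum_AT ds s hU, sum_apply, smul_apply, mul_apply_eq_comp, sub_apply]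
  generalize m.sinW (s • m.yS ds U) w = ψ at hψ
  have key : ∀ b : Bool, ‖(((Real.sin (m.th ds s l b U) : ℝ) : ℂ) • m.cosW (m.uu ds s l b U) ψ
      - ((Real.cos (m.th ds s l b U) : ℝ) : ℂ) • m.Z (m.sinW (m.uu ds s l b U) ψ))
      - (((Real.sin (2 * s * m.cc ds U) : ℝ) : ℂ) • m.cosW ((s * spinSign b) • m.a20 ds U) ψ
      - ((Real.cos (2 * s * m.cc ds U) : ℝ) : ℂ) •
        m.Z (m.sinW ((s * spinSign b) • m.a20 ds U) ψ))‖ ≤ 96 * lam * ds.η * Λ := fun b => by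
    obtain ⟨u1, u2, u3⟩ := norm_uu_sub ds s hU hs hAp.2 l b
    have hu : m.uu ds s l b U ∈ m.R := m.R.smul_mem _ (a2_mem ds _ hU)
    have hv : (s * spinSign b) • m.a20 ds U ∈ m.R := m.R.smul_mem _ (a20_mem ds hU)
    have hb : (1 + ‖m.uu ds s l b U‖) * ‖m.uu ds s l b U - (s * spinSign b) • m.a20 ds U‖ *
        (3 * lam) ≤ 2 * (4 * ds.η * Λ) * (3 * lam) := by
      gcongr
      linarith
    have t1 := dt_trig (m.norm_cosW_le hu) ((Real.abs_sin_sub_sin_le _ _).trans u2)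
      (Real.abs_sin_le_one _) ((hψ.norm_cosW_sub' hu hv).trans hb)
    have t2 := dt_trig (m.norm_sinW_le hu) ((Real.abs_cos_sub_cos_le _ _).trans u2)
      (Real.abs_cos_le_one _) ((hψ.norm_sinW_sub' hu hv).trans hb)
    rw [← m.isAxis_Z.fib.norm_apply, map_sub, map_smul, map_smul] at t2
    rw [sub_sub_sub_comm]
    refine (norm_sub_le _ _).trans ((add_le_add t1 t2).trans ?_)
    have := mul_le_mul_of_nonneg_left hψ.1 (show 0 ≤ 8 * ds.η * Λ by positivity)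
    nlinarith
  have k1 := key true
  have k2 := key false
  simp only [spinSign, if_true, Bool.false_eq_true, if_false, mul_one, _root_.mul_neg, neg_smul,
    m.cosW_neg, m.sinW_neg, neg_apply, map_neg] at k1 k2
  have k3 := (norm_add_le _ _).trans (add_le_add k1 k2)
  rw [← m.isAxis_Sg.fib.norm_apply] at k3
  have k4 := mul_le_mul_of_nonneg_left k3 (norm_nonneg (4 : ℂ))
  rw [← norm_smul, Complex.norm_ofNat] at k4
  refine le_trans (le_of_eq ?_) (k4.trans (le_of_eq (by ring)))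
  congr 1
  simp only [Fintype.sum_bool, map_add, map_sub, map_smul, map_neg]
  push_cast
  module

/-- comparison with the hub gate on a coherent vector (`nb_sinW_coh`, `norm_sinW_smul_sub` with `t = 16 s c₀ δ`,
`norm_D_sub_lin_coh`) -/
theorem block_T3 : ∃ C, 0 ≤ C ∧ ∀ (s δ c c₀ r : ℝ) (a y z : KK) (b : Bool), |s| ≤ 1 → 400 * |δ| ≤ 1 →
    |c| ≤ 1 → |c₀| ≤ 1 → a ∈ m.R → y ∈ m.R → z ∈ m.R → ‖a‖ ≤ 1 → ‖y‖ ≤ 1 → ‖z‖ ≤ r →
    ‖m.coh b z - (Complex.I * (δ : ℂ)) • (((8 * Real.sin (2 * s * c) : ℝ) : ℂ) •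
        (m.Sg * (m.cosW (s • a) * m.sinW (s • y))) (m.coh b z))
      - m.D m.Sg ((16 * s ^ 2 * c₀ * δ) • y) (m.coh b z)‖ ≤
      C * (1 + r) ^ 2 * (|δ| * (s ^ 2 * |c - c₀| + |s| ^ 3) + δ ^ 2) := by
  refine ⟨1280, by norm_num, ?_⟩
  intro s δ c c₀ r a y z b hs hδ hc hc₀ ha hy hz na ny nz
  have hd := abs_nonneg δ
  have hs0 := abs_nonneg s
  have hr : (1 + ‖z‖) ^ 2 ≤ (1 + r) ^ 2 := by gcongr
  have hsy : s • y ∈ m.R := m.R.smul_mem _ hy
  have hsa : s • a ∈ m.R := m.R.smul_mem _ ha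
  have nsy : ‖s • y‖ ≤ |s| := by
    rw [norm_smul, Real.norm_eq_abs]
    exact mul_le_of_le_one_right hs0 ny
  have nsa : ‖s • a‖ ≤ |s| := by
    rw [norm_smul, Real.norm_eq_abs]
    exact mul_le_of_le_one_right hs0 na
  have e0 : (16 * s ^ 2 * c₀ * δ) • y = (16 * s * c₀ * δ) • s • y := by
    rw [smul_smul]
    congr 1
    ring
  have ht : |16 * s * c₀ * δ| ≤ 16 * |s| * |δ| := by
    rw [abs_mul, abs_mul, abs_mul, Nat.abs_ofNat]
    exact mul_le_mul_of_nonneg_right (mul_le_of_le_one_right (by positivity) hc₀) hd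
  have ht1 : |16 * s * c₀ * δ| ≤ 1 := by nlinarith
  have hty : (16 * s * c₀ * δ) • s • y ∈ m.R := m.R.smul_mem _ hsy
  have nty : ‖(16 * s * c₀ * δ) • s • y‖ ≤ 16 * |δ| := by
    rw [norm_smul, Real.norm_eq_abs]
    refine (mul_le_of_le_one_right (abs_nonneg _) (nsy.trans hs)).trans (ht.trans ?_)
    nlinarith
  have f1 : ‖(m.D m.Sg ((16 * s * c₀ * δ) • s • y) - 1 + Complex.I •
      (m.Sg * m.sinW ((16 * s * c₀ * δ) • s • y))) (m.coh b z)‖ ≤
      5 * (1 + r) ^ 2 * (16 * |δ|) ^ 2 := by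
    refine (m.norm_D_sub_lin_coh b hty hz).trans ?_
    gcongr
  have f2 : ‖m.sinW ((16 * s * c₀ * δ) • s • y) (m.coh b z) -
      ((16 * s * c₀ * δ : ℝ) : ℂ) • m.sinW (s • y) (m.coh b z)‖ ≤
      30 * (16 * |s| * |δ|) * (1 + r) ^ 2 * |s| ^ 2 := by
    refine (m.norm_sinW_smul_sub b hsy hz ht1).trans ?_
    gcongr
  have f3 : m.NB (10 * (1 + r) ^ 2 * |s|) (m.sinW (s • y) (m.coh b z)) :=
    (m.nb_sinW_coh b hsy hz).mono (by gcongr)
  have f4 : ‖m.sinW (s • y) (m.coh b z) - m.cosW (s • a) (m.sinW (s • y) (m.coh b z))‖ ≤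
      10 * (1 + r) ^ 2 * |s| * |s| := by
    rw [norm_sub_rev]
    exact (f3.norm_cosW_sub hsa).trans (by gcongr)
  have h2 : |2 * s * c| ≤ 2 * |s| := by
    rw [abs_mul, abs_mul, Nat.abs_ofNat]
    exact mul_le_of_le_one_right (by positivity) hc
  have f5 : |16 * s * c₀ * δ - δ * (8 * Real.sin (2 * s * c))| ≤
      8 * |δ| * (2 * |s| * |c - c₀| + (2 * |s|) ^ 2) := by
    have : 16 * s * c₀ * δ - δ * (8 * Real.sin (2 * s * c)) =
        -(8 * δ * (2 * s * (c - c₀) + (Real.sin (2 * s * c) - 2 * s * c))) := by ring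
    rw [this, abs_neg, abs_mul, abs_mul, Nat.abs_ofNat]
    refine mul_le_mul_of_nonneg_left ((abs_add_le _ _).trans (add_le_add ?_ ?_)) (by positivity)
    · rw [abs_mul, abs_mul, Nat.abs_ofNat]
    · refine (coh1_abs_sin_sub _).trans ?_
      rw [← sq_abs]
      gcongr
  have f6 : |δ * (8 * Real.sin (2 * s * c))| ≤ |δ| * (8 * (2 * |s|)) := by
    rw [abs_mul, abs_mul, Nat.abs_ofNat]
    gcongr
    exact (Real.abs_sin_le_abs).trans h2
  have e : m.coh b z - (Complex.I * (δ : ℂ)) • (((8 * Real.sin (2 * s * c) : ℝ) : ℂ) •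
        (m.Sg * (m.cosW (s • a) * m.sinW (s • y))) (m.coh b z))
      - m.D m.Sg ((16 * s ^ 2 * c₀ * δ) • y) (m.coh b z) =
      Complex.I • m.Sg ((m.sinW ((16 * s * c₀ * δ) • s • y) (m.coh b z) -
          ((16 * s * c₀ * δ : ℝ) : ℂ) • m.sinW (s • y) (m.coh b z))
        + ((16 * s * c₀ * δ - δ * (8 * Real.sin (2 * s * c)) : ℝ) : ℂ) • m.sinW (s • y) (m.coh b z)
        + ((δ * (8 * Real.sin (2 * s * c)) : ℝ) : ℂ) •
          (m.sinW (s • y) (m.coh b z) - m.cosW (s • a) (m.sinW (s • y) (m.coh b z))))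
      - (m.D m.Sg ((16 * s * c₀ * δ) • s • y) - 1 + Complex.I •
        (m.Sg * m.sinW ((16 * s * c₀ * δ) • s • y))) (m.coh b z) := by
    rw [e0]
    simp only [mul_apply_eq_comp, map_sub, map_add, map_smul, add_apply, sub_apply, smul_apply,
      one_apply_eq_self]
    push_cast
    module
  rw [e]
  refine (norm_sub_le _ _).trans ?_
  rw [norm_smul, Complex.norm_I, one_mul, m.isAxis_Sg.fib.norm_apply]
  have g1 := mul_le_mul f5 f3.1 (norm_nonneg _) (by positivity)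
  have g2 := mul_le_mul f6 f4 (norm_nonneg _) (by positivity)
  rw [← dt_norm_real, ← norm_smul] at g1 g2
  refine (add_le_add (norm_add₃_le.trans (add_le_add (add_le_add f2 g1) g2)) f1).trans ?_
  rw [← sq_abs s, ← sq_abs δ]
  have p1 : 0 ≤ (1 + r) ^ 2 * (|δ| * (|s| ^ 2 * |c - c₀|)) := by positivity
  have p2 : 0 ≤ (1 + r) ^ 2 * (|δ| * |s| ^ 3) := by positivity
  linarith

theorem block_T : ∃ C, 0 ≤ C ∧ ∀ {M k : ℕ} (ds : DSet K M k) (s δ : ℝ) (U : H →L[ℂ] H) (Λ c₀ r : ℝ)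
    (z : KK) (b : Bool), |s| ≤ 1 → 400 * |δ| ≤ 1 → m.Fib U → 1 ≤ Λ → m.Ap ds Λ U → |c₀| ≤ 1 →
    z ∈ m.R → ‖z‖ ≤ r →
    ‖m.P ds.Tt ((m.round ds s δ U * star U) (m.coh b z)
        - m.D m.Sg ((16 * s ^ 2 * c₀ * δ) • m.yS ds U) (m.coh b z))‖ ≤
      C * (1 + r + ds.ρ) ^ 2 * (|δ| * (s ^ 2 * |m.cc ds U - c₀| + |s| ^ 3 + ds.η * Λ)
        + (1 + k) * δ ^ 2 * Λ ^ 4) := by
  obtain ⟨C1, hC1, h1⟩ := m.block_T1
  obtain ⟨C2, hC2, h2⟩ := m.block_T2
  obtain ⟨C3, hC3, h3⟩ := m.block_T3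
  refine ⟨(C1 + C2) * (K + 3) + C3, by positivity, ?_⟩
  intro M k ds s δ U Λ c₀ r z b hs hδ hU hΛ hAp hc₀ hz nz
  have hη := ds.hη0
  have hρ := ds.hρ
  have hr : 0 ≤ r := (norm_nonneg _).trans nz
  have hd := abs_nonneg δ
  have hk : (0 : ℝ) ≤ k := Nat.cast_nonneg k
  have hK : (0 : ℝ) ≤ K := Nat.cast_nonneg K
  have hT : ∀ l, MeasurableSet (ds.T l) := fun l => (ds.hT l).1
  have t3 := h3 s δ (m.cc ds U) c₀ r (m.a20 ds U) (m.yS ds U) z b hs hδ (abs_cc_le ds hU) hc₀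
    (a20_mem ds hU) (yS_mem ds hU) hz (norm_a20_le ds hU) (norm_yS_le ds hU) nz
  set A := m.Sg * (m.cosW (s • m.a20 ds U) * m.sinW (s • m.yS ds U)) with hA
  have cA : m.Cen A := m.cen_Sg.mul ((m.cen_cosW _).mul (m.cen_sinW _))
  set a : ℂ := ((8 * Real.sin (2 * s * m.cc ds U) : ℝ) : ℂ) with ha
  set E := |δ| * ds.η * Λ + (1 + k) * δ ^ 2 * Λ ^ 4 with hE
  have hE1 : 0 ≤ (1 + k) * δ ^ 2 * Λ ^ 4 := by positivity
  have hE2 : 0 ≤ |δ| * ds.η * Λ := by positivity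
  have key : ∀ l, ‖m.P (ds.T l) ((m.round ds s δ U * star U) (m.coh b z) - m.coh b z
      + (Complex.I * (δ : ℂ)) • a • A (m.coh b z))‖ ≤
      (C1 + C2) * (K + 3) * (1 + r + ds.ρ) ^ 2 * E * Real.sqrt ((gL K).real (ds.T l)) := fun l => by
    have hw : m.NB ((K + 3) * (1 + r + ds.ρ) ^ 2 * Real.sqrt ((gL K).real (ds.T l)))
        (m.P (ds.T l) (m.coh b z)) := by
      refine (m.nb_P_coh' (ds.hT l) hρ (ds.bT l) b hz).mono
        (mul_le_mul_of_nonneg_right ?_ (Real.sqrt_nonneg _))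
      have : 1 + r + ds.ρ ≤ (1 + r + ds.ρ) ^ 2 := le_self_pow₀ (by linarith) (by norm_num)
      nlinarith [mul_nonneg hK hr]
    have t1 := h1 ds s δ U Λ _ l _ hs hδ hU hΛ hAp hw
    have t2 := h2 ds s U Λ _ l _ hs hU hΛ hAp hw
    have cP : m.Fib ((allP k).reverse.map fun q =>
        if q.1 = l then m.NT ds s δ q (m.Up ds s δ q U) else 1).prod := by
      refine List.prod_induction m.Fib (fun _ _ h h' => h.mul h') m.fib_one fun V hV => ?_
      obtain ⟨q, -, rfl⟩ := List.mem_map.1 hV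
      split_ifs
      exacts [fib_NT ds s δ q (fib_Up ds s δ q hU), m.fib_one]
    have e1 := congrArg (fun V : H →L[ℂ] H => V (m.coh b z))
      ((P_T_round ds s δ hU l).trans (cP.2.commute_P (hT l)).eq.symm)
    have e2 := congrArg (fun V : H →L[ℂ] H => V (m.coh b z)) (cA.commute_P (hT l)).eq.symm
    simp only [mul_apply_eq_comp] at e1 e2
    rw [map_add, map_sub, map_smul, map_smul, mul_apply_eq_comp, e1, e2]
    have t4 := mul_le_mul_of_nonneg_left t2 (norm_nonneg (Complex.I * (δ : ℂ)))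
    rw [← norm_smul, dt_norm_I] at t4
    have t5 := (norm_sub_le _ _).trans (add_le_add t1 t4)
    refine le_trans (le_of_eq ?_) (t5.trans ?_)
    · congr 1
      rw [smul_sub]
      abel
    · have := mul_nonneg (mul_nonneg hC2 hw.nonneg) hE1
      rw [hE]
      linarith
  have s1 := m.norm_sum_P_le Finset.univ hT ds.dTT _ (by positivity) fun l _ => key l
  rw [← sum_apply, ← m.P_iUnion hT ds.dTT] at s1
  have s2 := (m.norm_P_apply_le (MeasurableSet.iUnion hT) _).trans t3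
  have s3 := (norm_add_le _ _).trans (add_le_add s1 s2)
  rw [← map_add] at s3
  refine le_trans (le_of_eq ?_) (s3.trans ?_)
  · congr 2
    abel
  · have q1 : (1 + r) ^ 2 ≤ (1 + r + ds.ρ) ^ 2 :=
      pow_le_pow_left₀ (by linarith) (by linarith) 2
    have q2 : δ ^ 2 ≤ (1 + k) * δ ^ 2 * Λ ^ 4 :=
      (le_mul_of_one_le_left (sq_nonneg δ) (by linarith)).trans
        (le_mul_of_one_le_right (by positivity) (one_le_pow₀ hΛ))
    have q3 : 0 ≤ |δ| * (s ^ 2 * |m.cc ds U - c₀| + |s| ^ 3) := by positivity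
    rw [add_mul ((C1 + C2) * (K + 3)) C3, add_mul ((C1 + C2) * (K + 3) * _)]
    refine add_le_add (mul_le_mul_of_nonneg_left ?_ (by positivity))
      (mul_le_mul (by gcongr) ?_ (by positivity) (by positivity))
    · rw [hE]
      linarith
    · linarith

end Model

end Crest.Agent.R339
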