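import Crest.Agent.R339.Q.DV
import Crest.Agent.R339.Q.DT
import Crest.Agent.R339.Q.DS
import Crest.Agent.R339.Q.DM
import Crest.Agent.R339.Q.DR

/-!
# Row 339, part Q: identity hubs: local error and limit
-/

set_option autoImplicit false

namespace Crest.Agent.R339

open MeasureTheory ProbabilityTheory Filter Topology Crest.MathPhysics.SpinGlass
open scoped InnerProductSpace ComplexConjugate

theorem h2_gauss_le (s : Set ℝ) : gaussianReal 0 1 s ≤ volume s := by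
  rw [gaussianReal_apply 0 one_ne_zero, ← setLIntegral_one]
  refine lintegral_mono fun x => ?_
  rw [gaussianPDF, ENNReal.ofReal_le_one, gaussianPDFReal]
  have h1 : (1 : ℝ) ≤ √(2 * Real.pi * (1 : NNReal)) := by
    rw [Real.one_le_sqrt, NNReal.coe_one]
    linarith [Real.pi_gt_three]
  refine mul_le_one₀ (inv_le_one_of_one_le₀ h1) (Real.exp_pos _).le (Real.exp_le_one_iff.2 ?_)
  rw [NNReal.coe_one]
  linarith [sq_nonneg (x - 0)]

theorem h2_slab {K : ℕ} {h : ℝ} (hh : 0 < h) (l : ℕ) :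
    (gL K).real {x | ⌊|x 0| / h⌋₊ = l} ≤ 2 * h := by
  have hm : MeasurableSet (Set.Icc (l * h) (l * h + h) ∪ Set.Icc (-(l * h + h)) (-(l * h))) :=
    measurableSet_Icc.union measurableSet_Icc
  have h1 := (measurePreserving_eval (fun _ : Fin (K + 1) => gaussianReal 0 1) 0).measure_preimage
    hm.nullMeasurableSet
  refine ENNReal.toReal_le_of_le_ofReal (by positivity) ((measure_mono fun x hx => ?_).trans
    (h1.le.trans ((h2_gauss_le _).trans ((measure_union_le _ _).trans ?_))))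
  · have h2 := (Nat.floor_eq_iff (div_nonneg (abs_nonneg (x 0)) hh.le)).1 hx
    rw [le_div_iff₀ hh, div_lt_iff₀ hh] at h2
    rcases abs_cases (x 0) with h3 | h3
    · exact Or.inl ⟨by change _ ≤ x 0; linarith [h2.1, h3.1], by
        change x 0 ≤ _; linarith [h2.2, h3.1]⟩
    · exact Or.inr ⟨by change _ ≤ x 0; linarith [h2.2, h3.1], by
        change x 0 ≤ _; linarith [h2.1, h3.1]⟩
  · rw [Real.volume_Icc, Real.volume_Icc, ← ENNReal.ofReal_add (by linarith) (by linarith)]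
    exact ENNReal.ofReal_le_ofReal (by linarith)

theorem h2_small {A ε : ℝ} (hA : 0 ≤ A) (hε : 0 < ε) : ∃ x : ℝ, 0 < x ∧ 2 * x ≤ 1 ∧ A * x ≤ ε := by
  refine ⟨min (1 / 2) (ε / (A + 1)), by positivity, by linarith [min_le_left (1 / 2) (ε / (A + 1))],
    (mul_le_mul_of_nonneg_left (min_le_right _ _) hA).trans ?_⟩
  rw [← mul_div_assoc, div_le_iff₀ (by positivity)]
  nlinarith

/-- bounded even sets split into finitely many small even pieces (intervals of `|x 0|`) -/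
theorem exists_pieces {K M : ℕ} (hM : 1 ≤ M) {T : Set (Lab K)} (hT : EvS M T) {ρ : ℝ}
    (bT : Bd M ρ T) {η : ℝ} (hη : 0 < η) :
    ∃ (k : ℕ) (Tl : Fin k → Set (Lab K)), (∀ l, EvS M (Tl l)) ∧
      (Pairwise fun l l' => Disjoint (Tl l) (Tl l')) ∧ (⋃ l, Tl l) = T ∧
      ∀ l, Real.sqrt ((gL K).real (Tl l)) ≤ η := by
  have hh : 0 < η ^ 2 / 2 := by positivity
  refine ⟨⌊ρ / (η ^ 2 / 2)⌋₊ + 1, fun l => T ∩ {x | ⌊|x 0| / (η ^ 2 / 2)⌋₊ = l}, fun l => hT.inter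
    ⟨?_, fun x => ?_, fun x x' hx => ?_⟩, fun l l' hl => ?_, ?_, fun l => ?_⟩
  · exact (Nat.measurable_floor.comp (by fun_prop)) (measurableSet_singleton (l : ℕ))
  · simp only [Set.mem_ofPred_eq, Pi.neg_apply, abs_neg]
  · simp only [Set.mem_ofPred_eq, hx 0 hM]
  · refine Set.disjoint_left.2 fun x h1 h2 => hl (Fin.ext ?_)
    exact h1.2.symm.trans h2.2
  · refine Set.Subset.antisymm (Set.iUnion_subset fun l => Set.inter_subset_left) fun x hx => ?_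
    exact Set.mem_iUnion.2 ⟨⟨_, Nat.lt_succ_of_le (Nat.floor_mono
      (div_le_div_of_nonneg_right (bT x hx 0 hM) hh.le))⟩, hx, rfl⟩
  · refine Real.sqrt_le_iff.2 ⟨hη.le, (measureReal_mono Set.inter_subset_right).trans
      ((h2_slab hh l).trans (by linarith))⟩

/-- discrete Gronwall -/
theorem gronwall_disc {e : ℕ → ℝ} {a b : ℝ} (ha : 0 ≤ a) (hb : 0 ≤ b) (h0 : e 0 ≤ 0) {N : ℕ}
    (h : ∀ n < N, e (n + 1) ≤ e n + (a * e n + b)) : e N ≤ N * b * Real.exp (N * a) := by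
  induction N with
  | zero => simpa using h0
  | succ N ih =>
    have h1 := ih fun n hn => h n (Nat.lt_succ_of_lt hn)
    have h2 := h N (Nat.lt_succ_self N)
    have h3 : 1 + a ≤ Real.exp a := by linarith [Real.add_one_le_exp a]
    have h4 : 1 ≤ Real.exp (N * a) * Real.exp a := by
      rw [← Real.exp_add]
      exact Real.one_le_exp (by positivity)
    have h5 : 0 ≤ N * b * Real.exp (N * a) := by positivity
    have h6 := mul_le_mul_of_nonneg_left h1 (by positivity : 0 ≤ 1 + a)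
    have h7 := mul_le_mul_of_nonneg_right h3 h5
    have h8 := mul_le_mul_of_nonneg_left h4 hb
    rw [Nat.cast_succ, add_mul (N : ℝ) 1 a, one_mul, Real.exp_add]
    nlinarith

namespace Model

variable {K : ℕ} {I : Iamp K} {H KK : Type} [NormedAddCommGroup H] [InnerProductSpace ℂ H]
  [CompleteSpace H] [NormedAddCommGroup KK] [InnerProductSpace ℂ KK] (m : Model I H KK)

theorem h2_Tt {M k : ℕ} (ds : DSet K M k) : MeasurableSet ds.Tt ∧ Disjoint ds.Tt ds.S ∧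
    Disjoint ds.Tt ds.Md :=
  ⟨MeasurableSet.iUnion fun l => (ds.hT l).1, Set.disjoint_iUnion_left.2 ds.dTS,
    Set.disjoint_iUnion_left.2 ds.dTM⟩

theorem h2_P_target {S T E : Set (Lab K)} (hS : MeasurableSet S) (hT : MeasurableSet T)
    (h : Disjoint S T) (t : ℝ) (U : H →L[ℂ] H) :
    m.P S * m.target S T t U = m.P S * m.D m.Z (t • m.j (m.P T (m.Sg m.vac))) ∧
    m.P T * m.target S T t U = m.P T * m.D m.Sg (t • m.j (m.P S (m.xi U))) ∧
    (MeasurableSet E → Disjoint E S → Disjoint E T → m.P E * m.target S T t U = m.P E) := by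
  have hc := (hS.union hT).compl
  unfold target
  refine ⟨?_, ?_, fun hE h1 h2 => ?_⟩
  · rw [_root_.mul_add, _root_.mul_add, ← mul_assoc, ← mul_assoc, m.P_idem hS, m.P_mul_of_disjoint hS hT h,
      m.P_mul_of_disjoint hS hc (disjoint_compl_right.mono_left Set.subset_union_left), zero_mul,
      add_zero, add_zero]
  · rw [_root_.mul_add, _root_.mul_add, ← mul_assoc, ← mul_assoc, m.P_idem hT,
      m.P_mul_of_disjoint hT hS h.symm,
      m.P_mul_of_disjoint hT hc (disjoint_compl_right.mono_left Set.subset_union_right), zero_mul,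
      add_zero, zero_add]
  · rw [_root_.mul_add, _root_.mul_add, ← mul_assoc, ← mul_assoc, m.P_mul_of_disjoint hE hS h1,
      m.P_mul_of_disjoint hE hT h2, m.P_mul_of_subset hE hc
        (Set.disjoint_union_right.2 ⟨h1, h2⟩).subset_compl_right, zero_mul, zero_mul, add_zero,
      zero_add]

theorem h2_blocks {A B C : Set (Lab K)} (hA : MeasurableSet A) (hB : MeasurableSet B)
    (hC : MeasurableSet C) (h : Disjoint A B) (h' : Disjoint A C) (h'' : Disjoint B C) (v : H) :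
    ‖v‖ ≤ ‖m.P A v‖ + ‖m.P B v‖ + ‖m.P C v‖ + ‖m.P (A ∪ B ∪ C)ᶜ v‖ := by
  have e := m.P_add_compl ((hA.union hB).union hC)
  rw [m.P_union (hA.union hB) hC (Set.disjoint_union_left.2 ⟨h', h''⟩), m.P_union hA hB h] at e
  have e' : v = m.P A v + m.P B v + m.P C v + m.P (A ∪ B ∪ C)ᶜ v :=
    (congrArg (fun F : H →L[ℂ] H => F v) e).symm
  exact (congrArg norm e').le.trans ((norm_add_le _ _).trans (add_le_add_left norm_add₃_le _))

/-- local error of one round against one step of the target flow started at `U₀` -/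
theorem local_error : ∃ C, 0 ≤ C ∧ ∀ k : ℕ, ∃ C', 0 ≤ C' ∧ ∀ {M : ℕ} (ds : DSet K M k) (s δ : ℝ)
    (U U₀ : H →L[ℂ] H) (Λ e n r : ℝ) (ψ : H) (z : KK) (b : Bool), |s| ≤ 1 → 400 * |δ| ≤ 1 → m.Fib U →
    m.Fib U₀ → 1 ≤ Λ → m.Ap ds Λ U → m.yS ds U = m.yS ds U₀ → ‖U m.vac - ψ‖ ≤ e → m.NB n ψ →
    |m.cc ds U - m.cc ds U₀| ≤ 2 * e → z ∈ m.R → ‖z‖ ≤ r →
    ‖(m.round ds s δ U * star U) (m.coh b z)
        - m.target ds.S ds.Tt (16 * s ^ 2 * m.cc ds U₀ * δ) U₀ (m.coh b z)‖ ≤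
      C * (1 + r + ds.ρ) ^ 3 * |δ| * (s ^ 2 * e + |s| ^ 3 * (1 + n) + ds.η * Λ ^ 2)
        + C' * (1 + r + ds.ρ) ^ 3 * δ ^ 2 * Λ ^ 4 := by
  obtain ⟨CT, hCT, hT⟩ := m.block_T
  obtain ⟨CS, hCS, hS⟩ := m.block_S
  obtain ⟨CM, hCM, hM⟩ := m.block_M
  obtain ⟨VS, hVS, vS⟩ := m.vec_S
  obtain ⟨VM, hVM, vM⟩ := m.vec_M
  refine ⟨2 * CT + 3 * CS * VS + CM * (VM + 1), by positivity, fun k => ?_⟩
  obtain ⟨CM', hCM', hM⟩ := hM k
  refine ⟨CT * (1 + k) + CS * (VS + (1 + k) ^ 2) + CM * VM + CM', by positivity,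
    fun {M} ds s δ U U₀ Λ e n r ψ z b hs hδ hU hU₀ hΛ hA hy he hn hc hz hr => ?_⟩
  obtain ⟨mT, dS, dM⟩ := h2_Tt ds
  have hδ1 : |δ| ≤ 1 := by linarith [abs_nonneg δ]
  have hc0 := abs_cc_le ds hU₀
  obtain ⟨t1, t2, t3⟩ := m.h2_P_target (E := ds.Md) ds.hS.1 mT dS.symm (16 * s ^ 2 * m.cc ds U₀ * δ) U₀
  have t4 := (m.h2_P_target (E := (ds.Tt ∪ ds.S ∪ ds.Md)ᶜ) ds.hS.1 mT dS.symm
    (16 * s ^ 2 * m.cc ds U₀ * δ) U₀).2.2 ((mT.union ds.hS.1).union ds.hMd.1).compl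
    (disjoint_compl_left.mono_right (Set.subset_union_right.trans Set.subset_union_left))
    (disjoint_compl_left.mono_right (Set.subset_union_left.trans Set.subset_union_left))
  have t3 := t3 ds.hMd.1 ds.dSM.symm dM.symm
  have hs2 : s ^ 2 ≤ 1 := by rw [← sq_abs]; exact pow_le_one₀ (abs_nonneg s) hs
  have hy1 : ‖(16 * s ^ 2 * m.cc ds U₀ * δ) • m.j (m.P ds.Tt (m.Sg m.vac))‖ ≤ 1 := by
    rw [norm_smul, m.j.norm_map, Real.norm_eq_abs, abs_mul, abs_mul,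
      abs_of_nonneg (by positivity : 0 ≤ 16 * s ^ 2)]
    have h1 := m.norm_P_apply_le mT (m.Sg m.vac)
    rw [m.isAxis_Sg.fib.norm_apply, m.norm_vac] at h1
    have h2 : s ^ 2 * |m.cc ds U₀| ≤ 1 := mul_le_one₀ hs2 (abs_nonneg _) hc0
    refine mul_le_one₀ ?_ (norm_nonneg _) h1
    nlinarith [abs_nonneg δ]
  have bT := hT ds s δ U Λ (m.cc ds U₀) r z b hs hδ hU hΛ hA hc0 hz hr
  have bS := hS ds s δ U Λ r _ z b hs hδ hU hΛ hA
    (Submodule.smul_mem _ (16 * s ^ 2 * m.cc ds U₀ * δ) (m.j_P_Sg_mem mT)) hy1 hz hr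
  have bM := hM ds s δ U Λ r z b hs hδ hU hΛ hA hz hr
  have wS := vS ds s δ U Λ e n (m.cc ds U₀) ψ hs hδ1 hU hΛ hA he hn
  have wM := vM ds s δ U Λ e n ψ hs hδ1 hU hΛ hA he hn
  refine (m.h2_blocks mT ds.hS.1 ds.hMd.1 dS dM ds.dSM _).trans ?_
  have ap : ∀ (E : Set (Lab K)) (A B : H →L[ℂ] H) (v w : H), m.P E * A = m.P E * B →
      m.P E (w - A v) = m.P E (w - B v) := fun E A B v w h => by
    rw [map_sub, map_sub]
    exact congrArg (fun F : H →L[ℂ] H => m.P E w - F v) h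
  rw [ap _ _ _ _ _ t1, ap _ _ _ _ _ t2, ap _ _ 1 _ _ (t3.trans (mul_one _).symm),
    ap _ _ _ _ _ (t4.trans (P_rest_round ds s δ hU).symm), sub_self, map_zero, norm_zero, add_zero]
  rw [hy] at bT
  have hr0 : 0 ≤ r := (norm_nonneg z).trans hr
  have he0 : 0 ≤ e := (norm_nonneg _).trans he
  have hn0 := hn.nonneg
  have hρ := ds.hρ
  have hη := ds.hη0
  have hR : 1 ≤ 1 + r + ds.ρ := by linarith
  have R2 : (1 + r + ds.ρ) ^ 2 ≤ (1 + r + ds.ρ) ^ 3 := pow_le_pow_right₀ hR (by norm_num)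
  have R1 : 1 + r ≤ (1 + r + ds.ρ) ^ 3 := le_trans (by linarith) (le_self_pow₀ hR (by norm_num))
  have R3 : (1 + r) ^ 3 ≤ (1 + r + ds.ρ) ^ 3 := pow_le_pow_left₀ (by linarith) (by linarith) 3
  have L2 : Λ ≤ Λ ^ 2 := le_self_pow₀ hΛ (by norm_num)
  have L4 : δ ^ 2 ≤ δ ^ 2 * Λ ^ 4 := le_mul_of_one_le_right (sq_nonneg δ) (one_le_pow₀ hΛ)
  have x1 : 0 ≤ s ^ 2 * e := by positivity
  have x2 : |s| ^ 3 ≤ |s| ^ 3 * (1 + n) := le_mul_of_one_le_right (by positivity) (by linarith)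
  have x3 : ds.η * Λ ≤ ds.η * Λ ^ 2 := mul_le_mul_of_nonneg_left L2 hη
  have x4 : ds.η ≤ ds.η * Λ := le_mul_of_one_le_right hη hΛ
  have x5 : s ^ 2 * |m.cc ds U - m.cc ds U₀| ≤ s ^ 2 * (2 * e) :=
    mul_le_mul_of_nonneg_left hc (sq_nonneg s)
  have x6 : 0 ≤ |s| ^ 3 := by positivity
  generalize hX : s ^ 2 * e + |s| ^ 3 * (1 + n) + ds.η * Λ ^ 2 = X at wM ⊢
  have hX0 : 0 ≤ X := by linarith
  have a0 := abs_nonneg δ
  have y1 : |δ| * (s ^ 2 * |m.cc ds U - m.cc ds U₀| + |s| ^ 3 + ds.η * Λ) ≤ |δ| * (2 * X) :=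
    mul_le_mul_of_nonneg_left (by linarith) a0
  have y2 : |δ| * (s ^ 2 * (e + |m.cc ds U - m.cc ds U₀|) + |s| ^ 3 * (1 + n) + ds.η * Λ ^ 2) ≤
      |δ| * (3 * X) := mul_le_mul_of_nonneg_left (by linarith) a0
  have y3 : |δ| * ds.η ≤ |δ| * X := mul_le_mul_of_nonneg_left (by linarith) a0
  have z1 := bT.trans (mul_le_mul (mul_le_mul_of_nonneg_left R2 hCT) (add_le_add_left y1 _)
    (by positivity) (by positivity))
  have z2 := bS.trans (mul_le_mul (mul_le_mul_of_nonneg_left R1 hCS) (add_le_add_left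
    (wS.trans (mul_le_mul_of_nonneg_left (add_le_add y2 L4) hVS)) _) (by positivity)
    (by positivity))
  have z3 := bM.trans (add_le_add (mul_le_mul (mul_le_mul_of_nonneg_left R3 hCM) (add_le_add
    (wM.trans (mul_le_mul_of_nonneg_left (add_le_add_right L4 _) hVM)) y3) (by positivity)
    (by positivity)) (mul_le_mul_of_nonneg_right (mul_le_mul_of_nonneg_right
      (mul_le_mul_of_nonneg_left R3 hCM') (sq_nonneg δ)) (by positivity)))
  refine (add_le_add (add_le_add z1 z2) z3).trans (le_of_eq ?_)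
  ring

theorem cc_target {M k : ℕ} (ds : DSet K M k) {U U₀ : H →L[ℂ] H} (hU : m.Fib U) (hU₀ : m.Fib U₀) (t : ℝ) :
    |m.cc ds U - m.cc ds U₀| ≤ 2 * ‖U m.vac - (m.target ds.S ds.Tt t U₀ * U₀) m.vac‖ := by
  obtain ⟨mT, dS, dM⟩ := h2_Tt ds
  have hG := m.fib_target ds.hS.1 mT dS.symm t hU₀
  have hQ := m.isAxis_Z.sg.fib
  have e1 : (⟪(m.target ds.S ds.Tt t U₀ * U₀) m.vac,
      m.P ds.Md ((m.Sg * m.Z) ((m.target ds.S ds.Tt t U₀ * U₀) m.vac))⟫_ℂ) =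
      ⟪U₀ m.vac, m.P ds.Md ((m.Sg * m.Z) (U₀ m.vac))⟫_ℂ := by
    have c : Commute (m.target ds.S ds.Tt t U₀) (m.P ds.Md * (m.Sg * m.Z)) :=
      (hG.2.commute_P ds.hMd.1).mul_right (hG.2.commute_Sg.mul_right
        (m.target_commute_Z ds.hS.1 mT t U₀).symm)
    rw [← hG.inner_apply (U₀ m.vac)]
    exact congrArg (fun F : H →L[ℂ] H => ⟪(m.target ds.S ds.Tt t U₀ * U₀) m.vac,
      F (U₀ m.vac)⟫_ℂ) c.eq.symm
  rw [cc_eq ds hU, cc_eq ds hU₀, ← e1]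
  have n1 : ‖U m.vac‖ = 1 := by rw [hU.norm_apply, m.norm_vac]
  have n2 : ‖(m.target ds.S ds.Tt t U₀ * U₀) m.vac‖ = 1 := by
    rw [(hG.mul hU₀).norm_apply, m.norm_vac]
  generalize U m.vac = u at n1 ⊢
  generalize (m.target ds.S ds.Tt t U₀ * U₀) m.vac = v at n2 ⊢
  have hA : ∀ w, ‖m.P ds.Md ((m.Sg * m.Z) w)‖ ≤ ‖w‖ := fun w =>
    (m.norm_P_apply_le ds.hMd.1 _).trans_eq (hQ.norm_apply w)
  have e2 : ⟪u, m.P ds.Md ((m.Sg * m.Z) u)⟫_ℂ - ⟪v, m.P ds.Md ((m.Sg * m.Z) v)⟫_ℂ =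
      ⟪u - v, m.P ds.Md ((m.Sg * m.Z) u)⟫_ℂ + ⟪v, m.P ds.Md ((m.Sg * m.Z) (u - v))⟫_ℂ := by
    rw [inner_sub_left, map_sub, map_sub, inner_sub_right]
    ring
  rw [neg_sub_neg, abs_sub_comm, ← Complex.sub_re, e2]
  refine (Complex.abs_re_le_norm _).trans ((norm_add_le _ _).trans ?_)
  have b1 := (norm_inner_le_norm (𝕜 := ℂ) (u - v) _).trans
    (mul_le_mul_of_nonneg_left (hA u) (norm_nonneg _))
  have b2 := (norm_inner_le_norm (𝕜 := ℂ) v _).trans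
    (mul_le_mul_of_nonneg_left (hA (u - v)) (norm_nonneg _))
  rw [n1] at b1
  rw [n2] at b2
  linarith

theorem h2_Ap_mono {M k : ℕ} {ds : DSet K M k} {Λ Λ' : ℝ} {U : H →L[ℂ] H} (h : m.Ap ds Λ U)
    (hΛ : Λ ≤ Λ') : m.Ap ds Λ' U :=
  ⟨fun l => (h.1 l).mono (mul_le_mul_of_nonneg_right hΛ (Real.sqrt_nonneg _)), h.2.mono hΛ⟩

theorem h2_iter {M k : ℕ} (hM : 1 ≤ M) (ds : DSet K M k) {s δ Λ₀ Λ κ r r₀ τ α β : ℝ}
    {U : H →L[ℂ] H} (hU : U ∈ m.Cl M) (hs : |s| ≤ 1) (hδ : 400 * |δ| ≤ 1) (hΛ₀ : 1 ≤ Λ₀)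
    (hA : m.Ap ds Λ₀ U) (hκ : m.MCop κ r₀ U) (hκ0 : 0 ≤ κ) (hr : 0 ≤ r) (N : ℕ)
    (hΛ : Λ₀ * Real.exp (N * (400 * |δ|)) ≤ Λ) (hτ : N * |16 * s ^ 2 * m.cc ds U * δ| ≤ τ)
    (hα : 0 ≤ α) (hβ : 0 ≤ β)
    (hloc : ∀ (V : H →L[ℂ] H) (e : ℝ) (ψ : H) (z : KK) (b : Bool), m.Fib V → m.Ap ds Λ V →
      m.yS ds V = m.yS ds U → ‖V m.vac - ψ‖ ≤ e → m.NB (5 * κ * (1 + 2 * (r + r₀ + τ))) ψ →
      |m.cc ds V - m.cc ds U| ≤ 2 * e → z ∈ m.R → ‖z‖ ≤ r + r₀ + τ →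
      ‖(m.round ds s δ V * star V) (m.coh b z)
        - m.target ds.S ds.Tt (16 * s ^ 2 * m.cc ds U * δ) U (m.coh b z)‖ ≤ α * e + β) :
    ∃ V ∈ m.Cl M, m.ErrLe (Metric.closedBall 0 r) V
      (m.target ds.S ds.Tt (N * (16 * s ^ 2 * m.cc ds U * δ)) U * U)
      (N * (5 * κ * β) * Real.exp (N * (5 * κ * α))) := by
  obtain ⟨mT, dS, -⟩ := h2_Tt ds
  have fU : m.Fib U := hU.1
  generalize 16 * s ^ 2 * m.cc ds U * δ = t at hτ hloc ⊢
  let e : ℕ → ℝ := fun n => Nat.rec 0 (fun _ x => x + (5 * κ * α * x + 5 * κ * β)) n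
  have key : ∀ n ≤ N, ∃ V ∈ m.Cl M, m.Ap ds (Λ₀ * Real.exp (n * (400 * |δ|))) V ∧
      m.yS ds V = m.yS ds U ∧ 0 ≤ e n ∧
      m.ErrLe (Metric.closedBall 0 r) V (m.target ds.S ds.Tt (n * t) U * U) (e n) := by
    intro n hn
    induction n with
    | zero =>
      refine ⟨U, hU, by simpa using hA, rfl, le_rfl, fun b z _ _ => ?_⟩
      rw [Nat.cast_zero, zero_mul, m.target_zero ds.hS.1 mT dS.symm, one_mul, sub_self, norm_zero]
      exact le_rfl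
    | succ n ih =>
      obtain ⟨V, hV, aV, yV, e0, eV⟩ := ih (Nat.le_of_succ_le hn)
      have fV : m.Fib V := hV.1
      have hnN : (n : ℝ) ≤ N := by exact_mod_cast Nat.le_of_succ_le hn
      have x1 : 1 ≤ Real.exp (n * (400 * |δ|)) := Real.one_le_exp (by positivity)
      have hΛ1 : 1 ≤ Λ₀ * Real.exp (n * (400 * |δ|)) := one_le_mul_of_one_le_of_one_le hΛ₀ x1
      have aV' : m.Ap ds Λ V := m.h2_Ap_mono aV (le_trans (by gcongr) hΛ)
      have en : e (n + 1) = e n + (5 * κ * α * e n + 5 * κ * β) := rfl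
      have mc : ∀ b, ∀ z ∈ m.R, z ∈ Metric.closedBall (0 : KK) r →
          m.MC (Metric.closedBall 0 (r + r₀ + τ)) (5 * κ)
            ((m.target ds.S ds.Tt (n * t) U * U) (m.coh b z)) := fun b z hz hzr => by
        have h1 := ((m.mcop_target ds.hS.1 mT (n * t) fU).mul hκ).mono le_rfl
          (r' := r₀ + τ) (by
            rw [abs_mul, Nat.abs_cast]
            linarith [mul_le_mul_of_nonneg_right hnN (abs_nonneg t)]) r 1 _ (MC.coh b hz hzr)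
        rwa [mul_one, ← add_assoc] at h1
      have v0 := eV false 0 (zero_mem _) (Metric.mem_closedBall_self hr)
      have m0 := (mc false 0 (zero_mem _) (Metric.mem_closedBall_self hr)).nb
      rw [m.coh_zero] at v0 m0
      have fE := (fib_round ds s δ fV).mul fV.star
      have fG := m.fib_target ds.hS.1 mT dS.symm t fU
      refine ⟨m.round ds s δ V, round_mem_Cl ds s δ hM hV,
        m.h2_Ap_mono (ap_round ds s δ fV hs hδ hΛ1 aV) ?_, (yS_round ds s δ fV).trans yV,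
        by rw [en]; positivity, fun b z hz hzr => ?_⟩
      · rw [Nat.cast_succ, add_mul (n : ℝ), one_mul, Real.exp_add, ← mul_assoc Λ₀]
        refine mul_le_mul_of_nonneg_left ?_ (zero_le_one.trans hΛ1)
        linarith [Real.add_one_le_exp (400 * |δ|)]
      · have b1 := (mc b z hz hzr).bound (fE.2.sub fG.2) (e := α * e n + β)
          (fun b' z' hz' hzr' => hloc V (e n) _ z' b' fV aV' yV v0 m0
            ((m.cc_target ds fV fU (n * t)).trans (mul_le_mul_of_nonneg_left v0 zero_le_two)) hz' (mem_closedBall_zero_iff.1 hzr'))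
          (by positivity)
        have b2 := eV b z hz hzr
        rw [← fE.norm_apply] at b2
        have e1 : m.round ds s δ V (m.coh b z) =
            (m.round ds s δ V * star V) (V (m.coh b z)) := by
          rw [← mul_apply_eq_comp, mul_assoc, fV.star_mul_self, mul_one]
        have e2 : (m.target ds.S ds.Tt (((n + 1 : ℕ) : ℝ) * t) U * U) (m.coh b z) =
            m.target ds.S ds.Tt t U ((m.target ds.S ds.Tt (n * t) U * U) (m.coh b z)) := by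
          rw [Nat.cast_succ, add_mul, one_mul, add_comm, m.target_add ds.hS.1 mT dS.symm _ _ fU]
          rfl
        rw [e1, e2, en]
        rw [map_sub] at b2
        rw [sub_apply] at b1
        refine (norm_sub_le_norm_sub_add_norm_sub _ _ _).trans ((add_le_add b2 b1).trans ?_)
        exact le_of_eq (by ring)
  obtain ⟨V, hV, -, -, -, eV⟩ := key N le_rfl
  exact ⟨V, hV, fun b z hz hzr => (eV b z hz hzr).trans (gronwall_disc (e := e) (by positivity)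
    (by positivity) le_rfl fun n _ => le_rfl)⟩

/-- `N` rounds with `δ = τ / (16 s² c₀ N)`: the a priori bound stays below `Λ₀ exp (400 |τ| / (16 s² |c₀|))`,
the error on `closedBall 0 r` obeys `gronwall_disc` (the target state maps basic coherent vectors to `MC` vectors by
`mcop_target`, `mcop_reach`; `ErrLe.mc`, `MC.bound`); choose `s`, then the pieces (`η`), then `N`. -/
theorem target_err {M : ℕ} (hM : 1 ≤ M) {S T Md : Set (Lab K)} (hS : EvS M S) (hT : EvS M T)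
    (hMd : EvS M Md) (h1 : Disjoint T S) (h2 : Disjoint T Md) (h3 : Disjoint S Md) {ρ : ℝ} (hρ : 0 ≤ ρ)
    (bT : Bd M ρ T) (bM : Bd M ρ Md) {U : H →L[ℂ] H} (hU : U ∈ m.Reach M)
    (hc : (⟪U m.vac, m.P Md ((m.Sg * m.Z) (U m.vac))⟫_ℂ).re ≠ 0) (τ r : ℝ) {ε : ℝ} (hε : 0 < ε) :
    ∃ V ∈ m.Cl M, m.ErrLe (Metric.closedBall 0 r) V (m.target S T τ U * U) ε := by
  obtain ⟨C, hC, hloc⟩ := m.local_error
  obtain ⟨κ, r₀, hκ1, hr₀, hκ⟩ := m.mcop_reach hU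
  have fU := m.reach_fib hU
  generalize hc₀ : -(⟪U m.vac, m.P Md ((m.Sg * m.Z) (U m.vac))⟫_ℂ).re = c₀
  have hc0 : 0 < |c₀| := abs_pos.2 (hc₀ ▸ neg_ne_zero.2 hc)
  have hκ0 : 0 ≤ κ := by linarith
  obtain ⟨R, hR⟩ : ∃ R, R = (1 + (|r| + r₀ + |τ|) + ρ) ^ 3 := ⟨_, rfl⟩
  obtain ⟨n₀, hn₀⟩ : ∃ n₀, n₀ = 5 * κ * (1 + 2 * (|r| + r₀ + |τ|)) := ⟨_, rfl⟩
  have hR0 : 0 ≤ R := by rw [hR]; positivity
  have hn0 : 0 ≤ n₀ := by rw [hn₀]; positivity
  obtain ⟨D, hD⟩ : ∃ D, D = 5 * κ * C * R * |τ| / (16 * |c₀|) := ⟨_, rfl⟩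
  have hD0 : 0 ≤ D := by rw [hD]; positivity
  have hε3 : 0 < ε / 3 := by positivity
  obtain ⟨s, s0, s1, hs⟩ := h2_small (A := D * (1 + n₀) * Real.exp D) (by positivity) hε3
  obtain ⟨q, hq⟩ : ∃ q, q = τ / (16 * s ^ 2 * c₀) := ⟨_, rfl⟩
  have hqa : |q| = |τ| / (16 * s ^ 2 * |c₀|) := by
    rw [hq, abs_div, abs_mul, abs_of_pos (by positivity : 0 < 16 * s ^ 2)]
  obtain ⟨Λ₀, hΛ₀⟩ : ∃ Λ₀, Λ₀ = κ * (1 + (K + 1) * ρ + 2 * r₀) := ⟨_, rfl⟩
  have hΛ₀1 : 1 ≤ Λ₀ := by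
    rw [hΛ₀]
    exact one_le_mul_of_one_le_of_one_le hκ1 (by
      linarith [(by positivity : 0 ≤ ((K : ℝ) + 1) * ρ)])
  obtain ⟨Λ, hΛ⟩ : ∃ Λ, Λ = Λ₀ * Real.exp (400 * |q|) := ⟨_, rfl⟩
  have hΛ1 : 1 ≤ Λ := by
    rw [hΛ]
    exact one_le_mul_of_one_le_of_one_le hΛ₀1 (Real.one_le_exp (by positivity))
  obtain ⟨η, η0, η1, hη⟩ := h2_small (A := D * Λ ^ 2 / s ^ 2 * Real.exp D) (by positivity) hε3
  obtain ⟨k, Tl, t1, t2, t3, t4⟩ := exists_pieces hM hT bT η0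
  have tsub : ∀ l, Tl l ⊆ T := fun l => t3 ▸ Set.subset_iUnion Tl l
  let ds : DSet K M k := ⟨S, Md, Tl, ρ, η, hS, hMd, t1, t2, fun l => h1.mono_left (tsub l),
    fun l => h2.mono_left (tsub l), h3, hρ, fun l x hx => bT x (tsub l hx), bM, η0.le, η1, t4⟩
  obtain ⟨C', hC', hloc⟩ := hloc k
  obtain ⟨x, x0, -, hx⟩ := h2_small (A := 5 * κ * C' * R * q ^ 2 * Λ ^ 4 * Real.exp D)
    (by positivity) hε3
  obtain ⟨N, hN⟩ := exists_nat_gt (400 * |q| + 1 / x)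
  have hN0 : (0 : ℝ) < N := lt_of_le_of_lt (by positivity) hN
  have hN1 : 400 * |q| ≤ N := by linarith [one_div_pos.2 x0]
  have hN2 : 1 / (N : ℝ) ≤ x := by
    rw [one_div_le hN0 x0]
    linarith [abs_nonneg q]
  have ecc : m.cc ds U = c₀ := (cc_eq ds fU).trans hc₀
  have hc1 : c₀ ≠ 0 := abs_pos.1 hc0
  have eτ : (N : ℝ) * (16 * s ^ 2 * m.cc ds U * (q / N)) = τ := by
    rw [ecc, hq]
    field_simp
  have eδ : |q / N| = |q| / N := by rw [abs_div, Nat.abs_cast]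
  have hsa : |s| = s := abs_of_pos s0
  have hδ : 400 * |q / N| ≤ 1 := by
    rw [eδ, ← mul_div_assoc, div_le_one hN0]
    exact hN1
  have mv := hκ 0 1 _ (m.mc_vac le_rfl)
  rw [zero_add, mul_one] at mv
  have hA : m.Ap ds Λ₀ U := by
    refine ⟨fun l => hΛ₀ ▸ mv.nb_P' (t1 l) hρ (ds.bT l), (mv.nb_P' hMd hρ bM).mono ?_⟩
    rw [← hΛ₀]
    exact mul_le_of_le_one_right (by linarith) (Real.sqrt_le_one.2 measureReal_le_one)
  obtain ⟨V, hV, eV⟩ := m.h2_iter hM ds (s := s) (δ := q / N) (Λ := Λ) (r := |r|) (τ := |τ|)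
    (α := C * R * (|q| / N) * s ^ 2)
    (β := C * R * (|q| / N) * (s ^ 3 * (1 + n₀) + η * Λ ^ 2) + C' * R * (q / N) ^ 2 * Λ ^ 4)
    (m.reach_subset M hU) (by linarith) hδ hΛ₀1 hA hκ hκ0 (abs_nonneg r) N
    (by rw [hΛ, eδ]; exact le_of_eq (by congr 2; field_simp))
    (by rw [← eτ, abs_mul (N : ℝ), Nat.abs_cast]) (by positivity) (by positivity)
    fun V e ψ z b fV aV yV he hn hcc hz hzr => by
      refine (hloc ds s (q / N) V U Λ e n₀ _ ψ z b (by linarith) hδ fV fU hΛ1 aV yV he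
        (hn₀ ▸ hn) hcc hz hzr).trans (le_of_eq ?_)
      rw [eδ, hsa, hR]
      change _ * (_ + ρ) ^ 3 * _ * (_ + η * _) + _ * (_ + ρ) ^ 3 * _ * _ = _
      ring
  refine ⟨V, hV, fun b z hz hzr => ?_⟩
  have e1 := eV b z hz (Metric.closedBall_subset_closedBall (le_abs_self r) hzr)
  rw [eτ, show ds.Tt = T from t3] at e1
  refine e1.trans ?_
  have e2 : (N : ℝ) * (5 * κ * (C * R * (|q| / N) * s ^ 2)) = D := by
    rw [hD, hqa]
    field_simp
  have e3 : (N : ℝ) * (5 * κ * (C * R * (|q| / N) * (s ^ 3 * (1 + n₀) + η * Λ ^ 2) +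
      C' * R * (q / N) ^ 2 * Λ ^ 4)) = D * (1 + n₀) * s + D * Λ ^ 2 / s ^ 2 * η +
        5 * κ * C' * R * q ^ 2 * Λ ^ 4 * (1 / N) := by
    rw [hD, hqa]
    field_simp
  have e4 := mul_le_mul_of_nonneg_left hN2
    (by positivity : 0 ≤ 5 * κ * C' * R * q ^ 2 * Λ ^ 4 * Real.exp D)
  rw [e2, e3]
  linarith

/-- **identity hubs are available** (`mem_SCl_of_err`, then `SCl_map` by continuity in `U`) -/
theorem target_mem_Cl {M : ℕ} (hM : 1 ≤ M) {S T Md : Set (Lab K)} (hS : EvS M S) (hT : EvS M T)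
    (hMd : EvS M Md) (h1 : Disjoint T S) (h2 : Disjoint T Md) (h3 : Disjoint S Md) {ρ : ℝ} (hρ : 0 ≤ ρ)
    (bT : Bd M ρ T) (bM : Bd M ρ Md) {U : H →L[ℂ] H} (hU : U ∈ m.Cl M)
    (hc : (⟪U m.vac, m.P Md ((m.Sg * m.Z) (U m.vac))⟫_ℂ).re ≠ 0) (τ : ℝ) :
    m.target S T τ U * U ∈ m.Cl M := by
  refine m.SCl_map (fun V hV => m.reach_fib hV) (fun V => m.target S T τ V * V) hU
    ((m.fib_target hS.1 hT.1 h1.symm τ hU.1).mul hU.1) fun l hl hst => ⟨?_, ?_⟩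
  · refine STend.mul ?_ hst (hl.mono fun V hV => (m.fib_target hS.1 hT.1 h1.symm τ hV).norm_le)
    refine ((STend.const _).add (STend.const_mul (m.stend_D ?_ ?_ ?_) _)).add (STend.const _)
    · exact hl.mono fun V hV => Submodule.smul_mem _ τ
        (hV.j_P_heis_mem m.Z_star m.cen_Z hS.1)
    · exact Submodule.smul_mem _ τ (Fib.j_P_heis_mem hU.1 m.Z_star m.cen_Z hS.1)
    · exact ((m.j.continuous.tendsto _).comp (((m.P S).continuous.tendsto _).comp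
        (m.tendsto_heis hl hU.1 hst m.Z))).const_smul τ
  · have hcont : Continuous fun v : H => (⟪v, m.P Md ((m.Sg * m.Z) v)⟫_ℂ).re := by fun_prop
    filter_upwards [((hcont.tendsto _).comp (hst m.vac)).eventually_ne hc] with V h hV
    exact m.mem_SCl_of_err ((m.fib_target hS.1 hT.1 h1.symm τ (m.reach_fib hV)).mul
      (m.reach_fib hV)) fun r ε hε =>
        m.target_err hM hS hT hMd h1 h2 h3 hρ bT bM hV h τ r hε

end Model

end Crest.Agent.R339
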