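import Crest.Agent.R339.Q.D0b

/-!
# Row 339, part Q: identity hubs: trigonometric identities
-/

set_option autoImplicit false

namespace Crest.Agent.R339

open MeasureTheory ProbabilityTheory Filter Topology Crest.MathPhysics.SpinGlass
open scoped InnerProductSpace ComplexConjugate

namespace Model

variable {K : ℕ} {I : Iamp K} {H KK : Type} [NormedAddCommGroup H] [InnerProductSpace ℂ H]
  [CompleteSpace H] [NormedAddCommGroup KK] [InnerProductSpace ℂ KK] (m : Model I H KK)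

variable {m} {M k : ℕ} (ds : DSet K M k) (s δ : ℝ) {U : H →L[ℂ] H}

variable (m) in
/-- `u = (s e₁) a₂` -/
noncomputable def uu (ds : DSet K M k) (s : ℝ) (l : Fin k) (b1 : Bool) (U : H →L[ℂ] H) : KK :=
  (s * spinSign b1) • m.a2 ds (l, b1, false, false) U
variable (m) in
/-- `θ = 2 s ω(a₁, a₂)` -/
noncomputable def th (ds : DSet K M k) (s : ℝ) (l : Fin k) (b1 : Bool) (U : H →L[ℂ] H) : ℝ :=
  2 * s * om (m.a1 ds U) (m.a2 ds (l, b1, false, false) U)

theorem dalg_SgZ_Y : m.Sg * m.Z * m.Y = -(m.Y * (m.Sg * m.Z)) := by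
  have hY : Commute m.Y m.Sg := m.cen_Y.commute_Sg
  rw [← mul_assoc, hY.eq, mul_assoc, mul_assoc, m.ZY, m.YZ, _root_.mul_neg]

theorem dalg_SgX_Y : m.Sg * m.X * m.Y = -(m.Y * (m.Sg * m.X)) := by
  have hY : Commute m.Y m.Sg := m.cen_Y.commute_Sg
  rw [← mul_assoc, hY.eq, mul_assoc, mul_assoc, m.XY, m.YX, _root_.mul_neg, neg_neg]

theorem dalg_ZD (w : KK) :
    m.Sg * m.Z * m.D m.Y w = m.Sg * (m.Z * m.cosW w - m.X * m.sinW w) := by
  unfold D
  rw [mul_assoc, _root_.mul_sub, mul_smul_comm, ← mul_assoc m.Z, m.ZY, neg_mul, smul_mul_assoc, smul_neg,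
    smul_smul, Complex.I_mul_I, neg_smul, one_smul, neg_neg]

theorem dalg_XD (w : KK) :
    m.Sg * m.X * m.D m.Y w = m.Sg * (m.X * m.cosW w + m.Z * m.sinW w) := by
  unfold D
  rw [mul_assoc, _root_.mul_sub, mul_smul_comm, ← mul_assoc m.X, m.XY, smul_mul_assoc,
    smul_smul, Complex.I_mul_I, neg_smul, one_smul, sub_neg_eq_add]

variable (m) in
/-- `w₀ = u + e₃ s yS` -/
noncomputable def dalgW (ds : DSet K M k) (s : ℝ) (l : Fin k) (b1 b3 : Bool) (U : H →L[ℂ] H) : KK :=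
  m.uu ds s l b1 U + spinSign b3 • (s • m.yS ds U)

theorem dalg_two_yy (l : Fin k) (b1 b2 b3 : Bool) :
    (2 : ℝ) • m.yy ds s (l, b1, b2, b3) U = spinSign b2 • m.dalgW ds s l b1 b3 U := by
  have h : m.a2 ds (l, b1, b2, b3) U = m.a2 ds (l, b1, false, false) U := rfl
  unfold yy dalgW uu
  rw [h]
  simp only [PIdx.e1, PIdx.e2, PIdx.e3]
  module

theorem dalg_uu_mem (hU : m.Fib U) (l : Fin k) (b1 : Bool) : m.uu ds s l b1 U ∈ m.R :=
  m.R.smul_mem _ (a2_mem ds _ hU)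

theorem dalg_sy_mem (hU : m.Fib U) : s • m.yS ds U ∈ m.R := m.R.smul_mem _ (yS_mem ds hU)

theorem dalg_W_mem (hU : m.Fib U) (l : Fin k) (b1 b3 : Bool) : m.dalgW ds s l b1 b3 U ∈ m.R :=
  m.R.add_mem (dalg_uu_mem ds s hU l b1) (m.R.smul_mem _ (dalg_sy_mem ds s hU))

theorem dalg_om (l : Fin k) (b1 b3 : Bool) :
    2 * om (spinSign b1 • m.a1 ds U) (m.dalgW ds s l b1 b3 U) = m.th ds s l b1 U := by
  have h0 : om (m.a1 ds U) (m.yS ds U) = 0 := om_eq_zero_of_inner (inner_a1_yS ds)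
  unfold dalgW uu th
  rw [om_smul_left, om_add_right, om_smul_right, om_smul_right, om_smul_right, h0]
  cases b1 <;> simp [spinSign] <;> ring

theorem dalg_om2 (l : Fin k) (b1 : Bool) (t : ℝ) :
    om (m.uu ds s l b1 U) (t • (s • m.yS ds U)) = 0 := by
  have h0 : om (m.a2 ds (l, b1, false, false) U) (m.yS ds U) = 0 :=
    om_eq_zero_of_inner (inner_a2_yS ds _)
  unfold uu
  rw [om_smul_left, om_smul_right, om_smul_right, h0]
  simp

theorem dalg_cos_sgn (b : Bool) (w : KK) : m.cosW (spinSign b • w) = m.cosW w := by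
  cases b <;> simp [spinSign, m.cosW_neg]

theorem dalg_sin_sgn (b : Bool) (w : KK) :
    m.sinW (spinSign b • w) = ((spinSign b : ℝ) : ℂ) • m.sinW w := by
  cases b <;> simp [spinSign, m.sinW_neg]

theorem dalg_cosW (hU : m.Fib U) (l : Fin k) (b1 b3 : Bool) :
    m.cosW (m.dalgW ds s l b1 b3 U) = m.cosW (m.uu ds s l b1 U) * m.cosW (s • m.yS ds U)
      - ((spinSign b3 : ℝ) : ℂ) • (m.sinW (m.uu ds s l b1 U) * m.sinW (s • m.yS ds U)) := by
  unfold dalgW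
  rw [m.cosW_add (dalg_uu_mem ds s hU l b1) (m.R.smul_mem _ (dalg_sy_mem ds s hU))
    (dalg_om2 ds s l b1 _), dalg_cos_sgn, dalg_sin_sgn, mul_smul_comm]

theorem dalg_sinW (hU : m.Fib U) (l : Fin k) (b1 b3 : Bool) :
    m.sinW (m.dalgW ds s l b1 b3 U) = m.sinW (m.uu ds s l b1 U) * m.cosW (s • m.yS ds U)
      + ((spinSign b3 : ℝ) : ℂ) • (m.cosW (m.uu ds s l b1 U) * m.sinW (s • m.yS ds U)) := by
  unfold dalgW
  rw [m.sinW_add (dalg_uu_mem ds s hU l b1) (m.R.smul_mem _ (dalg_sy_mem ds s hU))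
    (dalg_om2 ds s l b1 _), dalg_cos_sgn, dalg_sin_sgn, mul_smul_comm]

theorem dalg_pull {v : KK} (A : H →L[ℂ] H) :
    star (m.D m.Z v) * (m.Sg * (m.Z * A)) * m.D m.Z v =
      m.Sg * (m.Z * (star (m.D m.Z v) * A * m.D m.Z v)) := by
  have h1 : Commute m.Sg (m.D m.Z (-v)) :=
    m.commute_D m.isAxis_Sg.2.2.2 m.cen_Z.commute_Sg.symm _
  have h2 : Commute m.Z (m.D m.Z (-v)) := m.isAxis_Z.commute_D_self _
  rw [m.isAxis_Z.star_D]
  calc m.D m.Z (-v) * (m.Sg * (m.Z * A)) * m.D m.Z v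
      = (m.D m.Z (-v) * m.Sg) * m.Z * (A * m.D m.Z v) := by simp only [mul_assoc]
    _ = m.Sg * (m.D m.Z (-v) * m.Z) * (A * m.D m.Z v) := by rw [← h1.eq]; simp only [mul_assoc]
    _ = _ := by rw [← h2.eq]; simp only [mul_assoc]

theorem AT_eq (hU : m.Fib U) (p : PIdx k) : m.AT ds s p U =
    star (m.G1T ds p U) * (m.Sg * (m.Z * m.cosW ((2 : ℝ) • m.yy ds s p U)
      - m.X * m.sinW ((2 : ℝ) • m.yy ds s p U))) * m.G1T ds p U := by
  unfold AT
  rw [m.isAxis_Y.conj_anti m.isAxis_Z.sg dalg_SgZ_Y (yy_mem ds s p hU), dalg_ZD]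
theorem GG_eq (hU : m.Fib U) (p : PIdx k) : m.GG ds s p U =
    star (m.G1T ds p U) * (m.Sg * (m.X * m.cosW ((2 : ℝ) • m.yy ds s p U)
      + m.Z * m.sinW ((2 : ℝ) • m.yy ds s p U))) * m.G1T ds p U := by
  unfold GG
  rw [dalg_XD]

theorem dalg_sumA (hU : m.Fib U) (l : Fin k) (b1 b3 : Bool) :
    ∑ b2, m.AT ds s (l, b1, b2, b3) U = (2 : ℂ) • (m.Sg * (m.Z *
      (((Real.cos (m.th ds s l b1 U) : ℝ) : ℂ) • m.cosW (m.dalgW ds s l b1 b3 U)
        + ((Real.sin (m.th ds s l b1 U) : ℝ) : ℂ) • (m.Z * m.sinW (m.dalgW ds s l b1 b3 U))))) := by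
  have hG : ∀ b2, m.G1T ds (l, b1, b2, b3) U = m.D m.Z (spinSign b1 • m.a1 ds U) := fun _ => rfl
  have hv : spinSign b1 • m.a1 ds U ∈ m.R := m.R.smul_mem _ (a1_mem ds hU)
  rw [← dalg_om ds s l b1 b3, ← m.isAxis_Z.conj_cosW (dalg_W_mem ds s hU l b1 b3) hv, ← dalg_pull]
  simp only [AT_eq ds s hU, hG, dalg_two_yy, dalg_cos_sgn, dalg_sin_sgn, Fintype.sum_bool]
  simp only [spinSign, _root_.mul_sub, sub_mul, mul_smul_comm, smul_mul_assoc, if_true, Bool.false_eq_true,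
    if_false, Complex.ofReal_neg, Complex.ofReal_one]
  module

theorem dalg_sumG (hU : m.Fib U) (l : Fin k) (b1 b3 : Bool) :
    ∑ b2, ((spinSign b2 : ℝ) : ℂ) • m.GG ds s (l, b1, b2, b3) U = (2 : ℂ) • (m.Sg * (m.Z *
      (((Real.cos (m.th ds s l b1 U) : ℝ) : ℂ) • m.sinW (m.dalgW ds s l b1 b3 U)
        - ((Real.sin (m.th ds s l b1 U) : ℝ) : ℂ) • (m.Z * m.cosW (m.dalgW ds s l b1 b3 U))))) := by
  have hG : ∀ b2, m.G1T ds (l, b1, b2, b3) U = m.D m.Z (spinSign b1 • m.a1 ds U) := fun _ => rfl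
  have hv : spinSign b1 • m.a1 ds U ∈ m.R := m.R.smul_mem _ (a1_mem ds hU)
  rw [← dalg_om ds s l b1 b3, ← m.isAxis_Z.conj_sinW (dalg_W_mem ds s hU l b1 b3) hv, ← dalg_pull]
  simp only [GG_eq ds s hU, hG, dalg_two_yy, dalg_cos_sgn, dalg_sin_sgn, Fintype.sum_bool]
  simp only [spinSign, _root_.mul_add, add_mul, mul_smul_comm, smul_mul_assoc, if_true, Bool.false_eq_true,
    if_false, Complex.ofReal_neg, Complex.ofReal_one]
  module

/-- `2 yy = e₂ (u + e₃ s yS)`; use `conj_cosW`, `conj_sinW`, `cosW_add`, `sinW_add` -/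
theorem sum_AT (hU : m.Fib U) (l : Fin k) (b1 : Bool) :
    ∑ b2, ∑ b3, ((spinSign b3 : ℝ) : ℂ) • m.AT ds s (l, b1, b2, b3) U =
      (4 : ℂ) • (m.Sg * ((((Real.sin (m.th ds s l b1 U) : ℝ) : ℂ) • m.cosW (m.uu ds s l b1 U)
        - ((Real.cos (m.th ds s l b1 U) : ℝ) : ℂ) • (m.Z * m.sinW (m.uu ds s l b1 U)))
          * m.sinW (s • m.yS ds U))) := by
  rw [Finset.sum_comm]
  simp only [← Finset.smul_sum, dalg_sumA ds s hU, dalg_cosW ds s hU, dalg_sinW ds s hU]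
  simp only [Fintype.sum_bool, spinSign, _root_.mul_sub, sub_mul, _root_.mul_add, add_mul, mul_smul_comm,
    smul_mul_assoc, if_true, Bool.false_eq_true, if_false, Complex.ofReal_neg, Complex.ofReal_one,
    mul_assoc, m.alg3_ZZX]
  module
theorem sum_AT_commute (hU : m.Fib U) (l : Fin k) (b1 b3 : Bool) :
    Commute m.Z (∑ b2, m.AT ds s (l, b1, b2, b3) U) := by
  rw [dalg_sumA ds s hU]
  refine Commute.smul_right (m.cen_Z.commute_Sg.mul_right ((Commute.refl _).mul_right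
    (Commute.add_right (Commute.smul_right (m.commute_cosW m.Z_W _) _) (Commute.smul_right
      ((Commute.refl _).mul_right (m.commute_sinW m.Z_W _)) _)))) _
theorem sum_GG_S (hU : m.Fib U) (l : Fin k) (b1 : Bool) :
    ∑ b2, ∑ b3, ((spinSign b2 : ℝ) : ℂ) • m.GG ds s (l, b1, b2, b3) U =
      (-4 : ℂ) • (m.Sg * ((((Real.sin (m.th ds s l b1 U) : ℝ) : ℂ) • m.cosW (m.uu ds s l b1 U)
        - ((Real.cos (m.th ds s l b1 U) : ℝ) : ℂ) • (m.Z * m.sinW (m.uu ds s l b1 U)))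
          * m.cosW (s • m.yS ds U))) := by
  rw [Finset.sum_comm]
  simp only [dalg_sumG ds s hU, dalg_cosW ds s hU, dalg_sinW ds s hU]
  simp only [Fintype.sum_bool, spinSign, _root_.mul_sub, sub_mul, _root_.mul_add, add_mul, mul_smul_comm,
    smul_mul_assoc, if_true, Bool.false_eq_true, if_false, Complex.ofReal_neg, Complex.ofReal_one,
    mul_assoc, m.alg3_ZZX]
  module
theorem sum_GG_M (hU : m.Fib U) (l : Fin k) (b1 : Bool) :
    ∑ b2, ∑ b3, ((spinSign b2 * spinSign b3 : ℝ) : ℂ) • m.GG ds s (l, b1, b2, b3) U =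
      (4 : ℂ) • (m.Sg * ((((Real.cos (m.th ds s l b1 U) : ℝ) : ℂ) • (m.Z * m.cosW (m.uu ds s l b1 U))
        + ((Real.sin (m.th ds s l b1 U) : ℝ) : ℂ) • m.sinW (m.uu ds s l b1 U))
          * m.sinW (s • m.yS ds U))) := by
  rw [Finset.sum_comm]
  have h : ∀ b3, ∑ b2, ((spinSign b2 * spinSign b3 : ℝ) : ℂ) • m.GG ds s (l, b1, b2, b3) U =
      ((spinSign b3 : ℝ) : ℂ) • ∑ b2, ((spinSign b2 : ℝ) : ℂ) • m.GG ds s (l, b1, b2, b3) U := by
    intro b3
    rw [Finset.smul_sum]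
    refine Finset.sum_congr rfl fun b2 _ => ?_
    rw [smul_smul, Complex.ofReal_mul, mul_comm]
  simp only [h, dalg_sumG ds s hU, dalg_cosW ds s hU, dalg_sinW ds s hU]
  simp only [Fintype.sum_bool, spinSign, _root_.mul_sub, sub_mul, _root_.mul_add, add_mul, mul_smul_comm,
    smul_mul_assoc, if_true, Bool.false_eq_true, if_false, Complex.ofReal_neg, Complex.ofReal_one,
    mul_assoc, m.alg3_ZZX]
  module
/-- `i [AT, Yf] = 2 GG` -/
theorem comm_AT_Yf (hU : m.Fib U) (p : PIdx k) :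
    Complex.I • (m.AT ds s p U * m.Yf ds p U - m.Yf ds p U * m.AT ds s p U) = (2 : ℂ) • m.GG ds s p U := by
  have hG := (fib_G1T ds p hU).mul_star_self
  have hG' : ∀ A : H →L[ℂ] H, m.G1T ds p U * (star (m.G1T ds p U) * A) = A := fun A => by
    rw [← mul_assoc, hG, one_mul]
  have hD : Commute m.Y (m.D m.Y ((2 : ℝ) • m.yy ds s p U)) := m.isAxis_Y.commute_D_self _
  have hD' : ∀ A : H →L[ℂ] H, m.D m.Y ((2 : ℝ) • m.yy ds s p U) * (m.Y * A) =
      m.Y * (m.D m.Y ((2 : ℝ) • m.yy ds s p U) * A) := fun A => by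
    rw [← mul_assoc, ← hD.eq, mul_assoc]
  have hY : Commute m.Y m.Sg := m.cen_Y.commute_Sg
  have hY' : ∀ A : H →L[ℂ] H, m.Y * (m.Sg * A) = m.Sg * (m.Y * A) := fun A => by
    rw [← mul_assoc, hY.eq, mul_assoc]
  have hZY : ∀ A : H →L[ℂ] H, m.Z * (m.Y * A) = -(Complex.I • (m.X * A)) := fun A => by
    rw [← mul_assoc, m.ZY, neg_mul, smul_mul_assoc]
  have hYZ : ∀ A : H →L[ℂ] H, m.Y * (m.Z * A) = Complex.I • (m.X * A) := fun A => by
    rw [← mul_assoc, m.YZ, smul_mul_assoc]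
  unfold AT Yf GG
  rw [m.isAxis_Y.conj_anti m.isAxis_Z.sg dalg_SgZ_Y (yy_mem ds s p hU)]
  simp only [mul_assoc, hG', hD', hY', hZY, hYZ, _root_.mul_neg, mul_smul_comm]
  rw [← neg_add', smul_neg, smul_add, smul_smul, Complex.I_mul_I]
  module

theorem dalg_loc (hU : m.Fib U) (l : Fin k) {A : H →L[ℂ] H} (hA : m.Cen A) {c : ℝ} (hc : ‖A‖ ≤ c) :
    m.Loc ds l c (m.j (m.P (ds.T l) (m.heis U A))) := by
  refine ⟨_, rfl, ?_⟩
  rw [LinearIsometry.norm_map]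
  exact (hU.norm_P_heis_le (ds.hT l).1 hA).trans
    (mul_le_mul_of_nonneg_right hc (Real.sqrt_nonneg _))

theorem dalg_e3 (p : PIdx k) : (p.e3 * δ) ^ 2 = δ ^ 2 := by
  rw [mul_pow, sq p.e3, e3_sq, one_mul]

theorem dg_lin (hU : m.Fib U) (p : PIdx k) :
    m.Loc ds p.1 (4 * δ ^ 2)
      (m.dg ds s δ p U - (2 * p.e3 * δ) • m.j (m.P (ds.T p.1) (m.heis U (m.GG ds s p U)))) := by
  have h1 := norm_conj_rot_sub (AT_star ds s p hU) (AT_sq ds s p hU) (m.Yf ds p U) (p.e3 * δ)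
  have h2 : (Complex.I * ((p.e3 * δ : ℝ) : ℂ)) •
      (m.AT ds s p U * m.Yf ds p U - m.Yf ds p U * m.AT ds s p U) =
        (2 * p.e3 * δ : ℝ) • m.GG ds s p U := by
    rw [mul_comm, ← smul_smul, comm_AT_Yf ds s hU, smul_smul, ← Complex.coe_smul]
    congr 1
    push_cast
    ring
  rw [h2, dalg_e3] at h1
  have h3 : m.dg ds s δ p U - (2 * p.e3 * δ) • m.j (m.P (ds.T p.1) (m.heis U (m.GG ds s p U))) =
      m.j (m.P (ds.T p.1) (m.heis U (star (m.ET ds s δ p U) * m.Yf ds p U * m.ET ds s δ p U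
        - m.Yf ds p U - (2 * p.e3 * δ : ℝ) • m.GG ds s p U))) := by
    rw [m.heis_sub _ _ ((2 * p.e3 * δ : ℝ) • m.GG ds s p U), map_sub, map_sub, m.heis_rsmul,
      ContinuousLinearMap.map_smul_of_tower, m.j_rsmul]
    rfl
  rw [h3]
  have hE := fib_ET ds s δ p hU
  have hY := fib_Yf ds p hU
  refine dalg_loc ds hU p.1 ((((hE.star.2.mul hY.2).mul hE.2).sub hY.2).sub
    ((fib_GG ds s p hU).2.rsmul _)) (h1.trans ?_)
  exact mul_le_of_le_one_right (by positivity) hY.norm_le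
/-- the first order terms of `db` cancel in the sum over `e₂` -/
theorem norm_sum_db (hU : m.Fib U) : ‖∑ p : PIdx k, m.db ds s δ p U‖ ≤ 32 * δ ^ 2 := by
  set Rm : PIdx k → (H →L[ℂ] H) := fun p => star (m.ET ds s δ p U) * m.Z * m.ET ds s δ p U - m.Z
    - (Complex.I * ((p.e3 * δ : ℝ) : ℂ)) • (m.AT ds s p U * m.Z - m.Z * m.AT ds s p U) with hRm
  have hR1 : ∀ p, ‖Rm p‖ ≤ 4 * δ ^ 2 := fun p => by
    have h1 := norm_conj_rot_sub (AT_star ds s p hU) (AT_sq ds s p hU) m.Z (p.e3 * δ)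
    rw [dalg_e3] at h1
    exact h1.trans (mul_le_of_le_one_right (by positivity) m.isAxis_Z.fib.norm_le)
  have hR2 : ∀ p, m.Cen (Rm p) := fun p => by
    have hE := fib_ET ds s δ p hU
    have hA := AT_cen ds s p hU
    exact (((hE.star.2.mul m.cen_Z).mul hE.2).sub m.cen_Z).sub
      (((hA.mul m.cen_Z).sub (m.cen_Z.mul hA)).smul _)
  have key : ∀ (l : Fin k) (b1 b3 : Bool), ∑ b2, m.db ds s δ (l, b1, b2, b3) U =
      (-spinSign b1) • m.j (m.P (ds.T l) (m.heis U (∑ b2, Rm (l, b1, b2, b3)))) := by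
    intro l b1 b3
    have hc := (sum_AT_commute ds s hU l b1 b3).eq
    have h1 : ∑ b2, Rm (l, b1, b2, b3) = ∑ b2, (star (m.ET ds s δ (l, b1, b2, b3) U) * m.Z *
        m.ET ds s δ (l, b1, b2, b3) U - m.Z) := by
      simp only [hRm]
      rw [Finset.sum_sub_distrib]
      have : ∑ b2 : Bool, (Complex.I * ((PIdx.e3 (l, b1, b2, b3) * δ : ℝ) : ℂ)) •
          (m.AT ds s (l, b1, b2, b3) U * m.Z - m.Z * m.AT ds s (l, b1, b2, b3) U) = 0 := by
        have h3 : ∀ b2 : Bool, PIdx.e3 (l, b1, b2, b3) = spinSign b3 := fun _ => rfl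
        simp only [h3]
        rw [← Finset.smul_sum, Finset.sum_sub_distrib, ← Finset.sum_mul, ← Finset.mul_sum, hc,
          sub_self, smul_zero]
      rw [this, sub_zero]
    rw [h1, m.heis_sum, map_sum, map_sum, Finset.smul_sum]
    rfl
  rw [Fintype.sum_prod_type]
  refine loc_norm_sum (m := m) ds (by positivity) fun l => ?_
  have key2 : ∑ q : Bool × Bool × Bool, m.db ds s δ (l, q) U = m.j (m.P (ds.T l) (m.heis U
      (∑ b1, ∑ b3, (-spinSign b1) • ∑ b2, Rm (l, b1, b2, b3)))) := by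
    rw [Fintype.sum_prod_type, m.heis_sum, map_sum, map_sum]
    refine Finset.sum_congr rfl fun b1 _ => ?_
    rw [Fintype.sum_prod_type, Finset.sum_comm, m.heis_sum, map_sum, map_sum]
    refine Finset.sum_congr rfl fun b3 _ => ?_
    rw [key, m.heis_rsmul, ContinuousLinearMap.map_smul_of_tower, m.j_rsmul]
  rw [key2]
  refine dalg_loc ds hU l (Cen.sum _ fun b1 _ => Cen.sum _ fun b3 _ =>
    (Cen.sum _ fun b2 _ => hR2 _).rsmul _) ?_
  have hb : ∀ b1 b3 : Bool, ‖(-spinSign b1) • ∑ b2, Rm (l, b1, b2, b3)‖ ≤ 8 * δ ^ 2 := by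
    intro b1 b3
    have : ‖-spinSign b1‖ = 1 := by cases b1 <;> simp [spinSign]
    rw [norm_smul, this, one_mul, Fintype.sum_bool]
    have := norm_add_le (Rm (l, b1, true, b3)) (Rm (l, b1, false, b3))
    linarith [hR1 (l, b1, true, b3), hR1 (l, b1, false, b3)]
  refine (norm_sum_le _ _).trans ?_
  refine (Finset.sum_le_sum fun b1 _ => (norm_sum_le _ _).trans
    (Finset.sum_le_sum fun b3 _ => hb b1 b3)).trans (le_of_eq ?_)
  simp only [Fintype.sum_bool]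
  ring
theorem norm_uu_sub (hU : m.Fib U) (hs : |s| ≤ 1) {Λ : ℝ} (h : m.NB Λ (m.P ds.Md (U m.vac))) (l : Fin k)
    (b1 : Bool) : ‖m.uu ds s l b1 U - (s * spinSign b1) • m.a20 ds U‖ ≤ 4 * ds.η * Λ ∧
      |m.th ds s l b1 U - 2 * s * m.cc ds U| ≤ 8 * ds.η * Λ ∧ ‖m.uu ds s l b1 U‖ ≤ 1 := by
  have h1 := norm_a2_sub ds (l, b1, false, false) hU h
  have h0 : 0 ≤ 4 * ds.η * Λ := (norm_nonneg _).trans h1
  have he : ‖s * spinSign b1‖ ≤ 1 := by
    cases b1 <;> simpa [spinSign] using hs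
  refine ⟨?_, ?_, ?_⟩
  · unfold uu
    rw [← smul_sub, norm_smul]
    calc _ ≤ 1 * (4 * ds.η * Λ) := mul_le_mul he h1 (norm_nonneg _) zero_le_one
      _ = _ := one_mul _
  · unfold th cc
    rw [← _root_.mul_sub, ← om_sub_right, abs_mul, abs_mul, abs_two]
    have h2 := (abs_om_le (m.a1 ds U) (m.a2 ds (l, b1, false, false) U - m.a20 ds U)).trans
      (mul_le_mul (norm_a1_le ds hU) h1 (norm_nonneg _) zero_le_one)
    calc _ ≤ 2 * 1 * (1 * (4 * ds.η * Λ)) :=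
          mul_le_mul (by linarith) h2 (abs_nonneg _) (by norm_num)
      _ = _ := by ring
  · unfold uu
    rw [norm_smul]
    calc _ ≤ (1 : ℝ) * 1 := mul_le_mul he (norm_a2_le ds _ hU) (norm_nonneg _) zero_le_one
      _ = _ := one_mul _
/-- exact form of the conjugated first order term on the mediators, `v = e₁ b`, `ω = om v β` -/
theorem conj_M {v β : KK} (hv : v ∈ m.R) (hβ : β ∈ m.R) :
    star (m.D m.Y v) * (m.Sg * m.X * m.sinW β) * m.D m.Y v =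
      ((Real.cos (2 * om v β) : ℝ) : ℂ) • (m.Sg * m.X * (m.sinW β * m.cosW ((2 : ℝ) • v)))
      + ((Real.cos (2 * om v β) : ℝ) : ℂ) • (m.Sg * m.Z * (m.sinW β * m.sinW ((2 : ℝ) • v)))
      + (Complex.I * ((Real.sin (2 * om v β) : ℝ) : ℂ)) •
          (m.Sg * m.Z * (m.cosW β * m.cosW ((2 : ℝ) • v)))
      - (Complex.I * ((Real.sin (2 * om v β) : ℝ) : ℂ)) •
          (m.Sg * m.X * (m.cosW β * m.sinW ((2 : ℝ) • v))) := by
  have hD := (m.isAxis_Y.fib_D hv).mul_star_self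
  have hax := m.isAxis_X.sg
  have hc : Commute (m.Sg * m.X) (m.sinW β) := m.commute_sinW hax.2.2.2 β
  have h1 : star (m.D m.Y v) * (m.Sg * m.X * m.sinW β) * m.D m.Y v =
      (star (m.D m.Y v) * m.sinW β * m.D m.Y v) * (star (m.D m.Y v) * (m.Sg * m.X) * m.D m.Y v) := by
    rw [hc.eq]
    calc _ = star (m.D m.Y v) * m.sinW β * (m.D m.Y v * star (m.D m.Y v)) * (m.Sg * m.X) * m.D m.Y v := by
          rw [hD]; simp only [mul_assoc, one_mul, mul_one]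
      _ = _ := by simp only [mul_assoc]
  rw [h1, m.isAxis_Y.conj_sinW hβ hv, m.isAxis_Y.conj_anti hax dalg_SgX_Y hv, dalg_XD]
  have mv : ∀ {A B : H →L[ℂ] H}, Commute A B → ∀ C : H →L[ℂ] H, B * (A * C) = A * (B * C) :=
    fun {A B} hAB C => by rw [← mul_assoc, ← hAB.eq, mul_assoc]
  have s1 := mv (m.commute_sinW m.isAxis_Sg.2.2.2 β)
  have s2 := mv (m.commute_sinW m.X_W β)
  have s3 := mv (m.commute_sinW m.Z_W β)
  have c1 := mv (m.commute_cosW m.isAxis_Sg.2.2.2 β)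
  have c2 := mv (m.commute_cosW m.X_W β)
  have c3 := mv (m.commute_cosW m.Z_W β)
  have y1 := mv m.cen_Y.commute_Sg.symm
  have hYX : ∀ A : H →L[ℂ] H, m.Y * (m.X * A) = -(Complex.I • (m.Z * A)) := fun A => by
    rw [← mul_assoc, m.YX, neg_mul, smul_mul_assoc]
  have hYZ : ∀ A : H →L[ℂ] H, m.Y * (m.Z * A) = Complex.I • (m.X * A) := fun A => by
    rw [← mul_assoc, m.YZ, smul_mul_assoc]
  simp only [_root_.mul_add, add_mul, sub_mul, smul_mul_assoc, mul_assoc, s1, s2, s3, c1, c2, c3, y1, hYX, hYZ,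
    _root_.mul_neg, mul_smul_comm]
  module

end Model

end Crest.Agent.R339
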