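import Crest.Agent.R339.Q.DAlg

/-!
# Row 339, part Q: identity hubs: back action vectors
-/

set_option autoImplicit false

namespace Crest.Agent.R339

open MeasureTheory ProbabilityTheory Filter Topology Crest.MathPhysics.SpinGlass
open scoped InnerProductSpace ComplexConjugate

namespace Model

variable {K : ℕ} {I : Iamp K} {H KK : Type} [NormedAddCommGroup H] [InnerProductSpace ℂ H]
  [CompleteSpace H] [NormedAddCommGroup KK] [InnerProductSpace ℂ KK] (m : Model I H KK)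

section h93aux
variable {m}
variable {M k : ℕ} (ds : DSet K M k) (s δ : ℝ) {U : H →L[ℂ] H}

theorem h93_red (hU : m.Fib U) (c : PIdx k → ℝ) (hc : ∀ p, |c p| ≤ 1 / 2) :
    ‖∑ p, c p • m.dg ds s δ p U - ∑ p : PIdx k, (c p * (2 * p.e3 * δ)) •
      m.j (m.P (ds.T p.1) (m.heis U (m.GG ds s p U)))‖ ≤ 16 * δ ^ 2 := by
  rw [← Finset.sum_sub_distrib]
  have h1 : ∀ p : PIdx k, m.Loc ds p.1 (2 * δ ^ 2) (c p • m.dg ds s δ p U -
      (c p * (2 * p.e3 * δ)) • m.j (m.P (ds.T p.1) (m.heis U (m.GG ds s p U)))) := by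
    intro p
    rw [← smul_smul, ← smul_sub]
    refine Loc.mono ds (Loc.smul ds (dg_lin ds s δ hU p) (c p)) ?_
    nlinarith [hc p, sq_nonneg δ]
  rw [Fintype.sum_prod_type, Finset.sum_comm]
  refine (norm_sum_le _ _).trans ?_
  refine (Finset.sum_le_sum
    (fun b _ => loc_norm_sum ds (by positivity) (fun l => h1 (l, b)))).trans ?_
  simp only [Finset.sum_const, Finset.card_univ, Fintype.card_prod, Fintype.card_bool, nsmul_eq_mul]
  push_cast
  linarith

theorem h93_phi (E : Set (Lab K)) (t : ℝ) (w : Bool → Bool → ℝ) (G : Bool → Bool → H →L[ℂ] H) :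
    ∑ b2, ∑ b3, (t * w b2 b3) • m.j (m.P E (m.heis U (G b2 b3))) =
      t • m.j (m.P E (m.heis U (∑ b2, ∑ b3, ((w b2 b3 : ℝ) : ℂ) • G b2 b3))) := by
  simp only [heis_sum, heis_smul, map_sum, map_smul]
  simp only [Complex.coe_smul, Finset.smul_sum, smul_smul]

theorem h93_loc (hU : m.Fib U) (A : Fin k → Bool → H →L[ℂ] H) (A0 : Bool → H →L[ℂ] H)
    (hA : ∀ l b, m.Cen (A l b)) (hA0 : ∀ b, m.Cen (A0 b)) {c : ℝ} (hc : 0 ≤ c)
    (h : ∀ l b, ‖A l b (m.P (ds.T l) (U m.vac)) - A0 b (m.P (ds.T l) (U m.vac))‖ ≤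
      c * Real.sqrt ((gL K).real (ds.T l))) :
    ‖∑ l, ∑ b, m.j (m.P (ds.T l) (m.heis U (A l b))) -
      m.j (m.P ds.Tt (m.heis U (∑ b, A0 b)))‖ ≤ 2 * c := by
  have hm : ∀ l, MeasurableSet (ds.T l) := fun l => (ds.hT l).1
  have e : ∑ l, ∑ b, m.j (m.P (ds.T l) (m.heis U (A l b))) -
      m.j (m.P ds.Tt (m.heis U (∑ b, A0 b))) =
      ∑ b, m.j (∑ l, m.P (ds.T l) (m.heis U (A l b - A0 b))) := by
    rw [DSet.Tt, m.P_iUnion hm ds.dTT, Finset.sum_comm]
    simp only [heis_sum, heis_sub, map_sum, map_sub, sum_apply,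
      Finset.sum_sub_distrib]
  rw [e]
  refine (norm_sum_le _ _).trans ?_
  have h2 : ∀ b, ‖m.j (∑ l, m.P (ds.T l) (m.heis U (A l b - A0 b)))‖ ≤ c := by
    intro b
    rw [LinearIsometry.norm_map]
    refine m.norm_sum_P_le _ hm ds.dTT _ hc (fun l _ => ?_)
    rw [hU.P_heis (hm l), hU.norm_heis, ← (((hA l b).sub (hA0 b)).commute_P (hm l)).eq]
    exact h l b
  refine (Finset.sum_le_sum (fun b _ => h2 b)).trans ?_
  simp

theorem h93_smul_sub (a a' : ℝ) (x x' : H) {ε lam d : ℝ} (ha : |a - a'| ≤ ε) (ha' : |a'| ≤ 1)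
    (hx : ‖x‖ ≤ lam) (hd : ‖x - x'‖ ≤ d) :
    ‖(a : ℂ) • x - (a' : ℂ) • x'‖ ≤ ε * lam + d := by
  have e : (a : ℂ) • x - (a' : ℂ) • x' = ((a - a' : ℝ) : ℂ) • x + (a' : ℂ) • (x - x') := by
    push_cast
    rw [sub_smul, smul_sub]; abel
  rw [e]
  refine (norm_add_le _ _).trans ?_
  rw [norm_smul, norm_smul, Complex.norm_real, Complex.norm_real, Real.norm_eq_abs,
    Real.norm_eq_abs]
  have h0 : 0 ≤ ε := (abs_nonneg _).trans ha
  have h1 : |a - a'| * ‖x‖ ≤ ε * lam := mul_le_mul ha hx (norm_nonneg _) h0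
  have h2 : |a'| * ‖x - x'‖ ≤ 1 * d :=
    mul_le_mul ha' hd (norm_nonneg _) zero_le_one
  linarith

theorem h93_apply_le {A : H →L[ℂ] H} (hA : ‖A‖ ≤ 1) (v : H) : ‖A v‖ ≤ ‖v‖ :=
  (A.le_opNorm v).trans (mul_le_of_le_one_left (norm_nonneg _) hA)

/-- the four elementary replacements -/
theorem h93_trig (hU : m.Fib U) (hs : |s| ≤ 1) {Λ lam : ℝ} (hM : m.NB Λ (m.P ds.Md (U m.vac)))
    (l : Fin k) (b : Bool) {φ : H} (hφ : m.NB lam φ) :
    ‖m.cosW (m.uu ds s l b U) φ‖ ≤ lam ∧ ‖m.sinW (m.uu ds s l b U) φ‖ ≤ lam ∧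
    ‖m.cosW (m.uu ds s l b U) φ - m.cosW ((s * spinSign b) • m.a20 ds U) φ‖ ≤ 8 * ds.η * Λ * lam ∧
    ‖m.sinW (m.uu ds s l b U) φ - m.sinW ((s * spinSign b) • m.a20 ds U) φ‖ ≤ 8 * ds.η * Λ * lam ∧
    |Real.sin (m.th ds s l b U) - Real.sin (2 * s * m.cc ds U)| ≤ 8 * ds.η * Λ ∧
    |Real.cos (m.th ds s l b U) - Real.cos (2 * s * m.cc ds U)| ≤ 8 * ds.η * Λ := by
  obtain ⟨h1, h2, h3⟩ := norm_uu_sub ds s hU hs hM l b
  have hu : m.uu ds s l b U ∈ m.R := m.R.smul_mem _ (a2_mem ds _ hU)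
  have hu0 : (s * spinSign b) • m.a20 ds U ∈ m.R := m.R.smul_mem _ (a20_mem ds hU)
  have hl := hφ.nonneg
  have key : (1 + ‖m.uu ds s l b U‖) * ‖m.uu ds s l b U - (s * spinSign b) • m.a20 ds U‖ * lam ≤
      8 * ds.η * Λ * lam := by
    refine mul_le_mul_of_nonneg_right ?_ hl
    calc _ ≤ 2 * (4 * ds.η * Λ) :=
          mul_le_mul (by linarith) h1 (norm_nonneg _) (by norm_num)
      _ = _ := by ring
  exact ⟨(h93_apply_le (m.norm_cosW_le hu) φ).trans hφ.1,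
    (h93_apply_le (m.norm_sinW_le hu) φ).trans hφ.1,
    (hφ.norm_cosW_sub' hu hu0).trans key, (hφ.norm_sinW_sub' hu hu0).trans key,
    (Real.abs_sin_sub_sin_le _ _).trans h2, (Real.abs_cos_sub_cos_le _ _).trans h2⟩

theorem h93_syS (hU : m.Fib U) : s • m.yS ds U ∈ m.R ∧ ‖s • m.yS ds U‖ ≤ |s| := by
  refine ⟨m.R.smul_mem _ (yS_mem ds hU), ?_⟩
  rw [norm_smul, Real.norm_eq_abs]
  exact mul_le_of_le_one_right (abs_nonneg _) (norm_yS_le ds hU)

theorem h93_sa20 (hU : m.Fib U) : s • m.a20 ds U ∈ m.R ∧ ‖s • m.a20 ds U‖ ≤ |s| := by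
  refine ⟨m.R.smul_mem _ (a20_mem ds hU), ?_⟩
  rw [norm_smul, Real.norm_eq_abs]
  exact mul_le_of_le_one_right (abs_nonneg _) (norm_a20_le ds hU)

theorem h93_sin0 (hU : m.Fib U) : |Real.sin (2 * s * m.cc ds U)| ≤ 2 * |s| := by
  refine Real.abs_sin_le_abs.trans ?_
  rw [abs_mul, abs_mul, abs_two]
  exact mul_le_of_le_one_right (by positivity) (abs_cc_le ds hU)

end h93aux

/-- The field received by the targets in one round.  By `dg_lin`, `sum_GG_S` the sum is, up to `O(δ²)`,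
`4 s δ Σ_{l,e₁} j (P (T l) heis U (σ (sin θ cos u - cos θ Z sin u) cos (s yS)))`.  Replace `u` by `± s a20` and `θ` by `2 s cc`
(`norm_uu_sub`, localised bound `Ap`, `norm_sum_P_le`); the `Z` terms cancel in the sum over `e₁`; then
`heis U (P Tt σ F) - P Tt σ Ω` has norm `‖P Tt (F - 1) U Ω‖ ≤ 2 e + 2·|s|·3 n` for `F = cos (s a20) cos (s yS)`;
`|sin θ - θ| ≤ |θ|³`. -/
theorem vec_S : ∃ C, 0 ≤ C ∧ ∀ {M k : ℕ} (ds : DSet K M k) (s δ : ℝ) (U : H →L[ℂ] H) (Λ e n c₀ : ℝ)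
    (ψ : H), |s| ≤ 1 → |δ| ≤ 1 → m.Fib U → 1 ≤ Λ → m.Ap ds Λ U → ‖U m.vac - ψ‖ ≤ e → m.NB n ψ →
    ‖∑ p : PIdx k, m.bS ds s δ p U - (16 * s ^ 2 * c₀ * δ) • m.j (m.P ds.Tt (m.Sg m.vac))‖ ≤
      C * (|δ| * (s ^ 2 * (e + |m.cc ds U - c₀|) + |s| ^ 3 * (1 + n) + ds.η * Λ ^ 2) + δ ^ 2) := by
  refine ⟨768, by norm_num, ?_⟩
  intro M k ds s δ U Λ e n c₀ ψ hs hδ hU hΛ hAp he hn
  have hTt : MeasurableSet ds.Tt := MeasurableSet.iUnion fun l => (ds.hT l).1
  have hZ := m.isAxis_Z.fib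
  have hSg := m.isAxis_Sg.fib
  obtain ⟨hy, hy1⟩ := h93_syS ds s hU
  obtain ⟨ha, ha1⟩ := h93_sa20 ds s hU
  have hη := ds.hη0
  have he0 : 0 ≤ e := (norm_nonneg _).trans he
  have hn0 := hn.nonneg
  set θ0 := 2 * s * m.cc ds U with hθ0
  set A : Fin k → Bool → H →L[ℂ] H := fun l b =>
    m.Sg * ((((Real.sin (m.th ds s l b U) : ℝ) : ℂ) • m.cosW (m.uu ds s l b U)
        - ((Real.cos (m.th ds s l b U) : ℝ) : ℂ) • (m.Z * m.sinW (m.uu ds s l b U)))
          * m.cosW (s • m.yS ds U)) with hA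
  set A0 : Bool → H →L[ℂ] H := fun b =>
    m.Sg * ((((Real.sin θ0 : ℝ) : ℂ) • m.cosW ((s * spinSign b) • m.a20 ds U)
        - ((Real.cos θ0 : ℝ) : ℂ) • (m.Z * m.sinW ((s * spinSign b) • m.a20 ds U)))
          * m.cosW (s • m.yS ds U)) with hA0
  have h1 := h93_red ds s δ hU (fun p => -(p.e2 * p.e3 * s / 2)) (fun p => by
    rw [abs_neg, abs_div, abs_mul, abs_mul, abs_e2, abs_e3, abs_two]; linarith)
  have e1 : ∑ p : PIdx k, (-(p.e2 * p.e3 * s / 2) * (2 * p.e3 * δ)) •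
      m.j (m.P (ds.T p.1) (m.heis U (m.GG ds s p U))) =
      (4 * s * δ) • ∑ l, ∑ b, m.j (m.P (ds.T l) (m.heis U (A l b))) := by
    rw [Fintype.sum_prod_type, Finset.smul_sum]
    refine Finset.sum_congr rfl fun l _ => ?_
    rw [Fintype.sum_prod_type, Finset.smul_sum]
    refine Finset.sum_congr rfl fun b _ => ?_
    rw [Fintype.sum_prod_type]
    have e2 := h93_phi (m := m) (U := U) (ds.T l) (-(s * δ)) (fun b2 _ => spinSign b2)
      (fun b2 b3 => m.GG ds s (l, b, b2, b3) U)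
    rw [sum_GG_S ds s hU l b, heis_smul, map_smul, map_smul,
      show (-4 : ℂ) = ((-4 : ℝ) : ℂ) by norm_num, Complex.coe_smul, smul_smul,
      show -(s * δ) * -4 = 4 * s * δ by ring] at e2
    rw [← e2]
    refine Finset.sum_congr rfl fun b2 _ => Finset.sum_congr rfl fun b3 _ => ?_
    congr 1
    have := e3_sq (k := k) (l, b, b2, b3)
    simp only [PIdx.e2, PIdx.e3] at this ⊢
    linear_combination (-(spinSign b2 * s * δ)) * this
  have h2 := h93_loc ds hU A A0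
    (fun l b => m.cen_Sg.mul ((((m.cen_cosW _).smul _).sub
      ((m.cen_Z.mul (m.cen_sinW _)).smul _)).mul (m.cen_cosW _)))
    (fun b => m.cen_Sg.mul ((((m.cen_cosW _).smul _).sub
      ((m.cen_Z.mul (m.cen_sinW _)).smul _)).mul (m.cen_cosW _)))
    (c := 96 * (ds.η * Λ ^ 2)) (by positivity) (fun l b => by
      have hφ : m.NB (3 * (Λ * Real.sqrt ((gL K).real (ds.T l))))
          (m.cosW (s • m.yS ds U) (m.P (ds.T l) (U m.vac))) :=
        (m.tame_cosW hy).mono (by linarith) _ _ (hAp.1 l)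
      obtain ⟨t1, t2, t3, t4, t5, t6⟩ := h93_trig ds s hU hs hAp.2 l b hφ
      simp only [hA, hA0, mul_apply_eq_comp, sub_apply,
        smul_apply]
      rw [← map_sub, hSg.norm_apply, sub_sub_sub_comm]
      refine (norm_sub_le _ _).trans ?_
      have u1 := h93_smul_sub _ _ _ _ t5 (Real.abs_sin_le_one _) t1 t3
      have u2 := h93_smul_sub _ _ _ _ t6 (Real.abs_cos_le_one _)
        ((hZ.norm_apply _).le.trans t2)
        (((congrArg norm (map_sub m.Z _ _).symm).trans (hZ.norm_apply _)).le.trans t4)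
      refine (add_le_add u1 u2).trans (le_of_eq ?_)
      ring)
  have e3 : ∑ b, A0 b = ((2 * Real.sin θ0 : ℝ) : ℂ) •
      (m.Sg * (m.cosW (s • m.a20 ds U) * m.cosW (s • m.yS ds U))) := by
    rw [Fintype.sum_bool]
    simp only [hA0, spinSign, if_true, Bool.false_eq_true, if_false, _root_.mul_neg, mul_one,
      neg_smul, cosW_neg, sinW_neg, smul_neg, neg_mul, sub_mul,
      _root_.mul_sub, smul_mul_assoc, mul_smul_comm]
    push_cast
    module
  have e4 : m.Sg m.vac = m.heis U m.Sg := (hU.heis_mul_fun BM.sign).symm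
  have hF : ‖(m.cosW (s • m.a20 ds U) * m.cosW (s • m.yS ds U) - 1) (U m.vac)‖ ≤
      2 * e + 2 * |s| * n := by
    have c1 := m.norm_cosW_le ha
    have c2 := m.norm_cosW_le hy
    have e5 : (m.cosW (s • m.a20 ds U) * m.cosW (s • m.yS ds U) - 1) (U m.vac) =
        (m.cosW (s • m.a20 ds U) (m.cosW (s • m.yS ds U) (U m.vac - ψ)) - (U m.vac - ψ)) +
        (m.cosW (s • m.a20 ds U) (m.cosW (s • m.yS ds U) ψ - ψ) +
          (m.cosW (s • m.a20 ds U) ψ - ψ)) := by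
      simp only [mul_apply_eq_comp, sub_apply,
        one_apply_eq_self, map_sub]
      abel
    rw [e5]
    have v1 := (h93_apply_le c1 _).trans ((h93_apply_le c2 _).trans he)
    have v2 := (h93_apply_le c1 _).trans (hn.norm_cosW_sub hy)
    have v3 := hn.norm_cosW_sub ha
    have v4 := mul_le_mul_of_nonneg_left hy1 hn0
    have v5 := mul_le_mul_of_nonneg_left ha1 hn0
    refine (norm_add_le _ _).trans ?_
    have v6 := norm_sub_le (m.cosW (s • m.a20 ds U) (m.cosW (s • m.yS ds U) (U m.vac - ψ)))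
      (U m.vac - ψ)
    have v7 := norm_add_le (m.cosW (s • m.a20 ds U) (m.cosW (s • m.yS ds U) ψ - ψ))
      (m.cosW (s • m.a20 ds U) ψ - ψ)
    linarith
  have h3 : ‖m.j (m.P ds.Tt (m.heis U (∑ b, A0 b))) -
      (4 * s * c₀) • m.j (m.P ds.Tt (m.Sg m.vac))‖ ≤
      4 * |s| * (2 * e + 2 * |s| * n) + (4 * s ^ 2 + 4 * |s| * |m.cc ds U - c₀|) := by
    have e5 : m.j (m.P ds.Tt (m.heis U (∑ b, A0 b))) -
        (4 * s * c₀) • m.j (m.P ds.Tt (m.Sg m.vac)) =
        (2 * Real.sin θ0) • m.j (m.P ds.Tt (m.heis U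
          (m.Sg * (m.cosW (s • m.a20 ds U) * m.cosW (s • m.yS ds U) - 1)))) +
        (2 * Real.sin θ0 - 4 * s * c₀) • m.j (m.P ds.Tt (m.heis U m.Sg)) := by
      rw [e3, e4, heis_smul, map_smul, map_smul, Complex.coe_smul, _root_.mul_sub, mul_one,
        heis_sub, map_sub, map_sub, smul_sub, sub_smul]
      abel
    rw [e5]
    refine (norm_add_le _ _).trans (add_le_add ?_ ?_)
    · rw [norm_smul, LinearIsometry.norm_map, Real.norm_eq_abs]
      refine mul_le_mul ?_ ((m.norm_P_apply_le hTt _).trans ?_) (norm_nonneg _) (by positivity)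
      · rw [abs_mul, abs_two]; linarith [h93_sin0 ds s hU]
      · rw [hU.norm_heis, mul_apply_eq_comp, hSg.norm_apply]; exact hF
    · rw [norm_smul, LinearIsometry.norm_map, Real.norm_eq_abs]
      have w1 : ‖m.P ds.Tt (m.heis U m.Sg)‖ ≤ 1 := by
        refine (m.norm_P_apply_le hTt _).trans ?_
        rw [hU.norm_heis, hSg.norm_apply, hU.norm_apply, m.norm_vac]
      refine (mul_le_of_le_one_right (abs_nonneg _) w1).trans ?_
      have w2 := Real.abs_sub_sin_le θ0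
      have w3 : |θ0| ≤ 2 * |s| := by
        rw [hθ0, abs_mul, abs_mul, abs_two]
        exact mul_le_of_le_one_right (by positivity) (abs_cc_le ds hU)
      have w4 : |θ0| ^ 3 ≤ (2 * |s|) ^ 3 := pow_le_pow_left₀ (abs_nonneg _) w3 3
      have w5 : |s| ^ 3 ≤ s ^ 2 := by
        rw [← sq_abs s]; exact pow_le_pow_of_le_one (abs_nonneg _) hs (by norm_num)
      have w6 : 2 * Real.sin θ0 - 4 * s * c₀ =
          -(2 * (θ0 - Real.sin θ0)) + 4 * s * (m.cc ds U - c₀) := by rw [hθ0]; ring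
      rw [w6]
      refine (abs_add_le _ _).trans (add_le_add ?_ (le_of_eq ?_))
      · rw [abs_neg, abs_mul, abs_two]; nlinarith
      · rw [abs_mul, abs_mul]; norm_num
  have e6 : ∑ p : PIdx k, m.bS ds s δ p U - (16 * s ^ 2 * c₀ * δ) • m.j (m.P ds.Tt (m.Sg m.vac)) =
      (∑ p : PIdx k, (-(p.e2 * p.e3 * s / 2)) • m.dg ds s δ p U -
        ∑ p : PIdx k, (-(p.e2 * p.e3 * s / 2) * (2 * p.e3 * δ)) •
          m.j (m.P (ds.T p.1) (m.heis U (m.GG ds s p U)))) +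
      (4 * s * δ) • ((∑ l, ∑ b, m.j (m.P (ds.T l) (m.heis U (A l b))) -
        m.j (m.P ds.Tt (m.heis U (∑ b, A0 b)))) +
        (m.j (m.P ds.Tt (m.heis U (∑ b, A0 b))) -
          (4 * s * c₀) • m.j (m.P ds.Tt (m.Sg m.vac)))) := by
    rw [e1]
    simp only [bS]
    module
  rw [e6]
  refine (norm_add_le _ _).trans ?_
  rw [norm_smul, Real.norm_eq_abs, abs_mul, abs_mul, show |(4 : ℝ)| = 4 by norm_num]
  have h4 := mul_le_mul_of_nonneg_left ((norm_add_le _ _).trans (add_le_add h2 h3))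
    (show 0 ≤ 4 * |s| * |δ| by positivity)
  refine (add_le_add h1 h4).trans ?_
  rw [← sq_abs s]
  have a0 := abs_nonneg s
  have d0 := abs_nonneg δ
  have g0 := abs_nonneg (m.cc ds U - c₀)
  generalize |s| = a at *
  generalize |δ| = d at *
  generalize |m.cc ds U - c₀| = g at *
  have x0 : 0 ≤ ds.η * Λ ^ 2 := by positivity
  generalize ds.η * Λ ^ 2 = x at *
  have y1 : 0 ≤ d * x * (1 - a) := by have := sub_nonneg.2 hs; positivity
  have y2 : 0 ≤ d * a ^ 2 * e := by positivity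
  have y3 : 0 ≤ d * a ^ 2 * g := by positivity
  have y4 : 0 ≤ d * a ^ 3 := by positivity
  have y5 : 0 ≤ d * a ^ 3 * n := by positivity
  nlinarith [sq_nonneg δ]

/-- The linear back action on the mediators: up to `O(δ²)` and the junk it is
`-8 s δ sin θ · j (P Tt heis U (σ sin (s a20) sin (s yS)))` (`sum_GG_M`), and
`‖sin (s a20) sin (s yS) U Ω‖ ≤ e + |s| n`. -/
theorem vec_M : ∃ C, 0 ≤ C ∧ ∀ {M k : ℕ} (ds : DSet K M k) (s δ : ℝ) (U : H →L[ℂ] H) (Λ e n : ℝ)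
    (ψ : H), |s| ≤ 1 → |δ| ≤ 1 → m.Fib U → 1 ≤ Λ → m.Ap ds Λ U → ‖U m.vac - ψ‖ ≤ e → m.NB n ψ →
    ‖∑ p : PIdx k, m.bM ds s δ p U‖ ≤
      C * (|δ| * (s ^ 2 * e + |s| ^ 3 * (1 + n) + ds.η * Λ ^ 2) + δ ^ 2) := by
  refine ⟨768, by norm_num, ?_⟩
  intro M k ds s δ U Λ e n ψ hs hδ hU hΛ hAp he hn
  have hTt : MeasurableSet ds.Tt := MeasurableSet.iUnion fun l => (ds.hT l).1
  have hZ := m.isAxis_Z.fib
  have hSg := m.isAxis_Sg.fib
  obtain ⟨hy, hy1⟩ := h93_syS ds s hU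
  obtain ⟨ha, ha1⟩ := h93_sa20 ds s hU
  have hη := ds.hη0
  have he0 : 0 ≤ e := (norm_nonneg _).trans he
  have hn0 := hn.nonneg
  set θ0 := 2 * s * m.cc ds U with hθ0
  set A : Fin k → Bool → H →L[ℂ] H := fun l b => ((spinSign b : ℝ) : ℂ) •
    (m.Sg * ((((Real.cos (m.th ds s l b U) : ℝ) : ℂ) • (m.Z * m.cosW (m.uu ds s l b U))
        + ((Real.sin (m.th ds s l b U) : ℝ) : ℂ) • m.sinW (m.uu ds s l b U))
          * m.sinW (s • m.yS ds U))) with hA
  set A0 : Bool → H →L[ℂ] H := fun b => ((spinSign b : ℝ) : ℂ) •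
    (m.Sg * ((((Real.cos θ0 : ℝ) : ℂ) • (m.Z * m.cosW ((s * spinSign b) • m.a20 ds U))
        + ((Real.sin θ0 : ℝ) : ℂ) • m.sinW ((s * spinSign b) • m.a20 ds U))
          * m.sinW (s • m.yS ds U))) with hA0
  have h1 := h93_red ds s δ hU (fun p => -(p.e1 * p.e2 * s / 2)) (fun p => by
    rw [abs_neg, abs_div, abs_mul, abs_mul, abs_e1, abs_e2, abs_two]; linarith)
  have e1 : ∑ p : PIdx k, (-(p.e1 * p.e2 * s / 2) * (2 * p.e3 * δ)) •
      m.j (m.P (ds.T p.1) (m.heis U (m.GG ds s p U))) =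
      (-(4 * s * δ)) • ∑ l, ∑ b, m.j (m.P (ds.T l) (m.heis U (A l b))) := by
    rw [Fintype.sum_prod_type, Finset.smul_sum]
    refine Finset.sum_congr rfl fun l _ => ?_
    rw [Fintype.sum_prod_type, Finset.smul_sum]
    refine Finset.sum_congr rfl fun b _ => ?_
    rw [Fintype.sum_prod_type]
    have e2 := h93_phi (m := m) (U := U) (ds.T l) (-(s * δ * spinSign b))
      (fun b2 b3 => spinSign b2 * spinSign b3) (fun b2 b3 => m.GG ds s (l, b, b2, b3) U)
    rw [sum_GG_M ds s hU l b, heis_smul, map_smul, map_smul,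
      show (4 : ℂ) = ((4 : ℝ) : ℂ) by norm_num, Complex.coe_smul, smul_smul,
      show -(s * δ * spinSign b) * 4 = -(4 * s * δ) * spinSign b by ring] at e2
    simp only [hA]
    rw [heis_smul, map_smul, map_smul, Complex.coe_smul, smul_smul, ← e2]
    refine Finset.sum_congr rfl fun b2 _ => Finset.sum_congr rfl fun b3 _ => ?_
    congr 1
    simp only [PIdx.e1, PIdx.e2, PIdx.e3]
    ring
  have h2 := h93_loc ds hU A A0
    (fun l b => (m.cen_Sg.mul ((((m.cen_Z.mul (m.cen_cosW _)).smul _).add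
      ((m.cen_sinW _).smul _)).mul (m.cen_sinW _))).smul _)
    (fun b => (m.cen_Sg.mul ((((m.cen_Z.mul (m.cen_cosW _)).smul _).add
      ((m.cen_sinW _).smul _)).mul (m.cen_sinW _))).smul _)
    (c := 96 * (ds.η * Λ ^ 2)) (by positivity) (fun l b => by
      have hφ : m.NB (3 * (Λ * Real.sqrt ((gL K).real (ds.T l))))
          (m.sinW (s • m.yS ds U) (m.P (ds.T l) (U m.vac))) :=
        (m.tame_sinW hy).mono (by linarith) _ _ (hAp.1 l)
      obtain ⟨t1, t2, t3, t4, t5, t6⟩ := h93_trig ds s hU hs hAp.2 l b hφ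
      simp only [hA, hA0, mul_apply_eq_comp, add_apply,
        smul_apply]
      have hb : ‖((spinSign b : ℝ) : ℂ)‖ = 1 := by
        rw [Complex.norm_real, Real.norm_eq_abs]; exact abs_e1 (k := k) (l, b, false, false)
      rw [← smul_sub, norm_smul, hb, one_mul, ← map_sub, hSg.norm_apply, add_sub_add_comm]
      refine (norm_add_le _ _).trans ?_
      have u1 := h93_smul_sub _ _ _ _ t5 (Real.abs_sin_le_one _) t2 t4
      have u2 := h93_smul_sub _ _ _ _ t6 (Real.abs_cos_le_one _)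
        ((hZ.norm_apply _).le.trans t1)
        (((congrArg norm (map_sub m.Z _ _).symm).trans (hZ.norm_apply _)).le.trans t3)
      refine (add_le_add u2 u1).trans (le_of_eq ?_)
      ring)
  have e3 : ∑ b, A0 b = ((2 * Real.sin θ0 : ℝ) : ℂ) •
      (m.Sg * (m.sinW (s • m.a20 ds U) * m.sinW (s • m.yS ds U))) := by
    rw [Fintype.sum_bool]
    simp only [hA0, spinSign, if_true, Bool.false_eq_true, if_false, _root_.mul_neg, mul_one,
      neg_smul, cosW_neg, sinW_neg, smul_neg, add_mul, _root_.mul_add, neg_mul,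
      smul_mul_assoc, mul_smul_comm]
    push_cast
    module
  have hF : ‖(m.sinW (s • m.a20 ds U) * m.sinW (s • m.yS ds U)) (U m.vac)‖ ≤ e + |s| * n := by
    have c1 := m.norm_sinW_le ha
    have c2 := m.norm_sinW_le hy
    rw [mul_apply_eq_comp]
    refine (h93_apply_le c1 _).trans ?_
    have e5 : m.sinW (s • m.yS ds U) (U m.vac) =
        m.sinW (s • m.yS ds U) (U m.vac - ψ) + m.sinW (s • m.yS ds U) ψ := by
      rw [map_sub]; abel
    rw [e5]
    have v1 := (h93_apply_le c2 _).trans he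
    have v2 := hn.norm_sinW hy
    have v4 := mul_le_mul_of_nonneg_left hy1 hn0
    refine (norm_add_le _ _).trans ?_
    linarith
  have h3 : ‖m.j (m.P ds.Tt (m.heis U (∑ b, A0 b)))‖ ≤ 4 * |s| * (e + |s| * n) := by
    rw [e3, heis_smul, map_smul, map_smul, norm_smul, LinearIsometry.norm_map, Complex.norm_real,
      Real.norm_eq_abs]
    refine mul_le_mul ?_ ((m.norm_P_apply_le hTt _).trans ?_) (norm_nonneg _) (by positivity)
    · rw [abs_mul, abs_two]; linarith [h93_sin0 ds s hU]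
    · rw [hU.norm_heis, mul_apply_eq_comp, hSg.norm_apply]; exact hF
  have e6 : ∑ p : PIdx k, m.bM ds s δ p U =
      (∑ p : PIdx k, (-(p.e1 * p.e2 * s / 2)) • m.dg ds s δ p U -
        ∑ p : PIdx k, (-(p.e1 * p.e2 * s / 2) * (2 * p.e3 * δ)) •
          m.j (m.P (ds.T p.1) (m.heis U (m.GG ds s p U)))) +
      (-(4 * s * δ)) • ((∑ l, ∑ b, m.j (m.P (ds.T l) (m.heis U (A l b))) -
        m.j (m.P ds.Tt (m.heis U (∑ b, A0 b)))) +
        m.j (m.P ds.Tt (m.heis U (∑ b, A0 b)))) := by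
    rw [e1]
    simp only [bM]
    module
  rw [e6]
  refine (norm_add_le _ _).trans ?_
  rw [norm_smul, Real.norm_eq_abs, abs_neg, abs_mul, abs_mul, show |(4 : ℝ)| = 4 by norm_num]
  have h4 := mul_le_mul_of_nonneg_left ((norm_add_le _ _).trans (add_le_add h2 h3))
    (show 0 ≤ 4 * |s| * |δ| by positivity)
  refine (add_le_add h1 h4).trans ?_
  rw [← sq_abs s]
  have a0 := abs_nonneg s
  have d0 := abs_nonneg δ
  generalize |s| = a at *
  generalize |δ| = d at *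
  have x0 : 0 ≤ ds.η * Λ ^ 2 := by positivity
  generalize ds.η * Λ ^ 2 = x at *
  have y1 : 0 ≤ d * x * (1 - a) := by have := sub_nonneg.2 hs; positivity
  have y2 : 0 ≤ d * a ^ 2 * e := by positivity
  have y4 : 0 ≤ d * a ^ 3 := by positivity
  have y5 : 0 ≤ d * a ^ 3 * n := by positivity
  nlinarith [sq_nonneg δ]

end Model

end Crest.Agent.R339
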