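import Crest.Agent.R339.Iface

/-!
# Row 339, part Q: the spin–boson model (definitions)

`H` = one spin ⊗ bosons ⊗ classical labels, `KK` = one-particle space, `W y` = Weyl operator `exp (i φ(y))`,
`j : H → KK` an isometry (the `n → ∞` limit of `ξ ↦ Σ_j J_{ij} ξ_j`), `d i` the modes of the labels `x i = φ(d i)`.
-/

set_option autoImplicit false

namespace Crest.Agent.R339

open MeasureTheory ProbabilityTheory Filter Topology Crest.MathPhysics.SpinGlass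
open scoped InnerProductSpace ComplexConjugate

/-- bounded measurable complex functions of the labels -/
def BM {K : ℕ} (g : Lab K → ℂ) : Prop := Measurable g ∧ ∃ C : ℝ, ∀ x, ‖g x‖ ≤ C

/-- vectors whose components along the label modes are real -/
def realSub {K : ℕ} {KK : Type} [NormedAddCommGroup KK] [InnerProductSpace ℂ KK]
    (d : Fin (K + 1) → KK) : Submodule ℝ KK where
  carrier := {y | ∀ i, (⟪d i, y⟫_ℂ).im = 0}
  add_mem' := fun {a b} ha hb i => by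
    simp only [Set.mem_setOf_eq] at ha hb
    rw [inner_add_right, Complex.add_im, ha i, hb i, add_zero]
  zero_mem' := fun i => by simp
  smul_mem' := fun c y hy i => by
    simp only [Set.mem_setOf_eq] at hy
    rw [← Complex.coe_smul, inner_smul_right, Complex.mul_im, hy i]
    simp

/-- the spin–boson model -/
structure Model {K : ℕ} (I : Iamp K) (H KK : Type) [NormedAddCommGroup H] [InnerProductSpace ℂ H]
    [CompleteSpace H] [NormedAddCommGroup KK] [InnerProductSpace ℂ KK] where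
  vac : H
  mul : (Lab K → ℂ) → (H →L[ℂ] H)
  X : H →L[ℂ] H
  Z : H →L[ℂ] H
  W : KK → (H →L[ℂ] H)
  d : Fin (K + 1) → KK
  j : H →ₗᵢ[ℂ] KK
  io : KK →ₗᵢ[ℂ] H
  norm_vac : ‖vac‖ = 1
  mul_mul : ∀ g h, BM g → BM h → mul (g * h) = mul g * mul h
  mul_add : ∀ g h, BM g → BM h → mul (g + h) = mul g + mul h
  mul_const : ∀ c : ℂ, mul (fun _ => c) = c • (1 : H →L[ℂ] H)
  mul_star : ∀ g, BM g → star (mul g) = mul (fun x => conj (g x))
  mul_norm : ∀ g (C : ℝ), Measurable g → (∀ x, ‖g x‖ ≤ C) → ‖mul g‖ ≤ C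
  mul_ae : ∀ g h, BM g → BM h → g =ᵐ[gL K] h → mul g = mul h
  X_star : star X = X
  Z_star : star Z = Z
  X_sq : X * X = 1
  Z_sq : Z * Z = 1
  ZX : Z * X = -(X * Z)
  X_vac : X vac = vac
  X_mul : ∀ g, BM g → Commute X (mul g)
  Z_mul : ∀ g, BM g → Commute Z (mul g)
  X_W : ∀ y, Commute X (W y)
  Z_W : ∀ y, Commute Z (W y)
  W_mul : ∀ y g, BM g → Commute (W y) (mul g)
  d_on : Orthonormal ℂ d
  W_zero : W 0 = 1
  W_star : ∀ y, star (W y) = W (-y)
  W_W : ∀ y ∈ realSub d, ∀ y' ∈ realSub d,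
    W y * W y' = Complex.exp (-(Complex.I * ((⟪y, y'⟫_ℂ).im : ℂ))) • W (y + y')
  W_lab : ∀ a : Fin (K + 1) → ℝ, W (∑ i, a i • d i) =
    mul (fun x => Complex.exp (Complex.I * ((∑ i, a i * x i : ℝ) : ℂ)))
  vac_W : ∀ g, BM g → ∀ y ∈ realSub d, ⟪vac, mul g (W y vac)⟫_ℂ =
    (∫ x, g x * Complex.exp (Complex.I * ((∑ i, (⟪d i, y⟫_ℂ).re * x i : ℝ) : ℂ)) ∂gL K) *
      ((Real.exp (-(‖y‖ ^ 2 - ∑ i, (⟪d i, y⟫_ℂ).re ^ 2) / 2) : ℝ) : ℂ)
  total : Dense (Submodule.span ℂ {v | ∃ g, BM g ∧ ∃ y ∈ realSub d,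
    v = mul g (W y vac) ∨ v = mul g (Z (W y vac))} : Set H)
  j_f : ∀ k : Fin K, j (mul (fun x => (I.f k x : ℂ)) vac) = d k.succ
  j_d0 : ∀ ξ, ⟪d 0, j ξ⟫_ℂ = 0
  io_W : ∀ z ∈ realSub d, ∀ y, ⟪W z vac, io y⟫_ℂ =
    -Complex.I * ((Real.exp (-‖z‖ ^ 2 / 2) : ℝ) : ℂ) * ⟪z, y⟫_ℂ
  X_io : ∀ y, X (io y) = io y
  io_mul : ∀ g, BM g → ∀ y, ⟪mul g vac, io y⟫_ℂ =
    ∑ i, ⟪d i, y⟫_ℂ * ∫ x, conj (g x) * (x i : ℂ) ∂gL K

/-- a layer: label coefficients, cost angle, mixer angle -/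
abbrev Layer (K : ℕ) := (Fin (K + 1) → ℝ) × ℝ × ℝ

/-- the word uses only the labels with index `< M` -/
def Lev {K : ℕ} (M : ℕ) (w : List (Layer K)) : Prop :=
  ∀ L ∈ w, ∀ i : Fin (K + 1), M ≤ (i : ℕ) → L.1 i = 0

/-- the function depends only on the labels with index `< M` -/
def Dep {K : ℕ} {α : Type} (M : ℕ) (g : Lab K → α) : Prop :=
  ∀ x x' : Lab K, (∀ i : Fin (K + 1), (i : ℕ) < M → x i = x' i) → g x = g x'

/-- even measurable sets of level `M` -/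
def EvS {K : ℕ} (M : ℕ) (E : Set (Lab K)) : Prop :=
  MeasurableSet E ∧ (∀ x, -x ∈ E ↔ x ∈ E) ∧ Dep M (fun x => x ∈ E)

/-- bounded measurable real functions of level `M` -/
def BR {K : ℕ} (M : ℕ) (g : Lab K → ℝ) : Prop := Measurable g ∧ (∃ C, ∀ x, |g x| ≤ C) ∧ Dep M g

/-- the symplectic form -/
noncomputable def om {KK : Type} [NormedAddCommGroup KK] [InnerProductSpace ℂ KK] (y y' : KK) : ℝ :=
  (⟪y, y'⟫_ℂ).im

/-- `exp (-i α Q)` for an involution `Q` -/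
noncomputable def rot {H : Type} [NormedAddCommGroup H] [InnerProductSpace ℂ H] [CompleteSpace H]
    (Q : H →L[ℂ] H) (α : ℝ) : H →L[ℂ] H :=
  ((Real.cos α : ℝ) : ℂ) • (1 : H →L[ℂ] H) - (Complex.I * ((Real.sin α : ℝ) : ℂ)) • Q

/-- strong convergence of operators along a filter -/
def STend {H : Type} [NormedAddCommGroup H] [InnerProductSpace ℂ H] {ι : Type} (l : Filter ι)
    (Us : ι → H →L[ℂ] H) (U : H →L[ℂ] H) : Prop :=
  ∀ v, Tendsto (fun i => Us i v) l (𝓝 (U v))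

namespace Model

variable {K : ℕ} {I : Iamp K} {H KK : Type} [NormedAddCommGroup H] [InnerProductSpace ℂ H]
  [CompleteSpace H] [NormedAddCommGroup KK] [InnerProductSpace ℂ KK] (m : Model I H KK)

/-- admissible field vectors -/
abbrev R : Submodule ℝ KK := realSub m.d

noncomputable def Y : H →L[ℂ] H := Complex.I • (m.X * m.Z)

/-- multiplication by the sign of the label `x 0` -/
noncomputable def Sg : H →L[ℂ] H := m.mul (fun x => ((Real.sign (x 0) : ℝ) : ℂ))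

/-- projection on a label set -/
noncomputable def P (E : Set (Lab K)) : H →L[ℂ] H := m.mul (E.indicator fun _ => 1)

/-- phase `exp (i κ(x))` -/
noncomputable def ph (κ : Lab K → ℝ) : H →L[ℂ] H :=
  m.mul (fun x => Complex.exp (Complex.I * (κ x : ℂ)))

noncomputable def cosW (y : KK) : H →L[ℂ] H := (1 / 2 : ℂ) • (m.W y + m.W (-y))

noncomputable def sinW (y : KK) : H →L[ℂ] H := (-(Complex.I / 2) : ℂ) • (m.W y - m.W (-y))

/-- `exp (-i Q φ(y))` -/
noncomputable def D (Q : H →L[ℂ] H) (y : KK) : H →L[ℂ] H :=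
  m.cosW y - Complex.I • (Q * m.sinW y)

/-- `exp (-i ϑ(x) Q)` -/
noncomputable def rotF (Q : H →L[ℂ] H) (ϑ : Lab K → ℝ) : H →L[ℂ] H :=
  m.mul (fun x => ((Real.cos (ϑ x) : ℝ) : ℂ)) -
    Complex.I • (Q * m.mul (fun x => ((Real.sin (ϑ x) : ℝ) : ℂ)))

/-- the mixer -/
noncomputable def B (β : ℝ) : H →L[ℂ] H := rot m.X β

/-- commutes with all multiplication operators -/
def Cen (A : H →L[ℂ] H) : Prop := ∀ g, BM g → Commute A (m.mul g)

/-- a spin axis: self-adjoint involution commuting with the labels and the bosons -/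
def IsAxis (Q : H →L[ℂ] H) : Prop :=
  star Q = Q ∧ Q * Q = 1 ∧ m.Cen Q ∧ ∀ y, Commute Q (m.W y)

/-- fibred unitaries -/
def Fib (U : H →L[ℂ] H) : Prop := U ∈ unitary (H →L[ℂ] H) ∧ m.Cen U

/-- Heisenberg vector `U† A U Ω` -/
noncomputable def heis (U A : H →L[ℂ] H) : H := (star U * A * U) m.vac

noncomputable def xi (U : H →L[ℂ] H) : H := m.heis U m.Z

noncomputable def labv (a : Fin (K + 1) → ℝ) : KK := ∑ i, a i • m.d i

/-- the field vector of a layer -/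
noncomputable def fld (U : H →L[ℂ] H) (L : Layer K) : KK := L.2.1 • m.j (m.xi U) + m.labv L.1

noncomputable def step (U : H →L[ℂ] H) (L : Layer K) : H →L[ℂ] H :=
  m.B L.2.2 * m.D m.Z (m.fld U L) * U

noncomputable def runFrom (U : H →L[ℂ] H) (w : List (Layer K)) : H →L[ℂ] H := w.foldl m.step U

noncomputable def run (w : List (Layer K)) : H →L[ℂ] H := m.runFrom 1 w

/-- limiting energy -/
noncomputable def En (U : H →L[ℂ] H) : ℝ := (⟪m.xi U, m.io (m.j (m.xi U))⟫_ℂ).re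

/-- correlation of the spin with the first label -/
noncomputable def Fz (U : H →L[ℂ] H) : ℝ := (⟪m.io (m.d 0), m.xi U⟫_ℂ).re

/-- process with prescribed field vectors -/
noncomputable def genU (y : ℕ → KK) (β : ℕ → ℝ) : ℕ → H →L[ℂ] H
  | 0 => 1
  | k + 1 => m.B (β k) * m.D m.Z (y k) * genU y β k

/-- words of level `M`, up to a label dependent phase -/
def Reach (M : ℕ) : Set (H →L[ℂ] H) :=
  {U | ∃ w, Lev M w ∧ ∃ κ : Lab K → ℝ, Measurable κ ∧ U = m.ph κ * m.run w}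

/-- strong closure inside the fibred unitaries -/
def SCl (A : Set (H →L[ℂ] H)) : Set (H →L[ℂ] H) :=
  {U | m.Fib U ∧ ∀ ε > (0 : ℝ), ∀ s : Finset H, ∃ V ∈ A, ∀ v ∈ s, ‖U v - V v‖ < ε}

def Cl (M : ℕ) : Set (H →L[ℂ] H) := m.SCl (m.Reach M)

/-- gates available at level `M` in every state -/
def Free (M : ℕ) (V : H →L[ℂ] H) : Prop := m.Fib V ∧ ∀ U ∈ m.Cl M, V * U ∈ m.Cl M

/-- `1` or `Z` -/
noncomputable def zp (b : Bool) : H →L[ℂ] H := if b then m.Z else 1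

/-- basic coherent vectors -/
noncomputable def coh (b : Bool) (z : KK) : H := m.zp b (m.W z m.vac)

/-- combinations of coherent vectors with displacement in `S`, coefficients bounded in total by `n` -/
inductive MC (S : Set KK) : ℝ → H → Prop
  | base (g : Lab K → ℂ) (c : ℝ) (b : Bool) (z : KK) (hg : Measurable g) (hc : ∀ x, ‖g x‖ ≤ c)
      (hz : z ∈ m.R) (hS : z ∈ S) : MC S c (m.mul g (m.coh b z))
  | add {n n' : ℝ} {ψ ψ' : H} (h : MC S n ψ) (h' : MC S n' ψ') : MC S (n + n') (ψ + ψ')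
  | mono {n n' : ℝ} {ψ : H} (h : MC S n ψ) (hn : n ≤ n') : MC S n' ψ

/-- `A` maps coherent combinations to coherent combinations -/
def MCop (κ r : ℝ) (A : H →L[ℂ] H) : Prop :=
  ∀ (ρ n : ℝ) (ψ : H), m.MC (Metric.closedBall 0 ρ) n ψ →
    m.MC (Metric.closedBall 0 (ρ + r)) (κ * n) (A ψ)

/-- first-order smoothness bound (a bounded substitute for the number operator) -/
def NB (lam : ℝ) (ψ : H) : Prop :=
  ‖ψ‖ ≤ lam ∧ ∀ y ∈ m.R, ‖m.W y ψ - ψ‖ ≤ lam * ‖y‖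

def Tame (κ : ℝ) (A : H →L[ℂ] H) : Prop := ∀ lam ψ, m.NB lam ψ → m.NB (κ * lam) (A ψ)

/-- commutator bound with the Weyl operators -/
def CL (κ : ℝ) (A : H →L[ℂ] H) : Prop := ∀ y ∈ m.R, ‖m.W y * A - A * m.W y‖ ≤ κ * ‖y‖

/-- `A` is `η`-close to the identity on smooth vectors -/
def Near1 (η : ℝ) (A : H →L[ℂ] H) : Prop := ∀ lam ψ, m.NB lam ψ → ‖A ψ - ψ‖ ≤ η * lam

/-- distance of two operators on basic coherent vectors with displacement in `S` -/
def ErrLe (S : Set KK) (U V : H →L[ℂ] H) (e : ℝ) : Prop :=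
  ∀ b, ∀ z ∈ m.R, z ∈ S → ‖U (m.coh b z) - V (m.coh b z)‖ ≤ e

/-- two-body gate between the label sets `A` and `B` along the axis `Q` -/
noncomputable def cross (Q : H →L[ℂ] H) (A B : Set (Lab K)) (γ : ℝ) (U : H →L[ℂ] H) : H →L[ℂ] H :=
  m.P A * m.D Q (γ • m.j (m.P B (m.heis U Q))) + m.P B * m.D Q (γ • m.j (m.P A (m.heis U Q)))
    + m.P (A ∪ B)ᶜ

/-- axes along which cost gates are available at level `M` -/
def GAxis (M : ℕ) (Q : H →L[ℂ] H) : Prop :=
  m.IsAxis Q ∧ ∃ V, m.Free M V ∧ m.Free M (star V) ∧ star V * m.Z * V = Q ∧ ∀ y, Commute V (m.W y)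

/-- the gate with an identity hub on `T` and targets in `S` -/
noncomputable def target (S T : Set (Lab K)) (τ : ℝ) (U : H →L[ℂ] H) : H →L[ℂ] H :=
  m.P S * m.D m.Z (τ • m.j (m.P T (m.Sg m.vac))) + m.P T * m.D m.Sg (τ • m.j (m.P S (m.xi U)))
    + m.P (S ∪ T)ᶜ

/-- words of the generic shape -/
def Shape (w : List (Layer K)) : Prop :=
  ∃ (a β₀ : ℝ) (rest : List (Layer K)),
    w = (0, 0, Real.pi / 4) :: (Pi.single 0 a, 0, β₀) :: rest ∧
      ∀ k, 2 ≤ k → k < w.length → m.Fz (m.run (w.take k)) ≠ 0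

end Model

/-- self-consistency equation with one extra independent field -/
def IsGram1 {p : ℕ} (a γ β : Fin p → ℝ) (G : Fin (p + 1) → Fin (p + 1) → ℂ) : Prop :=
  (∀ t, G t t = 1) ∧ (∀ s t, G t s = conj (G s t)) ∧
    ∀ s t, G s t = psiGen β
      (fun k l => (γ k : ℂ) * (γ l : ℂ) * G k.castSucc l.castSucc + (a k : ℂ) * (a l : ℂ)) s t

/-- plain words simulate words with one extra independent field -/
def BaseStmt : Prop :=
  ∀ (p : ℕ) (a γ β : Fin (p + 2) → ℝ) (G : Fin (p + 3) → Fin (p + 3) → ℂ), IsGram1 a γ β G →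
    a 0 = 0 → γ 0 = 0 → β 0 = Real.pi / 4 → γ 1 = 0 →
    (∀ k : Fin (p + 2), 2 ≤ (k : ℕ) →
      (∑ i : Fin (p + 2), if i < k then a i * (G k.castSucc i.castSucc).im else 0) ≠ 0) →
    ∀ ε > (0 : ℝ), ∃ (p' : ℕ) (γ' β' : Fin p' → ℝ) (G' : Fin (p' + 1) → Fin (p' + 1) → ℂ),
      IsGram γ' β' G' ∧ limE γ G - ε ≤ limE γ' G'

end Crest.Agent.R339
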