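import Crest.Agent.R339.Q.Alg0

/-!
# Row 339, part Q: density of trigonometric polynomials
-/

set_option autoImplicit false

namespace Crest.Agent.R339

open MeasureTheory ProbabilityTheory Filter Topology Crest.MathPhysics.SpinGlass
open scoped InnerProductSpace ComplexConjugate

/-- projection on the first `M` labels -/
private def dpi {K : ℕ} (M : ℕ) (x : Lab K) : Lab K := fun i => if (i : ℕ) < M then x i else 0

private theorem dpi_meas {K : ℕ} (M : ℕ) : Measurable (dpi (K := K) M) := by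
  refine measurable_pi_lambda _ fun i => ?_
  unfold dpi
  split_ifs
  · exact measurable_pi_apply i
  · exact measurable_const

/-- push forward of the positive part of `h γ` -/
private noncomputable def dmu {K : ℕ} (M : ℕ) (h : Lab K → ℝ) : Measure (Lab K) :=
  ((gL K).withDensity fun x => ENNReal.ofReal (h x)).map (dpi M)

private theorem dmu_fin {K : ℕ} (M : ℕ) {h : Lab K → ℝ} (hh : Integrable h (gL K)) :
    IsFiniteMeasure (dmu M h) := by
  have := isFiniteMeasure_withDensity_ofReal hh.2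
  unfold dmu
  infer_instance

private theorem dmu_int {K : ℕ} (M : ℕ) {h : Lab K → ℝ} (hh : Integrable h (gL K))
    {f : Lab K → ℝ} (hf : Measurable f) :
    ∫ x, f x ∂dmu M h = ∫ x, max (h x) 0 * f (dpi M x) ∂gL K := by
  unfold dmu
  rw [integral_map (dpi_meas M).aemeasurable hf.aestronglyMeasurable,
    integral_withDensity_eq_integral_toReal_smul₀ hh.1.aemeasurable.ennreal_ofReal
      (Eventually.of_forall fun _ => ENNReal.ofReal_lt_top)]
  simp only [ENNReal.toReal_ofReal', smul_eq_mul]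

private theorem dmu_sub {K : ℕ} (M : ℕ) {h : Lab K → ℝ} (hh : Integrable h (gL K))
    {f : Lab K → ℝ} (hf : Measurable f) {C : ℝ} (hC : ∀ x, |f x| ≤ C) :
    ∫ x, f x ∂dmu M h - ∫ x, f x ∂dmu M (fun x => -h x) = ∫ x, h x * f (dpi M x) ∂gL K := by
  have hm : AEStronglyMeasurable (fun x => f (dpi M x)) (gL K) :=
    (hf.comp (dpi_meas M)).aestronglyMeasurable
  have hb : ∀ᵐ x ∂gL K, ‖f (dpi M x)‖ ≤ C := Eventually.of_forall fun x => hC _
  have hn : Integrable (fun x => -h x) (gL K) := hh.neg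
  rw [dmu_int M hh hf, dmu_int M hn hf,
    ← integral_sub (hh.pos_part.mul_bdd hm hb) (hn.pos_part.mul_bdd hm hb)]
  refine integral_congr_ae (Eventually.of_forall fun x => ?_)
  simp only
  rw [← sub_mul, max_zero_sub_max_neg_zero_eq_self]

private theorem dchar {K : ℕ} (μ : Measure (Lab K)) [IsFiniteMeasure μ]
    (L : StrongDual ℝ (Lab K)) : charFunDual μ L =
      ((∫ x, Real.cos (L x) ∂μ : ℝ) : ℂ) + ((∫ x, Real.sin (L x) ∂μ : ℝ) : ℂ) * Complex.I := by
  have i1 : Integrable (fun x => Real.cos (L x)) μ :=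
    Integrable.of_bound (by fun_prop) 1 (Eventually.of_forall fun x => Real.abs_cos_le_one _)
  have i2 : Integrable (fun x => Real.sin (L x)) μ :=
    Integrable.of_bound (by fun_prop) 1 (Eventually.of_forall fun x => Real.abs_sin_le_one _)
  rw [charFunDual_apply, ← integral_complex_ofReal, ← integral_complex_ofReal,
    ← integral_mul_const, ← integral_add i1.ofReal (i2.ofReal.mul_const _)]
  refine integral_congr_ae (Eventually.of_forall fun x => ?_)
  simp only
  rw [Complex.exp_mul_I, Complex.ofReal_cos, Complex.ofReal_sin]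

private theorem dkey {K M : ℕ} {h : Lab K → ℝ} (hh : Integrable h (gL K))
    (hc : ∀ a : Fin (K + 1) → ℝ, (∀ i : Fin (K + 1), M ≤ (i : ℕ) → a i = 0) →
      ∫ x, h x * Real.cos (∑ i, a i * x i) ∂gL K = 0)
    (hs : ∀ a : Fin (K + 1) → ℝ, (∀ i : Fin (K + 1), M ≤ (i : ℕ) → a i = 0) →
      ∫ x, h x * Real.sin (∑ i, a i * x i) ∂gL K = 0)
    {g : Lab K → ℝ} (hg : BR M g) : ∫ x, h x * g x ∂gL K = 0 := by
  have := dmu_fin M hh
  have : IsFiniteMeasure (dmu M fun x => -h x) := dmu_fin M hh.neg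
  have e : dmu M h = dmu M fun x => -h x := by
    refine Measure.ext_of_charFunDual (funext fun L => ?_)
    obtain ⟨a, ha⟩ : ∃ a : Fin (K + 1) → ℝ,
      a = fun i : Fin (K + 1) => if (i : ℕ) < M then L (Pi.single i 1) else 0 := ⟨_, rfl⟩
    have ha0 : ∀ i : Fin (K + 1), M ≤ (i : ℕ) → a i = 0 := fun i hi => by
      rw [ha]
      exact if_neg (not_lt.2 hi)
    have hL : ∀ x : Lab K, L (dpi M x) = ∑ i, a i * x i := fun x => by
      conv_lhs => rw [pi_eq_sum_univ' (dpi M x)]
      rw [map_sum]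
      refine Finset.sum_congr rfl fun i _ => ?_
      rw [map_smul, ha, smul_eq_mul]
      unfold dpi
      split_ifs with hi
      · simp only [hi, if_true]
        ring
      · simp only [hi, if_false]
        ring
    have c1 := dmu_sub M hh (f := fun x => Real.cos (L x)) (by fun_prop)
      fun x => Real.abs_cos_le_one _
    have c2 := dmu_sub M hh (f := fun x => Real.sin (L x)) (by fun_prop)
      fun x => Real.abs_sin_le_one _
    simp only [hL] at c1 c2
    rw [hc a ha0, sub_eq_zero] at c1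
    rw [hs a ha0, sub_eq_zero] at c2
    rw [dchar, dchar, c1, c2]
  obtain ⟨hm, ⟨C, hC⟩, hd⟩ := hg
  have c := dmu_sub M hh hm hC
  rw [← e, sub_self] at c
  rw [c]
  refine integral_congr_ae (Eventually.of_forall fun x => ?_)
  simp only
  rw [hd x (dpi M x) fun i hi => (if_pos hi).symm]

private theorem dsym {K : ℕ} (s : ℝ) {u F : Lab K → ℝ} (hu : Integrable u (gL K))
    (hF : Measurable F) {C : ℝ} (hC : ∀ x, |F x| ≤ C) :
    ∫ x, (u x + s * u (-x)) * F x ∂gL K =
      ∫ x, u x * F x ∂gL K + s * ∫ x, u x * F (-x) ∂gL K := by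
  have hb : ∀ᵐ x ∂gL K, ‖F x‖ ≤ C := Eventually.of_forall hC
  have hn : Integrable (fun x => u (-x)) (gL K) :=
    measurePreserving_neg_gL.integrable_comp_of_integrable hu
  have e := measurePreserving_neg_gL.integral_comp (MeasurableEquiv.neg (Lab K)).measurableEmbedding
    fun x => u x * F (-x)
  simp only [neg_neg] at e
  rw [← e, ← integral_const_mul, ← integral_add (hu.mul_bdd hF.aestronglyMeasurable hb)
    ((hn.mul_bdd hF.aestronglyMeasurable hb).const_mul s)]
  refine integral_congr_ae (Eventually.of_forall fun x => ?_)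
  simp only
  ring

private theorem dgen {K M : ℕ} {φ : ℝ → ℝ} (hφ : Measurable φ) (hb : ∀ t, |φ t| ≤ 1)
    {g : Lab K → ℝ} (hg : BR M g)
    (H : ∀ u : Lab K → ℝ, Integrable u (gL K) →
      (∀ a : Fin (K + 1) → ℝ, (∀ i : Fin (K + 1), M ≤ (i : ℕ) → a i = 0) →
        ∫ x, u x * φ (∑ i, a i * x i) ∂gL K = 0) → ∫ x, u x * g x ∂gL K = 0)
    {ε : ℝ} (hε : 0 < ε) :
    ∃ (n : ℕ) (c : Fin n → ℝ) (a : Fin n → Fin (K + 1) → ℝ),
      (∀ k, ∀ i : Fin (K + 1), M ≤ (i : ℕ) → a k i = 0) ∧
      ∫ x, (g x - ∑ k, c k * φ (∑ i, a k i * x i)) ^ 2 ∂gL K < ε := by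
  obtain ⟨hm, ⟨C, hC⟩, -⟩ := hg
  have mg : MemLp g 2 (gL K) :=
    MemLp.of_bound hm.aestronglyMeasurable C (Eventually.of_forall hC)
  have me : ∀ a : Fin (K + 1) → ℝ, MemLp (fun x : Lab K => φ (∑ i, a i * x i)) 2 (gL K) :=
    fun a => MemLp.of_bound (hφ.comp (by fun_prop)).aestronglyMeasurable 1
      (Eventually.of_forall fun x => hb _)
  let T : Set (Lp ℝ 2 (gL K)) :=
    {p | ∃ a : Fin (K + 1) → ℝ, (∀ i : Fin (K + 1), M ≤ (i : ℕ) → a i = 0) ∧ p = (me a).toLp _}
  have hin : ∀ (u : Lp ℝ 2 (gL K)) {f : Lab K → ℝ} (hf : MemLp f 2 (gL K)),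
      ⟪hf.toLp f, u⟫_ℝ = ∫ x, u x * f x ∂gL K := by
    intro u f hf
    rw [L2.inner_def]
    refine integral_congr_ae ?_
    filter_upwards [hf.coeFn_toLp] with x hx
    rw [hx]
    simp
  have hcl : mg.toLp g ∈ (Submodule.span ℝ T).topologicalClosure := by
    rw [← Submodule.orthogonal_orthogonal_eq_closure, Submodule.mem_orthogonal']
    intro u hu
    rw [hin]
    refine H u ((Lp.memLp u).integrable one_le_two) fun a ha => ?_
    rw [← hin u (me a)]
    exact (Submodule.mem_orthogonal _ _).1 hu _ (Submodule.subset_span ⟨a, ha, rfl⟩)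
  obtain ⟨p, hp, hd⟩ := Metric.mem_closure_iff.1 hcl (√ε) (Real.sqrt_pos.2 hε)
  obtain ⟨n, c, q, rfl⟩ := Submodule.mem_span_set'.1 hp
  choose a ha hq using fun k => (q k).2
  refine ⟨n, c, a, ha, ?_⟩
  rw [dist_eq_norm, Real.lt_sqrt (norm_nonneg _), ← real_inner_self_eq_norm_sq,
    L2.inner_def] at hd
  refine lt_of_eq_of_lt (integral_congr_ae ?_) hd
  have h1 : ∀ᵐ x ∂gL K, ∀ k, (c k • (q k : Lp ℝ 2 (gL K))) x = c k * φ (∑ i, a k i * x i) := by
    refine ae_all_iff.2 fun k => ?_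
    filter_upwards [Lp.coeFn_smul (c k) (q k : Lp ℝ 2 (gL K)), (me (a k)).coeFn_toLp] with x h2 h3
    rw [h2, Pi.smul_apply, hq k, h3, smul_eq_mul]
  filter_upwards [h1, mg.coeFn_toLp,
    Lp.coeFn_sub (mg.toLp g) (∑ k, c k • (q k : Lp ℝ 2 (gL K))),
    Lp.coeFn_fun_finsetSum Finset.univ fun k => c k • (q k : Lp ℝ 2 (gL K))] with x h2 h3 h4 h5
  rw [h4, Pi.sub_apply, h3, h5, real_inner_self_eq_norm_sq, Real.norm_eq_abs, sq_abs]
  simp only [h2]

private theorem dneg {K : ℕ} (a x : Fin (K + 1) → ℝ) : ∑ i, a i * (-x) i = -∑ i, a i * x i := by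
  simp

/-- trigonometric polynomials in the first `M` labels are dense in `L²` among even functions of level `M`.
(Push forward to `Fin M → ℝ`, a function orthogonal to all characters vanishes by `Measure.ext_of_charFun`
applied to the positive and negative part of `g γ`; then take the real even part.) -/
theorem dense_cos {K M : ℕ} {g : Lab K → ℝ} (hg : BR M g) (he : ∀ x, g (-x) = g x) {ε : ℝ} (hε : 0 < ε) :
    ∃ (n : ℕ) (c : Fin n → ℝ) (a : Fin n → Fin (K + 1) → ℝ),
      (∀ k, ∀ i : Fin (K + 1), M ≤ (i : ℕ) → a k i = 0) ∧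
      ∫ x, (g x - ∑ k, c k * Real.cos (∑ i, a k i * x i)) ^ 2 ∂gL K < ε := by
  refine dgen Real.measurable_cos Real.abs_cos_le_one hg (fun u hu h0 => ?_) hε
  have hi : Integrable (fun x => u x + 1 * u (-x)) (gL K) :=
    hu.add ((measurePreserving_neg_gL.integrable_comp_of_integrable hu).const_mul 1)
  have key := dkey (M := M) hi (fun a ha => ?_) (fun a _ => ?_) hg
  · obtain ⟨hm, ⟨C, hC⟩, -⟩ := hg
    rw [dsym 1 hu hm hC] at key
    simp only [he] at key
    linarith
  · rw [dsym 1 hu (F := fun x => Real.cos (∑ i, a i * x i)) (by fun_prop)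
      fun x => Real.abs_cos_le_one _]
    simp only [dneg, Real.cos_neg, h0 a ha]
    ring
  · rw [dsym 1 hu (F := fun x => Real.sin (∑ i, a i * x i)) (by fun_prop)
      fun x => Real.abs_sin_le_one _]
    simp only [dneg, Real.sin_neg, mul_neg, integral_neg]
    ring

theorem dense_sin {K M : ℕ} {g : Lab K → ℝ} (hg : BR M g) (ho : ∀ x, g (-x) = -g x) {ε : ℝ} (hε : 0 < ε) :
    ∃ (n : ℕ) (c : Fin n → ℝ) (a : Fin n → Fin (K + 1) → ℝ),
      (∀ k, ∀ i : Fin (K + 1), M ≤ (i : ℕ) → a k i = 0) ∧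
      ∫ x, (g x - ∑ k, c k * Real.sin (∑ i, a k i * x i)) ^ 2 ∂gL K < ε := by
  refine dgen Real.measurable_sin Real.abs_sin_le_one hg (fun u hu h0 => ?_) hε
  have hi : Integrable (fun x => u x + (-1) * u (-x)) (gL K) :=
    hu.add ((measurePreserving_neg_gL.integrable_comp_of_integrable hu).const_mul (-1))
  have key := dkey (M := M) hi (fun a _ => ?_) (fun a ha => ?_) hg
  · obtain ⟨hm, ⟨C, hC⟩, -⟩ := hg
    rw [dsym (-1) hu hm hC] at key
    simp only [ho, mul_neg, integral_neg] at key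
    linarith
  · rw [dsym (-1) hu (F := fun x => Real.cos (∑ i, a i * x i)) (by fun_prop)
      fun x => Real.abs_cos_le_one _]
    simp only [dneg, Real.cos_neg]
    ring
  · rw [dsym (-1) hu (F := fun x => Real.sin (∑ i, a i * x i)) (by fun_prop)
      fun x => Real.abs_sin_le_one _]
    simp only [dneg, Real.sin_neg, mul_neg, integral_neg, h0 a ha]
    ring

end Crest.Agent.R339
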