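import Crest.Agent.R339.Q.Defs

/-!
# Row 339, part Q: exponential vectors
-/

set_option autoImplicit false

namespace Crest.Agent.R339

open MeasureTheory ProbabilityTheory Filter Topology Crest.MathPhysics.SpinGlass
open scoped InnerProductSpace ComplexConjugate

/-- one-particle space of the bath -/
abbrev K0 : Type := lp (fun _ : ℕ => ℂ) 2

/-- ambient space of the Fock space -/
abbrev F0 : Type := lp (fun _ : List ℕ => ℂ) 2

/-- coefficients of the exponential vector -/
noncomputable def expCoef (y : K0) (l : List ℕ) : ℂ :=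
  (l.map fun i => (y : ℕ → ℂ) i).prod / ((Real.sqrt (l.length.factorial : ℝ) : ℝ) : ℂ)

theorem fock1_pow {𝕜 : Type} [RCLike 𝕜] {a : ℕ → 𝕜} (ha : Summable fun i => ‖a i‖) (k : ℕ) :
    Summable (fun f : Fin k → ℕ => ‖∏ i, a (f i)‖) ∧
      ∑' f : Fin k → ℕ, ∏ i, a (f i) = (∑' i, a i) ^ k := by
  induction k with
  | zero => exact ⟨Summable.of_finite, by simp⟩
  | succ k ih =>
    have e : ∀ p : ℕ × (Fin k → ℕ),
        ∏ i, a (Fin.consEquiv (fun _ => ℕ) p i) = a p.1 * ∏ i, a (p.2 i) := fun p => by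
      simp [Fin.prod_univ_succ, Fin.consEquiv]
    constructor
    · rw [← (Fin.consEquiv fun _ => ℕ).summable_iff]
      exact (ha.mul_norm ih.1).congr fun p => by simp only [Function.comp, e]
    · rw [← (Fin.consEquiv fun _ => ℕ).tsum_eq, pow_succ', ← ih.2,
        tsum_mul_tsum_of_summable_norm ha ih.1]
      simp only [e]

theorem fock1_exp {a : ℕ → ℂ} (ha : Summable fun i => ‖a i‖) :
    HasSum (fun l : List ℕ => (l.map a).prod / (l.length.factorial : ℂ))
      (Complex.exp (∑' i, a i)) := by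
  rw [← List.equivSigmaTuple.symm.hasSum_iff]
  have e : ((fun l : List ℕ => (l.map a).prod / (l.length.factorial : ℂ)) ∘
      List.equivSigmaTuple.symm) =
      fun p : Σ n, Fin n → ℕ => (∏ i, a (p.2 i)) / (p.1.factorial : ℂ) := by
    funext p
    simp [List.equivSigmaTuple, List.map_ofFn, List.prod_ofFn]
  rw [e]
  have hb : Summable fun i => ‖‖a i‖‖ := by simpa only [norm_norm] using ha
  have S : Summable fun p : Σ n, Fin n → ℕ => (∏ i, a (p.2 i)) / (p.1.factorial : ℂ) := by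
    refine Summable.of_norm ((summable_sigma_of_nonneg fun _ => norm_nonneg _).2 ⟨fun k => ?_, ?_⟩)
    · simp only [norm_div]
      exact (fock1_pow ha k).1.div_const _
    · simp only [norm_div, tsum_div_const, norm_prod, (fock1_pow hb _).2, Complex.norm_natCast]
      exact Real.summable_pow_div_factorial _
  have h0 : ∀ k : ℕ, HasSum (fun f : Fin k → ℕ => (∏ i, a (f i)) / (k.factorial : ℂ))
      ((∑' i, a i) ^ k / (k.factorial : ℂ)) := fun k => by
    rw [← (fock1_pow ha k).2]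
    exact (Summable.of_norm (fock1_pow ha k).1).hasSum.div_const _
  have h1 := HasSum.sigma (g := fun k : ℕ => (∑' i, a i) ^ k / (k.factorial : ℂ)) S.hasSum h0
  have h2 := NormedSpace.expSeries_div_hasSum_exp (∑' i, a i)
  rw [Complex.exp_eq_exp_ℂ, ← h1.unique h2]
  exact S.hasSum

/-- sum over lists = sum over the length of the sum over `List.Vector`/`Fin k → ℕ` -/
theorem hasSum_expCoef (y y' : K0) :
    HasSum (fun l : List ℕ => conj (expCoef y l) * expCoef y' l) (Complex.exp ⟪y, y'⟫_ℂ) := by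
  have h := lp.hasSum_inner (𝕜 := ℂ) y y'
  simp only [RCLike.inner_apply'] at h
  have h2 := fock1_exp (summable_norm_iff.2 h.summable)
  rw [h.tsum_eq] at h2
  refine h2.congr_fun fun l => ?_
  have e : (((Real.sqrt (l.length.factorial : ℝ) : ℝ) : ℂ)) *
      ((Real.sqrt (l.length.factorial : ℝ) : ℝ) : ℂ) = (l.length.factorial : ℂ) := by
    rw [← Complex.ofReal_mul, Real.mul_self_sqrt (Nat.cast_nonneg _), Complex.ofReal_natCast]
  rw [expCoef, expCoef, map_div₀, Complex.conj_ofReal, div_mul_div_comm, e, List.prod_map_mul,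
    map_list_prod, List.map_map]
  rfl

theorem memℓp_expCoef (y : K0) : Memℓp (expCoef y) 2 := by
  refine memℓp_gen ?_
  have h := summable_norm_iff.2 (hasSum_expCoef y y).summable
  refine h.congr fun l => ?_
  rw [norm_mul, RCLike.norm_conj, ← sq]
  simp

/-- exponential vector -/
noncomputable def expV (y : K0) : F0 := ⟨expCoef y, memℓp_expCoef y⟩

theorem inner_expV (y y' : K0) : ⟪expV y, expV y'⟫_ℂ = Complex.exp ⟪y, y'⟫_ℂ := by
  rw [lp.inner_eq_tsum]
  simp only [RCLike.inner_apply']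
  exact (hasSum_expCoef y y').tsum_eq

/-- coefficients of the one-particle vectors -/
def fock1_coef (y : K0) : List ℕ → ℂ
  | [i] => (y : ℕ → ℂ) i
  | _ => 0

theorem fock1_coef_zero (y : K0) {l : List ℕ} (h : l ∉ Set.range fun i : ℕ => [i]) :
    fock1_coef y l = 0 := by
  match l with
  | [] => rfl
  | [i] => exact absurd ⟨i, rfl⟩ h
  | _ :: _ :: _ => rfl

theorem fock1_inj : Function.Injective fun i : ℕ => [i] := fun _ _ h => by simpa using h

theorem fock1_mem (y : K0) : Memℓp (fock1_coef y) 2 := by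
  refine memℓp_gen ?_
  rw [← fock1_inj.summable_iff fun l hl => by simp [fock1_coef_zero y hl]]
  exact (lp.memℓp y).summable (by norm_num)

/-- the one-particle embedding -/
noncomputable def fock1_one : K0 →ₗ[ℂ] F0 where
  toFun y := ⟨fock1_coef y, fock1_mem y⟩
  map_add' y y' := by
    ext l
    change fock1_coef (y + y') l = fock1_coef y l + fock1_coef y' l
    match l with
    | [] => exact (add_zero _).symm
    | [i] => rfl
    | _ :: _ :: _ => exact (add_zero _).symm
  map_smul' c y := by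
    ext l
    change fock1_coef (c • y) l = c • fock1_coef y l
    match l with
    | [] => exact (smul_zero _).symm
    | [i] => rfl
    | _ :: _ :: _ => exact (smul_zero _).symm

theorem fock1_self {E : Type} [NormedAddCommGroup E] [InnerProductSpace ℂ E] (x : E) :
    ⟪x, x⟫_ℂ = ((‖x‖ ^ 2 : ℝ) : ℂ) := by
  rw [inner_self_eq_norm_sq_to_K, Complex.ofReal_pow]
  rfl

theorem fock1_inner (w : F0) (z y : K0) (h : ∀ i, (w : List ℕ → ℂ) [i] = (z : ℕ → ℂ) i) :
    ⟪w, fock1_one y⟫_ℂ = ⟪z, y⟫_ℂ := by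
  rw [lp.inner_eq_tsum, lp.inner_eq_tsum, ← fock1_inj.tsum_eq]
  · simp only [h]
    rfl
  · intro l hl
    by_contra h'
    refine hl ?_
    change ⟪_, fock1_coef y l⟫_ℂ = 0
    rw [fock1_coef_zero y h', inner_zero_right]

/-- one-particle vectors: supported on lists of length one -/
theorem exists_one : ∃ one : K0 →ₗᵢ[ℂ] F0, (∀ z y, ⟪expV z, one y⟫_ℂ = ⟪z, y⟫_ℂ) ∧
    ∀ y, one y ∈ (Submodule.span ℂ (Set.range expV)).topologicalClosure := by
  have h1 : ∀ z y, ⟪expV z, fock1_one y⟫_ℂ = ⟪z, y⟫_ℂ := fun z y =>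
    fock1_inner _ _ _ fun i => by simp [expV, expCoef]
  have h2 : ∀ z y, ⟪fock1_one z, fock1_one y⟫_ℂ = ⟪z, y⟫_ℂ := fun z y =>
    fock1_inner _ _ _ fun i => rfl
  refine ⟨fock1_one.isometryOfInner h2, h1, fun y => ?_⟩
  change fock1_one y ∈ closure (Submodule.span ℂ (Set.range expV) : Set F0)
  refine mem_closure_of_tendsto (b := 𝓝[>] (0 : ℝ))
    (f := fun t : ℝ => ((t : ℂ)⁻¹) • (expV ((t : ℂ) • y) - expV 0)) ?_
    (Eventually.of_forall fun t => Submodule.smul_mem _ _ (Submodule.sub_mem _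
      (Submodule.subset_span ⟨_, rfl⟩) (Submodule.subset_span ⟨_, rfl⟩)))
  rw [tendsto_iff_norm_sub_tendsto_zero]
  have t1 : Tendsto (fun t : ℝ => t * ‖y‖ ^ 2) (𝓝[>] 0) (𝓝 (0 * ‖y‖ ^ 2)) :=
    (Continuous.tendsto (by fun_prop) 0).mono_left nhdsWithin_le_nhds
  have t2 : Tendsto (fun t : ℝ => t ^ 2 * ‖y‖ ^ 2) (𝓝[>] 0) (𝓝 (0 ^ 2 * ‖y‖ ^ 2)) :=
    (Continuous.tendsto (by fun_prop) 0).mono_left nhdsWithin_le_nhds
  rw [zero_mul] at t1
  refine squeeze_zero' (Eventually.of_forall fun _ => norm_nonneg _) ?_ t1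
  filter_upwards [t2.eventually_le_const (show (0 : ℝ) ^ 2 * ‖y‖ ^ 2 < 1 by simp),
    self_mem_nhdsWithin] with t ht ht0
  have ht0 : 0 < t := ht0
  have htc : (t : ℂ) ≠ 0 := by exact_mod_cast ht0.ne'
  have h1' : ∀ z y, ⟪fock1_one y, expV z⟫_ℂ = ⟪y, z⟫_ℂ := fun z y => by
    rw [← inner_conj_symm, h1, inner_conj_symm]
  have e : ⟪expV ((t : ℂ) • y) - expV 0 - (t : ℂ) • fock1_one y,
      expV ((t : ℂ) • y) - expV 0 - (t : ℂ) • fock1_one y⟫_ℂ =
      ((Real.exp (t ^ 2 * ‖y‖ ^ 2) - 1 - t ^ 2 * ‖y‖ ^ 2 : ℝ) : ℂ) := by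
    simp only [inner_sub_left, inner_sub_right, inner_smul_left, inner_smul_right, inner_expV, h1,
      h1', h2, inner_zero_left, inner_zero_right, Complex.conj_ofReal, Complex.exp_zero,
      fock1_self y, mul_zero]
    push_cast
    rw [show (t : ℂ) * ((t : ℂ) * ((‖y‖ : ℝ) : ℂ) ^ 2) = (t : ℂ) ^ 2 * ((‖y‖ : ℝ) : ℂ) ^ 2 by ring]
    ring
  have e' := Complex.ofReal_injective ((fock1_self _).symm.trans e)
  have h3 := Real.abs_exp_sub_one_sub_id_le (x := t ^ 2 * ‖y‖ ^ 2)
    (by rwa [abs_of_nonneg (by positivity)])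
  have h4 : ‖expV ((t : ℂ) • y) - expV 0 - (t : ℂ) • fock1_one y‖ ≤ t ^ 2 * ‖y‖ ^ 2 :=
    le_of_sq_le_sq (e'.trans_le ((le_abs_self _).trans h3)) (by positivity)
  have e2 : ((t : ℂ)⁻¹) • (expV ((t : ℂ) • y) - expV 0) - fock1_one y =
      ((t : ℂ)⁻¹) • (expV ((t : ℂ) • y) - expV 0 - (t : ℂ) • fock1_one y) := by
    rw [smul_sub ((t : ℂ)⁻¹) (_ - _), inv_smul_smul₀ htc]
  rw [e2, norm_smul, norm_inv, Complex.norm_real, Real.norm_of_nonneg ht0.le, inv_mul_le_iff₀ ht0]
  linarith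

/-- a map between total families preserving inner products extends to an isometry -/
theorem exists_isometry_of_inner {E ι : Type} [NormedAddCommGroup E] [InnerProductSpace ℂ E]
    [CompleteSpace E] (u v : ι → E) (hu : Dense (Submodule.span ℂ (Set.range u) : Set E))
    (h : ∀ i i', ⟪v i, v i'⟫_ℂ = ⟪u i, u i'⟫_ℂ) :
    ∃ T : E →L[ℂ] E, (∀ i, T (u i) = v i) ∧ ∀ x, ‖T x‖ = ‖x‖ := by
  have hd : DenseRange (Finsupp.linearCombination ℂ u) := by
    rw [DenseRange, ← LinearMap.coe_range, Finsupp.range_linearCombination]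
    exact hu
  have hn : ∀ f : ι →₀ ℂ,
      ‖Finsupp.linearCombination ℂ v f‖ = ‖Finsupp.linearCombination ℂ u f‖ := by
    intro f
    have e : ⟪Finsupp.linearCombination ℂ v f, Finsupp.linearCombination ℂ v f⟫_ℂ =
        ⟪Finsupp.linearCombination ℂ u f, Finsupp.linearCombination ℂ u f⟫_ℂ := by
      simp only [Finsupp.linearCombination_apply, Finsupp.sum, sum_inner, inner_sum,
        inner_smul_left, inner_smul_right, h]
    rw [@norm_eq_sqrt_re_inner ℂ, e, ← @norm_eq_sqrt_re_inner ℂ]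
  have he := LinearMap.extendOfNorm_eq (f := Finsupp.linearCombination ℂ v) hd
    ⟨1, fun f => by rw [hn, one_mul]⟩
  refine ⟨(Finsupp.linearCombination ℂ v).extendOfNorm (Finsupp.linearCombination ℂ u),
    fun i => ?_, fun x => ?_⟩
  · simpa using he (Finsupp.single i 1)
  · refine hd.induction_on x (isClosed_eq (by fun_prop) (by fun_prop)) fun f => ?_
    rw [he, hn]

end Crest.Agent.R339
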