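import Crest.Agent.R339.Q.Fock1

/-!
# Row 339, part Q: Weyl operators
-/

set_option autoImplicit false

namespace Crest.Agent.R339

open MeasureTheory ProbabilityTheory Filter Topology Crest.MathPhysics.SpinGlass
open scoped InnerProductSpace ComplexConjugate

/-- Weyl operators on the bosonic Fock space over `K0` -/
structure Weyl0 (Γ : Type) [NormedAddCommGroup Γ] [InnerProductSpace ℂ Γ] [CompleteSpace Γ] where
  vac : Γ
  W : K0 → (Γ →L[ℂ] Γ)
  one : K0 →ₗᵢ[ℂ] Γ
  norm_vac : ‖vac‖ = 1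
  W_zero : W 0 = 1
  W_star : ∀ y, star (W y) = W (-y)
  W_W : ∀ y y', W y * W y' = Complex.exp (-(Complex.I * ((⟪y, y'⟫_ℂ).im : ℂ))) • W (y + y')
  vac_W : ∀ y, ⟪vac, W y vac⟫_ℂ = ((Real.exp (-‖y‖ ^ 2 / 2) : ℝ) : ℂ)
  total : Dense (Submodule.span ℂ (Set.range fun y => W y vac) : Set Γ)
  inner_one : ∀ z y, ⟪W z vac, one y⟫_ℂ =
    -Complex.I * ((Real.exp (-‖z‖ ^ 2 / 2) : ℝ) : ℂ) * ⟪z, y⟫_ℂ

private theorem sepF0 : TopologicalSpace.SeparableSpace F0 := by
  classical
  rw [← TopologicalSpace.isSeparable_univ_iff]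
  have h : TopologicalSpace.IsSeparable
      (Submodule.span ℂ (Set.range fun l : List ℕ => (lp.single 2 l (1 : ℂ) : F0)) : Set F0) :=
    (Set.countable_range _).isSeparable.span
  refine h.closure.mono fun x _ => ?_
  refine mem_closure_of_tendsto (lp.hasSum_single (p := 2) (by norm_num) x)
    (Eventually.of_forall fun s => Submodule.sum_mem _ fun l _ => ?_)
  have e : (lp.single 2 l (x l) : F0) = (x l : ℂ) • (lp.single 2 l (1 : ℂ) : F0) := by
    rw [← lp.single_smul, smul_eq_mul, mul_one]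
  rw [e]
  exact Submodule.smul_mem _ _ (Submodule.subset_span ⟨l, rfl⟩)

/-- the symmetric Fock space -/
private noncomputable abbrev Gam : Submodule ℂ F0 :=
  (Submodule.span ℂ (Set.range expV)).topologicalClosure

private noncomputable def eG (y : K0) : Gam :=
  ⟨expV y, Submodule.le_topologicalClosure _ (Submodule.subset_span ⟨y, rfl⟩)⟩

private theorem inner_eG (y y' : K0) : ⟪eG y, eG y'⟫_ℂ = Complex.exp ⟪y, y'⟫_ℂ := inner_expV y y'

private theorem ismL (c : ℂ) (x y : Gam) : ⟪c • x, y⟫_ℂ = conj c * ⟪x, y⟫_ℂ :=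
  inner_smul_left (𝕜 := ℂ) x y c

private theorem ismR (c : ℂ) (x y : Gam) : ⟪x, c • y⟫_ℂ = c * ⟪x, y⟫_ℂ :=
  inner_smul_right (𝕜 := ℂ) x y c

private theorem dense_eG : Dense (Submodule.span ℂ (Set.range eG) : Set Gam) := by
  intro x
  rw [closure_subtype]
  have e : ((↑) : Gam → F0) '' (Submodule.span ℂ (Set.range eG) : Set Gam) =
      (Submodule.span ℂ (Set.range expV) : Set F0) := by
    have h := Submodule.map_span Gam.subtype (Set.range eG)
    rw [← Set.range_comp] at h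
    exact congrArg SetLike.coe h
  rw [e]
  exact x.2

private theorem ext_eG {A B : Gam →L[ℂ] Gam} (h : ∀ z, A (eG z) = B (eG z)) : A = B :=
  ContinuousLinearMap.ext_on dense_eG (by rintro _ ⟨z, rfl⟩; exact h z)

private noncomputable def cf (y z : K0) : ℂ :=
  Complex.exp (-((‖y‖ : ℂ) ^ 2) / 2 + Complex.I * ⟪y, z⟫_ℂ)

private theorem exists_W (y : K0) : ∃ T : Gam →L[ℂ] Gam,
    (∀ z, T (eG z) = cf y z • eG (z + Complex.I • y)) ∧ ∀ x, ‖T x‖ = ‖x‖ := by
  refine exists_isometry_of_inner eG _ dense_eG fun z z' => ?_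
  rw [ismL, ismR, inner_eG, inner_eG, cf, cf, ← Complex.exp_conj,
    ← Complex.exp_add, ← Complex.exp_add]
  congr 1
  simp only [inner_add_left, inner_add_right, inner_smul_left, inner_smul_right, map_add, map_mul,
    map_div₀, map_neg, map_pow, Complex.conj_ofReal, Complex.conj_I, inner_conj_symm,
    inner_self_eq_norm_sq_to_K, map_ofNat, Complex.coe_algebraMap]
  linear_combination (-(‖y‖ : ℂ) ^ 2) * Complex.I_mul_I

/-- `Γ` = closure of the span of the exponential vectors, `vac = expV 0`,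
`W y (expV z) = exp (-‖y‖²/2 + i ⟪y,z⟫) • expV (z + i y)`  (check: `⟪i y, z⟫ = -i ⟪y,z⟫`). -/
theorem exists_weyl0 : ∃ (Γ : Type) (_ : NormedAddCommGroup Γ) (_ : InnerProductSpace ℂ Γ)
    (_ : CompleteSpace Γ) (_ : TopologicalSpace.SeparableSpace Γ), Nonempty (Weyl0 Γ) := by
  have := sepF0
  choose W hW hn using exists_W
  obtain ⟨one, h1, h2⟩ := exists_one
  have hWW : ∀ y y', W y * W y' =
      Complex.exp (-(Complex.I * ((⟪y, y'⟫_ℂ).im : ℂ))) • W (y + y') := by
    intro y y'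
    refine ext_eG fun z => ?_
    rw [mul_apply_eq_comp, hW, map_smul, hW, smul_apply, hW,
      smul_smul, smul_smul, smul_add, add_assoc, add_comm (Complex.I • y')]
    congr 1
    rw [cf, cf, cf, ← Complex.exp_add, ← Complex.exp_add]
    congr 1
    have e1 : ((‖y + y'‖ : ℝ) : ℂ) ^ 2 =
        (‖y‖ : ℂ) ^ 2 + 2 * ((⟪y, y'⟫_ℂ).re : ℂ) + (‖y'‖ : ℂ) ^ 2 := by
      have := norm_add_sq (𝕜 := ℂ) y y'
      rw [RCLike.re_to_complex] at this
      exact_mod_cast this
    rw [e1, inner_add_right, inner_add_left, inner_smul_right]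
    linear_combination (⟪y, y'⟫_ℂ) * Complex.I_mul_I + Complex.re_add_im ⟪y, y'⟫_ℂ
  have hW0 : W 0 = 1 := ext_eG fun z => by simp [hW, cf]
  have hvac : ∀ y, W y (eG 0) = ((Real.exp (-‖y‖ ^ 2 / 2) : ℝ) : ℂ) • eG (Complex.I • y) := by
    intro y
    rw [hW, zero_add, cf]
    simp
  refine ⟨Gam, inferInstance, inferInstance, inferInstance, inferInstance,
    ⟨{ vac := eG 0
       W := W
       one := ⟨one.toLinearMap.codRestrict Gam h2, fun y => one.norm_map y⟩
       norm_vac := ?_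
       W_zero := hW0
       W_star := fun y => ?_
       W_W := hWW
       vac_W := fun y => ?_
       total := ?_
       inner_one := fun z y => ?_ }⟩⟩
  · have h := inner_eG 0 0
    rw [inner_zero_left, Complex.exp_zero] at h
    have h' : ‖eG 0‖ ^ 2 = 1 := by
      have h3 := (inner_self_eq_norm_sq (𝕜 := ℂ) (eG 0)).symm
      exact h3.trans ((congrArg RCLike.re h).trans (by simp))
    exact (pow_eq_one_iff_of_nonneg (norm_nonneg _) two_ne_zero).1 h'
  · symm
    rw [ContinuousLinearMap.star_eq_adjoint, ContinuousLinearMap.eq_adjoint_iff]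
    intro a b
    have e : W y * W (-y) = 1 := by
      rw [hWW, add_neg_cancel, hW0, inner_neg_right, inner_self_eq_norm_sq_to_K]
      simp [← Complex.ofReal_pow]
    have e' : W y (W (-y) a) = a := by rw [← mul_apply_eq_comp, e]; rfl
    let T : Gam →ₗᵢ[ℂ] Gam := ⟨(W y).toLinearMap, hn y⟩
    rw [← T.inner_map_map]
    exact congrArg (fun t => ⟪t, W y b⟫_ℂ) e'
  · rw [hvac, ismR, inner_eG, inner_zero_left, Complex.exp_zero, mul_one]
  · refine dense_eG.mono (Submodule.span_le.2 ?_)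
    rintro _ ⟨z, rfl⟩
    have e : eG z = (((Real.exp (-‖-Complex.I • z‖ ^ 2 / 2) : ℝ) : ℂ))⁻¹ •
        W (-Complex.I • z) (eG 0) := by
      rw [hvac, smul_smul, smul_smul, inv_mul_cancel₀ (by exact_mod_cast (Real.exp_pos _).ne'),
        one_smul, mul_neg, Complex.I_mul_I, neg_neg, one_smul]
    rw [e]
    exact Submodule.smul_mem _ _ (Submodule.subset_span ⟨_, rfl⟩)
  · rw [hvac, ismL, Complex.conj_ofReal]
    have e : ⟪eG (Complex.I • z), (one.toLinearMap.codRestrict Gam h2) y⟫_ℂ =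
        ⟪Complex.I • z, y⟫_ℂ := h1 _ _
    change _ * ⟪eG (Complex.I • z), (one.toLinearMap.codRestrict Gam h2) y⟫_ℂ = _
    rw [e, inner_smul_left, Complex.conj_I]
    ring

end Crest.Agent.R339
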