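import Crest.Agent.R339.Q.Top
import Crest.Agent.R339.Q.Dens

/-!
# Row 339, part Q: label dependent rotations are available
-/

set_option autoImplicit false

namespace Crest.Agent.R339

open MeasureTheory ProbabilityTheory Filter Topology Crest.MathPhysics.SpinGlass
open scoped InnerProductSpace ComplexConjugate

theorem norm_pow_contr {H : Type} [NormedAddCommGroup H] [InnerProductSpace ℂ H]
    {E : H →L[ℂ] H} (hE : ‖E‖ ≤ 1) (n : ℕ) : ‖E ^ n‖ ≤ 1 := by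
  induction n with
  | zero => rw [pow_zero]; exact ContinuousLinearMap.norm_id_le
  | succ n ih =>
    rw [pow_succ]
    calc ‖E ^ n * E‖ ≤ ‖E ^ n‖ * ‖E‖ := norm_mul_le _ _
      _ ≤ 1 * 1 := by gcongr
      _ = 1 := one_mul 1

theorem norm_pow_sub_pow_contr {H : Type} [NormedAddCommGroup H] [InnerProductSpace ℂ H]
    {E F : H →L[ℂ] H} (hE : ‖E‖ ≤ 1) (hF : ‖F‖ ≤ 1) (n : ℕ) : ‖E ^ n - F ^ n‖ ≤ n * ‖E - F‖ := by
  induction n with
  | zero => simp
  | succ n ih =>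
    have e : E ^ (n + 1) - F ^ (n + 1) = E ^ n * (E - F) + (E ^ n - F ^ n) * F := by
      rw [pow_succ, pow_succ, mul_sub, sub_mul]; abel
    rw [e]
    have h1 : ‖E ^ n * (E - F)‖ ≤ ‖E - F‖ := by
      calc ‖E ^ n * (E - F)‖ ≤ ‖E ^ n‖ * ‖E - F‖ := norm_mul_le _ _
        _ ≤ 1 * ‖E - F‖ := by gcongr; exact norm_pow_contr hE n
        _ = ‖E - F‖ := one_mul _
    have h2 : ‖(E ^ n - F ^ n) * F‖ ≤ n * ‖E - F‖ := by
      calc ‖(E ^ n - F ^ n) * F‖ ≤ ‖E ^ n - F ^ n‖ * ‖F‖ := norm_mul_le _ _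
        _ ≤ (n * ‖E - F‖) * 1 := by gcongr
        _ = n * ‖E - F‖ := mul_one _
    calc _ ≤ ‖E ^ n * (E - F)‖ + ‖(E ^ n - F ^ n) * F‖ := norm_add_le _ _
      _ ≤ ‖E - F‖ + n * ‖E - F‖ := add_le_add h1 h2
      _ = ((n + 1 : ℕ) : ℝ) * ‖E - F‖ := by push_cast; ring

theorem cos_sin_sub_sq_le (a b : ℝ) :
    (Real.cos a - Real.cos b) ^ 2 + (Real.sin a - Real.sin b) ^ 2 ≤ (a - b) ^ 2 := by
  have h1 := Real.one_sub_sq_div_two_le_cos (x := a - b)
  rw [Real.cos_sub] at h1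
  nlinarith [Real.sin_sq_add_cos_sq a, Real.sin_sq_add_cos_sq b]

theorem abs_sin_sub_le_sq (t : ℝ) : |Real.sin t - t| ≤ t ^ 2 := by
  have h1 := Real.abs_sub_sin_le t
  rw [abs_sub_comm]
  have h0 := abs_nonneg t
  rcases le_total |t| 6 with h | h
  · have : |t| ^ 3 / 6 ≤ t ^ 2 := by
      rw [← sq_abs t]; nlinarith [sq_nonneg |t|]
    linarith
  · have h2 : |t - Real.sin t| ≤ |t| + |Real.sin t| := abs_sub _ _
    have h3 := Real.abs_sin_le_one t
    rw [← sq_abs t]; nlinarith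

/-- product of two small rotations -/
theorem norm_rot_mul_rot_lin {H : Type} [NormedAddCommGroup H] [InnerProductSpace ℂ H]
    [CompleteSpace H] {Q Q' : H →L[ℂ] H} (h1 : star Q = Q) (h2 : Q * Q = 1) (h1' : star Q' = Q')
    (h2' : Q' * Q' = 1) (δ : ℝ) :
    ‖rot Q δ * rot Q' δ - 1 + (Complex.I * (δ : ℂ)) • (Q + Q')‖ ≤ 3 * δ ^ 2 := by
  have e : rot Q δ * rot Q' δ - 1 + (Complex.I * (δ : ℂ)) • (Q + Q') =
      (rot Q δ - 1) * (rot Q' δ - 1) + (rot Q δ - 1 + (Complex.I * (δ : ℂ)) • Q)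
        + (rot Q' δ - 1 + (Complex.I * (δ : ℂ)) • Q') := by
    rw [smul_add, sub_mul, mul_sub, mul_sub, mul_one, one_mul, one_mul]; abel
  rw [e]
  have a1 : ‖(rot Q δ - 1) * (rot Q' δ - 1)‖ ≤ δ ^ 2 := by
    calc _ ≤ ‖rot Q δ - 1‖ * ‖rot Q' δ - 1‖ := norm_mul_le _ _
      _ ≤ |δ| * |δ| :=
        mul_le_mul (norm_rot_sub_one h1 h2 δ) (norm_rot_sub_one h1' h2' δ) (norm_nonneg _)
          (abs_nonneg _)
      _ = δ ^ 2 := by rw [abs_mul_abs_self]; ring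
  have a2 := norm_rot_sub_lin h1 h2 δ
  have a3 := norm_rot_sub_lin h1' h2' δ
  calc _ ≤ _ := norm_add₃_le
    _ ≤ δ ^ 2 + δ ^ 2 + δ ^ 2 := by gcongr
    _ = 3 * δ ^ 2 := by ring

/-- Lie–Trotter in norm: contractions that agree to second order -/
theorem tendsto_pow_of_close {H : Type} [NormedAddCommGroup H] [InnerProductSpace ℂ H]
    {E F : ℕ → H →L[ℂ] H} {V : H →L[ℂ] H} {C : ℝ} (hE : ∀ n, ‖E n‖ ≤ 1) (hF : ∀ n, ‖F n‖ ≤ 1)
    (hV : ∀ n, 0 < n → F n ^ n = V) (h : ∀ n, 0 < n → ‖E n - F n‖ ≤ C / (n : ℝ) ^ 2) :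
    Tendsto (fun n => ‖E n ^ n - V‖) atTop (𝓝 0) := by
  have hb : ∀ n, 0 < n → ‖E n ^ n - V‖ ≤ C / n := by
    intro n hn
    have hn' : (0 : ℝ) < n := by exact_mod_cast hn
    rw [← hV n hn]
    calc ‖E n ^ n - F n ^ n‖ ≤ n * ‖E n - F n‖ := norm_pow_sub_pow_contr (hE n) (hF n) n
      _ ≤ n * (C / (n : ℝ) ^ 2) := by gcongr; exact h n hn
      _ = C / n := by field_simp
  refine squeeze_zero' (Eventually.of_forall fun n => norm_nonneg _) ?_
    (tendsto_const_div_atTop_nhds_zero_nat C)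
  filter_upwards [eventually_gt_atTop 0] with n hn using hb n hn

namespace Model

variable {K : ℕ} {I : Iamp K} {H KK : Type} [NormedAddCommGroup H] [InnerProductSpace ℂ H]
  [CompleteSpace H] [NormedAddCommGroup KK] [InnerProductSpace ℂ KK] (m : Model I H KK)

omit m in
theorem norm_sub_I_sq {A B Q : H →L[ℂ] H} (hA : star A = A) (hB : star B = B) (h1 : star Q = Q)
    (h2 : Q * Q = 1) (hQA : Commute Q A) (hQB : Commute Q B) (hAB : Commute A B) (v : H) :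
    ‖(A - Complex.I • (Q * B)) v‖ ^ 2 = ‖A v‖ ^ 2 + ‖B v‖ ^ 2 := by
  have e : star (A - Complex.I • (Q * B)) * (A - Complex.I • (Q * B)) = star A * A + star B * B := by
    rw [star_sub, star_smul, star_mul, hA, hB, h1]
    have c1 : B * Q * A = A * (Q * B) := by
      rw [← hQB.eq, mul_assoc, ← hAB.eq, ← mul_assoc, hQA.eq, mul_assoc]
    have c2 : B * Q * (Q * B) = B * B := by
      rw [mul_assoc, ← mul_assoc Q Q B, h2, one_mul]
    simp only [_root_.mul_sub, sub_mul, smul_mul_assoc, mul_smul_comm, c1, c2,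
      Complex.star_def, Complex.conj_I]
    simp only [smul_sub, smul_smul, neg_smul, smul_neg, Complex.I_mul_I, neg_neg, one_smul]
    abel
  have key : ∀ T : H →L[ℂ] H, ‖T v‖ ^ 2 = (⟪v, (star T * T) v⟫_ℂ).re := by
    intro T
    rw [mul_apply_eq_comp, ContinuousLinearMap.star_eq_adjoint,
      ContinuousLinearMap.adjoint_inner_right, ← inner_self_eq_norm_sq (𝕜 := ℂ)]
    rfl
  rw [key, key A, key B, e, add_apply, inner_add_right, Complex.add_re]

omit m in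
theorem _root_.Crest.Agent.R339.BM.integrable_norm_sq {g : Lab K → ℂ} (hg : BM g) :
    Integrable (fun x => ‖g x‖ ^ 2) (gL K) := by
  obtain ⟨hm, C, hC⟩ := hg
  refine Integrable.of_bound (hm.norm.pow_const 2).aestronglyMeasurable (C ^ 2)
    (Eventually.of_forall fun x => ?_)
  rw [Real.norm_eq_abs, abs_of_nonneg (by positivity)]
  exact pow_le_pow_left₀ (norm_nonneg _) (hC x) 2

theorem norm_rotF_sub_sq {Q : H →L[ℂ] H} (hQ : m.IsAxis Q) {ϑ ϑ' : Lab K → ℝ} (hϑ : Measurable ϑ)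
    (hϑ' : Measurable ϑ') (hi : Integrable (fun x => (ϑ x - ϑ' x) ^ 2) (gL K)) (b : Bool) {z : KK}
    (hz : z ∈ m.R) : ‖m.rotF Q ϑ (m.coh b z) - m.rotF Q ϑ' (m.coh b z)‖ ^ 2 ≤
      ∫ x, (ϑ x - ϑ' x) ^ 2 ∂gL K := by
  set gc : Lab K → ℂ := fun x => ((Real.cos (ϑ x) - Real.cos (ϑ' x) : ℝ) : ℂ) with hgc
  set gs : Lab K → ℂ := fun x => ((Real.sin (ϑ x) - Real.sin (ϑ' x) : ℝ) : ℂ) with hgs
  have ec : gc = (fun x => ((Real.cos (ϑ x) : ℝ) : ℂ)) - fun x => ((Real.cos (ϑ' x) : ℝ) : ℂ) := by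
    funext x; simp only [hgc, Pi.sub_apply]; push_cast; rfl
  have es : gs = (fun x => ((Real.sin (ϑ x) : ℝ) : ℂ)) - fun x => ((Real.sin (ϑ' x) : ℝ) : ℂ) := by
    funext x; simp only [hgs, Pi.sub_apply]; push_cast; rfl
  have bc : BM gc := ec ▸ (BM.cos hϑ).sub (BM.cos hϑ')
  have bs : BM gs := es ▸ (BM.sin hϑ).sub (BM.sin hϑ')
  have e : m.rotF Q ϑ - m.rotF Q ϑ' = m.mul gc - Complex.I • (Q * m.mul gs) := by
    rw [ec, es, m.mul_sub (BM.cos hϑ) (BM.cos hϑ'), m.mul_sub (BM.sin hϑ) (BM.sin hϑ')]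
    unfold rotF
    rw [_root_.mul_sub, smul_sub]; abel
  have sc : star (m.mul gc) = m.mul gc := by
    rw [m.mul_star _ bc]; congr 1; funext x; simp only [hgc, Complex.conj_ofReal]
  have ss : star (m.mul gs) = m.mul gs := by
    rw [m.mul_star _ bs]; congr 1; funext x; simp only [hgs, Complex.conj_ofReal]
  rw [← sub_apply, e,
    norm_sub_I_sq sc ss hQ.1 hQ.2.1 (hQ.2.2.1 _ bc) (hQ.2.2.1 _ bs) (m.mul_comm' bc bs),
    m.norm_mul_coh_sq bc b hz, m.norm_mul_coh_sq bs b hz]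
  have ic : Integrable (fun x => ‖gc x‖ ^ 2) (gL K) := BM.integrable_norm_sq bc
  have is : Integrable (fun x => ‖gs x‖ ^ 2) (gL K) := BM.integrable_norm_sq bs
  rw [← integral_add ic is]
  refine integral_mono (ic.add is) hi fun x => ?_
  simp only [hgc, hgs, Complex.norm_real, Real.norm_eq_abs, sq_abs]
  exact cos_sin_sub_sq_le _ _
theorem norm_rotF_sub_lin {Q : H →L[ℂ] H} (hQ : m.IsAxis Q) {ϑ : Lab K → ℝ} (hϑ : Measurable ϑ) {c : ℝ}
    (hc : ∀ x, |ϑ x| ≤ c) :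
    ‖m.rotF Q ϑ - 1 + Complex.I • (Q * m.mul (fun x => (ϑ x : ℂ)))‖ ≤ 2 * c ^ 2 := by
  have bϑ : BM (fun x => (ϑ x : ℂ)) := BM.ofReal hϑ hc
  have e : m.rotF Q ϑ - 1 + Complex.I • (Q * m.mul (fun x => (ϑ x : ℂ))) =
      m.mul ((fun x => ((Real.cos (ϑ x) : ℝ) : ℂ)) - fun _ => 1) -
        Complex.I • (Q * m.mul ((fun x => ((Real.sin (ϑ x) : ℝ) : ℂ)) - fun x => (ϑ x : ℂ))) := by
    rw [m.mul_sub (BM.cos hϑ) (BM.const 1), m.mul_sub (BM.sin hϑ) bϑ, m.mul_one']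
    unfold rotF
    rw [_root_.mul_sub, smul_sub]; abel
  have hsq : ∀ x, ϑ x ^ 2 ≤ c ^ 2 := fun x => by
    rw [← sq_abs (ϑ x)]; exact pow_le_pow_left₀ (abs_nonneg _) (hc x) 2
  have a1 : ‖m.mul ((fun x => ((Real.cos (ϑ x) : ℝ) : ℂ)) - fun _ => 1)‖ ≤ c ^ 2 := by
    refine m.mul_norm _ _ ((BM.cos hϑ).sub (BM.const 1)).1 fun x => ?_
    have : ((fun x => ((Real.cos (ϑ x) : ℝ) : ℂ)) - fun _ => (1 : ℂ) : Lab K → ℂ) x =
        ((Real.cos (ϑ x) - 1 : ℝ) : ℂ) := by simp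
    rw [this, Complex.norm_real, Real.norm_eq_abs, abs_le]
    have h1 := Real.one_sub_sq_div_two_le_cos (x := ϑ x)
    have h2 := Real.cos_le_one (ϑ x)
    have h3 := hsq x
    constructor <;> nlinarith [sq_nonneg (ϑ x)]
  have a2 : ‖m.mul ((fun x => ((Real.sin (ϑ x) : ℝ) : ℂ)) - fun x => (ϑ x : ℂ))‖ ≤ c ^ 2 := by
    refine m.mul_norm _ _ ((BM.sin hϑ).sub bϑ).1 fun x => ?_
    have : ((fun x => ((Real.sin (ϑ x) : ℝ) : ℂ)) - fun x => (ϑ x : ℂ) : Lab K → ℂ) x =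
        ((Real.sin (ϑ x) - ϑ x : ℝ) : ℂ) := by simp
    rw [this, Complex.norm_real, Real.norm_eq_abs]
    exact (abs_sin_sub_le_sq _).trans (hsq x)
  have a3 := norm_axis_le hQ.1 hQ.2.1
  rw [e]
  refine (norm_sub_le _ _).trans ?_
  rw [norm_smul, Complex.norm_I, one_mul]
  have a4 := (norm_mul_le Q _).trans (mul_le_mul a3 a2 (norm_nonneg _) zero_le_one)
  linarith
theorem rotF_pow {Q : H →L[ℂ] H} (hQ : m.IsAxis Q) {ϑ : Lab K → ℝ} (hϑ : Measurable ϑ) (n : ℕ) :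
    m.rotF Q ϑ ^ n = m.rotF Q (fun x => n * ϑ x) := by
  induction n with
  | zero =>
    rw [pow_zero, ← m.rotF_zero Q]; congr 1; funext x; simp
  | succ n ih =>
    rw [pow_succ, ih, ← m.rotF_add hQ.2.1 hQ.2.2.1 (hϑ.const_mul _) hϑ]
    congr 1; funext x; simp only [Pi.add_apply]; push_cast; ring

/-- Trotter product of two available one-parameter groups -/
theorem free_trotter {M : ℕ} {Q Q₁ Q₂ : H →L[ℂ] H} (hQ : m.IsAxis Q) {g : Lab K → ℝ}
    (hg : Measurable g) (hg1 : ∀ x, |g x| ≤ 1) (h1 : star Q₁ = Q₁) (h2 : Q₁ * Q₁ = 1)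
    (h1' : star Q₂ = Q₂) (h2' : Q₂ * Q₂ = 1) (f1 : ∀ δ, m.Free M (rot Q₁ δ))
    (f2 : ∀ δ, m.Free M (rot Q₂ δ))
    (hs : Q₁ + Q₂ = (2 : ℂ) • (Q * m.mul fun x => (g x : ℂ))) (c : ℝ) :
    m.Free M (m.rotF Q fun x => c * g x) := by
  have hF : ∀ n : ℕ, m.Fib (m.rotF Q fun x => c / n * g x) := fun n =>
    m.fib_rotF hQ.1 hQ.2.1 hQ.2.2.1 (hg.const_mul _)
  have hE : ∀ n : ℕ, m.Free M (rot Q₁ (c / n / 2) * rot Q₂ (c / n / 2)) := fun n =>
    (f1 _).mul (f2 _)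
  have ht := tendsto_pow_of_close (E := fun n : ℕ => rot Q₁ (c / n / 2) * rot Q₂ (c / n / 2))
    (F := fun n : ℕ => m.rotF Q fun x => c / n * g x) (V := m.rotF Q fun x => c * g x)
    (C := 3 * c ^ 2) (fun n => (hE n).1.norm_le) (fun n => (hF n).norm_le) ?_ ?_
  · exact m.free_of_stend (l := atTop) (Eventually.of_forall fun n => (hE n).pow n)
      (m.fib_rotF hQ.1 hQ.2.1 hQ.2.2.1 (hg.const_mul _)) (STend.of_norm ht)
  · intro n hn
    have hn' : (n : ℝ) ≠ 0 := by exact_mod_cast hn.ne'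
    rw [m.rotF_pow hQ (hg.const_mul _)]
    congr 1; funext x; field_simp
  · intro n hn
    have hn' : (0 : ℝ) < n := by exact_mod_cast hn
    have a1 := norm_rot_mul_rot_lin h1 h2 h1' h2' (c / n / 2)
    have a2 := m.norm_rotF_sub_lin hQ (ϑ := fun x => c / n * g x) (hg.const_mul _) (c := |c / n|)
      (fun x => by
        rw [abs_mul]; exact mul_le_of_le_one_right (abs_nonneg _) (hg1 x))
    have e1 : m.mul (fun x => ((c / n * g x : ℝ) : ℂ)) =
        ((c / n : ℝ) : ℂ) • m.mul fun x => (g x : ℂ) := by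
      rw [← m.mul_smul _ (BM.ofReal hg hg1)]; congr 1; funext x; push_cast; ring
    have e2 : (Complex.I * ((c / n / 2 : ℝ) : ℂ)) • (Q₁ + Q₂) =
        Complex.I • (Q * m.mul (fun x => ((c / n * g x : ℝ) : ℂ))) := by
      rw [hs, e1, mul_smul_comm, smul_smul, smul_smul]; congr 1; push_cast; ring
    rw [e2] at a1
    have a3 := norm_sub_le (rot Q₁ (c / n / 2) * rot Q₂ (c / n / 2) - 1 +
        Complex.I • (Q * m.mul (fun x => ((c / n * g x : ℝ) : ℂ))))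
      (m.rotF Q (fun x => c / n * g x) - 1 +
        Complex.I • (Q * m.mul (fun x => ((c / n * g x : ℝ) : ℂ))))
    rw [add_sub_add_right_eq_sub, sub_sub_sub_cancel_right] at a3
    rw [sq_abs] at a2
    have e3 : 3 * c ^ 2 / (n : ℝ) ^ 2 = 3 * (c / n) ^ 2 := by field_simp
    rw [e3]
    nlinarith [sq_nonneg (c / n)]

/-- the axis `X` conjugated by a label rotation -/
noncomputable def cjX (a : Fin (K + 1) → ℝ) : H →L[ℂ] H :=
  star (m.D m.Z (m.labv fun i => a i / 2)) * m.X * m.D m.Z (m.labv fun i => a i / 2)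

theorem conj_star (a : Fin (K + 1) → ℝ) : star (m.cjX a) = m.cjX a := by
  unfold cjX
  rw [star_mul, star_mul, star_star, m.X_star, mul_assoc]

theorem conj_sq (a : Fin (K + 1) → ℝ) : m.cjX a * m.cjX a = 1 := by
  have hS := m.isAxis_Z.fib_D (m.labv_mem fun i => a i / 2)
  unfold cjX
  set S := m.D m.Z (m.labv fun i => a i / 2)
  calc star S * m.X * S * (star S * m.X * S) = star S * (m.X * (S * star S) * m.X) * S := by
        simp only [mul_assoc]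
    _ = 1 := by rw [hS.mul_star_self, mul_one, m.X_sq, mul_one, hS.star_mul_self]

theorem labv_neg (a : Fin (K + 1) → ℝ) : m.labv (-a) = -m.labv a := by
  unfold labv; simp

theorem free_conj {M : ℕ} {a : Fin (K + 1) → ℝ} (ha : ∀ i : Fin (K + 1), M ≤ (i : ℕ) → a i = 0)
    (δ : ℝ) : m.Free M (rot (m.cjX a) δ) := by
  have hS := m.isAxis_Z.fib_D (m.labv_mem fun i => a i / 2)
  unfold cjX
  rw [← conj_rot (hS.star_mul_self)]
  refine Free.mul (Free.mul ?_ (m.free_B M δ)) (m.free_lab fun i hi => by simp [ha i hi])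
  rw [m.isAxis_Z.star_D, ← m.labv_neg]
  exact m.free_lab fun i hi => by simp [ha i hi]

theorem cjX_eq (a : Fin (K + 1) → ℝ) : m.cjX a =
    m.X * m.mul (fun x => ((Real.cos (∑ i, a i * x i) : ℝ) : ℂ)) -
      m.Y * m.mul (fun x => ((Real.sin (∑ i, a i * x i) : ℝ) : ℂ)) := by
  have hXZ : m.X * m.Z = -(m.Z * m.X) := by rw [m.ZX, neg_neg]
  have e : (2 : ℝ) • m.labv (fun i => a i / 2) = m.labv a := by
    unfold labv
    rw [Finset.smul_sum]
    refine Finset.sum_congr rfl fun i _ => ?_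
    rw [smul_smul]; congr 1; ring
  unfold cjX
  rw [m.isAxis_Z.conj_anti m.isAxis_X hXZ (m.labv_mem _), e, m.D_labv a m.isAxis_Z]
  unfold rotF Y
  rw [_root_.mul_sub, mul_smul_comm, smul_mul_assoc, mul_assoc]

theorem conj_lab (a : Fin (K + 1) → ℝ) :
    m.cjX a = m.X * m.mul (fun x => ((Real.cos (∑ i, a i * x i) : ℝ) : ℂ)) -
      m.Y * m.mul (fun x => ((Real.sin (∑ i, a i * x i) : ℝ) : ℂ)) ∧
    m.cjX (-a) = m.X * m.mul (fun x => ((Real.cos (∑ i, a i * x i) : ℝ) : ℂ)) +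
      m.Y * m.mul (fun x => ((Real.sin (∑ i, a i * x i) : ℝ) : ℂ)) := by
  refine ⟨m.cjX_eq a, ?_⟩
  have hθ : Measurable fun x : Lab K => ∑ i, a i * x i := by fun_prop
  have e : ∀ x : Lab K, ∑ i, (-a) i * x i = -∑ i, a i * x i := fun x => by simp
  rw [m.cjX_eq (-a)]
  simp only [e, Real.cos_neg, Real.sin_neg]
  have e2 : (fun x : Lab K => ((-Real.sin (∑ i, a i * x i) : ℝ) : ℂ)) =
      -fun x : Lab K => ((Real.sin (∑ i, a i * x i) : ℝ) : ℂ) := by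
    funext x; simp only [Pi.neg_apply, Complex.ofReal_neg]
  rw [e2, m.mul_neg (BM.sin hθ), _root_.mul_neg, sub_neg_eq_add]

/-- With `S = D Z (labv (a/2))`: `S† B_δ S = rot (X cos(a·x) + Y sin(a·x)) δ`, `S B_δ S†` has the opposite
sine; Trotter products give the two lemmas. -/
theorem free_rotF_X_cos {M : ℕ} {a : Fin (K + 1) → ℝ} (ha : ∀ i : Fin (K + 1), M ≤ (i : ℕ) → a i = 0)
    (c : ℝ) : m.Free M (m.rotF m.X fun x => c * Real.cos (∑ i, a i * x i)) := by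
  obtain ⟨h1, h2⟩ := m.conj_lab a
  have hθ : Measurable fun x : Lab K => ∑ i, a i * x i := by fun_prop
  refine m.free_trotter m.isAxis_X (Real.measurable_cos.comp hθ) (fun x => Real.abs_cos_le_one _)
    (m.conj_star a) (m.conj_sq a) (m.conj_star (-a)) (m.conj_sq (-a))
    (m.free_conj ha) (m.free_conj (a := -a) fun i hi => by simp [ha i hi]) ?_ c
  rw [h1, h2, two_smul]; simp only [Function.comp_def]; abel
theorem free_rotF_Y_sin {M : ℕ} {a : Fin (K + 1) → ℝ} (ha : ∀ i : Fin (K + 1), M ≤ (i : ℕ) → a i = 0)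
    (c : ℝ) : m.Free M (m.rotF m.Y fun x => c * Real.sin (∑ i, a i * x i)) := by
  obtain ⟨h1, h2⟩ := m.conj_lab a
  have hθ : Measurable fun x : Lab K => ∑ i, a i * x i := by fun_prop
  refine m.free_trotter (Q₁ := m.cjX (-a)) (Q₂ := -m.cjX a) m.isAxis_Y
    (Real.measurable_sin.comp hθ) (fun x => Real.abs_sin_le_one _)
    (m.conj_star (-a)) (m.conj_sq (-a)) (by rw [star_neg, m.conj_star])
    (by rw [neg_mul_neg, m.conj_sq]) (m.free_conj (a := -a) fun i hi => by simp [ha i hi])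
    (fun δ => by rw [rot_neg_axis]; exact m.free_conj ha _) ?_ c
  rw [h1, h2, two_smul]; simp only [Function.comp_def]; abel
theorem free_rotF_sum {M : ℕ} {Q : H →L[ℂ] H} (hQ : m.IsAxis Q) {ι : Type} (s : Finset ι)
    {g : ι → Lab K → ℝ} (hg : ∀ k, Measurable (g k)) (hf : ∀ k, m.Free M (m.rotF Q (g k))) :
    m.Free M (m.rotF Q fun x => ∑ k ∈ s, g k x) := by
  classical
  induction s using Finset.induction_on with
  | empty =>
    have : (fun x : Lab K => ∑ k ∈ (∅ : Finset ι), g k x) = 0 := by funext x; simp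
    rw [this, m.rotF_zero]; exact m.free_one M
  | insert k s hk ih =>
    have : (fun x : Lab K => ∑ k ∈ insert k s, g k x) = g k + fun x => ∑ k ∈ s, g k x := by
      funext x; simp [Finset.sum_insert hk]
    rw [this, m.rotF_add hQ.2.1 hQ.2.2.1 (hg k) (Finset.measurable_sum _ fun k _ => hg k)]
    exact (hf k).mul ih

theorem free_rotF_of_dense {M : ℕ} {Q : H →L[ℂ] H} (hQ : m.IsAxis Q) {β : Lab K → ℝ}
    (hβ : Measurable β) (hb : ∃ C, ∀ x, |β x| ≤ C)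
    (h : ∀ ε > (0 : ℝ), ∃ p : Lab K → ℝ, Measurable p ∧ (∃ C, ∀ x, |p x| ≤ C) ∧
      m.Free M (m.rotF Q p) ∧ ∫ x, (β x - p x) ^ 2 ∂gL K < ε) : m.Free M (m.rotF Q β) := by
  choose p hp hpb hpf hpi using fun n : ℕ => h (1 / ((n : ℝ) + 1)) Nat.one_div_pos_of_nat
  have hFib := m.fib_rotF hQ.1 hQ.2.1 hQ.2.2.1 hβ
  refine m.free_of_stend (l := atTop) (Eventually.of_forall hpf) hFib
    (m.stend_of_coh (Eventually.of_forall fun n => (hpf n).1) hFib fun b z hz => ?_)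
  rw [tendsto_iff_norm_sub_tendsto_zero]
  have hs : Tendsto (fun n : ℕ => Real.sqrt (1 / ((n : ℝ) + 1))) atTop (𝓝 0) := by
    have := (tendsto_one_div_add_atTop_nhds_zero_nat (𝕜 := ℝ)).sqrt
    rwa [Real.sqrt_zero] at this
  refine squeeze_zero (fun n => norm_nonneg _) (fun n => ?_) hs
  obtain ⟨C, hC⟩ := hb
  obtain ⟨C', hC'⟩ := hpb n
  have hi : Integrable (fun x => (β x - p n x) ^ 2) (gL K) := by
    refine Integrable.of_bound ((hβ.sub (hp n)).pow_const 2).aestronglyMeasurable ((C + C') ^ 2)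
      (Eventually.of_forall fun x => ?_)
    rw [Real.norm_eq_abs, abs_pow]
    exact pow_le_pow_left₀ (abs_nonneg _) ((abs_sub _ _).trans (add_le_add (hC x) (hC' x))) 2
  have h1 := m.norm_rotF_sub_sq hQ hβ (hp n) hi b hz
  rw [norm_sub_rev]
  exact Real.le_sqrt_of_sq_le (h1.trans (hpi n).le)

theorem free_rotF_X {M : ℕ} {β : Lab K → ℝ} (hβ : BR M β) (he : ∀ x, β (-x) = β x) :
    m.Free M (m.rotF m.X β) := by
  refine m.free_rotF_of_dense m.isAxis_X hβ.1 hβ.2.1 fun ε hε => ?_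
  obtain ⟨n, c, a, ha, h⟩ := dense_cos hβ he hε
  refine ⟨fun x => ∑ k, c k * Real.cos (∑ i, a k i * x i), by fun_prop, ⟨∑ k, |c k|, fun x => ?_⟩, ?_, h⟩
  · refine (Finset.abs_sum_le_sum_abs _ _).trans (Finset.sum_le_sum fun k _ => ?_)
    rw [abs_mul]; exact mul_le_of_le_one_right (abs_nonneg _) (Real.abs_cos_le_one _)
  · exact m.free_rotF_sum m.isAxis_X Finset.univ
      (g := fun k x => c k * Real.cos (∑ i, a k i * x i)) (fun k => by fun_prop)
      fun k => m.free_rotF_X_cos (ha k) (c k)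
theorem free_rotF_Y {M : ℕ} {ϑ : Lab K → ℝ} (hϑ : BR M ϑ) (ho : ∀ x, ϑ (-x) = -ϑ x) :
    m.Free M (m.rotF m.Y ϑ) := by
  refine m.free_rotF_of_dense m.isAxis_Y hϑ.1 hϑ.2.1 fun ε hε => ?_
  obtain ⟨n, c, a, ha, h⟩ := dense_sin hϑ ho hε
  refine ⟨fun x => ∑ k, c k * Real.sin (∑ i, a k i * x i), by fun_prop, ⟨∑ k, |c k|, fun x => ?_⟩, ?_, h⟩
  · refine (Finset.abs_sum_le_sum_abs _ _).trans (Finset.sum_le_sum fun k _ => ?_)
    rw [abs_mul]; exact mul_le_of_le_one_right (abs_nonneg _) (Real.abs_sin_le_one _)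
  · exact m.free_rotF_sum m.isAxis_Y Finset.univ
      (g := fun k x => c k * Real.sin (∑ i, a k i * x i)) (fun k => by fun_prop)
      fun k => m.free_rotF_Y_sin (ha k) (c k)
/-- conjugate `rotF Y` with `B (π/4)` -/
theorem free_rotF_Z {M : ℕ} {ϑ : Lab K → ℝ} (hϑ : BR M ϑ) (ho : ∀ x, ϑ (-x) = -ϑ x) :
    m.Free M (m.rotF m.Z ϑ) := by
  have hB := m.fib_B (Real.pi / 4)
  have e1 : star (m.B (Real.pi / 4)) * m.Z * m.B (Real.pi / 4) = m.Y := by
    rw [m.B_conj_Z, show 2 * (Real.pi / 4) = Real.pi / 2 by ring, Real.cos_pi_div_two,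
      Real.sin_pi_div_two]
    simp
  have e2 := m.conj_rotF (Q := m.Z) hB hϑ.1
  rw [e1] at e2
  have e3 : m.rotF m.Z ϑ = m.B (Real.pi / 4) * m.rotF m.Y ϑ * star (m.B (Real.pi / 4)) := by
    rw [← e2]
    calc m.rotF m.Z ϑ = (m.B (Real.pi / 4) * star (m.B (Real.pi / 4))) * m.rotF m.Z ϑ *
          (m.B (Real.pi / 4) * star (m.B (Real.pi / 4))) := by
          rw [hB.mul_star_self, one_mul, mul_one]
      _ = _ := by simp only [mul_assoc]
  rw [e3]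
  refine Free.mul (Free.mul (m.free_B M _) (m.free_rotF_Y hϑ ho)) ?_
  unfold B
  rw [star_rot m.X_star]
  exact m.free_B M _
theorem free_X_on {M : ℕ} {E : Set (Lab K)} (hE : EvS M E) (α : ℝ) :
    m.Free M (m.P E * rot m.X α + m.P Eᶜ) := by
  rw [← m.rotF_ind m.cen_X hE.1]
  exact m.free_rotF_X (hE.br_ind α).1 (hE.br_ind α).2
theorem free_SgY_on {M : ℕ} (hM : 1 ≤ M) {E : Set (Lab K)} (hE : EvS M E) (α : ℝ) :
    m.Free M (m.P E * rot (m.Sg * m.Y) α + m.P Eᶜ) := by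
  rw [← m.rotF_sign m.cen_Y hE.1]
  exact m.free_rotF_Y (hE.br_sign hM α).1 (hE.br_sign hM α).2
theorem free_SgZ_on {M : ℕ} (hM : 1 ≤ M) {E : Set (Lab K)} (hE : EvS M E) (α : ℝ) :
    m.Free M (m.P E * rot (m.Sg * m.Z) α + m.P Eᶜ) := by
  rw [← m.rotF_sign m.cen_Z hE.1]
  exact m.free_rotF_Z (hE.br_sign hM α).1 (hE.br_sign hM α).2
/-- the final state: `ξ = M Ω + cos(2ϑ) Y Ω` with `ϑ = arcsin M / 2` -/
theorem final_state : ∃ U ∈ m.Cl (K + 1), m.En U = I.value := by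
  set ϑ : Lab K → ℝ := fun x => -(Real.arcsin (I.M x) / 2) with hϑ
  have hm : Measurable ϑ := ((Real.continuous_arcsin.measurable.comp I.M_meas).div_const 2).neg
  have hBR : BR (K + 1) ϑ := by
    refine ⟨hm, ⟨Real.pi, fun x => ?_⟩, fun x x' h => ?_⟩
    · have h1 := Real.arcsin_le_pi_div_two (I.M x)
      have h2 := Real.neg_pi_div_two_le_arcsin (I.M x)
      have h3 := Real.pi_pos
      simp only [hϑ]; rw [abs_le]; constructor <;> linarith
    · have : x = x' := funext fun i => h i i.2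
      rw [this]
  have ho : ∀ x, ϑ (-x) = -ϑ x := fun x => by
    simp only [hϑ, I.M_odd, Real.arcsin_neg]; ring
  have hF := m.free_rotF_Y hBR ho
  refine ⟨m.rotF m.Y ϑ, by simpa using hF.2 1 (m.one_mem_Cl _), ?_⟩
  have bM : BM (fun x => (I.M x : ℂ)) := BM.ofReal I.M_meas I.M_le
  have hm2 : Measurable (-ϑ + -ϑ) := hm.neg.add hm.neg
  have bc := BM.cos hm2
  set Cc := m.mul (fun x => ((Real.cos ((-ϑ + -ϑ) x) : ℝ) : ℂ)) with hCc
  have hZY : m.Z * m.Y = -(m.Y * m.Z) := by rw [m.ZY, m.YZ]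
  have es : (fun x => ((Real.sin ((-ϑ + -ϑ) x) : ℝ) : ℂ)) = fun x => (I.M x : ℂ) := by
    funext x
    have h := abs_le.1 (I.M_le x)
    have : (-ϑ + -ϑ) x = Real.arcsin (I.M x) := by simp only [hϑ, Pi.add_apply, Pi.neg_apply]; ring
    rw [this, Real.sin_arcsin h.1 h.2]
  have hxi : m.xi (m.rotF m.Y ϑ) = m.mul (fun x => (I.M x : ℂ)) m.vac + m.Z (Cc m.vac) := by
    have e : star (m.rotF m.Y ϑ) * m.Z * m.rotF m.Y ϑ =
        m.mul (fun x => (I.M x : ℂ)) * m.X + m.Z * Cc := by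
      rw [mul_assoc, m.anti_rotF m.cen_Z hZY hm, m.star_rotF m.Y_star m.cen_Y hm, ← mul_assoc,
        ← m.rotF_add m.Y_sq m.cen_Y hm.neg hm.neg]
      unfold rotF
      rw [es, ← hCc, sub_mul, (m.Z_mul _ bc).eq, smul_mul_assoc, (m.cen_Y _ bM).eq, mul_assoc, m.YZ,
        mul_smul_comm, smul_smul, Complex.I_mul_I, neg_smul, one_smul, sub_neg_eq_add, add_comm]
    unfold xi heis
    rw [e, add_apply, mul_apply_eq_comp, m.X_vac,
      mul_apply_eq_comp]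
  -- the odd sector is orthogonal to the even one
  have hodd : ∀ v, m.X v = v → ⟪m.Z (Cc m.vac), v⟫_ℂ = 0 := by
    intro v hv
    have h1 : m.X (m.Z (Cc m.vac)) = -m.Z (Cc m.vac) := by
      have hXZ : m.X * m.Z = -(m.Z * m.X) := by rw [m.ZX, neg_neg]
      rw [← mul_apply_eq_comp, hXZ, neg_apply,
        mul_apply_eq_comp, ← mul_apply_eq_comp m.X Cc, (m.X_mul _ bc).eq,
        mul_apply_eq_comp, m.X_vac]
    have h2 := m.isAxis_X.fib.inner_apply (m.Z (Cc m.vac)) v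
    rw [h1, hv, inner_neg_left] at h2
    linear_combination (-1 / 2 : ℂ) * h2
  unfold En
  set ξ := m.xi (m.rotF m.Y ϑ) with hξ
  have h1 : ⟪ξ, m.io (m.j ξ)⟫_ℂ = ⟪m.mul (fun x => (I.M x : ℂ)) m.vac, m.io (m.j ξ)⟫_ℂ := by
    conv_lhs => rw [hxi, inner_add_left, hodd _ (m.X_io _), add_zero, ← hxi]
  have h2 : ∀ k : Fin K, ⟪m.d k.succ, m.j ξ⟫_ℂ = ((∫ x, I.f k x * I.M x ∂gL K : ℝ) : ℂ) := by
    intro k
    obtain ⟨C, hC⟩ := I.f_bdd k
    have bf : BM (fun x => (I.f k x : ℂ)) := BM.ofReal (I.f_meas k) hC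
    have hX : m.X (m.mul (fun x => (I.f k x : ℂ)) m.vac) = m.mul (fun x => (I.f k x : ℂ)) m.vac := by
      rw [← mul_apply_eq_comp, (m.X_mul _ bf).eq, mul_apply_eq_comp, m.X_vac]
    have sf : star (m.mul (fun x => (I.f k x : ℂ))) = m.mul (fun x => (I.f k x : ℂ)) := by
      rw [m.mul_star _ bf]; congr 1; funext x; simp only [Complex.conj_ofReal]
    rw [← m.j_f k, LinearIsometry.inner_map_map, hxi, inner_add_right, ← inner_conj_symm _ (m.Z _),
      hodd _ hX, map_zero, add_zero, ← sf, ContinuousLinearMap.star_eq_adjoint,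
      ContinuousLinearMap.adjoint_inner_left, ← mul_apply_eq_comp, ← m.mul_mul _ _ bf bM,
      m.inner_vac_mul (bf.mul bM), ← integral_complex_ofReal]
    congr 1; funext x; simp
  have h3 : ∀ i, ∫ x, conj ((I.M x : ℝ) : ℂ) * ((x i : ℝ) : ℂ) ∂gL K =
      ((∫ x, x i * I.M x ∂gL K : ℝ) : ℂ) := by
    intro i
    rw [← integral_complex_ofReal]
    congr 1; funext x; simp [mul_comm]
  rw [h1, m.io_mul _ bM, Fin.sum_univ_succ, m.j_d0, zero_mul, zero_add]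
  simp only [h2, h3, ← Complex.ofReal_mul, ← Complex.ofReal_sum, Complex.ofReal_re]
  rfl

end Model

end Crest.Agent.R339
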