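import Crest.Agent.R339.Q.Top
import Crest.Agent.R339.Q.Resp

/-!
# Row 339, part Q: generic words
-/

set_option autoImplicit false

namespace Crest.Agent.R339

open MeasureTheory ProbabilityTheory Filter Topology Crest.MathPhysics.SpinGlass
open scoped InnerProductSpace ComplexConjugate

namespace Model

variable {K : ℕ} {I : Iamp K} {H KK : Type} [NormedAddCommGroup H] [InnerProductSpace ℂ H]
  [CompleteSpace H] [NormedAddCommGroup KK] [InnerProductSpace ℂ KK] (m : Model I H KK)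

theorem gen_labv (a : ℝ) : m.labv (Pi.single 0 a) = a • m.d 0 := by
  rw [labv, Finset.sum_eq_single 0]
  · simp
  · intro i _ hi
    simp [hi]
  · simp

theorem gen_run1 (β : ℝ) : m.run [(0, 0, β)] = m.B β := by
  simp only [run, runFrom, List.foldl, step, fld, zero_smul, top_labv_zero, add_zero, m.D_zero,
    mul_one]

theorem gen_run2 (β a β₀ : ℝ) : m.run [(0, 0, β), (Pi.single 0 a, 0, β₀)] =
    m.B β₀ * m.D m.Z (a • m.d 0) * m.B β := by
  simp only [run, runFrom, List.foldl, step, fld, zero_smul, top_labv_zero, add_zero, m.D_zero,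
    mul_one, zero_add, gen_labv]

theorem gen_vac_D {y : KK} (hy : y ∈ m.R) :
    ⟪m.vac, m.D m.Z y m.vac⟫_ℂ = ((Real.exp (-‖y‖ ^ 2 / 2) : ℝ) : ℂ) := by
  have h1 := m.inner_vac_Z (m.commute_sinW m.X_W y)
  simp only [D, cosW, sub_apply, smul_apply, add_apply, ContinuousLinearMap.mul_apply,
    inner_sub_right, inner_smul_right, inner_add_right, h1, m.inner_vac_W hy,
    m.inner_vac_W (m.R.neg_mem hy), norm_neg]
  ring

theorem gen_inner {y : KK} (hy : y ∈ m.R) (β β₀ : ℝ) :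
    (⟪m.xi (m.B β₀ * m.D m.Z y * m.B β), m.xi (m.B β)⟫_ℂ).im =
      Real.sin (2 * β₀) * Real.exp (-‖(2 : ℝ) • y‖ ^ 2 / 2) := by
  have hB := m.fib_B β
  have hYZ : m.Y * m.Z = -(m.Z * m.Y) := by rw [m.YZ, m.ZY, neg_neg]
  have h2 : (2 : ℝ) • y ∈ m.R := m.R.smul_mem _ hy
  have e1 : ⟪m.xi (m.B β), m.xi (m.B β)⟫_ℂ = 1 := by
    rw [inner_self_eq_norm_sq_to_K, hB.norm_xi]; simp
  have e2 : ⟪m.heis (m.D m.Z y * m.B β) m.Y, m.xi (m.B β)⟫_ℂ =
      Complex.I * ((Real.exp (-‖(2 : ℝ) • y‖ ^ 2 / 2) : ℝ) : ℂ) := by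
    rw [m.heis_mul, m.isAxis_Z.conj_anti m.isAxis_Y hYZ hy, xi, hB.inner_heis, m.B_vac, map_smul,
      map_smul, inner_smul_left, inner_smul_right, ← mul_assoc, ← Complex.exp_conj,
      ← Complex.exp_add]
    have e3 : ⟪(m.Y * m.D m.Z ((2 : ℝ) • y)) m.vac, m.Z m.vac⟫_ℂ =
        ⟪m.D m.Z ((2 : ℝ) • y) m.vac, (m.Y * m.Z) m.vac⟫_ℂ := by
      rw [ContinuousLinearMap.mul_apply, ContinuousLinearMap.mul_apply,
        ← ContinuousLinearMap.adjoint_inner_right, ← ContinuousLinearMap.star_eq_adjoint, m.Y_star]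
    rw [e3, m.YZ, smul_apply, m.X_vac, inner_smul_right, ← inner_conj_symm, m.gen_vac_D h2,
      Complex.conj_ofReal]
    simp
  rw [mul_assoc, m.xi_B, m.xi_D hy, inner_add_left, inner_smul_left, inner_smul_left, e1, e2,
    Complex.conj_ofReal, Complex.conj_ofReal]
  simp only [mul_one, Complex.add_im, Complex.ofReal_im, zero_add, Complex.im_ofReal_mul,
    Complex.I_mul_im, Complex.ofReal_re]

/-- the prefix: `ξ = cos(2β) Z(…) + sin(2β) S† Y(…) S`, and `Fz = ± sin(2β₀) E[x₀ sin(2 a x₀)]` up to the first rotation -/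
theorem Fz_prefix {a β₀ : ℝ} (ha : a ≠ 0) (hβ : Real.sin (2 * β₀) ≠ 0) :
    m.Fz (m.run [(0, 0, Real.pi / 4), (Pi.single 0 a, 0, β₀)]) ≠ 0 := by
  have h := m.rsp_io [(0, 0, Real.pi / 4), (Pi.single 0 a, 0, β₀)] (k := 2) le_rfl (m.d 0)
  have e0 : m.wy [(0, 0, Real.pi / 4), (Pi.single 0 a, 0, β₀)] 0 = 0 := by
    simp [wy, fld, top_labv_zero]
  have e1 : m.wy [(0, 0, Real.pi / 4), (Pi.single 0 a, 0, β₀)] 1 = (a : ℂ) • m.d 0 := by
    simp [wy, fld, gen_labv]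
  rw [Finset.sum_range_succ, Finset.sum_range_one, e0, e1, inner_zero_right, mul_zero, zero_mul,
    zero_add, inner_smul_right, m.rsp_d0] at h
  simp only [List.take_succ_cons, List.take_zero] at h
  rw [Fz, h, gen_run2, gen_run1, m.gen_inner (m.R.smul_mem a (m.d_mem 0))]
  have : (2 * ((a : ℂ) * 1)) = ((2 * a : ℝ) : ℂ) := by push_cast; ring
  rw [this, ← Complex.ofReal_mul, Complex.ofReal_re]
  exact mul_ne_zero (mul_ne_zero two_ne_zero ha) (mul_ne_zero hβ (Real.exp_pos _).ne')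

/-- after a mixer `Fz` is a sinusoid in the angle whose cosine coefficient is the previous value -/
theorem frequently_Fz_ne {U : H →L[ℂ] H} (hU : m.Fib U) (hF : m.Fz U ≠ 0) (a : Fin (K + 1) → ℝ)
    (γ β : ℝ) {ε : ℝ} (hε : 0 < ε) : ∃ β', |β' - β| < ε ∧ m.Fz (m.step U (a, γ, β')) ≠ 0 := by
  obtain ⟨c, hc⟩ : ∃ c : ℝ, ∀ β', m.Fz (m.step U (a, γ, β')) =
      Real.cos (2 * β') * m.Fz U + Real.sin (2 * β') * c := by
    refine ⟨(⟪m.io (m.d 0), m.heis (m.D m.Z (m.fld U (a, γ, 0)) * U) m.Y⟫_ℂ).re, fun β' => ?_⟩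
    have e : m.step U (a, γ, β') = m.B β' * (m.D m.Z (m.fld U (a, γ, 0)) * U) := by
      rw [step, mul_assoc]; rfl
    rw [e, Fz, m.xi_B, m.xi_D (hU.fld_mem _), inner_add_right, inner_smul_right, inner_smul_right,
      Complex.add_re, Complex.re_ofReal_mul, Complex.re_ofReal_mul, Fz]
  by_cases h0 : m.Fz (m.step U (a, γ, β)) = 0
  · set t := min (ε / 2) (1 / 2) with ht
    have ht0 : 0 < t := lt_min (half_pos hε) (by norm_num)
    have ht1 : t ≤ ε / 2 := min_le_left _ _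
    have ht2 : t ≤ 1 / 2 := min_le_right _ _
    have hs : 0 < Real.sin (2 * t) :=
      Real.sin_pos_of_pos_of_lt_pi (by linarith) (by linarith [Real.pi_gt_three])
    refine ⟨β + t, by rw [add_sub_cancel_left, abs_of_pos ht0]; linarith, fun h1 => hF ?_⟩
    rw [hc] at h0 h1
    rw [_root_.mul_add, Real.cos_add, Real.sin_add] at h1
    have h2 : Real.sin (2 * t) * (Real.cos (2 * β) * c - Real.sin (2 * β) * m.Fz U) = 0 := by
      linear_combination h1 - Real.cos (2 * t) * h0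
    have h3 := (mul_eq_zero.1 h2).resolve_left hs.ne'
    linear_combination Real.cos (2 * β) * h0 - Real.sin (2 * β) * h3 -
      m.Fz U * Real.cos_sq_add_sin_sq (2 * β)
  · exact ⟨β, by simpa using hε, h0⟩

/-- generic words whose final state also has `Fz ≠ 0` -/
def GenW (M : ℕ) : Set (H →L[ℂ] H) :=
  {U | ∃ w, Lev M w ∧ m.Shape w ∧ m.Fz (m.run w) ≠ 0 ∧ U = m.run w}

theorem gen_fib {M : ℕ} {U : H →L[ℂ] H} (hU : U ∈ m.GenW M) : m.Fib U := by
  obtain ⟨w, -, -, -, rfl⟩ := hU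
  exact m.fib_run w

theorem gen_step0 {M : ℕ} {U : H →L[ℂ] H} (hU : U ∈ m.GenW M) {L : Layer K} (hL : Lev M [L]) :
    m.step U L ∈ m.SCl (m.GenW M) := by
  have hf := m.gen_fib hU
  obtain ⟨w, hw, ⟨a₀, β₀, rest, hw1, hw2⟩, hF, rfl⟩ := hU
  obtain ⟨a, γ, β⟩ := L
  choose βs hβ1 hβ2 using fun n : ℕ =>
    m.frequently_Fz_ne hf hF a γ β (ε := 1 / ((n : ℝ) + 1)) Nat.one_div_pos_of_nat
  have hlim : Tendsto βs atTop (𝓝 β) := by
    rw [tendsto_iff_norm_sub_tendsto_zero]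
    exact squeeze_zero (fun n => norm_nonneg _) (fun n => (hβ1 n).le)
      tendsto_one_div_add_atTop_nhds_zero_nat
  refine m.mem_SCl_of_stend (l := atTop) (Us := fun n => m.step (m.run w) (a, γ, βs n))
    (Eventually.of_forall fun n => m.subset_SCl (fun _ => m.gen_fib) ?_) (m.fib_step hf _)
    (m.stend_step (Eventually.of_forall fun _ => hf) hf (STend.const _) a γ hlim)
  refine ⟨w ++ [(a, γ, βs n)], hw.append (top_lev_single M (hL (a, γ, β) (by simp))),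
    ⟨a₀, β₀, rest ++ [(a, γ, βs n)], by rw [hw1]; rfl, fun k hk hk' => ?_⟩,
    by rw [m.run_snoc]; exact hβ2 n, (m.run_snoc _ _).symm⟩
  rw [List.length_append, List.length_singleton] at hk'
  rw [List.take_append_of_le_length (by omega)]
  rcases Nat.lt_or_ge k w.length with h | h
  · exact hw2 k hk h
  · rwa [List.take_of_length_le h]

theorem gen_step {M : ℕ} {U : H →L[ℂ] H} (hU : U ∈ m.SCl (m.GenW M)) {L : Layer K}
    (hL : Lev M [L]) : m.step U L ∈ m.SCl (m.GenW M) :=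
  m.SCl_map (fun _ => m.gen_fib) (fun V => m.step V L) hU (m.fib_step hU.1 L)
    fun _ hl hs => ⟨m.stend_step hl hU.1 hs L.1 L.2.1 tendsto_const_nhds,
      Eventually.of_forall fun _ hV => m.gen_step0 hV hL⟩

theorem gen_lev {M : ℕ} (hM : 1 ≤ M) (a γ β : ℝ) :
    Lev M [((Pi.single 0 a, γ, β) : Layer K)] := by
  refine top_lev_single M fun i hi => ?_
  have : i ≠ 0 := by
    rintro rfl
    simp at hi
    omega
  simp [this]

theorem gen_one {M : ℕ} (hM : 1 ≤ M) : (1 : H →L[ℂ] H) ∈ m.SCl (m.GenW M) := by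
  have hd : (1 : ℝ) • m.d 0 ∈ m.R := m.R.smul_mem _ (m.d_mem 0)
  have h1 : m.B 0 * (m.D m.Z ((1 : ℝ) • m.d 0) * m.B (Real.pi / 4)) ∈ m.SCl (m.GenW M) := by
    refine m.mem_SCl_of_stend (l := atTop) (Us := fun n : ℕ =>
      m.B (1 / ((n : ℝ) + 1)) * (m.D m.Z ((1 : ℝ) • m.d 0) * m.B (Real.pi / 4)))
      (Eventually.of_forall fun n => m.subset_SCl (fun _ => m.gen_fib) ?_)
      ((m.fib_B 0).mul ((m.isAxis_Z.fib_D hd).mul (m.fib_B _)))
      fun v => m.stend_B tendsto_one_div_add_atTop_nhds_zero_nat _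
    have hp : (0 : ℝ) < 1 / ((n : ℝ) + 1) := Nat.one_div_pos_of_nat
    have hq : 1 / ((n : ℝ) + 1) ≤ 1 := by
      rw [div_le_one (by positivity)]; linarith [Nat.cast_nonneg (α := ℝ) n]
    have hs : 0 < Real.sin (2 * (1 / ((n : ℝ) + 1))) :=
      Real.sin_pos_of_pos_of_lt_pi (by linarith) (by linarith [Real.pi_gt_three])
    refine ⟨[(0, 0, Real.pi / 4), (Pi.single 0 1, 0, 1 / ((n : ℝ) + 1))],
      (top_lev_single M fun _ _ => rfl).append (gen_lev hM _ _ _),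
      ⟨1, _, [], rfl, fun k hk hk' => absurd hk' (not_lt.2 hk)⟩,
      m.Fz_prefix one_ne_zero hs.ne', by rw [gen_run2, mul_assoc]⟩
  have h2 := m.gen_step h1 (gen_lev hM (-1) 0 (-(Real.pi / 4)))
  have e1 : m.D m.Z ((-1 : ℝ) • m.d 0) * m.D m.Z ((1 : ℝ) • m.d 0) = 1 := by
    rw [neg_smul, ← m.isAxis_Z.star_D]
    exact (m.isAxis_Z.fib_D hd).star_mul_self
  have e2 : m.B (-(Real.pi / 4)) * m.B (Real.pi / 4) = 1 := by
    rw [B, B, ← rot_add m.X_sq, neg_add_cancel, rot_zero]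
  have e3 : m.B 0 = 1 := rot_zero
  simp only [step, fld, zero_smul, zero_add, gen_labv, e3, one_mul] at h2
  rwa [mul_assoc, ← mul_assoc (m.D _ _), e1, one_mul, e2] at h2

/-- start: `[(0,0,π/4), (e₀,0,β₀), (-e₀,0,β₁)]` with `β₀ → 0`, `β₁ → -π/4` tends to `1`; then induction on the word from the
right, perturbing each mixer angle (`frequently_Fz_ne`, `stend_step`, `SCl_map`) -/
theorem run_mem_SCl_GenW {M : ℕ} (hM : 1 ≤ M) {w : List (Layer K)} (hw : Lev M w) :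
    m.run w ∈ m.SCl (m.GenW M) := by
  induction w using List.reverseRecOn with
  | nil => exact m.gen_one hM
  | append_singleton w L ih =>
    rw [m.run_snoc]
    exact m.gen_step (ih fun L' hL' => hw L' (by simp [hL']))
      (top_lev_single M (hw L (by simp)))

theorem exists_shape {M : ℕ} (hM : 1 ≤ M) {w : List (Layer K)} (hw : Lev M w) {ε : ℝ} (hε : 0 < ε) :
    ∃ w', Lev M w' ∧ m.Shape w' ∧ m.En (m.run w) - ε ≤ m.En (m.run w') := by
  obtain ⟨V, ⟨w', h1, h2, -, rfl⟩, h⟩ :=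
    m.En_le_of_mem_SCl (fun _ => m.gen_fib) (m.run_mem_SCl_GenW hM hw) hε
  exact ⟨w', h1, h2, h⟩

end Model

end Crest.Agent.R339
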