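import Crest.Agent.R339.Q.D4

/-!
# Row 339, part Q: states modulo hub unitaries
-/

set_option autoImplicit false

namespace Crest.Agent.R339

open MeasureTheory ProbabilityTheory Filter Topology Crest.MathPhysics.SpinGlass
open scoped InnerProductSpace ComplexConjugate

namespace Model

variable {K : ℕ} {I : Iamp K} {H KK : Type} [NormedAddCommGroup H] [InnerProductSpace ℂ H]
  [CompleteSpace H] [NormedAddCommGroup KK] [InnerProductSpace ℂ KK] (m : Model I H KK)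

/-- elementary hub unitary -/
noncomputable def hubE (T : Set (Lab K)) (y : KK) : H →L[ℂ] H := m.P T * m.D m.Sg y + m.P Tᶜ

/-- products of hub unitaries of level `M` -/
inductive Hub (M : ℕ) : (H →L[ℂ] H) → Prop
  | one : Hub M 1
  | mul {h : H →L[ℂ] H} (T : Set (Lab K)) (y : KK) (hT : EvS M T) (hy : y ∈ m.R) (hh : Hub M h) :
      Hub M (m.hubE T y * h)

/-- reachable states modulo hubs -/
def RH (M : ℕ) : Set (H →L[ℂ] H) := {V | ∃ h U, m.Hub M h ∧ U ∈ m.Cl M ∧ V = h * U}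

/-- cost gate acting only on the targets in `S` -/
noncomputable def tgtS (S : Set (Lab K)) (y : KK) : H →L[ℂ] H := m.P S * m.D m.Z y + m.P Sᶜ

theorem hub_fib_blk {E : Set (Lab K)} (hE : MeasurableSet E) {A : H →L[ℂ] H} (hA : m.Fib A) :
    m.Fib (m.P E * A + m.P Eᶜ) := by
  simpa only [mul_one] using m.fib_block2 hE hA m.fib_one
theorem hub_in {E F : Set (Lab K)} (hE : MeasurableSet E) (hF : MeasurableSet F) (h : E ⊆ F)
    (A : H →L[ℂ] H) : m.P E * (m.P F * A + m.P Fᶜ) = m.P E * A := by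
  simpa only [mul_one] using m.h34_in hE hF h A 1
theorem hub_out {E F : Set (Lab K)} (hE : MeasurableSet E) (hF : MeasurableSet F) (h : E ⊆ Fᶜ)
    (A : H →L[ℂ] H) : m.P E * (m.P F * A + m.P Fᶜ) = m.P E * 1 := by
  simpa only [mul_one] using m.h34_out hE hF h A 1
theorem hub_blk_mul {E : Set (Lab K)} (hE : MeasurableSet E) {A A' B B' : H →L[ℂ] H}
    (hA : m.P E * A = m.P E * A') (hB : m.P E * B = m.P E * B') (hc : m.Cen A') :
    m.P E * (A * B) = m.P E * (A' * B') := by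
  rw [← mul_assoc, hA, ← (hc.commute_P hE).eq, mul_assoc, hB, ← mul_assoc, (hc.commute_P hE).eq,
    mul_assoc]
theorem hub_ext2 {E : Set (Lab K)} (hE : MeasurableSet E) {U V : H →L[ℂ] H}
    (h1 : m.P E * U = m.P E * V) (h2 : m.P Eᶜ * U = m.P Eᶜ * V) : U = V := by
  rw [← one_mul U, ← one_mul V, ← m.P_add_compl hE, add_mul, add_mul, h1, h2]
theorem hub_ext4 {S T : Set (Lab K)} (hS : MeasurableSet S) (hT : MeasurableSet T)
    {U V : H →L[ℂ] H} (h : ∀ E, MeasurableSet E → (E ⊆ S ∨ E ⊆ Sᶜ) → (E ⊆ T ∨ E ⊆ Tᶜ) →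
      m.P E * U = m.P E * V) : U = V := by
  have key : ∀ A B : Set (Lab K), MeasurableSet A → MeasurableSet B → (A = S ∨ A = Sᶜ) →
      (B = T ∨ B = Tᶜ) → m.P B * (m.P A * U) = m.P B * (m.P A * V) := by
    intro A B hA hB h1 h2
    rw [← mul_assoc, ← mul_assoc, m.P_mul_P hB hA]
    refine h _ (hB.inter hA) (h1.imp ?_ ?_) (h2.imp ?_ ?_) <;> rintro rfl
    exacts [Set.inter_subset_right, Set.inter_subset_right, Set.inter_subset_left,
      Set.inter_subset_left]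
  refine m.hub_ext2 hS (m.hub_ext2 hT ?_ ?_) (m.hub_ext2 hT ?_ ?_)
  · exact key _ _ hS hT (Or.inl rfl) (Or.inl rfl)
  · exact key _ _ hS hT.compl (Or.inl rfl) (Or.inr rfl)
  · exact key _ _ hS.compl hT (Or.inr rfl) (Or.inl rfl)
  · exact key _ _ hS.compl hT.compl (Or.inr rfl) (Or.inr rfl)
theorem hub_commute {A : H →L[ℂ] H} (hA : m.IsAxis A) {T : Set (Lab K)} (hT : MeasurableSet T)
    (y : KK) : Commute A (m.hubE T y) :=
  ((hA.2.2.1.commute_P hT).mul_right (m.commute_D hA.2.2.2 hA.2.2.1.commute_Sg y)).add_right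
    (hA.2.2.1.commute_P hT.compl)
theorem hub_tgtS_hubE {S T : Set (Lab K)} (hS : MeasurableSet S) (hT : MeasurableSet T) {y y' : KK}
    (hy : y ∈ m.R) (hy' : y' ∈ m.R) : m.tgtS S y * m.hubE T y' = m.hubE T y' *
      m.rotF m.Z ((S ∩ T).indicator fun x => 2 * om y y' * Real.sign (x 0)) * m.tgtS S y := by
  have hZS : Commute m.Z m.Sg := m.cen_Z.commute_Sg
  have hA := (m.isAxis_Z.fib_D hy).2
  have hB := (m.isAxis_Sg.fib_D hy').2
  have hR : m.Cen (rot (m.Sg * m.Z) (2 * om y y')) :=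
    (m.fib_rot m.isAxis_Z.sg.1 m.isAxis_Z.sg.2.1 m.isAxis_Z.sg.2.2.1 _).2
  rw [m.rotF_sign m.cen_Z (hS.inter hT)]
  unfold tgtS hubE
  refine m.hub_ext4 hS hT fun E hE h1 h2 => ?_
  rcases h1 with h1 | h1 <;> rcases h2 with h2 | h2
  · rw [m.hub_blk_mul hE (m.hub_in hE hS h1 _) (m.hub_in hE hT h2 _) hA,
      m.hub_blk_mul hE (m.hub_blk_mul hE (m.hub_in hE hT h2 _)
        (m.hub_in hE (hS.inter hT) (Set.subset_inter h1 h2) _) hB) (m.hub_in hE hS h1 _)
        (hB.mul hR), m.isAxis_Z.D_comm m.isAxis_Sg hZS hy hy', hZS.eq, mul_assoc (m.D m.Sg y'),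
      mul_assoc (m.D m.Sg y')]
    congr 2
    refine (commute_rot ?_ _).eq
    exact (m.commute_D m.isAxis_Z.sg.2.2.2 (hZS.symm.mul_left (Commute.refl _)) y).symm
  · rw [m.hub_blk_mul hE (m.hub_in hE hS h1 _) (m.hub_out hE hT h2 _) hA,
      m.hub_blk_mul hE (m.hub_blk_mul hE (m.hub_out hE hT h2 _)
        (m.hub_out hE (hS.inter hT) (h2.trans (Set.compl_subset_compl.2 Set.inter_subset_right)) _)
        (Cen.one m)) (m.hub_in hE hS h1 _) ((Cen.one m).mul (Cen.one m))]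
    simp only [mul_one, one_mul]
  · rw [m.hub_blk_mul hE (m.hub_out hE hS h1 _) (m.hub_in hE hT h2 _) (Cen.one m),
      m.hub_blk_mul hE (m.hub_blk_mul hE (m.hub_in hE hT h2 _)
        (m.hub_out hE (hS.inter hT) (h1.trans (Set.compl_subset_compl.2 Set.inter_subset_left)) _)
        hB) (m.hub_out hE hS h1 _) (hB.mul (Cen.one m))]
    simp only [mul_one, one_mul]
  · rw [m.hub_blk_mul hE (m.hub_out hE hS h1 _) (m.hub_out hE hT h2 _) (Cen.one m),
      m.hub_blk_mul hE (m.hub_blk_mul hE (m.hub_out hE hT h2 _)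
        (m.hub_out hE (hS.inter hT) (h1.trans (Set.compl_subset_compl.2 Set.inter_subset_left)) _)
        (Cen.one m)) (m.hub_out hE hS h1 _) ((Cen.one m).mul (Cen.one m))]
    simp only [mul_one]

variable {m}
theorem Hub.fib {M : ℕ} {h : H →L[ℂ] H} (hh : m.Hub M h) : m.Fib h := by
  induction hh with
  | one => exact m.fib_one
  | mul T y hT hy _ ih => exact (m.hub_fib_blk hT.1 (m.isAxis_Sg.fib_D hy)).mul ih
theorem Hub.commute_axis {M : ℕ} {h A : H →L[ℂ] H} (hh : m.Hub M h) (hA : m.IsAxis A) :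
    Commute A h := by
  induction hh with
  | one => exact Commute.one_right _
  | mul T y hT hy _ ih => exact (m.hub_commute hA hT.1 y).mul_right ih
theorem Hub.commute_X {M : ℕ} {h : H →L[ℂ] H} (hh : m.Hub M h) : Commute m.X h :=
  hh.commute_axis m.isAxis_X
theorem Hub.commute_Z {M : ℕ} {h : H →L[ℂ] H} (hh : m.Hub M h) : Commute m.Z h :=
  hh.commute_axis m.isAxis_Z
theorem Hub.mul' {M : ℕ} {h h' : H →L[ℂ] H} (hh : m.Hub M h) (hh' : m.Hub M h') : m.Hub M (h * h') := by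
  induction hh with
  | one => rwa [one_mul]
  | mul T y hT hy _ ih => rw [mul_assoc]; exact Hub.mul T y hT hy ih
theorem Hub.commute_rotF {M : ℕ} {h : H →L[ℂ] H} (hh : m.Hub M h) {ϑ : Lab K → ℝ}
    (hϑ : Measurable ϑ) : Commute h (m.rotF m.Z ϑ) :=
  m.commute_rotF hh.fib.2 hh.commute_Z.symm hϑ
theorem Hub.xi {M : ℕ} {h : H →L[ℂ] H} (hh : m.Hub M h) (U : H →L[ℂ] H) : m.xi (h * U) = m.xi U :=
  m.xi_of_commute hh.fib hh.commute_Z U
/-- moving a cost gate through a hub produces a diagonal rotation (`D_comm`, `rotF_sign`) -/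
theorem Hub.tgtS_comm {M : ℕ} (hM : 1 ≤ M) {h : H →L[ℂ] H} (hh : m.Hub M h) {S : Set (Lab K)}
    (hS : EvS M S) {y : KK} (hy : y ∈ m.R) : ∃ ϑ, BR M ϑ ∧ (∀ x, ϑ (-x) = -ϑ x) ∧
      m.tgtS S y * h = h * m.rotF m.Z ϑ * m.tgtS S y := by
  induction hh with
  | one =>
    refine ⟨0, ⟨measurable_const, ⟨0, fun x => by simp⟩, fun _ _ _ => rfl⟩, fun x => by simp, ?_⟩
    rw [m.rotF_zero, mul_one, one_mul, one_mul]
  | @mul h T y' hT hy' hh ih =>
    obtain ⟨ϑ, ⟨hm, ⟨C, hC⟩, hd⟩, ho, he⟩ := ih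
    obtain ⟨⟨hm', ⟨C', hC'⟩, hd'⟩, ho'⟩ := (hS.inter hT).br_sign hM (2 * om y y')
    set ϑ' : Lab K → ℝ := (S ∩ T).indicator fun x => 2 * om y y' * Real.sign (x 0) with hϑ'
    refine ⟨ϑ' + ϑ, ⟨hm'.add hm, ⟨C' + C, fun x => ?_⟩, fun x x' hx => ?_⟩, fun x => ?_, ?_⟩
    · exact (abs_add_le _ _).trans (add_le_add (hC' x) (hC x))
    · rw [Pi.add_apply, Pi.add_apply, hd x x' hx, hd' x x' hx]
    · rw [Pi.add_apply, Pi.add_apply, ho, ho', neg_add]
    · rw [← mul_assoc, m.hub_tgtS_hubE hS.1 hT.1 hy hy', mul_assoc, he,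
        m.rotF_add m.Z_sq m.cen_Z hm' hm, ← hϑ']
      simp only [mul_assoc]
      congr 1
      rw [← mul_assoc, ← (hh.commute_rotF hm').eq, mul_assoc]
variable (m)
theorem fib_tgtS {S : Set (Lab K)} (hS : MeasurableSet S) {y : KK} (hy : y ∈ m.R) :
    m.Fib (m.tgtS S y) := m.hub_fib_blk hS (m.isAxis_Z.fib_D hy)
theorem tgtS_univ (y : KK) : m.tgtS Set.univ y = m.D m.Z y := by
  unfold tgtS
  rw [Set.compl_univ, m.P_univ, m.P_empty, one_mul, add_zero]
theorem target_eq {S T : Set (Lab K)} (hS : MeasurableSet S) (hT : MeasurableSet T) (h : Disjoint S T)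
    (τ : ℝ) {U : H →L[ℂ] H} (hU : m.Fib U) : m.tgtS S (τ • m.j (m.P T (m.Sg m.vac))) =
      m.hubE T (-(τ • m.j (m.P S (m.xi U)))) * m.target S T τ U := by
  have hv : τ • m.j (m.P S (m.xi U)) ∈ m.R :=
    m.R.smul_mem τ (hU.j_P_heis_mem m.Z_star m.cen_Z hS)
  have hB := (m.isAxis_Sg.fib_D (m.R.neg_mem hv)).2
  have hST := (hS.union hT).compl
  unfold tgtS hubE
  refine m.hub_ext4 hS hT fun E hE h1 h2 => ?_
  rcases h1 with h1 | h1 <;> rcases h2 with h2 | h2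
  · have : E = ∅ := Set.subset_empty_iff.1
      ((Set.subset_inter h1 h2).trans (Set.disjoint_iff_inter_eq_empty.1 h).subset)
    rw [this, m.P_empty, zero_mul, zero_mul]
  · have e : m.P E * m.target S T τ U = m.P E * m.D m.Z (τ • m.j (m.P T (m.Sg m.vac))) := by
      unfold target
      rw [_root_.mul_add, _root_.mul_add, ← mul_assoc, ← mul_assoc, m.P_mul_of_subset hE hS h1,
        m.P_mul_of_disjoint hE hT (Set.subset_compl_iff_disjoint_right.1 h2),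
        m.P_mul_of_disjoint hE hST (Set.disjoint_compl_right_iff_subset.2
          (h1.trans Set.subset_union_left)), zero_mul, add_zero, add_zero]
    rw [m.hub_in hE hS h1, m.hub_blk_mul hE (m.hub_out hE hT h2 _) e (Cen.one m), one_mul]
  · have e : m.P E * m.target S T τ U = m.P E * m.D m.Sg (τ • m.j (m.P S (m.xi U))) := by
      unfold target
      rw [_root_.mul_add, _root_.mul_add, ← mul_assoc, ← mul_assoc, m.P_mul_of_subset hE hT h2,
        m.P_mul_of_disjoint hE hS (Set.subset_compl_iff_disjoint_right.1 h1),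
        m.P_mul_of_disjoint hE hST (Set.disjoint_compl_right_iff_subset.2
          (h2.trans Set.subset_union_right)), zero_mul, add_zero, zero_add]
    rw [m.hub_out hE hS h1, m.hub_blk_mul hE (m.hub_in hE hT h2 _) e hB, ← m.isAxis_Sg.star_D,
      (m.isAxis_Sg.fib_D hv).star_mul_self]
  · have e : m.P E * m.target S T τ U = m.P E * 1 := by
      unfold target
      rw [_root_.mul_add, _root_.mul_add, ← mul_assoc, ← mul_assoc,
        m.P_mul_of_disjoint hE hT (Set.subset_compl_iff_disjoint_right.1 h2),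
        m.P_mul_of_disjoint hE hS (Set.subset_compl_iff_disjoint_right.1 h1),
        m.P_mul_of_subset hE hST (by rw [Set.compl_union]; exact Set.subset_inter h1 h2),
        zero_mul, zero_mul, add_zero, zero_add, mul_one]
    rw [m.hub_out hE hS h1, m.hub_blk_mul hE (m.hub_out hE hT h2 _) e (Cen.one m), one_mul]
theorem RH_fib {M : ℕ} {V : H →L[ℂ] H} (hV : V ∈ m.RH M) : m.Fib V := by
  obtain ⟨h, U, hh, hU, rfl⟩ := hV
  exact hh.fib.mul hU.1
theorem one_mem_RH (M : ℕ) : (1 : H →L[ℂ] H) ∈ m.RH M :=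
  ⟨1, 1, Hub.one, m.one_mem_Cl M, (one_mul _).symm⟩
/-- layers of level `M` preserve `RH M` -/
theorem step_mem_RH {M : ℕ} (hM : 1 ≤ M) {V : H →L[ℂ] H} (hV : V ∈ m.RH M) {L : Layer K}
    (hL : Lev M [L]) : m.step V L ∈ m.RH M := by
  obtain ⟨h, U, hh, hU, rfl⟩ := hV
  have hf : m.fld (h * U) L = m.fld U L := by unfold fld; rw [hh.xi]
  have hy : m.fld U L ∈ m.R := hU.1.fld_mem L
  obtain ⟨ϑ, hϑ, ho, he⟩ := hh.tgtS_comm hM (EvS.univ M) hy
  rw [m.tgtS_univ] at he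
  have h1 : m.D m.Z (m.fld U L) * U ∈ m.Cl M := by
    have := m.step_mem_Cl hU (L := (L.1, L.2.1, 0))
      (top_lev_single M (hL L (List.mem_singleton_self L)))
    simpa only [step, fld, B, rot_zero, one_mul] using this
  refine ⟨h, _, hh, (m.free_B M L.2.2).2 _ ((m.free_rotF_Z hϑ ho).2 _ h1), ?_⟩
  have hB : Commute h (m.B L.2.2) := commute_rot hh.commute_X.symm _
  unfold step
  rw [hf, mul_assoc, ← mul_assoc _ h U, he, ← mul_assoc h, hB.eq]
  simp only [mul_assoc]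
theorem tgtS_mem_RH {M : ℕ} (hM : 1 ≤ M) {S T Md : Set (Lab K)} (hS : EvS M S) (hT : EvS M T)
    (hMd : EvS M Md) (h1 : Disjoint T S) (h2 : Disjoint T Md) (h3 : Disjoint S Md) {ρ : ℝ} (hρ : 0 ≤ ρ)
    (bT : Bd M ρ T) (bM : Bd M ρ Md) {V : H →L[ℂ] H} (hV : V ∈ m.RH M)
    (hc : (⟪V m.vac, m.P Md ((m.Sg * m.Z) (V m.vac))⟫_ℂ).re ≠ 0) (τ : ℝ) :
    m.tgtS S (τ • m.j (m.P T (m.Sg m.vac))) * V ∈ m.RH M := by
  obtain ⟨h, U, hh, hU, rfl⟩ := hV
  have hu : τ • m.j (m.P T (m.Sg m.vac)) ∈ m.R := m.R.smul_mem τ (m.j_P_Sg_mem hT.1)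
  have hv : τ • m.j (m.P S (m.xi U)) ∈ m.R :=
    m.R.smul_mem τ (hU.1.j_P_heis_mem m.Z_star m.cen_Z hS.1)
  obtain ⟨ϑ, hϑ, ho, he⟩ := hh.tgtS_comm hM hS hu
  have hc' : (⟪U m.vac, m.P Md ((m.Sg * m.Z) (U m.vac))⟫_ℂ).re ≠ 0 := by
    have e : m.P Md * (m.Sg * m.Z) * h = h * (m.P Md * (m.Sg * m.Z)) :=
      ((hh.fib.2.commute_P hMd.1).symm.mul_left (hh.commute_axis m.isAxis_Z.sg)).eq
    have e2 : m.P Md ((m.Sg * m.Z) ((h * U) m.vac)) = h (m.P Md ((m.Sg * m.Z) (U m.vac))) :=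
      congrArg (fun A : H →L[ℂ] H => A (U m.vac)) e
    rwa [e2, mul_apply_eq_comp, hh.fib.inner_apply] at hc
  have hE : m.Hub M (m.hubE T (-(τ • m.j (m.P S (m.xi U))))) := by
    simpa only [mul_one] using Hub.mul T _ hT (m.R.neg_mem hv) (Hub.one (m := m) (M := M))
  refine ⟨_, _, hh.mul' hE, (m.free_rotF_Z hϑ ho).2 _
    (m.target_mem_Cl hM hS hT hMd h1 h2 h3 hρ bT bM hU hc' τ), ?_⟩
  rw [← mul_assoc, he, m.target_eq hS.1 hT.1 h1.symm τ hU.1]
  simp only [mul_assoc]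
  congr 1
  rw [← mul_assoc, ← (hE.commute_rotF hϑ.1).eq, mul_assoc]
theorem En_le_of_mem_RH {M : ℕ} {V : H →L[ℂ] H} (hV : V ∈ m.SCl (m.RH M)) {ε : ℝ} (hε : 0 < ε) :
    ∃ w, Lev M w ∧ m.En V - ε ≤ m.En (m.run w) := by
  obtain ⟨V', ⟨h, U, hh, hU, rfl⟩, h1⟩ :=
    m.En_le_of_mem_SCl (fun _ hV => m.RH_fib hV) hV (half_pos hε)
  obtain ⟨w, hw, h2⟩ := m.En_le_of_mem_Cl hU (half_pos hε)
  have e : m.En (h * U) = m.En U := by unfold En; rw [hh.xi]
  exact ⟨w, hw, by linarith⟩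

end Model

end Crest.Agent.R339
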