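import Crest.Agent.R339.Q.MC

/-!
# Row 339, part Q: localised bounds on sets of level M
-/

set_option autoImplicit false

namespace Crest.Agent.R339

open MeasureTheory ProbabilityTheory Filter Topology Crest.MathPhysics.SpinGlass
open scoped InnerProductSpace ComplexConjugate

/-- the set is bounded in the labels with index `< M` -/
def Bd {K : ℕ} (M : ℕ) (ρ : ℝ) (E : Set (Lab K)) : Prop :=
  ∀ x ∈ E, ∀ i : Fin (K + 1), (i : ℕ) < M → |x i| ≤ ρ

/-- functions of the early labels are independent of functions of the late labels -/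
theorem indepFun_dep {K M : ℕ} {F G : Lab K → ℝ} (hF : Measurable F) (hG : Measurable G) (hd : Dep M F)
    (hd' : ∀ x x' : Lab K, (∀ i : Fin (K + 1), ¬ (i : ℕ) < M → x i = x' i) → G x = G x') :
    IndepFun F G (gL K) := by
  classical
  set S : Finset (Fin (K + 1)) := Finset.univ.filter fun i => (i : ℕ) < M with hS
  set T : Finset (Fin (K + 1)) := Finset.univ.filter fun i => ¬ (i : ℕ) < M with hT
  have hST : Disjoint S T := Finset.disjoint_filter_filter_not _ _ _
  have h0 : iIndepFun (fun (i : Fin (K + 1)) (x : Lab K) => x i) (gL K) :=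
    iIndepFun_pi (X := fun _ => id) fun _ => aemeasurable_id
  have h1 := h0.indepFun_finset S T hST fun i => measurable_pi_apply i
  have hext : ∀ R : Finset (Fin (K + 1)),
      Measurable fun (w : R → ℝ) (i : Fin (K + 1)) => if h : i ∈ R then w ⟨i, h⟩ else 0 := by
    intro R
    refine measurable_pi_lambda _ fun i => ?_
    by_cases h : i ∈ R
    · simp only [h, dite_true]; exact measurable_pi_apply _
    · simp only [h, dite_false]; exact measurable_const
  have h2 := h1.comp (hF.comp (hext S)) (hG.comp (hext T))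
  convert h2 using 1
  · funext x
    refine hd _ _ fun i hi => ?_
    have : i ∈ S := by simp [hS, hi]
    simp [this]
  · funext x
    refine hd' _ _ fun i hi => ?_
    have : i ∈ T := by simp only [hT, Finset.mem_filter, Finset.mem_univ, true_and]; exact hi
    simp [this]

/-- first two moments of a linear function of the labels -/
theorem lin_moments {K : ℕ} (b : Fin (K + 1) → ℝ) :
    MemLp (fun x : Lab K => ∑ i, b i * x i) 2 (gL K) ∧ ∫ x, ∑ i, b i * x i ∂gL K = 0 ∧
      ∫ x, (∑ i, b i * x i) ^ 2 ∂gL K = ∑ i, b i ^ 2 := by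
  have h1 : ∀ i : Fin (K + 1), MemLp (fun t : ℝ => b i * t) 2 (gaussianReal 0 1) := fun i =>
    (memLp_id_gaussianReal' 2 (by simp)).const_mul (b i)
  have h2 : MemLp (fun x : Lab K => ∑ i, b i * x i) 2 (gL K) := by
    refine memLp_finsetSum _ fun i _ => ?_
    exact (h1 i).comp_measurePreserving (measurePreserving_eval (fun _ => gaussianReal 0 1) i)
  have h3 : ∫ x, ∑ i, b i * x i ∂gL K = 0 := integral_odd fun x => by simp
  refine ⟨h2, h3, ?_⟩
  rw [← variance_of_integral_eq_zero h2.aemeasurable h3]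
  have h4 := variance_sum_pi (μ := fun _ : Fin (K + 1) => gaussianReal 0 1)
    (X := fun i t => b i * t) h1
  have e : (∑ i, fun ω : Lab K => b i * ω i) = fun x : Lab K => ∑ i, b i * x i := by
    funext x; simp
  rw [e] at h4
  refine h4.trans (Finset.sum_congr rfl fun i _ => ?_)
  rw [variance_const_mul, variance_fun_id_gaussianReal]; simp

/-- a set of level `M` is independent of the later labels:
`∫_E (a·x + c)² = ∫_E (a'·x' + c)² + |a''|² γ(E)` (flip the sign of / integrate out one later coordinate at a time) -/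
theorem setIntegral_lin_sq_le {K M : ℕ} {E : Set (Lab K)} (hE : MeasurableSet E)
    (hd : Dep M (fun x => x ∈ E)) {ρ : ℝ} (hρ : 0 ≤ ρ) (hb : Bd M ρ E) (a : Fin (K + 1) → ℝ) (c : ℝ) :
    ∫ x in E, (∑ i, a i * x i + c) ^ 2 ∂gL K ≤
      (((∑ i, |a i|) * ρ + |c|) ^ 2 + ∑ i, a i ^ 2) * (gL K).real E := by
  classical
  set u : Lab K → ℝ := fun x => ∑ i : Fin (K + 1), (if (i : ℕ) < M then a i else 0) * x i + c with hu
  set b : Fin (K + 1) → ℝ := fun i => if (i : ℕ) < M then 0 else a i with hbdef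
  set v : Lab K → ℝ := fun x => ∑ i, b i * x i with hv
  set B : ℝ := (∑ i, |a i|) * ρ + |c| with hB
  have hum : Measurable u := by simp only [hu]; fun_prop
  have hvm : Measurable v := by simp only [hv]; fun_prop
  have huv : ∀ x : Lab K, ∑ i, a i * x i + c = u x + v x := by
    intro x
    simp only [hu, hv, hbdef]
    rw [add_right_comm, ← Finset.sum_add_distrib]
    congr 1
    refine Finset.sum_congr rfl fun i _ => ?_
    split_ifs <;> ring
  have hub : ∀ x ∈ E, |u x| ≤ B := by
    intro x hx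
    simp only [hu, hB]
    refine (abs_add_le _ _).trans (add_le_add ?_ le_rfl)
    rw [Finset.sum_mul]
    refine (Finset.abs_sum_le_sum_abs _ _).trans (Finset.sum_le_sum fun i _ => ?_)
    split_ifs with h
    · rw [abs_mul]; exact mul_le_mul_of_nonneg_left (hb x hx i h) (abs_nonneg _)
    · rw [zero_mul, abs_zero]; positivity
  have hB0 : 0 ≤ B := by positivity
  set F1 : Lab K → ℝ := E.indicator u with hF1
  set F0 : Lab K → ℝ := E.indicator fun _ => 1 with hF0
  have hF1m : Measurable F1 := hum.indicator hE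
  have hF0m : Measurable F0 := measurable_const.indicator hE
  have hF1b : ∀ x, |F1 x| ≤ B := fun x => by
    by_cases hx : x ∈ E
    · rw [hF1, Set.indicator_of_mem hx]; exact hub x hx
    · rw [hF1, Set.indicator_of_notMem hx, abs_zero]; exact hB0
  have hF0b : ∀ x, |F0 x| ≤ 1 := fun x => by
    by_cases hx : x ∈ E
    · rw [hF0, Set.indicator_of_mem hx, abs_one]
    · rw [hF0, Set.indicator_of_notMem hx, abs_zero]; exact zero_le_one
  have hF1d : Dep M F1 := by
    intro x x' h
    have h1 : (x ∈ E) = (x' ∈ E) := hd x x' h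
    have h2 : u x = u x' := by
      simp only [hu]
      congr 1
      refine Finset.sum_congr rfl fun i _ => ?_
      split_ifs with hi
      · rw [h i hi]
      · simp
    simp only [hF1, Set.indicator_apply, h1, h2]
  have hF0d : Dep M F0 := by
    intro x x' h
    have h1 : (x ∈ E) = (x' ∈ E) := hd x x' h
    simp only [hF0, Set.indicator_apply, h1]
  have hvd : ∀ x x' : Lab K, (∀ i : Fin (K + 1), ¬ (i : ℕ) < M → x i = x' i) → v x = v x' := by
    intro x x' h
    simp only [hv, hbdef]
    refine Finset.sum_congr rfl fun i _ => ?_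
    split_ifs with hi
    · simp
    · rw [h i hi]
  obtain ⟨hv2, hv0, hvv⟩ := lin_moments b
  have hv1 : Integrable v (gL K) := hv2.integrable one_le_two
  have hvsq : Integrable (fun x => v x ^ 2) (gL K) := hv2.integrable_sq
  have i1 : Integrable (fun x => F1 x ^ 2) (gL K) :=
    Integrable.of_bound (hF1m.pow_const 2).aestronglyMeasurable (B ^ 2)
      (Eventually.of_forall fun x => by
        rw [Real.norm_eq_abs, abs_pow]; exact pow_le_pow_left₀ (abs_nonneg _) (hF1b x) 2)
  have i2 : Integrable (fun x => F1 x * v x) (gL K) :=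
    hv1.bdd_mul hF1m.aestronglyMeasurable (Eventually.of_forall fun x => hF1b x)
  have i3 : Integrable (fun x => F0 x * v x ^ 2) (gL K) :=
    hvsq.bdd_mul hF0m.aestronglyMeasurable (Eventually.of_forall fun x => hF0b x)
  have i0 : ∫ x, F0 x ∂gL K = (gL K).real E := by
    rw [hF0, integral_indicator hE]; simp
  have e1 : ∫ x, F1 x * v x ∂gL K = 0 := by
    rw [(indepFun_dep hF1m hvm hF1d hvd).integral_fun_mul_eq_mul_integral
      hF1m.aestronglyMeasurable hvm.aestronglyMeasurable, hv0, mul_zero]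
  have e2 : ∫ x, F0 x * v x ^ 2 ∂gL K = (gL K).real E * ∑ i, b i ^ 2 := by
    rw [(indepFun_dep hF0m (hvm.pow_const 2) hF0d
      (fun x x' h => by rw [hvd x x' h])).integral_fun_mul_eq_mul_integral
      hF0m.aestronglyMeasurable (hvm.pow_const 2).aestronglyMeasurable, i0, hvv]
  have e3 : ∫ x, F1 x ^ 2 ∂gL K ≤ B ^ 2 * (gL K).real E := by
    rw [← i0, ← integral_const_mul]
    refine integral_mono i1 (Integrable.const_mul ?_ _) fun x => ?_
    · exact (integrable_const (1 : ℝ)).indicator hE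
    · by_cases hx : x ∈ E
      · simp only [hF0, Set.indicator_of_mem hx, mul_one]
        rw [← sq_abs]; exact pow_le_pow_left₀ (abs_nonneg _) (hF1b x) 2
      · simp only [hF0, hF1, Set.indicator_of_notMem hx]; simp
  have e4 : ∑ i, b i ^ 2 ≤ ∑ i, a i ^ 2 := by
    refine Finset.sum_le_sum fun i _ => ?_
    simp only [hbdef]
    split_ifs
    · simpa using sq_nonneg (a i)
    · exact le_rfl
  have e5 : E.indicator (fun x : Lab K => (∑ i, a i * x i + c) ^ 2) =
      fun x => (F1 x ^ 2 + 2 * (F1 x * v x)) + F0 x * v x ^ 2 := by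
    funext x
    by_cases hx : x ∈ E
    · simp only [hF1, hF0, Set.indicator_of_mem hx, huv]; ring
    · simp only [hF1, hF0, Set.indicator_of_notMem hx]; ring
  have i4 : Integrable (fun x => F1 x ^ 2 + 2 * (F1 x * v x)) (gL K) := i1.add (i2.const_mul 2)
  rw [← integral_indicator hE, e5]
  beta_reduce
  rw [integral_add i4 i3, integral_add i1 (i2.const_mul 2), integral_const_mul, e1, e2]
  have := mul_le_mul_of_nonneg_left e4 (measureReal_nonneg (μ := gL K) (s := E))
  nlinarith

namespace Model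

variable {K : ℕ} {I : Iamp K} {H KK : Type} [NormedAddCommGroup H] [InnerProductSpace ℂ H]
  [CompleteSpace H] [NormedAddCommGroup KK] [InnerProductSpace ℂ KK] (m : Model I H KK)

/-- localised bound: `‖P E (W y - 1) coh‖² = ∫_E (2 - 2 cos θ(x) e^{-t}) ≤ ∫_E (θ² + 2t)`, `θ = a·x - 2 ω(y,z)`,
`2t = ‖y‖² - Σ a_i²` (`vac_W`) -/
theorem nb_P_coh' {M : ℕ} {E : Set (Lab K)} (hE : EvS M E) {ρ : ℝ} (hρ : 0 ≤ ρ) (hb : Bd M ρ E)
    (b : Bool) {z : KK} (hz : z ∈ m.R) :
    m.NB ((1 + (K + 1) * ρ + 2 * ‖z‖) * Real.sqrt ((gL K).real E)) (m.P E (m.coh b z)) := by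
  have hEm := hE.1
  have hγ : 0 ≤ (gL K).real E := measureReal_nonneg
  have hs : 0 ≤ Real.sqrt ((gL K).real E) := Real.sqrt_nonneg _
  have hFz : m.Fib (m.zp b * m.W z) := (m.isAxis_zp b).fib.mul (m.fib_W hz)
  have hn : ‖m.P E (m.coh b z)‖ = Real.sqrt ((gL K).real E) := m.norm_P_fib hFz hEm
  have hA : 0 ≤ ((K : ℝ) + 1) * ρ + 2 * ‖z‖ := by positivity
  refine ⟨?_, fun y hy => ?_⟩
  · rw [hn]; nlinarith
  set a : Fin (K + 1) → ℝ := fun i => (⟪m.d i, y⟫_ℂ).re with ha
  set c : ℝ := -(2 * om y z) with hc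
  set t : ℝ := (‖y‖ ^ 2 - ∑ i, a i ^ 2) / 2 with ht
  have hai : ∀ i, |a i| ≤ ‖y‖ := fun i => by
    refine (Complex.abs_re_le_norm _).trans ((norm_inner_le_norm _ _).trans ?_)
    rw [m.d_on.1 i, one_mul]
  have ht0 : 0 ≤ t := by
    have h1 := m.d_on.sum_inner_products_le (s := Finset.univ) y
    have h2 : ∑ i, a i ^ 2 ≤ ∑ i, ‖⟪m.d i, y⟫_ℂ‖ ^ 2 := Finset.sum_le_sum fun i _ => by
      rw [← sq_abs]; exact pow_le_pow_left₀ (abs_nonneg _) (Complex.abs_re_le_norm _) 2
    simp only [ht]; linarith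
  have hθ : Measurable fun x : Lab K => ∑ i, a i * x i + c := by fun_prop
  -- the overlap
  have hov : (⟪m.P E (m.coh b z), m.W y (m.P E (m.coh b z))⟫_ℂ).re =
      ∫ x in E, Real.cos (∑ i, a i * x i + c) * Real.exp (-t) ∂gL K := by
    have bE : BM (E.indicator fun _ : Lab K => (1 : ℂ)) := (BM.const 1).indicator hEm
    have e1 : m.W y (m.P E (m.coh b z)) = Complex.exp (Complex.I * (c : ℂ)) •
        (m.zp b * m.W z) (m.P E (m.W y m.vac)) := by
      have c1 : m.W y * m.P E * m.zp b * m.W z = Complex.exp (Complex.I * (c : ℂ)) •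
          (m.zp b * m.W z * m.P E * m.W y) := by
        have c2 : m.W y * m.P E * m.zp b * m.W z = m.P E * m.zp b * (m.W y * m.W z) := by
          rw [((m.cen_W y).commute_P hEm).eq, mul_assoc (m.P E), ← ((m.isAxis_zp b).2.2.2 y).eq]
          simp only [mul_assoc]
        have c3 : m.zp b * m.W z * m.P E * m.W y = m.P E * m.zp b * (m.W z * m.W y) := by
          rw [(hFz.2.commute_P hEm).eq]; simp only [mul_assoc]
        rw [c2, c3, m.W_comm hy hz, mul_smul_comm]
        congr 2; simp only [hc]; push_cast; ring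
      exact congrArg (fun A : H →L[ℂ] H => A m.vac) c1
    have e2 : m.P E (m.coh b z) = (m.zp b * m.W z) (m.P E m.vac) :=
      (congrArg (fun A : H →L[ℂ] H => A m.vac) (hFz.2.commute_P hEm).eq).symm
    have e3 : m.P E (m.P E (m.W y m.vac)) = m.P E (m.W y m.vac) :=
      congrArg (fun A : H →L[ℂ] H => A (m.W y m.vac)) (m.P_idem hEm)
    rw [e1]
    conv_lhs => rw [e2]
    rw [inner_smul_right, hFz.inner_apply, m.inner_P_left hEm, e3]
    unfold P
    rw [m.vac_W _ bE y hy]
    have e4 : (fun x : Lab K => E.indicator (fun _ => (1 : ℂ)) x *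
        Complex.exp (Complex.I * ((∑ i, (⟪m.d i, y⟫_ℂ).re * x i : ℝ) : ℂ))) =
        E.indicator fun x : Lab K => Complex.exp (Complex.I * ((∑ i, a i * x i : ℝ) : ℂ)) := by
      funext x
      by_cases hx : x ∈ E
      · simp only [Set.indicator_of_mem hx, one_mul, ha]
      · simp only [Set.indicator_of_notMem hx, zero_mul]
    have e5 : -(‖y‖ ^ 2 - ∑ i, (⟪m.d i, y⟫_ℂ).re ^ 2) / 2 = -t := by simp only [ht, ha]; ring
    have hθ' : Measurable fun x : Lab K => ∑ i, a i * x i := by fun_prop
    have hi : Integrable (fun x : Lab K => Complex.exp (Complex.I * (c : ℂ)) *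
        (Complex.exp (Complex.I * ((∑ i, a i * x i : ℝ) : ℂ)) * ((Real.exp (-t) : ℝ) : ℂ)))
        ((gL K).restrict E) := (((BM.expI hθ').integrable.mul_const _).const_mul _).restrict
    rw [e4, e5, integral_indicator hEm, ← integral_mul_const, ← integral_const_mul]
    have := integral_re hi
    simp only [RCLike.re_to_complex] at this
    rw [← this]
    refine integral_congr_ae (Eventually.of_forall fun x => ?_)
    have e6 : Complex.exp (Complex.I * (c : ℂ)) *
        (Complex.exp (Complex.I * ((∑ i, a i * x i : ℝ) : ℂ)) * ((Real.exp (-t) : ℝ) : ℂ)) =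
        ((Real.exp (-t) : ℝ) : ℂ) * Complex.exp (((∑ i, a i * x i + c : ℝ) : ℂ) * Complex.I) := by
      rw [← mul_assoc, ← Complex.exp_add, mul_comm]; congr 2; push_cast; ring
    simp only [e6, Complex.re_ofReal_mul, Complex.exp_ofReal_mul_I_re]
    ring
  have hsq : ‖m.W y (m.P E (m.coh b z)) - m.P E (m.coh b z)‖ ^ 2 =
      ∫ x in E, (2 - 2 * (Real.cos (∑ i, a i * x i + c) * Real.exp (-t))) ∂gL K := by
    have hi : Integrable (fun x : Lab K => Real.cos (∑ i, a i * x i + c) * Real.exp (-t))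
        ((gL K).restrict E) := by
      refine Integrable.mul_const (Integrable.of_bound
        (Real.measurable_cos.comp hθ).aestronglyMeasurable 1
        (Eventually.of_forall fun x => Real.abs_cos_le_one _)) _
    rw [norm_sub_rev, @norm_sub_sq ℂ, (m.fib_W hy).norm_apply, hn, Real.sq_sqrt hγ,
      integral_sub (integrable_const _) (hi.const_mul 2), integral_const_mul, ← hov]
    simp only [RCLike.re_to_complex, integral_const, measureReal_restrict_apply_univ, smul_eq_mul]
    ring
  have hsq2 : MemLp (fun x : Lab K => ∑ i, a i * x i + c) 2 (gL K) :=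
    (lin_moments a).1.add (memLp_const c)
  have hle : ∫ x in E, (2 - 2 * (Real.cos (∑ i, a i * x i + c) * Real.exp (-t))) ∂gL K ≤
      ∫ x in E, ((∑ i, a i * x i + c) ^ 2 + 2 * t) ∂gL K := by
    refine integral_mono_of_nonneg (Eventually.of_forall fun x => ?_)
      (hsq2.integrable_sq.restrict.add (integrable_const _)) (Eventually.of_forall fun x => ?_)
    · have h1 := Real.cos_le_one (∑ i, a i * x i + c)
      have h2 : Real.exp (-t) ≤ 1 := Real.exp_le_one_iff.2 (by linarith)
      have h3 := Real.exp_pos (-t)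
      simp only [Pi.zero_apply]
      nlinarith
    · have h1 := Real.one_sub_sq_div_two_le_cos (x := ∑ i, a i * x i + c)
      have h2 : Real.exp (-t) ≤ 1 := Real.exp_le_one_iff.2 (by linarith)
      have h3 := Real.exp_pos (-t)
      have h4 := Real.add_one_le_exp (-t)
      have h5 := sq_nonneg (∑ i, a i * x i + c)
      simp only
      nlinarith
  rw [integral_add hsq2.integrable_sq.restrict (integrable_const _)] at hle
  have hlin := setIntegral_lin_sq_le hEm hE.2.2 hρ hb a c
  simp only [integral_const, measureReal_restrict_apply_univ, smul_eq_mul] at hle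
  have hy0 := norm_nonneg y
  have hsum : ∑ i, |a i| ≤ ((K : ℝ) + 1) * ‖y‖ := by
    refine (Finset.sum_le_sum fun i _ => hai i).trans ?_
    simp
  have hcb : |c| ≤ 2 * ‖z‖ * ‖y‖ := by
    have := abs_om_le y z
    rw [hc, abs_neg, abs_mul, abs_two]; nlinarith
  have hB : (∑ i, |a i|) * ρ + |c| ≤ (((K : ℝ) + 1) * ρ + 2 * ‖z‖) * ‖y‖ := by nlinarith
  have hB2 := pow_le_pow_left₀ (by positivity) hB 2
  refine (pow_le_pow_iff_left₀ (norm_nonneg _) (by positivity) two_ne_zero).1 ?_
  rw [hsq, mul_pow, mul_pow, Real.sq_sqrt hγ]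
  refine hle.trans ?_
  have h7 : ((∑ i, |a i|) * ρ + |c|) ^ 2 + ∑ i, a i ^ 2 + 2 * t ≤
      (1 + ((K : ℝ) + 1) * ρ + 2 * ‖z‖) ^ 2 * ‖y‖ ^ 2 := by
    simp only [ht]
    nlinarith [mul_nonneg hA (sq_nonneg ‖y‖)]
  have h8 := mul_le_mul_of_nonneg_right h7 hγ
  nlinarith

variable {m} in
theorem MC.nb_P' {n r : ℝ} {ψ : H} (h : m.MC (Metric.closedBall 0 r) n ψ) {M : ℕ} {E : Set (Lab K)}
    (hE : EvS M E) {ρ : ℝ} (hρ : 0 ≤ ρ) (hb : Bd M ρ E) :
    m.NB (n * (1 + (K + 1) * ρ + 2 * r) * Real.sqrt ((gL K).real E)) (m.P E ψ) := by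
  have hγ := Real.sqrt_nonneg ((gL K).real E)
  have hr : 0 ≤ r := by
    clear hγ
    induction h with
    | base g c b z hg hc hz hS => exact (norm_nonneg z).trans (mem_closedBall_zero_iff.1 hS)
    | add _ _ ih _ => exact ih
    | mono _ _ ih => exact ih
  rw [mul_assoc]
  refine h.nb_apply (m.cen_P hE.1) (fun b z hz hS => (m.nb_P_coh' hE hρ hb b hz).mono ?_) (by positivity)
  have := mem_closedBall_zero_iff.1 hS
  gcongr

end Model

end Crest.Agent.R339
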