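import Crest.Agent.R339.Q.Coh1
import Crest.Agent.R339.Q.NB

/-!
# Row 339, part Q: coherent combinations
-/

set_option autoImplicit false

namespace Crest.Agent.R339

open MeasureTheory ProbabilityTheory Filter Topology Crest.MathPhysics.SpinGlass
open scoped InnerProductSpace ComplexConjugate

namespace Model

variable {K : ℕ} {I : Iamp K} {H KK : Type} [NormedAddCommGroup H] [InnerProductSpace ℂ H]
  [CompleteSpace H] [NormedAddCommGroup KK] [InnerProductSpace ℂ KK] (m : Model I H KK)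

variable {m}
theorem MC.nonneg {S : Set KK} {n : ℝ} {ψ : H} (h : m.MC S n ψ) : 0 ≤ n := by
  induction h with
  | base g c b z hg hc hz hS => exact (norm_nonneg _).trans (hc 0)
  | add _ _ h h' => exact add_nonneg h h'
  | mono _ hn h => exact h.trans hn
theorem MC.coh {S : Set KK} (b : Bool) {z : KK} (hz : z ∈ m.R) (hS : z ∈ S) : m.MC S 1 (m.coh b z) := by
  have h := MC.base (m := m) (S := S) (fun _ => 1) 1 b z measurable_const (fun _ => by simp) hz hS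
  rwa [m.mul_one', ContinuousLinearMap.one_apply] at h
theorem MC.mono_set {S S' : Set KK} {n : ℝ} {ψ : H} (h : m.MC S n ψ) (hS : S ⊆ S') : m.MC S' n ψ := by
  induction h with
  | base g c b z hg hc hz hS' => exact MC.base g c b z hg hc hz (hS hS')
  | add _ _ h h' => exact h.add h'
  | mono _ hn h => exact h.mono hn
theorem MC.mul {S : Set KK} {n : ℝ} {ψ : H} (h : m.MC S n ψ) {g : Lab K → ℂ} {c : ℝ} (hg : Measurable g)
    (hc : ∀ x, ‖g x‖ ≤ c) : m.MC S (c * n) (m.mul g ψ) := by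
  have hc0 : 0 ≤ c := (norm_nonneg _).trans (hc 0)
  induction h with
  | base g' c' b z hg' hc' hz hS =>
    have h := MC.base (m := m) (S := S) (g * g') (c * c') b z (hg.mul hg')
      (fun x => by
        rw [Pi.mul_apply, norm_mul]
        exact mul_le_mul (hc x) (hc' x) (norm_nonneg _) hc0) hz hS
    rwa [m.mul_mul g g' ⟨hg, c, hc⟩ ⟨hg', c', hc'⟩, ContinuousLinearMap.mul_apply] at h
  | add _ _ h h' =>
    rw [map_add, _root_.mul_add]
    exact h.add h'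
  | mono _ hn h => exact h.mono (mul_le_mul_of_nonneg_left hn hc0)
theorem MC.smul {S : Set KK} {n : ℝ} {ψ : H} (h : m.MC S n ψ) (c : ℂ) : m.MC S (‖c‖ * n) (c • ψ) := by
  have h1 := h.mul (g := fun _ => c) (c := ‖c‖) measurable_const fun _ => le_rfl
  rwa [m.mul_const, ContinuousLinearMap.smul_apply, ContinuousLinearMap.one_apply] at h1
theorem MC.neg {S : Set KK} {n : ℝ} {ψ : H} (h : m.MC S n ψ) : m.MC S n (-ψ) := by
  simpa using h.smul (-1)
theorem MC.sub {S : Set KK} {n n' : ℝ} {ψ ψ' : H} (h : m.MC S n ψ) (h' : m.MC S n' ψ') :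
    m.MC S (n + n') (ψ - ψ') := by
  rw [sub_eq_add_neg]
  exact h.add h'.neg
theorem MC.norm_le {S : Set KK} {n : ℝ} {ψ : H} (h : m.MC S n ψ) : ‖ψ‖ ≤ n := by
  induction h with
  | base g c b z hg hc hz hS =>
    refine ((m.mul g).le_opNorm _).trans ?_
    rw [m.norm_coh b hz, mul_one]
    exact m.mul_norm g c hg hc
  | add _ _ h h' => exact (norm_add_le _ _).trans (add_le_add h h')
  | mono _ hn h => exact h.trans hn
theorem h91_cen_apply {A : H →L[ℂ] H} (hA : m.Cen A) {g : Lab K → ℂ} {c : ℝ} (hg : Measurable g)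
    (hc : ∀ x, ‖g x‖ ≤ c) (ψ : H) : A (m.mul g ψ) = m.mul g (A ψ) := by
  rw [← ContinuousLinearMap.mul_apply, (hA g ⟨hg, c, hc⟩).eq, ContinuousLinearMap.mul_apply]
theorem h91_nb_mul {lam c : ℝ} {ψ : H} (h : m.NB lam ψ) {g : Lab K → ℂ} (hg : Measurable g)
    (hc : ∀ x, ‖g x‖ ≤ c) : m.NB (c * lam) (m.mul g ψ) := by
  have hc0 : 0 ≤ c := (norm_nonneg _).trans (hc 0)
  have hn := m.mul_norm g c hg hc
  refine ⟨((m.mul g).le_opNorm _).trans (mul_le_mul hn h.1 (norm_nonneg _) hc0), fun y hy => ?_⟩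
  rw [h91_cen_apply (m.cen_W y) hg hc, ← map_sub, mul_assoc]
  exact ((m.mul g).le_opNorm _).trans (mul_le_mul hn (h.2 y hy) (norm_nonneg _) hc0)
theorem h91_mc_r {n r : ℝ} {ψ : H} (h : m.MC (Metric.closedBall 0 r) n ψ) : 0 ≤ r := by
  induction h with
  | base g c b z hg hc hz hS => exact Metric.nonempty_closedBall.1 ⟨z, hS⟩
  | add _ _ h _ => exact h
  | mono _ _ h => exact h
theorem MC.bound {S : Set KK} {n e : ℝ} {ψ : H} (h : m.MC S n ψ) {A : H →L[ℂ] H} (hA : m.Cen A)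
    (he : ∀ b, ∀ z ∈ m.R, z ∈ S → ‖A (m.coh b z)‖ ≤ e) (he0 : 0 ≤ e) : ‖A ψ‖ ≤ n * e := by
  induction h with
  | base g c b z hg hc hz hS =>
    rw [h91_cen_apply hA hg hc]
    exact ((m.mul g).le_opNorm _).trans (mul_le_mul (m.mul_norm g c hg hc) (he b z hz hS)
      (norm_nonneg _) ((norm_nonneg _).trans (hc 0)))
  | add _ _ h h' =>
    rw [map_add, add_mul]
    exact (norm_add_le _ _).trans (add_le_add h h')
  | mono _ hn h => exact h.trans (mul_le_mul_of_nonneg_right hn he0)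
theorem MC.nb_apply {S : Set KK} {n e : ℝ} {ψ : H} (h : m.MC S n ψ) {A : H →L[ℂ] H} (hA : m.Cen A)
    (he : ∀ b, ∀ z ∈ m.R, z ∈ S → m.NB e (A (m.coh b z))) (he0 : 0 ≤ e) : m.NB (n * e) (A ψ) := by
  induction h with
  | base g c b z hg hc hz hS =>
    rw [h91_cen_apply hA hg hc]
    exact h91_nb_mul (he b z hz hS) hg hc
  | add _ _ h h' =>
    rw [map_add, add_mul]
    exact h.add h'
  | mono _ hn h => exact h.mono (mul_le_mul_of_nonneg_right hn he0)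
theorem MC.map {S S' : Set KK} {n κ : ℝ} {ψ : H} (h : m.MC S n ψ) {A : H →L[ℂ] H} (hA : m.Cen A)
    (hκ : 0 ≤ κ) (he : ∀ b, ∀ z ∈ m.R, z ∈ S → m.MC S' κ (A (m.coh b z))) :
    m.MC S' (κ * n) (A ψ) := by
  induction h with
  | base g c b z hg hc hz hS =>
    rw [h91_cen_apply hA hg hc, mul_comm κ c]
    exact (he b z hz hS).mul hg hc
  | add _ _ h h' =>
    rw [map_add, _root_.mul_add]
    exact h.add h'
  | mono _ hn h => exact h.mono (mul_le_mul_of_nonneg_left hn hκ)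
theorem MC.nb {n r : ℝ} {ψ : H} (h : m.MC (Metric.closedBall 0 r) n ψ) : m.NB (n * (1 + 2 * r)) ψ := by
  have hr := h91_mc_r h
  exact h.nb_apply (A := 1) (Cen.one m) (fun b z hz hS => (m.nb_coh b hz).mono (by
    have := mem_closedBall_zero_iff.1 hS
    linarith)) (by linarith)
theorem MC.nb_P {n r : ℝ} {ψ : H} (h : m.MC (Metric.closedBall 0 r) n ψ) {E : Set (Lab K)}
    (hE : MeasurableSet E) {ρ : ℝ} (hρ : 0 ≤ ρ) (hEρ : ∀ x ∈ E, ∀ i, |x i| ≤ ρ) :
    m.NB (n * (1 + (K + 1) * ρ + 2 * r) * Real.sqrt ((gL K).real E)) (m.P E ψ) := by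
  have hr := h91_mc_r h
  rw [mul_assoc]
  exact h.nb_apply (m.cen_P hE) (fun b z hz hS => (m.nb_P_coh hE hρ hEρ b hz).mono (by
    have := mem_closedBall_zero_iff.1 hS
    gcongr)) (by positivity)
theorem MC.inner_far {n r : ℝ} {ψ : H} (h : m.MC (Metric.closedBall 0 r) n ψ) (b : Bool) {v : KK}
    (hv : ∀ i, ⟪m.d i, v⟫_ℂ = 0) :
    ‖⟪ψ, m.coh b v⟫_ℂ‖ ≤ n * Real.exp (-(‖v‖ * (‖v‖ - 2 * r)) / 2) := by
  induction h with
  | base g c b' z hg hc hz hS =>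
    exact m.norm_inner_far hg hc b' b hz hv (mem_closedBall_zero_iff.1 hS)
  | add _ _ h h' =>
    rw [inner_add_left, add_mul]
    exact (norm_add_le _ _).trans (add_le_add h h')
  | mono _ hn h => exact h.trans (mul_le_mul_of_nonneg_right hn (Real.exp_pos _).le)
theorem ErrLe.mc {S : Set KK} {U V : H →L[ℂ] H} {e n : ℝ} (h : m.ErrLe S U V e) (he : 0 ≤ e)
    (hU : m.Cen U) (hV : m.Cen V) {ψ : H} (hψ : m.MC S n ψ) : ‖U ψ - V ψ‖ ≤ n * e := by
  exact hψ.bound (A := U - V) (hU.sub hV) (fun b z hz hS => h b z hz hS) he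
theorem h91_mc_Z {S : Set KK} {n : ℝ} {ψ : H} (h : m.MC S n ψ) : m.MC S n (m.Z ψ) := by
  have h1 := h.map (S' := S) (κ := 1) m.cen_Z zero_le_one fun b z hz hS => by
    rw [m.Z_coh]
    exact MC.coh _ hz hS
  rwa [one_mul] at h1
theorem h91_mc_W {S S' : Set KK} {n : ℝ} {ψ : H} (h : m.MC S n ψ) {y : KK} (hy : y ∈ m.R)
    (hS : ∀ z ∈ S, z + y ∈ S') : m.MC S' n (m.W y ψ) := by
  have h1 := h.map (S' := S') (κ := 1) (m.cen_W y) zero_le_one fun b z hz hzS => by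
    rw [m.W_coh b hy hz]
    refine ((MC.coh b (m.R.add_mem hy hz) (add_comm z y ▸ hS z hzS)).smul _).mono (le_of_eq ?_)
    simp [Complex.norm_exp]
  rwa [one_mul] at h1
theorem h91_mc_cosW {S S' : Set KK} {n : ℝ} {ψ : H} (h : m.MC S n ψ) {y : KK} (hy : y ∈ m.R)
    (hS : ∀ z ∈ S, z + y ∈ S' ∧ z - y ∈ S') : m.MC S' n (m.cosW y ψ) := by
  have h1 := ((h91_mc_W h hy fun z hz => (hS z hz).1).add (h91_mc_W h (m.R.neg_mem hy)
    fun z hz => sub_eq_add_neg z y ▸ (hS z hz).2)).smul (1 / 2 : ℂ)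
  refine MC.mono h1 (le_of_eq ?_)
  simp only [norm_div, norm_one, Complex.norm_ofNat]
  ring
theorem h91_mc_sinW {S S' : Set KK} {n : ℝ} {ψ : H} (h : m.MC S n ψ) {y : KK} (hy : y ∈ m.R)
    (hS : ∀ z ∈ S, z + y ∈ S' ∧ z - y ∈ S') : m.MC S' n (m.sinW y ψ) := by
  have h1 := ((h91_mc_W h hy fun z hz => (hS z hz).1).sub (h91_mc_W h (m.R.neg_mem hy)
    fun z hz => sub_eq_add_neg z y ▸ (hS z hz).2)).smul (-(Complex.I / 2) : ℂ)
  refine MC.mono h1 (le_of_eq ?_)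
  simp only [norm_neg, norm_div, Complex.norm_I, Complex.norm_ofNat]
  ring
theorem h91_ball {ρ : ℝ} (y : KK) : ∀ z ∈ Metric.closedBall (0 : KK) ρ,
    z + y ∈ Metric.closedBall (0 : KK) (ρ + ‖y‖) ∧ z - y ∈ Metric.closedBall (0 : KK) (ρ + ‖y‖) := by
  intro z hz
  simp only [mem_closedBall_zero_iff] at hz ⊢
  exact ⟨(norm_add_le _ _).trans (add_le_add hz le_rfl), (norm_sub_le _ _).trans (add_le_add hz le_rfl)⟩
/-- spin operators keep the displacement set -/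
theorem MC.X {S : Set KK} {n : ℝ} {ψ : H} (h : m.MC S n ψ) : m.MC S n (m.X ψ) := by
  have h1 := h.map (S' := S) (κ := 1) m.cen_X zero_le_one fun b z hz hS => by
    have h2 := (MC.coh b hz hS).smul (sg b)
    rw [m.X_coh]
    refine h2.mono (le_of_eq ?_)
    cases b <;> simp [sg, spinSign]
  rwa [one_mul] at h1
theorem MC.Y {S : Set KK} {n : ℝ} {ψ : H} (h : m.MC S n ψ) : m.MC S n (m.Y ψ) := by
  have h1 := (h91_mc_Z h).X.smul Complex.I
  rwa [Complex.norm_I, one_mul] at h1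
theorem MC.Z {S : Set KK} {n : ℝ} {ψ : H} (h : m.MC S n ψ) : m.MC S n (m.Z ψ) := by
  exact h91_mc_Z h
theorem MC.B {S : Set KK} {n : ℝ} {ψ : H} (h : m.MC S n ψ) (β : ℝ) : m.MC S (2 * n) (m.B β ψ) := by
  have h1 := (h.smul ((Real.cos β : ℝ) : ℂ)).sub (h.X.smul (Complex.I * ((Real.sin β : ℝ) : ℂ)))
  refine MC.mono h1 ?_
  rw [norm_mul, Complex.norm_I, one_mul, Complex.norm_real, Complex.norm_real, Real.norm_eq_abs,
    Real.norm_eq_abs, two_mul]
  exact add_le_add (mul_le_of_le_one_left h.nonneg (Real.abs_cos_le_one β))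
    (mul_le_of_le_one_left h.nonneg (Real.abs_sin_le_one β))
/-- a cost gate moves the displacement by `± y` -/
theorem MC.D_Z {S S' : Set KK} {n : ℝ} {ψ : H} (h : m.MC S n ψ) {y : KK} (hy : y ∈ m.R)
    (hS : ∀ z ∈ S, z + y ∈ S' ∧ z - y ∈ S') : m.MC S' (2 * n) (m.D m.Z y ψ) := by
  have h1 := (h91_mc_cosW h hy hS).sub ((h91_mc_sinW h hy hS).Z.smul Complex.I)
  rw [Complex.norm_I, one_mul, ← two_mul] at h1
  exact h1

theorem MCop.mono {κ κ' r r' : ℝ} {A : H →L[ℂ] H} (h : m.MCop κ r A) (hκ : κ ≤ κ') (hr : r ≤ r') :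
    m.MCop κ' r' A := by
  intro ρ n ψ hψ
  exact ((h ρ n ψ hψ).mono_set (Metric.closedBall_subset_closedBall (by linarith))).mono
    (mul_le_mul_of_nonneg_right hκ hψ.nonneg)
theorem MCop.mul {κ κ' r r' : ℝ} {A A' : H →L[ℂ] H} (h : m.MCop κ r A) (h' : m.MCop κ' r' A') :
    m.MCop (κ * κ') (r + r') (A * A') := by
  intro ρ n ψ hψ
  have h1 := h _ _ _ (h' ρ n ψ hψ)
  rw [← mul_assoc, add_assoc, add_comm r' r] at h1
  exact h1
theorem MCop.add {κ κ' r : ℝ} {A A' : H →L[ℂ] H} (h : m.MCop κ r A) (h' : m.MCop κ' r A') :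
    m.MCop (κ + κ') r (A + A') := by
  intro ρ n ψ hψ
  rw [add_mul]
  exact (h ρ n ψ hψ).add (h' ρ n ψ hψ)
theorem MCop.smul {κ r : ℝ} {A : H →L[ℂ] H} (h : m.MCop κ r A) (c : ℂ) :
    m.MCop (‖c‖ * κ) r (c • A) := by
  intro ρ n ψ hψ
  rw [mul_assoc]
  exact (h ρ n ψ hψ).smul c
theorem MCop.D {Q : H →L[ℂ] H} (h : m.MCop 1 0 Q) {y : KK} (hy : y ∈ m.R) :
    m.MCop 2 ‖y‖ (m.D Q y) := by
  intro ρ n ψ hψ
  have h1 := h _ _ _ (h91_mc_sinW hψ hy (h91_ball y))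
  rw [add_zero, one_mul] at h1
  have h2 := (h91_mc_cosW hψ hy (h91_ball y)).sub (h1.smul Complex.I)
  rw [Complex.norm_I, one_mul, ← two_mul] at h2
  exact h2
variable (m)
theorem mc_vac {r : ℝ} (hr : 0 ≤ r) : m.MC (Metric.closedBall 0 r) 1 m.vac := by
  rw [← m.coh_zero]
  exact MC.coh false m.R.zero_mem (Metric.mem_closedBall_self hr)
theorem mcop_one : m.MCop 1 0 1 := by
  intro ρ n ψ hψ
  rwa [add_zero, one_mul]
theorem mcop_X : m.MCop 1 0 m.X := by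
  intro ρ n ψ hψ
  rw [add_zero, one_mul]
  exact hψ.X
theorem mcop_Y : m.MCop 1 0 m.Y := by
  intro ρ n ψ hψ
  rw [add_zero, one_mul]
  exact hψ.Y
theorem mcop_Z : m.MCop 1 0 m.Z := by
  intro ρ n ψ hψ
  rw [add_zero, one_mul]
  exact hψ.Z
theorem mcop_Sg : m.MCop 1 0 m.Sg := by
  intro ρ n ψ hψ
  rw [add_zero]
  refine hψ.mul (BM.sign (K := K)).1 fun x => ?_
  rw [Complex.norm_real]
  rcases Real.sign_apply_eq (x 0) with h | h | h <;> simp [h]
theorem mcop_P {E : Set (Lab K)} (hE : MeasurableSet E) : m.MCop 1 0 (m.P E) := by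
  intro ρ n ψ hψ
  rw [add_zero]
  refine hψ.mul (measurable_const.indicator hE) fun x => ?_
  by_cases hx : x ∈ E <;> simp [hx]
theorem mcop_ph {κ : Lab K → ℝ} (hκ : Measurable κ) : m.MCop 1 0 (m.ph κ) := by
  intro ρ n ψ hψ
  rw [add_zero]
  refine hψ.mul (BM.expI hκ).1 fun x => ?_
  simp [Complex.norm_exp]
theorem mcop_B (β : ℝ) : m.MCop 2 0 (m.B β) := by
  intro ρ n ψ hψ
  rw [add_zero]
  exact hψ.B β
theorem mcop_W {y : KK} (hy : y ∈ m.R) : m.MCop 1 ‖y‖ (m.W y) := by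
  intro ρ n ψ hψ
  rw [one_mul]
  exact h91_mc_W hψ hy fun z hz => (h91_ball y z hz).1
theorem mcop_cosW {y : KK} (hy : y ∈ m.R) : m.MCop 1 ‖y‖ (m.cosW y) := by
  intro ρ n ψ hψ
  rw [one_mul]
  exact h91_mc_cosW hψ hy (h91_ball y)
theorem mcop_sinW {y : KK} (hy : y ∈ m.R) : m.MCop 1 ‖y‖ (m.sinW y) := by
  intro ρ n ψ hψ
  rw [one_mul]
  exact h91_mc_sinW hψ hy (h91_ball y)
theorem mcop_genU {y : ℕ → KK} (hy : ∀ k, y k ∈ m.R) (β : ℕ → ℝ) {A : ℝ} (hA : ∀ k, ‖y k‖ ≤ A) (k : ℕ) :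
    m.MCop (4 ^ k) (k * A) (m.genU y β k) ∧ m.MCop (4 ^ k) (k * A) (star (m.genU y β k)) := by
  induction k with
  | zero =>
    simp only [genU, pow_zero, Nat.cast_zero, zero_mul, star_one]
    exact ⟨m.mcop_one, m.mcop_one⟩
  | succ k ih =>
    have h1 := hA k
    simp only [genU, star_mul, Nat.cast_succ]
    refine ⟨(((m.mcop_B (β k)).mul (m.mcop_Z.D (hy k))).mul ih.1).mono (le_of_eq (by ring))
      (by linarith), ?_⟩
    rw [m.isAxis_Z.star_D, B, star_rot m.X_star]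
    refine (ih.2.mul ((m.mcop_Z.D (m.R.neg_mem (hy k))).mul (m.mcop_B (-β k)))).mono
      (le_of_eq (by ring)) ?_
    rw [norm_neg]
    linarith
theorem mcop_reach {M : ℕ} {U : H →L[ℂ] H} (hU : U ∈ m.Reach M) :
    ∃ κ r, 1 ≤ κ ∧ 0 ≤ r ∧ m.MCop κ r U := by
  obtain ⟨w, -, κ, hκ, rfl⟩ := hU
  have h1 : ∃ κ r, 1 ≤ κ ∧ 0 ≤ r ∧ m.MCop κ r (m.run w) := by
    induction w using List.reverseRecOn with
    | nil => exact ⟨1, 0, le_rfl, le_rfl, m.mcop_one⟩
    | append_singleton w L ih =>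
      obtain ⟨κ, r, h1, h2, h3⟩ := ih
      rw [m.run_snoc]
      exact ⟨_, _, by linarith, by positivity,
        ((m.mcop_B L.2.2).mul (m.mcop_Z.D ((m.fib_run w).fld_mem L))).mul h3⟩
  obtain ⟨κ', r, h1, h2, h3⟩ := h1
  exact ⟨_, _, by linarith, by linarith, (m.mcop_ph hκ).mul h3⟩
theorem mcop_target {S T : Set (Lab K)} (hS : MeasurableSet S) (hT : MeasurableSet T) (t : ℝ)
    {U : H →L[ℂ] H} (hU : m.Fib U) : m.MCop 5 |t| (m.target S T t U) := by
  have h1 : ‖t • m.j (m.P T (m.Sg m.vac))‖ ≤ |t| := by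
    rw [norm_smul, Real.norm_eq_abs, m.j.norm_map]
    refine mul_le_of_le_one_right (abs_nonneg _) ((m.norm_P_apply_le hT _).trans (le_of_eq ?_))
    rw [m.isAxis_Sg.fib.norm_apply, m.norm_vac]
  have h2 : ‖t • m.j (m.P S (m.xi U))‖ ≤ |t| := by
    rw [norm_smul, Real.norm_eq_abs, m.j.norm_map]
    exact mul_le_of_le_one_right (abs_nonneg _) ((m.norm_P_apply_le hS _).trans hU.norm_xi.le)
  have h3 := ((m.mcop_P hS).mul (m.mcop_Z.D (m.R.smul_mem t (m.j_P_Sg_mem hT)))).mono le_rfl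
    ((zero_add _).le.trans h1)
  have h4 := ((m.mcop_P hT).mul (m.mcop_Sg.D (m.R.smul_mem t
    (hU.j_P_heis_mem m.Z_star m.cen_Z hS)))).mono le_rfl ((zero_add _).le.trans h2)
  have h5 := (m.mcop_P (hS.union hT).compl).mono le_rfl (abs_nonneg t)
  exact ((h3.add h4).add h5).mono (by norm_num) le_rfl

end Model

end Crest.Agent.R339
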