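import Crest.Agent.R339.Q.ModelEx0
import Crest.Agent.R339.Q.Alg0

/-!
# Row 339, part Q: fibrewise operators on `L²` of the labels
-/

set_option autoImplicit false

namespace Crest.Agent.R339.ModelEx

open MeasureTheory ProbabilityTheory Filter Topology Crest.MathPhysics.SpinGlass
open scoped InnerProductSpace ComplexConjugate ENNReal

variable {K : ℕ} {F : Type} [NormedAddCommGroup F] [InnerProductSpace ℂ F]

/-- square integrable functions of the labels -/
abbrev HH (K : ℕ) (F : Type) [NormedAddCommGroup F] : Type := Lp F 2 (gL K)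

/-- `T` acts fibrewise by `A` -/
def Pt (T : HH K F →L[ℂ] HH K F) (A : Lab K → F →L[ℂ] F) : Prop :=
  ∀ v, T v =ᵐ[gL K] fun x => A x (v x)

theorem Pt.ext {T T' : HH K F →L[ℂ] HH K F} {A A' : Lab K → F →L[ℂ] F} (h : Pt T A) (h' : Pt T' A')
    (e : ∀ᵐ x ∂gL K, A x = A' x) : T = T' := by
  refine ContinuousLinearMap.ext fun v => Lp.ext ?_
  filter_upwards [h v, h' v, e] with x h1 h2 h3
  rw [h1, h2, h3]

theorem Pt.ext' {T T' : HH K F →L[ℂ] HH K F} {A A' : Lab K → F →L[ℂ] F} (h : Pt T A)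
    (h' : Pt T' A') (e : ∀ x, A x = A' x) : T = T' := h.ext h' (Eventually.of_forall e)

theorem Pt.mul {T T' : HH K F →L[ℂ] HH K F} {A A' : Lab K → F →L[ℂ] F} (h : Pt T A)
    (h' : Pt T' A') : Pt (T * T') fun x => A x * A' x := by
  intro v
  filter_upwards [h (T' v), h' v] with x h1 h2
  change T (T' v) x = A x (A' x (v x))
  rw [h1, h2]

theorem Pt.add {T T' : HH K F →L[ℂ] HH K F} {A A' : Lab K → F →L[ℂ] F} (h : Pt T A)
    (h' : Pt T' A') : Pt (T + T') fun x => A x + A' x := by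
  intro v
  filter_upwards [h v, h' v, Lp.coeFn_add (T v) (T' v)] with x h1 h2 h3
  change (T v + T' v) x = A x (v x) + A' x (v x)
  rw [h3, Pi.add_apply, h1, h2]

theorem Pt.smul {T : HH K F →L[ℂ] HH K F} {A : Lab K → F →L[ℂ] F} (h : Pt T A) (c : ℂ) :
    Pt (c • T) fun x => c • A x := by
  intro v
  filter_upwards [h v, Lp.coeFn_smul c (T v)] with x h1 h3
  change (c • T v) x = c • A x (v x)
  rw [h3, Pi.smul_apply, h1]

theorem Pt.neg {T : HH K F →L[ℂ] HH K F} {A : Lab K → F →L[ℂ] F} (h : Pt T A) :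
    Pt (-T) fun x => -A x := by
  intro v
  filter_upwards [h v, Lp.coeFn_neg (T v)] with x h1 h3
  change (-T v) x = -A x (v x)
  rw [h3, Pi.neg_apply, h1]

theorem pt_one : Pt (1 : HH K F →L[ℂ] HH K F) fun _ => 1 := fun _ => EventuallyEq.rfl

theorem Pt.star_eq [CompleteSpace F] {T T' : HH K F →L[ℂ] HH K F} {A A' : Lab K → F →L[ℂ] F}
    (h : Pt T A) (h' : Pt T' A') (e : ∀ x, star (A x) = A' x) : star T = T' := by
  symm
  rw [ContinuousLinearMap.star_eq_adjoint, ContinuousLinearMap.eq_adjoint_iff]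
  intro u v
  rw [L2.inner_def, L2.inner_def]
  refine integral_congr_ae ?_
  filter_upwards [h v, h' u] with x h1 h2
  rw [h1, h2, ← e x, ContinuousLinearMap.star_eq_adjoint, ContinuousLinearMap.adjoint_inner_left]

/-- constant fibre operators -/
noncomputable def lift (A : F →L[ℂ] F) : HH K F →L[ℂ] HH K F := A.compLpL 2 (gL K)

theorem pt_lift (A : F →L[ℂ] F) : Pt (lift A : HH K F →L[ℂ] HH K F) fun _ => A :=
  fun v => A.coeFn_compLpL v

theorem bm_top {g : Lab K → ℂ} (hg : BM g) : MemLp g ∞ (gL K) := by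
  obtain ⟨h1, C, hC⟩ := hg
  exact memLp_top_of_bound h1.aestronglyMeasurable C (Eventually.of_forall hC)

open Classical in
/-- multiplication operators -/
noncomputable def mulOp (g : Lab K → ℂ) : HH K F →L[ℂ] HH K F :=
  if h : BM g then (ContinuousLinearMap.lsmul ℂ ℂ : ℂ →L[ℂ] F →L[ℂ] F).holderL (gL K) ∞ 2 2
    ((bm_top h).toLp g) else 0

theorem pt_mulOp {g : Lab K → ℂ} (hg : BM g) :
    Pt (mulOp g : HH K F →L[ℂ] HH K F) fun x => g x • 1 := by
  intro v
  rw [mulOp, dif_pos hg, ContinuousLinearMap.holderL_apply_apply]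
  filter_upwards [(ContinuousLinearMap.lsmul ℂ ℂ : ℂ →L[ℂ] F →L[ℂ] F).coeFn_holder (r := 2)
    ((bm_top hg).toLp g) v, (bm_top hg).coeFn_toLp] with x h1 h2
  rw [h1, h2]
  rfl

theorem norm_mulOp {g : Lab K → ℂ} {C : ℝ} (hg : Measurable g) (hC : ∀ x, ‖g x‖ ≤ C) :
    ‖(mulOp g : HH K F →L[ℂ] HH K F)‖ ≤ C := by
  have hC0 : 0 ≤ C := le_trans (norm_nonneg _) (hC 0)
  refine ContinuousLinearMap.opNorm_le_bound _ hC0 fun v => ?_
  refine Lp.norm_le_mul_norm_of_ae_le_mul ?_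
  filter_upwards [pt_mulOp ⟨hg, C, hC⟩ v] with x hx
  rw [hx]
  change ‖g x • v x‖ ≤ _
  rw [norm_smul]
  exact mul_le_mul_of_nonneg_right (hC x) (norm_nonneg _)

/-- constant vectors -/
noncomputable def cst (c : F) : HH K F := Lp.const 2 (gL K) c

theorem coe_cst (c : F) : (cst c : HH K F) =ᵐ[gL K] fun _ => c := Lp.coeFn_const 2 (gL K) c

theorem cst_add (c c' : F) : (cst (c + c') : HH K F) = cst c + cst c' := map_add _ c c'

theorem cst_smul (a : ℂ) (c : F) : (cst (a • c) : HH K F) = a • cst c :=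
  (Lp.constₗ 2 (gL K) ℂ).map_smul a c

theorem Pt.cst {T : HH K F →L[ℂ] HH K F} {A : Lab K → F →L[ℂ] F} (h : Pt T A) (c : F) :
    T (cst c) =ᵐ[gL K] fun x => A x c := by
  filter_upwards [h (ModelEx.cst c), coe_cst (K := K) c] with x h1 h2
  rw [h1, h2]

theorem lift_cst (A : F →L[ℂ] F) (c : F) : (lift A : HH K F →L[ℂ] HH K F) (cst c) = cst (A c) :=
  Lp.ext (((pt_lift A).cst c).trans (coe_cst _).symm)

theorem memLp_xv (i : Fin (K + 1)) (c : F) : MemLp (fun x : Lab K => (x i : ℂ) • c) 2 (gL K) :=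
  (ContinuousLinearMap.toSpanSingleton ℂ c).comp_memLp' (memLp_x i)

/-- the vectors `x i • c` -/
noncomputable def xv (i : Fin (K + 1)) (c : F) : HH K F := (memLp_xv i c).toLp _

theorem coe_xv (i : Fin (K + 1)) (c : F) : xv i c =ᵐ[gL K] fun x => (x i : ℂ) • c :=
  (memLp_xv i c).coeFn_toLp

theorem lift_xv (A : F →L[ℂ] F) (i : Fin (K + 1)) (c : F) : lift A (xv i c) = xv i (A c) := by
  refine Lp.ext ?_
  filter_upwards [pt_lift A (xv i c), coe_xv i c, coe_xv i (A c)] with x h1 h2 h3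
  rw [h1, h2, h3, map_smul]

theorem inner_of_ae {u v : HH K F} {g h : Lab K → ℂ} {c d : F} (hu : u =ᵐ[gL K] fun x => g x • c)
    (hv : v =ᵐ[gL K] fun x => h x • d) :
    ⟪u, v⟫_ℂ = (∫ x, conj (g x) * h x ∂gL K) * ⟪c, d⟫_ℂ := by
  rw [L2.inner_def, ← integral_mul_const]
  refine integral_congr_ae ?_
  filter_upwards [hu, hv] with x h1 h2
  rw [h1, h2, inner_smul_left, inner_smul_right, mul_assoc]

theorem coe_cst' (c : F) : (cst c : HH K F) =ᵐ[gL K] fun _ => (1 : ℂ) • c := by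
  simpa using coe_cst (K := K) c

theorem inner_cst (c d : F) : ⟪(cst c : HH K F), cst d⟫_ℂ = ⟪c, d⟫_ℂ := by
  rw [inner_of_ae (coe_cst' c) (coe_cst' d)]
  simp

theorem norm_cst (c : F) : ‖(cst c : HH K F)‖ = ‖c‖ := by
  rw [norm_eq_sqrt_re_inner (𝕜 := ℂ), inner_cst, ← norm_eq_sqrt_re_inner]

/-- one-particle space -/
abbrev KK (K : ℕ) : Type := WithLp 2 (EuclideanSpace ℂ (Fin (K + 1)) × K0)

/-- label modes -/
noncomputable def dd (i : Fin (K + 1)) : KK K := WithLp.toLp 2 (EuclideanSpace.single i 1, 0)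

theorem inner_dd (i : Fin (K + 1)) (y : KK K) : ⟪dd i, y⟫_ℂ = y.fst i := by
  simp [dd, WithLp.prod_inner_apply, EuclideanSpace.inner_single_left]

theorem inner_KK (y z : KK K) :
    ⟪y, z⟫_ℂ = ∑ i, conj (y.fst i) * z.fst i + ⟪y.snd, z.snd⟫_ℂ := by
  rw [WithLp.prod_inner_apply, PiLp.inner_apply]
  simp [mul_comm]

theorem norm_KK (y : KK K) (hy : ∀ i, (y.fst i).im = 0) :
    ‖y‖ ^ 2 = ∑ i, (y.fst i).re ^ 2 + ‖y.snd‖ ^ 2 := by
  rw [WithLp.prod_norm_sq_eq_of_L2, EuclideanSpace.norm_sq_eq]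
  congr 1
  refine Finset.sum_congr rfl fun i _ => ?_
  rw [Complex.sq_norm, Complex.normSq_apply, hy i]
  ring

theorem mem_real {y : KK K} (hy : y ∈ realSub (dd (K := K))) (i : Fin (K + 1)) :
    (y.fst i).im = 0 := by
  have := hy i
  rwa [inner_dd] at this

/-- the phase attached to the label part of a field vector -/
noncomputable def eph (y : KK K) (x : Lab K) : ℂ :=
  Complex.exp (Complex.I * ((∑ i, (y.fst i).re * x i : ℝ) : ℂ))

theorem bm_eph (y : KK K) : BM (eph y) := BM.expI (by fun_prop)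

theorem conj_eph (y : KK K) (x : Lab K) :
    conj (eph y x) = Complex.exp (-Complex.I * ((∑ i, (y.fst i).re * x i : ℝ) : ℂ)) := by
  rw [eph, ← Complex.exp_conj, map_mul, Complex.conj_I, Complex.conj_ofReal]

variable [CompleteSpace F] (w : Weyl1 F)

theorem vac_vac : ⟪w.vac, w.vac⟫_ℂ = 1 := by
  rw [inner_self_eq_norm_sq_to_K, w.norm_vac]
  simp

theorem vac_one (y : K0) : ⟪w.vac, w.one y⟫_ℂ = 0 := by
  have := w.inner_one 0 y
  rw [w.W_zero] at this
  simpa using this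

/-- Weyl operators -/
noncomputable def WW (y : KK K) : HH K F →L[ℂ] HH K F := mulOp (eph y) * lift (w.W y.snd)

theorem pt_WW (y : KK K) : Pt (WW w y) fun x => eph y x • w.W y.snd := by
  have := (pt_mulOp (F := F) (bm_eph y)).mul (pt_lift (w.W y.snd))
  simp only [smul_mul_assoc, one_mul] at this
  exact this

/-- one-particle vectors -/
noncomputable def ioL : KK K →ₗ[ℂ] HH K F where
  toFun y := ∑ i, y.fst i • xv i w.vac + cst (w.one y.snd)
  map_add' y z := by
    simp only [WithLp.add_fst, WithLp.add_snd, PiLp.add_apply, add_smul, Finset.sum_add_distrib,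
      map_add, cst_add]
    abel
  map_smul' c y := by
    simp only [WithLp.smul_fst, WithLp.smul_snd, PiLp.smul_apply, smul_eq_mul, mul_smul, map_smul,
      cst_smul, RingHom.id_apply, smul_add, Finset.smul_sum]

theorem inner_ioL {u : HH K F} {g : Lab K → ℂ} {c : F} (hu : u =ᵐ[gL K] fun x => g x • c)
    (y : KK K) : ⟪u, ioL w y⟫_ℂ = (∑ i, y.fst i * ∫ x, conj (g x) * (x i : ℂ) ∂gL K) * ⟪c, w.vac⟫_ℂ
      + (∫ x, conj (g x) ∂gL K) * ⟪c, w.one y.snd⟫_ℂ := by
  change ⟪u, ∑ i, y.fst i • xv i w.vac + cst (w.one y.snd)⟫_ℂ = _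
  rw [inner_add_right, inner_sum, inner_of_ae hu (coe_cst' _), Finset.sum_mul]
  simp only [inner_smul_right, inner_of_ae hu (coe_xv _ _), mul_one, mul_assoc]

theorem inner_ioL_ioL (y z : KK K) : ⟪ioL w y, ioL w z⟫_ℂ = ⟪y, z⟫_ℂ := by
  change ⟪∑ i, y.fst i • xv i w.vac + cst (w.one y.snd), _⟫_ℂ = _
  have h1 : ⟪w.one y.snd, w.vac⟫_ℂ = 0 := by rw [← inner_conj_symm, vac_one, map_zero]
  rw [inner_add_left, sum_inner, inner_ioL w (coe_cst' _), inner_KK, h1, w.one.inner_map_map]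
  simp [inner_smul_left, inner_ioL w (coe_xv _ _), gl_xx, w.norm_vac, vac_one]

/-- one-particle vectors as an isometry -/
noncomputable def io : KK K →ₗᵢ[ℂ] HH K F := (ioL w).isometryOfInner (inner_ioL_ioL w)

theorem orthonormal_f (I : Iamp K) :
    Orthonormal ℂ fun k => (mulOp fun x => (I.f k x : ℂ)) (cst w.vac : HH K F) := by
  classical
  have hb : ∀ k, BM fun x => (I.f k x : ℂ) := fun k => by
    obtain ⟨C, hC⟩ := I.f_bdd k
    exact BM.ofReal (I.f_meas k) hC
  rw [orthonormal_iff_ite]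
  intro k l
  rw [inner_of_ae (g := fun x => (I.f k x : ℂ)) (h := fun x => (I.f l x : ℂ)) (c := w.vac)
    (d := w.vac) ((pt_mulOp (hb k)).cst w.vac) ((pt_mulOp (hb l)).cst w.vac), vac_vac, mul_one]
  simp only [Complex.conj_ofReal, ← Complex.ofReal_mul]
  rw [integral_complex_ofReal, I.f_on]
  split_ifs <;> simp

theorem total : Dense (Submodule.span ℂ {v : HH K F | ∃ g, BM g ∧ ∃ y ∈ realSub (dd (K := K)),
    v = mulOp g (WW w y (cst w.vac)) ∨ v = mulOp g (lift w.Z (WW w y (cst w.vac)))} :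
      Set (HH K F)) := by
  rw [Submodule.dense_iff_topologicalClosure_eq_top, Submodule.topologicalClosure_eq_top_iff,
    Submodule.eq_bot_iff]
  intro u hu
  rw [Submodule.mem_orthogonal] at hu
  have hint : Integrable u (gL K) := (Lp.memLp u).integrable (by norm_num)
  refine Lp.ext ((Lp.ae_eq_zero_of_forall_setIntegral_eq_zero u (by norm_num) (by norm_num)
    (fun s _ _ => hint.integrableOn) fun s hs _ => ?_).trans (Lp.coeFn_zero F 2 _).symm)
  have hb : BM (s.indicator fun _ : Lab K => (1 : ℂ)) := BM.indicator hs (BM.const 1)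
  have key : ∀ c : F, ⟪mulOp (s.indicator fun _ : Lab K => (1 : ℂ)) (cst c), u⟫_ℂ
      = ⟪c, ∫ x in s, u x ∂gL K⟫_ℂ := by
    intro c
    rw [L2.inner_def, ← integral_inner hint.integrableOn, ← integral_indicator hs]
    refine integral_congr_ae ?_
    filter_upwards [(pt_mulOp hb).cst c] with x hx
    rw [hx]
    by_cases h : x ∈ s <;> simp [h]
  have hW : ∀ y : K0, WW w (WithLp.toLp 2 (0, y)) (cst w.vac) = (cst (w.W y w.vac) : HH K F) := by
    intro y
    refine Lp.ext (((pt_WW w _).cst w.vac).trans ?_)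
    filter_upwards [coe_cst (K := K) (w.W y w.vac)] with x hx
    rw [hx]
    simp [eph]
  have hR : ∀ y : K0, (WithLp.toLp 2 (0, y) : KK K) ∈ realSub (dd (K := K)) := by
    intro y i
    rw [inner_dd]
    simp
  refine w.total _ (fun y => ?_) fun y => ?_
  · rw [← key, ← hW]
    exact hu _ (Submodule.subset_span ⟨_, hb, _, hR y, Or.inl rfl⟩)
  · rw [← key, ← lift_cst, ← hW]
    exact hu _ (Submodule.subset_span ⟨_, hb, _, hR y, Or.inr rfl⟩)

end Crest.Agent.R339.ModelEx
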