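import Crest.Agent.R339.Q.Fock2
import Crest.Agent.R339.Q.Alg0
import Crest.Agent.R339.Q.ModelEx1

/-!
# Row 339, part Q: existence of the model
-/

set_option autoImplicit false

namespace Crest.Agent.R339

open MeasureTheory ProbabilityTheory Filter Topology Crest.MathPhysics.SpinGlass
open scoped InnerProductSpace ComplexConjugate

/-- every separable Hilbert space embeds isometrically in `ℓ²(ℕ)` -/
theorem exists_isometry_K0 (H : Type) [NormedAddCommGroup H] [InnerProductSpace ℂ H] [CompleteSpace H]
    [TopologicalSpace.SeparableSpace H] : Nonempty (H →ₗᵢ[ℂ] K0) := by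
  classical
  obtain ⟨s, b, hb⟩ := exists_hilbertBasis ℂ H
  have hon : Orthonormal ℂ b := b.orthonormal
  have hc : Countable s := by
    refine Pairwise.countable_of_isOpen_disjoint (s := fun i : s => Metric.ball (b i) (1 / 2))
      (fun i j hij => Metric.ball_disjoint_ball ?_) (fun _ => Metric.isOpen_ball)
      fun i => Metric.nonempty_ball.2 (by norm_num)
    have h1 : ‖b i - b j‖ ^ 2 = 2 := by
      rw [@norm_sub_sq ℂ, hon.1 i, hon.1 j, hon.2 hij]
      norm_num
    rw [dist_eq_norm]
    nlinarith [norm_nonneg (b i - b j)]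
  obtain ⟨e, he⟩ := Countable.exists_injective_nat s
  have hv : Orthonormal ℂ fun i : s => (lp.single 2 (e i) (1 : ℂ) : K0) := by
    rw [orthonormal_iff_ite]
    intro i j
    rw [lp.inner_single_left, lp.single_apply, Pi.single_apply]
    by_cases h : i = j
    · simp [h]
    · simp [h, he.ne h]
  exact ⟨hv.orthogonalFamily.linearIsometry.comp b.repr.toLinearIsometry⟩

open ModelEx in
/-- The model exists.  Construction: `F = PiLp 2 (fun _ : Bool => Γ)` (spin ⊗ bosons), `Ω₀ = (vac, vac)/√2`,
`H = Lp F 2 (gL K)`, `vac = const Ω₀`, `mul g` = multiplication (`0` if `g` is not bounded measurable),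
`X` (swap), `Z` (sign), `W₀ y'` act fibrewise (`ContinuousLinearMap.compLpL`),
`KK = WithLp 2 (EuclideanSpace ℂ (Fin (K+1)) × K0)`, `d i = (single i 1, 0)`,
`W (a, y') = mul (exp (i Σ re (a i) x i)) * W₀ y'`,
`io (a, y') = x ↦ (Σ a i x i) • Ω₀ + (one y', one y')/√2`,
`j ξ = (Σ_k ⟪f_k Ω, ξ⟫ single k.succ 1, j' (ξ - Σ_k ⟪f_k Ω, ξ⟫ f_k Ω))` with `j'` from `exists_isometry_K0`.
`total`: simple functions are dense in `Lp`, and `W₀ y Ω₀`, `Z W₀ y Ω₀` span a dense subspace of `F`. -/
theorem exists_model {K : ℕ} (I : Iamp K) : ∃ (H KK : Type) (_ : NormedAddCommGroup H)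
    (_ : InnerProductSpace ℂ H) (_ : CompleteSpace H) (_ : NormedAddCommGroup KK)
    (_ : InnerProductSpace ℂ KK), Nonempty (Model I H KK) := by
  classical
  obtain ⟨F, _, _, _, _, ⟨w⟩⟩ := exists_weyl1
  have : Fact ((2 : ENNReal) ≠ ⊤) := ⟨by norm_num⟩
  obtain ⟨j'⟩ := exists_isometry_K0 (HH K F)
  have hd : Orthonormal ℂ fun k : Fin K => (EuclideanSpace.single k.succ (1 : ℂ)) :=
    (EuclideanSpace.orthonormal_single (𝕜 := ℂ) (ι := Fin (K + 1))).comp _ (Fin.succ_injective K)
  obtain ⟨j, hj1, hj2⟩ := exists_j (orthonormal_f w I) hd j'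
  refine ⟨HH K F, KK K, inferInstance, inferInstance, inferInstance, inferInstance, inferInstance,
    ⟨{ vac := cst w.vac
       mul := mulOp
       X := lift w.X
       Z := lift w.Z
       W := WW w
       d := dd
       j := j
       io := io w
       norm_vac := by rw [norm_cst, w.norm_vac]
       mul_mul := fun g h hg hh => (pt_mulOp (hg.mul hh)).ext' ((pt_mulOp hg).mul (pt_mulOp hh))
         fun x => by simp [mul_smul, smul_comm (g x)]
       mul_add := fun g h hg hh => (pt_mulOp (hg.add hh)).ext' ((pt_mulOp hg).add (pt_mulOp hh))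
         fun x => by simp [add_smul]
       mul_const := fun c => (pt_mulOp (BM.const c)).ext' (pt_one.smul c) fun x => rfl
       mul_star := fun g hg => (pt_mulOp hg).star_eq (pt_mulOp hg.conj) fun x => by simp
       mul_norm := fun g C hg hC => norm_mulOp hg hC
       mul_ae := fun g h hg hh e => (pt_mulOp hg).ext (pt_mulOp hh)
         (by filter_upwards [e] with x hx; rw [hx])
       X_star := (pt_lift _).star_eq (pt_lift _) fun _ => w.X_star
       Z_star := (pt_lift _).star_eq (pt_lift _) fun _ => w.Z_star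
       X_sq := ((pt_lift _).mul (pt_lift _)).ext' pt_one fun _ => w.X_sq
       Z_sq := ((pt_lift _).mul (pt_lift _)).ext' pt_one fun _ => w.Z_sq
       ZX := ((pt_lift _).mul (pt_lift _)).ext' ((pt_lift _).mul (pt_lift _)).neg fun _ => w.ZX
       X_vac := by rw [lift_cst, w.X_vac]
       X_mul := fun g hg => ((pt_lift _).mul (pt_mulOp hg)).ext' ((pt_mulOp hg).mul (pt_lift _))
         fun x => by simp
       Z_mul := fun g hg => ((pt_lift _).mul (pt_mulOp hg)).ext' ((pt_mulOp hg).mul (pt_lift _))
         fun x => by simp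
       X_W := fun y => ((pt_lift _).mul (pt_WW w y)).ext' ((pt_WW w y).mul (pt_lift _))
         fun x => by simp [w.X_W]
       Z_W := fun y => ((pt_lift _).mul (pt_WW w y)).ext' ((pt_WW w y).mul (pt_lift _))
         fun x => by simp [w.Z_W]
       W_mul := fun y g hg => ((pt_WW w y).mul (pt_mulOp hg)).ext' ((pt_mulOp hg).mul (pt_WW w y))
         fun x => by simp [smul_comm (g x)]
       d_on := ?_
       W_zero := (pt_WW w 0).ext' pt_one fun x => by simp [eph, w.W_zero]
       W_star := fun y => (pt_WW w y).star_eq (pt_WW w (-y)) fun x => ?_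
       W_W := fun y hy y' hy' => ((pt_WW w y).mul (pt_WW w y')).ext' ((pt_WW w (y + y')).smul _)
         fun x => ?_
       W_lab := fun a => (pt_WW w _).ext' (pt_mulOp (BM.expI (by fun_prop))) fun x => ?_
       vac_W := fun g hg y hy => ?_
       total := total w
       j_f := hj1
       j_d0 := fun ξ => ?_
       io_W := fun z hz y => ?_
       X_io := fun y => ?_
       io_mul := fun g hg y => ?_ }⟩⟩
  · rw [orthonormal_iff_ite]
    intro i k
    rw [inner_dd]
    simp [dd, Pi.single_apply]
  · rw [star_smul, w.W_star, Complex.star_def, conj_eph, eph]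
    congr 2
    simp
  · have h1 : (⟪y, y'⟫_ℂ).im = (⟪y.snd, y'.snd⟫_ℂ).im := by
      rw [inner_KK, Complex.add_im, Complex.im_sum]
      simp [mem_real hy, mem_real hy']
    have h2 : eph (y + y') x = eph y x * eph y' x := by
      simp only [eph, ← Complex.exp_add, WithLp.add_fst, PiLp.add_apply, Complex.add_re, add_mul,
        Finset.sum_add_distrib, Complex.ofReal_add, mul_add]
    rw [smul_mul_smul_comm, w.W_W, h1, h2, smul_comm, WithLp.add_snd]
  · have h1 : ∀ i, (∑ k, (a k : ℂ) • dd k : KK K).fst i = a i := by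
      intro i
      rw [← inner_dd, inner_sum]
      simp only [inner_smul_right, inner_dd]
      simp [dd, Pi.single_apply]
    have h2 : (∑ k, (a k : ℂ) • dd k : KK K).snd = 0 := by
      induction (Finset.univ : Finset (Fin (K + 1))) using Finset.induction_on with
      | empty => simp
      | insert k s hk ih => rw [Finset.sum_insert hk, WithLp.add_snd, ih, WithLp.smul_snd]; simp [dd]
    simp only [← Complex.coe_smul]
    rw [h2, w.W_zero, eph]
    simp only [h1, Complex.ofReal_re]
  · have h1 : mulOp g (WW w y (cst w.vac)) =ᵐ[gL K]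
        fun x => (g x * eph y x) • w.W y.snd w.vac := by
      filter_upwards [((pt_mulOp hg).mul (pt_WW w y)).cst w.vac] with x hx
      refine hx.trans ?_
      simp [mul_smul, smul_comm (g x)]
    rw [inner_of_ae (coe_cst' _) h1, w.vac_W, norm_KK y (mem_real hy)]
    simp only [map_one, one_mul, inner_dd, eph, add_sub_cancel_left]
  · rw [inner_dd, hj2]
    simp [Pi.single_apply, (Fin.succ_ne_zero _).symm]
  · have h1 : WW w z (cst w.vac) =ᵐ[gL K] fun x => eph z x • w.W z.snd w.vac :=
      (pt_WW w z).cst w.vac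
    have h2 : ⟪w.W z.snd w.vac, w.vac⟫_ℂ = ((Real.exp (-‖z.snd‖ ^ 2 / 2) : ℝ) : ℂ) := by
      rw [← inner_conj_symm, w.vac_W, Complex.conj_ofReal]
    have h3 : ∀ i, conj (z.fst i) = ((z.fst i).re : ℂ) := fun i =>
      Complex.ext (by simp) (by simp [mem_real hz i])
    have h4 : Real.exp (-‖z‖ ^ 2 / 2) =
        Real.exp (-(∑ i, (z.fst i).re ^ 2) / 2) * Real.exp (-‖z.snd‖ ^ 2 / 2) := by
      rw [← Real.exp_add, norm_KK z (mem_real hz)]
      congr 1
      ring
    change ⟪_, ioL w y⟫_ℂ = _
    rw [inner_ioL w h1, h2, w.inner_one, inner_KK, h4]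
    simp only [conj_eph, gl_exp, gl_x_exp, h3, Complex.ofReal_mul, mul_add, Finset.mul_sum,
      Finset.sum_mul]
    congr 1
    · exact Finset.sum_congr rfl fun i _ => by ring
    · ring
  · change lift w.X (∑ i, y.fst i • xv i w.vac + cst (w.one y.snd))
      = ∑ i, y.fst i • xv i w.vac + cst (w.one y.snd)
    simp only [map_add, map_sum, map_smul, lift_xv, lift_cst, w.X_vac, w.X_one]
  · have h1 : mulOp g (cst w.vac) =ᵐ[gL K] fun x => g x • w.vac := (pt_mulOp hg).cst w.vac
    change ⟪_, ioL w y⟫_ℂ = _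
    rw [inner_ioL w h1, vac_vac, vac_one]
    simp only [inner_dd, mul_one, mul_zero, add_zero]

end Crest.Agent.R339
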