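import Crest.Agent.R339.Q.Loc

/-!
# Row 339, part Q: cells and mediators
-/

set_option autoImplicit false

namespace Crest.Agent.R339

open MeasureTheory ProbabilityTheory Filter Topology Crest.MathPhysics.SpinGlass
open scoped InnerProductSpace ComplexConjugate

/-- the box -/
def partBox (K M : ℕ) (ρ : ℝ) : Set (Lab K) := {x | ∀ i : Fin (K + 1), (i : ℕ) < M → |x i| ≤ ρ}

theorem part_evs {K M : ℕ} {α : Type} [MeasurableSpace α] [MeasurableSingletonClass α]
    {φ : Lab K → α} (hm : Measurable φ) (he : ∀ x, φ (-x) = φ x) (hd : Dep M φ) (a : α) :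
    EvS M {x | φ x = a} :=
  ⟨hm (measurableSet_singleton a), fun x => by simp only [Set.mem_setOf_eq, he],
    fun x x' h => by simp only [Set.mem_setOf_eq, hd x x' h]⟩

theorem part_box_evs (K M : ℕ) (ρ : ℝ) : EvS M (partBox K M ρ) := by
  refine ⟨?_, fun x => by simp [partBox], fun x x' h => propext ⟨fun hx i hi => ?_, fun hx i hi => ?_⟩⟩
  · have : partBox K M ρ = ⋂ i : Fin (K + 1), ⋂ (_ : (i : ℕ) < M), {x : Lab K | |x i| ≤ ρ} := by
      ext x
      simp [partBox]
    rw [this]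
    exact MeasurableSet.iInter fun i => MeasurableSet.iInter fun _ =>
      measurableSet_le (by fun_prop) measurable_const
  · rw [← h i hi]
    exact hx i hi
  · rw [h i hi]
    exact hx i hi

theorem part_box_small (K M : ℕ) {ε : ℝ} (hε : 0 < ε) :
    ∃ n : ℕ, (gL K).real (partBox K M n)ᶜ ≤ ε := by
  have h1 := tendsto_measure_iInter_atTop (μ := gL K) (s := fun n : ℕ => (partBox K M n)ᶜ)
    (fun n => (part_box_evs K M n).1.compl.nullMeasurableSet)
    (fun a b hab => Set.compl_subset_compl.2 fun x hx i hi =>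
      (hx i hi).trans (by exact_mod_cast hab)) ⟨0, measure_ne_top _ _⟩
  have h2 : ⋂ n : ℕ, (partBox K M n)ᶜ = ∅ := by
    refine Set.eq_empty_of_forall_notMem fun x hx => ?_
    obtain ⟨n, hn⟩ := exists_nat_ge ‖x‖
    exact Set.mem_iInter.1 hx n fun i _ => (norm_le_pi_norm x i).trans hn
  rw [h2, measure_empty] at h1
  have h3 := (ENNReal.tendsto_toReal ENNReal.zero_ne_top).comp h1
  exact ((h3.eventually (ge_mem_nhds (by simpa using hε))).exists)

theorem part_gauss_le (s : Set ℝ) : gaussianReal 0 1 s ≤ volume s := by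
  rw [gaussianReal_apply 0 one_ne_zero]
  refine (lintegral_mono fun x => ?_).trans (setLIntegral_one s).le
  rw [gaussianPDF_def]
  refine ENNReal.ofReal_le_one.2 ?_
  rw [gaussianPDFReal_def]
  have h1 : (1 : ℝ) ≤ √(2 * Real.pi * (1 : NNReal)) := by
    rw [Real.one_le_sqrt]
    push_cast
    linarith [Real.pi_gt_three]
  refine mul_le_one₀ (inv_le_one_of_one_le₀ h1) (Real.exp_pos _).le (Real.exp_le_one_iff.2 ?_)
  exact div_nonpos_of_nonpos_of_nonneg (neg_nonpos.2 (sq_nonneg _)) (by positivity)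

theorem part_slab (K : ℕ) {η : ℝ} (hη : 0 < η) (b : ℤ) :
    (gL K).real {x | ⌊|x 0| / (η / 2)⌋ = b} ≤ η := by
  have hδ : 0 < η / 2 := by positivity
  have h1 : {x : Lab K | ⌊|x 0| / (η / 2)⌋ = b} ⊆ (fun x : Lab K => x 0) ⁻¹'
      (Set.Icc (b * (η / 2)) ((b + 1) * (η / 2)) ∪ Set.Icc (-((b + 1) * (η / 2))) (-(b * (η / 2)))) := by
    intro x hx
    obtain ⟨a1, a2⟩ := Int.floor_eq_iff.1 hx
    rw [le_div_iff₀ hδ] at a1
    rw [div_lt_iff₀ hδ] at a2
    rcases abs_cases (x 0) with h | h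
    · exact .inl ⟨by linarith [h.1], by linarith [h.1]⟩
    · exact .inr ⟨by linarith [h.1], by linarith [h.1]⟩
  refine ENNReal.toReal_le_of_le_ofReal hη.le ((measure_mono h1).trans ?_)
  have mp : MeasurePreserving (fun x : Lab K => x 0) (gL K) (gaussianReal 0 1) :=
    measurePreserving_eval (fun _ : Fin (K + 1) => gaussianReal 0 1) 0
  rw [mp.measure_preimage (measurableSet_Icc.union measurableSet_Icc).nullMeasurableSet]
  refine (part_gauss_le _).trans ((measure_union_le _ _).trans ?_)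
  rw [Real.volume_Icc, Real.volume_Icc, ← ENNReal.ofReal_add (by linarith) (by linarith)]
  exact ENNReal.ofReal_le_ofReal (by linarith)

theorem part_floor_mem {y C : ℝ} (h : |y| ≤ C) : ⌊y⌋ ∈ Finset.Icc ⌊-C⌋ ⌊C⌋ :=
  Finset.mem_Icc.2 ⟨Int.floor_mono (abs_le.1 h).1, Int.floor_mono (abs_le.1 h).2⟩

theorem part_sq (K : ℕ) : Integrable (fun x : Lab K => x 0 ^ 2) (gL K) ∧
    ∫ x, x 0 ^ 2 ∂gL K = 1 := by
  have mp : MeasurePreserving (fun x : Lab K => x 0) (gL K) (gaussianReal 0 1) :=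
    measurePreserving_eval (fun _ : Fin (K + 1) => gaussianReal 0 1) 0
  refine ⟨((memLp_id_gaussianReal' (μ := 0) (v := 1) 2 (by simp)).comp_measurePreserving
    mp).integrable_sq, ?_⟩
  have h1 := variance_fun_id_gaussianReal (μ := 0) (v := 1)
  rw [variance_eq_integral measurable_id'.aemeasurable] at h1
  simp only [integral_id_gaussianReal, sub_zero, NNReal.coe_one] at h1
  rw [← h1, ← mp.map_eq, integral_map mp.measurable.aemeasurable (by fun_prop)]

/-- an odd bounded function is uniformly close, outside a small set, to `Σ w_i σ 1_{E i}` with small even cells `E i`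
avoiding a given small even set `Md` (cells: level sets of `⌊f σ / η⌋` intersected with `exists_pieces`-type intervals of `|x 0|`
inside a large box) -/
theorem exists_cells {K M : ℕ} (hM : 1 ≤ M) {f : Lab K → ℝ} (hf : BR M f) (ho : ∀ x, f (-x) = -f x)
    {Md : Set (Lab K)} (hMd : EvS M Md) {ε : ℝ} (hε : 0 < ε) :
    ∃ ρ : ℝ, 0 ≤ ρ ∧ ∀ η > (0 : ℝ), ∃ (n : ℕ) (E : Fin n → Set (Lab K)) (w : Fin n → ℝ),
      (∀ i, EvS M (E i)) ∧ (Pairwise fun i i' => Disjoint (E i) (E i')) ∧ (∀ i, Disjoint (E i) Md) ∧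
      (∀ i, Bd M ρ (E i)) ∧ (∀ i, (gL K).real (E i) ≤ η) ∧
      (∀ i, ∀ x ∈ E i, |f x - w i * Real.sign (x 0)| ≤ η) ∧
      (gL K).real ((⋃ i, E i) ∪ Md)ᶜ ≤ ε := by
  obtain ⟨N, hN⟩ := part_box_small K M hε
  obtain ⟨hfm, ⟨C, hC⟩, hfd⟩ := hf
  refine ⟨N, Nat.cast_nonneg N, fun η hη => ?_⟩
  have h00 : ((0 : Fin (K + 1)) : ℕ) < M := hM
  let φ : Lab K → ℤ × ℤ := fun x => (⌊f x * Real.sign (x 0) / η⌋, ⌊|x 0| / (η / 2)⌋)
  have hφm : Measurable φ :=
    (((hfm.mul measurable_sign0).div_const η).floor).prodMk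
      (Measurable.floor (by fun_prop))
  have hφe : ∀ x, φ (-x) = φ x := fun x => by simp [φ, ho, Real.sign_neg]
  have hφd : Dep M φ := fun x x' h => by simp only [φ, hfd x x' h, h 0 h00]
  have hZ : EvS M {x : Lab K | |x 0| = 0} :=
    part_evs (by fun_prop) (fun x => by simp) (fun x x' h => by simp only [h 0 h00]) 0
  have hT := ((part_box_evs K M N).diff hMd).diff hZ
  let S : Finset (ℤ × ℤ) := Finset.Icc ⌊-(C / η)⌋ ⌊C / η⌋ ×ˢ
    Finset.Icc ⌊-(N / (η / 2))⌋ ⌊N / (η / 2)⌋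
  have hS : ∀ x ∈ partBox K M N, φ x ∈ S := fun x hx => by
    refine Finset.mem_product.2 ⟨part_floor_mem ?_, part_floor_mem ?_⟩
    · rw [abs_div, abs_of_pos hη, abs_mul]
      have : |Real.sign (x 0)| ≤ 1 := by
        rcases Real.sign_apply_eq (x 0) with h | h | h <;> simp [h]
      exact div_le_div_of_nonneg_right
        ((mul_le_of_le_one_right (abs_nonneg _) this).trans (hC x)) hη.le
    · rw [abs_div, abs_abs, abs_of_pos (half_pos hη)]
      exact div_le_div_of_nonneg_right (hx 0 h00) (half_pos hη).le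
  refine ⟨S.card, fun i => ((partBox K M N \ Md) \ {x | |x 0| = 0}) ∩
      {x | φ x = (S.equivFin.symm i : ℤ × ℤ)}, fun i => (S.equivFin.symm i : ℤ × ℤ).1 * η,
    fun i => hT.inter (part_evs hφm hφe hφd _), fun i j hij => ?_, fun i => ?_,
    fun i x hx => hx.1.1.1, fun i => ?_, fun i x hx => ?_, ?_⟩
  · refine Set.disjoint_left.2 fun x h1 h2 => hij ?_
    exact S.equivFin.symm.injective (Subtype.ext (h1.2.symm.trans h2.2))
  · exact Set.disjoint_left.2 fun x h1 h2 => h1.1.1.2 h2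
  · refine le_trans (measureReal_mono fun x hx => ?_) (part_slab K hη (S.equivFin.symm i : ℤ × ℤ).2)
    exact congrArg Prod.snd hx.2
  · have h1 : ⌊f x * Real.sign (x 0) / η⌋ = (S.equivFin.symm i : ℤ × ℤ).1 := congrArg Prod.fst hx.2
    obtain ⟨a1, a2⟩ := Int.floor_eq_iff.1 h1
    rw [le_div_iff₀ hη] at a1
    rw [div_lt_iff₀ hη] at a2
    have h2 : x 0 ≠ 0 := fun h => hx.1.2 (by simp [h])
    rcases Real.sign_apply_eq_of_ne_zero _ h2 with h | h <;> rw [h] at a1 a2 ⊢ <;>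
      exact abs_le.2 ⟨by linarith, by linarith⟩
  · refine le_trans (ENNReal.toReal_mono (measure_ne_top _ _) (measure_mono_ae ?_)) hN
    filter_upwards [ae_ne_zero0] with x h0 hx hb
    rw [Set.compl_union] at hx
    refine hx.1 (Set.mem_iUnion.2 ⟨S.equivFin ⟨φ x, hS x hb⟩, ⟨⟨hb, hx.2⟩, ?_⟩, ?_⟩)
    · simpa using h0
    · simp

namespace Model

variable {K : ℕ} {I : Iamp K} {H KK : Type} [NormedAddCommGroup H] [InnerProductSpace ℂ H]
  [CompleteSpace H] [NormedAddCommGroup KK] [InnerProductSpace ℂ KK] (m : Model I H KK)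

theorem part_overlap {U : H →L[ℂ] H} (hU : m.Fib U) {E : Set (Lab K)} (hE : MeasurableSet E) :
    ⟪m.mul (E.indicator fun x => ((Real.sign (x 0) : ℝ) : ℂ)) m.vac, m.xi U⟫_ℂ =
      ⟪U m.vac, m.P E ((m.Sg * m.Z) (U m.vac))⟫_ℂ := by
  have e : (E.indicator fun x : Lab K => ((Real.sign (x 0) : ℝ) : ℂ)) =
      (fun x : Lab K => ((Real.sign (x 0) : ℝ) : ℂ)) * E.indicator fun _ => 1 := by
    funext x
    by_cases hx : x ∈ E <;> simp [hx]
  rw [← hU.heis_mul_fun (BM.sign.indicator hE), xi, hU.inner_heis, e,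
    m.mul_mul _ _ BM.sign ((BM.const 1).indicator hE), ← m.inner_P_left hE]
  exact alg3_sa m.Sg_star _ _

theorem part_odd {M : ℕ} (hM : 1 ≤ M) {ξ : H} {η : ℝ} (hη : 0 < η)
    (h0 : ∀ (E : Set (Lab K)) (ρ : ℝ), 0 ≤ ρ → EvS M E → (gL K).real E ≤ η → Bd M ρ E →
      (⟪m.mul (E.indicator fun x => ((Real.sign (x 0) : ℝ) : ℂ)) m.vac, ξ⟫_ℂ).re = 0)
    {f : Lab K → ℝ} (hf : BR M f) (ho : ∀ x, f (-x) = -f x) :
    (⟪m.mul (fun x => (f x : ℂ)) m.vac, ξ⟫_ℂ).re = 0 := by
  obtain ⟨C, hC⟩ := hf.2.1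
  have hfB : BM fun x => (f x : ℂ) := BM.ofReal hf.1 hC
  have key : ∀ ε : ℝ, 0 < ε → |(⟪m.mul (fun x => (f x : ℂ)) m.vac, ξ⟫_ℂ).re| ≤
      √(ε ^ 2 + C ^ 2 * ε) * ‖ξ‖ := by
    intro ε hε
    obtain ⟨ρ, hρ, h⟩ := exists_cells hM hf ho (EvS.univ M).compl hε
    obtain ⟨n, E, w, a1, a2, -, a4, a5, a6, a7⟩ := h (min η ε) (lt_min hη hε)
    rw [Set.compl_univ, Set.union_empty] at a7
    have hs : ∀ i, BM ((E i).indicator fun x : Lab K => ((Real.sign (x 0) : ℝ) : ℂ)) := fun i =>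
      BM.sign.indicator (a1 i).1
    have hs' : ∀ i, BM fun x => (w i : ℂ) *
        (E i).indicator (fun x : Lab K => ((Real.sign (x 0) : ℝ) : ℂ)) x := fun i =>
      (BM.const (w i : ℂ)).mul (hs i)
    have hg := BM.sum Finset.univ fun i _ => hs' i
    set g : Lab K → ℂ := ∑ i, fun x => (w i : ℂ) *
      (E i).indicator (fun x : Lab K => ((Real.sign (x 0) : ℝ) : ℂ)) x with hgd
    have e1 : (⟪m.mul g m.vac, ξ⟫_ℂ).re = 0 := by
      rw [hgd, m.mul_sum _ fun i _ => hs' i, ContinuousLinearMap.sum_apply, sum_inner,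
        Complex.re_sum]
      refine Finset.sum_eq_zero fun i _ => ?_
      rw [m.mul_smul _ (hs i), ContinuousLinearMap.smul_apply, inner_smul_left, Complex.conj_ofReal,
        Complex.re_ofReal_mul, h0 (E i) ρ hρ (a1 i) ((a5 i).trans (min_le_left _ _)) (a4 i),
        mul_zero]
    have hU : MeasurableSet (⋃ i, E i)ᶜ := (MeasurableSet.iUnion fun i => (a1 i).1).compl
    have e2 : ∀ x, ‖((fun x => (f x : ℂ)) - g) x‖ ^ 2 ≤
        ε ^ 2 + (⋃ i, E i)ᶜ.indicator (fun _ => C ^ 2) x := by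
      intro x
      by_cases hx : x ∈ ⋃ i, E i
      · obtain ⟨i, hi⟩ := Set.mem_iUnion.1 hx
        have : g x = ((w i * Real.sign (x 0) : ℝ) : ℂ) := by
          rw [hgd, Finset.sum_apply, Finset.sum_eq_single i]
          · simp [hi]
          · intro j _ hj
            have : x ∉ E j := fun h => Set.disjoint_left.1 (a2 hj) h hi
            simp [this]
          · simp
        rw [Set.indicator_of_notMem (Set.notMem_compl_iff.2 hx), add_zero, Pi.sub_apply, this,
          ← Complex.ofReal_sub, Complex.norm_real, Real.norm_eq_abs]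
        exact pow_le_pow_left₀ (abs_nonneg _) ((a6 i x hi).trans (min_le_right _ _)) 2
      · have : g x = 0 := by
          rw [hgd, Finset.sum_apply]
          refine Finset.sum_eq_zero fun j _ => ?_
          have : x ∉ E j := fun h => hx (Set.mem_iUnion.2 ⟨j, h⟩)
          simp [this]
        rw [Set.indicator_of_mem (Set.mem_compl hx), Pi.sub_apply, this, sub_zero,
          Complex.norm_real, Real.norm_eq_abs]
        nlinarith [pow_le_pow_left₀ (abs_nonneg _) (hC x) 2, sq_nonneg ε]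
    have e3 : ‖m.mul ((fun x => (f x : ℂ)) - g) m.vac‖ ^ 2 ≤ ε ^ 2 + C ^ 2 * ε := by
      have := m.norm_mul_fib_sq m.fib_one (hfB.sub hg)
      rw [ContinuousLinearMap.one_apply] at this
      rw [this]
      refine (integral_mono_of_nonneg (.of_forall fun x => by positivity)
        ((integrable_const _).add ((integrable_const _).indicator hU)) (.of_forall e2)).trans ?_
      rw [integral_add (integrable_const _) ((integrable_const _).indicator hU),
        integral_indicator_const _ hU]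
      simp only [integral_const, probReal_univ, smul_eq_mul, one_mul]
      nlinarith [sq_nonneg C]
    have e4 : (⟪m.mul (fun x => (f x : ℂ)) m.vac, ξ⟫_ℂ).re =
        (⟪m.mul ((fun x => (f x : ℂ)) - g) m.vac, ξ⟫_ℂ).re := by
      rw [m.mul_sub hfB hg, ContinuousLinearMap.sub_apply, inner_sub_left, Complex.sub_re, e1,
        sub_zero]
    rw [e4]
    refine (Complex.abs_re_le_norm _).trans ((norm_inner_le_norm _ _).trans ?_)
    exact mul_le_mul_of_nonneg_right (Real.le_sqrt_of_sq_le e3) (norm_nonneg _)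
  have ht : Tendsto (fun ε : ℝ => √(ε ^ 2 + C ^ 2 * ε) * ‖ξ‖) (𝓝[>] 0) (𝓝 0) := by
    have : Continuous fun ε : ℝ => √(ε ^ 2 + C ^ 2 * ε) * ‖ξ‖ := by fun_prop
    simpa using (this.tendsto 0).mono_left (nhdsWithin_le_nhds (s := Set.Ioi 0))
  exact abs_nonpos_iff.1 (ge_of_tendsto ht (eventually_nhdsWithin_of_forall key))

theorem part_trunc : Tendsto (fun n : ℕ =>
    m.mul (fun x => ((if |x 0| ≤ n then x 0 else 0 : ℝ) : ℂ)) m.vac) atTop (𝓝 (m.io (m.d 0))) := by
  have hm : ∀ n : ℕ, Measurable fun x : Lab K => (if |x 0| ≤ n then x 0 else 0 : ℝ) := fun n =>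
    Measurable.ite (measurableSet_le (by fun_prop) measurable_const) (by fun_prop) measurable_const
  have hB : ∀ n : ℕ, BM fun x : Lab K => ((if |x 0| ≤ n then x 0 else 0 : ℝ) : ℂ) := fun n =>
    BM.ofReal (hm n) (C := n) fun x => by
      split_ifs with h
      exacts [h, by simp]
  have e : ∀ n : ℕ, ‖m.mul (fun x => ((if |x 0| ≤ n then x 0 else 0 : ℝ) : ℂ)) m.vac -
      m.io (m.d 0)‖ ^ 2 = 1 - ∫ x, (if |x 0| ≤ n then x 0 else 0 : ℝ) ^ 2 ∂gL K := by
    intro n
    have h1 := m.norm_mul_fib_sq m.fib_one (hB n)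
    rw [ContinuousLinearMap.one_apply] at h1
    simp only [Complex.norm_real, Real.norm_eq_abs, sq_abs] at h1
    have h2 := m.io_mul _ (hB n) (m.d 0)
    rw [Finset.sum_eq_single 0 (fun i _ hi => by rw [m.d_on.2 hi, zero_mul]) (by simp),
      inner_self_eq_norm_sq_to_K, m.d_on.1 0] at h2
    have h3 : ∫ x : Lab K, conj ((if |x 0| ≤ n then x 0 else 0 : ℝ) : ℂ) * (x 0 : ℂ) ∂gL K =
        ((∫ x, (if |x 0| ≤ n then x 0 else 0 : ℝ) ^ 2 ∂gL K : ℝ) : ℂ) := by
      rw [← integral_complex_ofReal]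
      refine integral_congr_ae (.of_forall fun x => ?_)
      dsimp only
      rw [Complex.conj_ofReal]
      split_ifs <;> simp [sq]
    rw [norm_sub_sq (𝕜 := ℂ), h1, h2, h3, m.io.norm_map, m.d_on.1 0]
    simp
    ring
  have ht : Tendsto (fun n : ℕ => ∫ x, (if |x 0| ≤ n then x 0 else 0 : ℝ) ^ 2 ∂gL K) atTop
      (𝓝 (∫ x, x 0 ^ 2 ∂gL K)) := by
    refine tendsto_integral_of_dominated_convergence (fun x => x 0 ^ 2)
      (fun n => ((hm n).pow_const 2).aestronglyMeasurable) (part_sq K).1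
      (fun n => .of_forall fun x => ?_) (.of_forall fun x => ?_)
    · rw [Real.norm_of_nonneg (sq_nonneg _)]
      split_ifs
      exacts [le_rfl, by simpa using sq_nonneg (x 0)]
    · refine tendsto_const_nhds.congr' ?_
      filter_upwards [tendsto_natCast_atTop_atTop.eventually_ge_atTop |x 0|] with n hn
      rw [if_pos hn]
  rw [(part_sq K).2] at ht
  rw [tendsto_iff_norm_sub_tendsto_zero]
  have h5 := (ht.const_sub 1).sqrt
  rw [sub_self, Real.sqrt_zero] at h5
  exact h5.congr fun n => by rw [← e, Real.sqrt_sq (norm_nonneg _)]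

/-- small mediators exist when the spin is correlated with the first label: approximate `io (d 0) = x₀ Ω` by
`Σ w_c σ 1_c Ω` over cells `c = {|x 0| ∈ interval}` (`io_mul`), so one cell has a nonzero overlap with `xi U`; intersect it
with a large box (the overlap is continuous) -/
theorem exists_mediator {M : ℕ} (hM : 1 ≤ M) {U : H →L[ℂ] H} (hU : m.Fib U) (hF : m.Fz U ≠ 0) {η : ℝ} (hη : 0 < η) :
    ∃ (Md : Set (Lab K)) (ρ : ℝ), 0 ≤ ρ ∧ EvS M Md ∧ (gL K).real Md ≤ η ∧ Bd M ρ Md ∧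
      (⟪U m.vac, m.P Md ((m.Sg * m.Z) (U m.vac))⟫_ℂ).re ≠ 0 := by
  by_contra hc
  refine hF ?_
  have h0 : ∀ (E : Set (Lab K)) (ρ : ℝ), 0 ≤ ρ → EvS M E → (gL K).real E ≤ η → Bd M ρ E →
      (⟪m.mul (E.indicator fun x => ((Real.sign (x 0) : ℝ) : ℂ)) m.vac, m.xi U⟫_ℂ).re = 0 := by
    intro E ρ a1 a2 a3 a4
    rw [m.part_overlap hU a2.1]
    by_contra h
    exact hc ⟨E, ρ, a1, a2, a3, a4, h⟩
  have h00 : ((0 : Fin (K + 1)) : ℕ) < M := hM
  have h1 : ∀ n : ℕ, (⟪m.mul (fun x => ((if |x 0| ≤ n then x 0 else 0 : ℝ) : ℂ)) m.vac,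
      m.xi U⟫_ℂ).re = 0 := fun n => by
    refine m.part_odd hM hη h0 ⟨Measurable.ite (measurableSet_le (by fun_prop) measurable_const)
      (by fun_prop) measurable_const, ⟨n, fun x => ?_⟩, fun x x' h => by simp only [h 0 h00]⟩
      fun x => ?_
    · dsimp only
      split_ifs with h
      exacts [h, by simp]
    · simp only [Pi.neg_apply, abs_neg]
      split_ifs <;> simp
  have h2 := (Complex.continuous_re.tendsto _).comp
    (m.part_trunc.inner (𝕜 := ℂ) (tendsto_const_nhds (x := m.xi U)))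
  exact tendsto_nhds_unique h2 (tendsto_const_nhds.congr fun n => (h1 n).symm)

end Model

end Crest.Agent.R339
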