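import Crest.Agent.R339.Q.Hub
import Crest.Agent.R339.Q.Gen
import Crest.Agent.R339.Q.Part
import Crest.Agent.R339.Q.ModelEx

/-!
# Row 339, part Q: removing one label
-/

set_option autoImplicit false

namespace Crest.Agent.R339

open MeasureTheory ProbabilityTheory Filter Topology Crest.MathPhysics.SpinGlass
open scoped InnerProductSpace ComplexConjugate

namespace Model

variable {K : ℕ} {I : Iamp K} {H KK : Type} [NormedAddCommGroup H] [InnerProductSpace ℂ H]
  [CompleteSpace H] [NormedAddCommGroup KK] [InnerProductSpace ℂ KK] (m : Model I H KK)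

theorem Step_tgt_in {S A : Set (Lab K)} (hS : MeasurableSet S) (hA : MeasurableSet A) (h : A ⊆ S)
    {v : KK} (hv : v ∈ m.R) : m.tgtS S v * m.P A = m.P A * m.D m.Z v := by
  have hc := Cen.commute_P (m.isAxis_Z.fib_D hv).2 hA
  rw [tgtS, add_mul, mul_assoc, hc.eq, ← mul_assoc, m.P_mul_P hS hA, m.P_mul_P hS.compl hA,
    Set.inter_eq_right.2 h, (Set.disjoint_iff_inter_eq_empty).1
      (Set.disjoint_compl_left_iff_subset.2 h), m.P_empty, add_zero]

theorem Step_tgt_out {S A : Set (Lab K)} (hS : MeasurableSet S) (hA : MeasurableSet A)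
    (h : Disjoint S A) {v : KK} (hv : v ∈ m.R) : m.tgtS S v * m.P A = m.P A := by
  have hc := Cen.commute_P (m.isAxis_Z.fib_D hv).2 hA
  rw [tgtS, add_mul, mul_assoc, hc.eq, ← mul_assoc, m.P_mul_of_disjoint hS hA h, zero_mul, zero_add,
    m.P_mul_P hS.compl hA, Set.inter_eq_right.2 (Set.subset_compl_iff_disjoint_left.2 h)]

/-- block diagonal cost gate -/
noncomputable def Step_blk {n : ℕ} (E : Fin n → Set (Lab K)) (y : Fin n → KK) : H →L[ℂ] H :=
  ∑ i, m.P (E i) * m.D m.Z (y i) + m.P (⋃ i, E i)ᶜ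

theorem Step_sum_P {n : ℕ} {E : Fin n → Set (Lab K)} (hE : ∀ i, MeasurableSet (E i))
    (h1 : Pairwise fun i i' => Disjoint (E i) (E i')) : ∑ i, m.P (E i) + m.P (⋃ i, E i)ᶜ = 1 := by
  rw [← m.P_iUnion hE h1, m.P_add_compl (MeasurableSet.iUnion hE)]

theorem Step_tgt_blk {n : ℕ} {E : Fin n → Set (Lab K)} (hE : ∀ i, MeasurableSet (E i))
    (h1 : Pairwise fun i i' => Disjoint (E i) (E i')) (a : Fin n) {v : KK} (hv : v ∈ m.R)
    {y : Fin n → KK} (hy : y a ∈ m.R) (ho : om v (y a) = 0) :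
    m.tgtS (E a) v * m.Step_blk E y = m.Step_blk E fun i => (if a = i then v else 0) + y i := by
  unfold Step_blk
  rw [_root_.mul_add, Finset.mul_sum, m.Step_tgt_out (hE a) (MeasurableSet.iUnion hE).compl
    (Set.disjoint_compl_right_iff_subset.2 (Set.subset_iUnion E a)) hv]
  congr 1
  refine Finset.sum_congr rfl fun i _ => ?_
  by_cases h : a = i
  · subst h
    rw [← mul_assoc, m.Step_tgt_in (hE a) (hE a) subset_rfl hv, mul_assoc,
      m.isAxis_Z.D_mul hv hy, ho]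
    simp
  · rw [← mul_assoc, m.Step_tgt_out (hE a) (hE i) (h1 h) hv]
    simp [h]

theorem Step_Md_blk {n : ℕ} {E : Fin n → Set (Lab K)} {Md : Set (Lab K)}
    (hE : ∀ i, MeasurableSet (E i)) (hMd : MeasurableSet Md) (h2 : ∀ i, Disjoint (E i) Md)
    (y : Fin n → KK) : m.P Md * m.Step_blk E y = m.P Md := by
  unfold Step_blk
  rw [_root_.mul_add, Finset.mul_sum, m.P_mul_of_subset hMd (MeasurableSet.iUnion hE).compl
    (Set.subset_compl_iff_disjoint_left.2 (Set.disjoint_iUnion_left.2 h2)),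
    Finset.sum_eq_zero fun i _ => by
      rw [← mul_assoc, m.P_mul_of_disjoint hMd (hE i) (h2 i).symm, zero_mul], zero_add]

theorem Step_med {Md : Set (Lab K)} (hMd : MeasurableSet Md) {G : H →L[ℂ] H}
    (hG : m.P Md * G = m.P Md) (w : H) :
    ⟪G w, m.P Md ((m.Sg * m.Z) (G w))⟫_ℂ = ⟪w, m.P Md ((m.Sg * m.Z) w)⟫_ℂ := by
  have hc := Cen.commute_P (Cen.mul m.cen_Sg m.cen_Z) hMd
  have e1 : ∀ u, m.P Md ((m.Sg * m.Z) u) = (m.Sg * m.Z) (m.P Md u) := fun u =>
    (congrArg (fun A : H →L[ℂ] H => A u) hc.eq).symm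
  have e2 : m.P Md (G w) = m.P Md w := congrArg (fun A : H →L[ℂ] H => A w) hG
  rw [e1 (G w), e2, ← e1, ← m.inner_P_left hMd, e2, m.inner_P_left hMd]

/-- all ordered pairs of distinct cells: the gates `tgtS` commute with `Z` and are the identity on `Md`, so the mediator
condition persists; the vectors `j (P T σ Ω)` have vanishing symplectic form, so the cost gates multiply exactly -/
theorem cells_mem_RH {M : ℕ} (hM : 1 ≤ M) {n : ℕ} {E : Fin n → Set (Lab K)} {Md : Set (Lab K)}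
    (hE : ∀ i, EvS M (E i)) (hMd : EvS M Md) (h1 : Pairwise fun i i' => Disjoint (E i) (E i'))
    (h2 : ∀ i, Disjoint (E i) Md) {ρ : ℝ} (hρ : 0 ≤ ρ) (bE : ∀ i, Bd M ρ (E i)) (bM : Bd M ρ Md)
    {V : H →L[ℂ] H} (hV : V ∈ m.RH M)
    (hc : (⟪V m.vac, m.P Md ((m.Sg * m.Z) (V m.vac))⟫_ℂ).re ≠ 0) (τ : Fin n → ℝ) :
    (∑ i, m.P (E i) * m.D m.Z (∑ i' ∈ Finset.univ.erase i, τ i' • m.j (m.P (E i') (m.Sg m.vac)))
      + m.P (⋃ i, E i)ᶜ) * V ∈ m.RH M := by
  have hEm : ∀ i, MeasurableSet (E i) := fun i => (hE i).1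
  set u : Fin n → KK := fun i => τ i • m.j (m.P (E i) (m.Sg m.vac)) with hu
  have huR : ∀ i, u i ∈ m.R := fun i => m.R.smul_mem _ (m.j_P_Sg_mem (hEm i))
  have hom : ∀ i i', om (u i) (u i') = 0 := by
    intro i i'
    by_cases h : i = i'
    · rw [h, om_self]
    · simp only [hu, om_smul_left, om_smul_right, m.om_j, m.inner_P_P (hEm i) (hEm i') (h1 h),
        Complex.zero_im, mul_zero]
  have key : ∀ s : Finset (Fin n × Fin n), (∀ p ∈ s, p.1 ≠ p.2) →
      m.Step_blk E (fun i => ∑ p ∈ s, if p.1 = i then u p.2 else 0) * V ∈ m.RH M := by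
    intro s
    induction s using Finset.induction_on with
    | empty =>
      intro _
      simpa only [Step_blk, Finset.sum_empty, m.D_zero, mul_one, m.Step_sum_P hEm h1, one_mul]
        using hV
    | insert p s hp ih =>
      intro hs
      have ih' := ih fun q hq => hs q (Finset.mem_insert_of_mem hq)
      have hne := hs p (Finset.mem_insert_self _ _)
      simp only [Finset.sum_insert hp]
      rw [← m.Step_tgt_blk hEm h1 p.1 (huR p.2)
        (y := fun i => ∑ p ∈ s, if p.1 = i then u p.2 else 0) ?_ ?_, mul_assoc]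
      · refine m.tgtS_mem_RH hM (hE p.1) (hE p.2) hMd (h1 hne.symm) (h2 _) (h2 _) hρ (bE _) bM ih'
          ?_ (τ p.2)
        rw [mul_apply_eq_comp, m.Step_med hMd.1 (m.Step_Md_blk hEm hMd.1 h2 _)]
        exact hc
      · refine sum_mem fun q _ => ?_
        split_ifs
        · exact huR _
        · exact zero_mem _
      · refine Finset.sum_induction _ (fun y => om (u p.2) y = 0)
          (fun y y' a b => by rw [om_add_right, a, b, add_zero]) (om_zero_right _) fun q _ => ?_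
        split_ifs
        · exact hom _ _
        · exact om_zero_right _
  have h := key (Finset.univ.filter fun p => p.1 ≠ p.2) fun p hp => (Finset.mem_filter.1 hp).2
  have e : ∀ i, (∑ p ∈ Finset.univ.filter (fun p : Fin n × Fin n => p.1 ≠ p.2),
      if p.1 = i then u p.2 else 0) = ∑ i' ∈ Finset.univ.erase i, u i' := by
    intro i
    rw [Finset.sum_filter, Fintype.sum_prod_type, Finset.sum_eq_single i, ← Finset.filter_ne,
      Finset.sum_filter]
    · simp
    · intro b _ hb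
      simp [hb]
    · simp
  simpa only [e, Step_blk] using h

theorem Step_norm_P_mul {E : Set (Lab K)} (hE : MeasurableSet E) {g : Lab K → ℝ} (hg : Measurable g)
    {C : ℝ} (hC : ∀ x, |g x| ≤ C) {c : ℝ} (hc : 0 ≤ c) (h : ∀ x ∈ E, |g x| ≤ c) :
    ‖m.P E (m.mul (fun x => (g x : ℂ)) m.vac)‖ ≤ c * Real.sqrt ((gL K).real E) := by
  have hb := BM.ofReal hg hC
  have h1 : m.P E * m.mul (fun x => (g x : ℂ)) =
      m.mul (E.indicator fun x => (g x : ℂ)) * m.P E := by
    unfold P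
    rw [← m.mul_mul _ _ ((BM.const 1).indicator hE) hb,
      ← m.mul_mul _ _ (hb.indicator hE) ((BM.const 1).indicator hE)]
    congr 1
    funext x
    by_cases hx : x ∈ E <;> simp [hx]
  have h2 : ‖m.mul (E.indicator fun x => (g x : ℂ))‖ ≤ c := by
    refine m.mul_norm _ _ (hb.indicator hE).1 fun x => ?_
    by_cases hx : x ∈ E
    · simpa [hx] using h x hx
    · simpa [hx] using hc
  have h3 := m.norm_P_fib m.fib_one hE
  rw [← mul_apply_eq_comp, h1, mul_apply_eq_comp, ← h3]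
  exact (ContinuousLinearMap.le_opNorm _ _).trans (mul_le_mul_of_nonneg_right h2 (norm_nonneg _))

theorem Step_norm_P_coh {E : Set (Lab K)} (hE : MeasurableSet E) (b : Bool) {z : KK} (hz : z ∈ m.R) :
    ‖m.P E (m.coh b z)‖ = Real.sqrt ((gL K).real E) :=
  m.norm_P_fib (Fib.mul (m.isAxis_zp b).fib (m.fib_W hz)) hE

theorem Step_abs_sign (t : ℝ) : |Real.sign t| ≤ 1 := by
  rcases Real.sign_apply_eq t with h | h | h <;> simp [h]

theorem Step_Sg (c : ℝ) : c • m.Sg m.vac = m.mul (fun x => ((c * Real.sign (x 0) : ℝ) : ℂ)) m.vac := by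
  have := m.mul_smul (c : ℂ) (BM.sign (K := K))
  simp only [Complex.ofReal_mul]
  rw [this, smul_apply, Complex.coe_smul]
  rfl

/-- the error of the block gate on coherent vectors -/
theorem Step_err {M n : ℕ} {E : Fin n → Set (Lab K)} (hE : ∀ i, EvS M (E i))
    (h1 : Pairwise fun i i' => Disjoint (E i) (E i')) {ρ : ℝ} (hρ : 0 ≤ ρ) (bE : ∀ i, Bd M ρ (E i))
    {y : Fin n → KK} (hy : ∀ i, y i ∈ m.R) {u v : KK} (hu : u ∈ m.R) (hv : v ∈ m.R) {α : ℝ}
    (hα0 : 0 ≤ α) (hα : ∀ i, ‖u - y i‖ ≤ α) (b : Bool) {z : KK} (hz : z ∈ m.R) :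
    ‖m.Step_blk E y (m.coh b z) - m.D m.Z v (m.coh b z)‖ ≤
      2 * (1 + ‖u‖) * α * (1 + (K + 1) * ρ + 2 * ‖z‖) + 2 * (1 + ‖v‖) * ‖v - u‖ * (1 + 2 * ‖z‖) +
        2 * Real.sqrt ((gL K).real (⋃ i, E i)ᶜ) := by
  have hEm : ∀ i, MeasurableSet (E i) := fun i => (hE i).1
  have hU := MeasurableSet.iUnion hEm
  set ψ := m.coh b z with hψ
  have hcomm : ∀ {A : Set (Lab K)} (hA : MeasurableSet A) {y : KK} (hy : y ∈ m.R),
      m.P A (m.D m.Z y ψ) = m.D m.Z y (m.P A ψ) := fun hA _ hy =>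
    (congrArg (fun B : H →L[ℂ] H => B ψ) (Cen.commute_P (m.isAxis_Z.fib_D hy).2 hA).eq).symm
  have e : m.Step_blk E y ψ - m.D m.Z v ψ =
      -(∑ i, m.P (E i) (m.D m.Z u ψ - m.D m.Z (y i) ψ)) -
        m.P (⋃ i, E i) (m.D m.Z v ψ - m.D m.Z u ψ) +
        (m.P (⋃ i, E i)ᶜ ψ - m.P (⋃ i, E i)ᶜ (m.D m.Z v ψ)) := by
    have e1 : m.D m.Z v ψ = m.P (⋃ i, E i) (m.D m.Z v ψ) + m.P (⋃ i, E i)ᶜ (m.D m.Z v ψ) := by
      rw [← add_apply, m.P_add_compl hU, one_apply_eq_self]
    have e2 : m.P (⋃ i, E i) (m.D m.Z u ψ) = ∑ i, m.P (E i) (m.D m.Z u ψ) := by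
      rw [m.P_iUnion hEm h1, sum_apply]
    simp only [Step_blk, add_apply, sum_apply,
      mul_apply_eq_comp, map_sub, Finset.sum_sub_distrib, e2]
    nth_rewrite 1 [e1]
    abel
  have t1 : ‖∑ i, m.P (E i) (m.D m.Z u ψ - m.D m.Z (y i) ψ)‖ ≤
      2 * (1 + ‖u‖) * α * (1 + (K + 1) * ρ + 2 * ‖z‖) := by
    refine m.norm_sum_P_le _ hEm h1 _ (by positivity) fun i _ => ?_
    rw [map_sub, hcomm (hEm i) hu, hcomm (hEm i) (hy i)]
    refine ((m.nb_P_coh' (hE i) hρ (bE i) b hz).norm_D_sub m.isAxis_Z hu (hy i)).trans ?_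
    rw [← mul_assoc]
    gcongr
    exact hα i
  have t2 : ‖m.P (⋃ i, E i) (m.D m.Z v ψ - m.D m.Z u ψ)‖ ≤
      2 * (1 + ‖v‖) * ‖v - u‖ * (1 + 2 * ‖z‖) :=
    (m.norm_P_apply_le hU _).trans ((m.nb_coh b hz).norm_D_sub m.isAxis_Z hv hu)
  have t3 : ‖m.P (⋃ i, E i)ᶜ ψ - m.P (⋃ i, E i)ᶜ (m.D m.Z v ψ)‖ ≤
      2 * Real.sqrt ((gL K).real (⋃ i, E i)ᶜ) := by
    refine (norm_sub_le _ _).trans (le_of_eq ?_)
    rw [hcomm hU.compl hv, (m.isAxis_Z.fib_D hv).norm_apply, m.Step_norm_P_coh hU.compl b hz]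
    ring
  rw [e]
  refine (norm_add_le _ _).trans (add_le_add ((norm_sub_le _ _).trans (add_le_add ?_ t2)) t3)
  rwa [norm_neg]

theorem Step_approx {k : Fin K} {V : H →L[ℂ] H} (hV : V ∈ m.RH (k + 1)) (hF : m.Fz V ≠ 0) (a : ℝ) :
    ∃ C : ℝ, ∀ t : ℝ, 0 < t → t ≤ 1 → ∃ G : H →L[ℂ] H, G * V ∈ m.RH (k + 1) ∧ ∀ b, ∀ z ∈ m.R,
      ‖G (m.coh b z) - m.D m.Z (a • m.d k.succ) (m.coh b z)‖ ≤ C * (1 + 2 * ‖z‖) * t := by
  obtain ⟨C, hC⟩ := I.f_bdd k
  have hC0 : 0 ≤ C := (abs_nonneg _).trans (hC 0)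
  have hM : 1 ≤ (k : ℕ) + 1 := Nat.le_add_left _ _
  have hf : BR (k + 1) (I.f k) := ⟨I.f_meas k, ⟨C, hC⟩, fun x x' h =>
    I.f_dep k x x' fun i hi => h i (Nat.lt_succ_of_le hi)⟩
  refine ⟨2 * (1 + |a| * (2 + 2 * C)) * (|a| * (C + 1)) + 2 * (1 + |a|) * (|a| * (1 + 2 * C)) + 4,
    fun t ht ht1 => ?_⟩
  obtain ⟨Md, ρ₁, hρ₁, hMd, hMdm, bM, hc⟩ := m.exists_mediator hM (m.RH_fib hV) hF (pow_pos ht 2)
  obtain ⟨ρ₂, hρ₂, hcells⟩ := exists_cells hM hf (I.f_odd k) hMd (pow_pos ht 2)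
  set ρ := max ρ₁ ρ₂ with hρdef
  have hρ : 0 ≤ ρ := hρ₁.trans (le_max_left _ _)
  set lam : ℝ := 1 + (K + 1) * ρ with hlam
  have hlam1 : 1 ≤ lam := le_add_of_nonneg_right (by positivity)
  set s := t / lam with hs
  have hs0 : 0 < s := by positivity
  have hst : s ≤ t := div_le_self ht.le hlam1
  have hs1 : s ^ 2 ≤ t := by nlinarith
  obtain ⟨n, E, w, hE, h1, h2, bE, hEm', hw, hout⟩ := hcells (s ^ 2) (pow_pos hs0 2)
  have hEm : ∀ i, MeasurableSet (E i) := fun i => (hE i).1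
  have hU := MeasurableSet.iUnion hEm
  have bE' : ∀ i, Bd (k + 1) ρ (E i) := fun i x hx j hj =>
    (bE i x hx j hj).trans (le_max_right _ _)
  have bM' : Bd (k + 1) ρ Md := fun x hx j hj => (bM x hx j hj).trans (le_max_left _ _)
  have hG := m.cells_mem_RH hM hE hMd h1 h2 hρ bE' bM' hV hc fun i => a * w i
  set u : Fin n → KK := fun i => (a * w i) • m.j (m.P (E i) (m.Sg m.vac)) with hu
  have huR : ∀ i, u i ∈ m.R := fun i => m.R.smul_mem _ (m.j_P_Sg_mem (hEm i))
  have hu' : ∀ i, u i = a • m.j (m.P (E i)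
      (m.mul (fun x => ((w i * Real.sign (x 0) : ℝ) : ℂ)) m.vac)) := by
    intro i
    rw [← m.Step_Sg, ContinuousLinearMap.map_smul_of_tower, m.j_rsmul, smul_smul]
  have hsm : ∀ i, Measurable fun x : Lab K => w i * Real.sign (x 0) := fun i =>
    measurable_sign0.const_mul _
  have hsb : ∀ i (x : Lab K), |w i * Real.sign (x 0)| ≤ |w i| := fun i x => by
    rw [abs_mul]; exact mul_le_of_le_one_right (abs_nonneg _) (Step_abs_sign _)
  have hout' : Real.sqrt ((gL K).real (⋃ i, E i)ᶜ) ≤ 2 * t := by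
    have a1 : (⋃ i, E i)ᶜ ⊆ ((⋃ i, E i) ∪ Md)ᶜ ∪ Md := by
      intro x hx
      by_cases h : x ∈ Md
      · exact Or.inr h
      · exact Or.inl fun h' => h'.elim hx h
    have a2 := (measureReal_mono (μ := gL K) a1).trans (measureReal_union_le _ _)
    refine Real.sqrt_le_iff.2 ⟨by positivity, ?_⟩
    nlinarith
  have hun : ∀ i, ‖u i‖ ≤ |a| * (C + 1) * s := by
    intro i
    rw [hu', norm_smul, Real.norm_eq_abs, m.j.norm_map, mul_assoc]
    refine mul_le_mul_of_nonneg_left ?_ (abs_nonneg a)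
    refine (m.Step_norm_P_mul (hEm i) (hsm i) (hsb i) (c := C + 1) (by positivity)
      fun x hx => ?_).trans ?_
    · have b1 := hw i x hx
      have b2 := hC x
      have b3 := abs_sub_abs_le_abs_sub (w i * Real.sign (x 0)) (I.f k x)
      rw [abs_sub_comm] at b3
      linarith
    · exact mul_le_mul_of_nonneg_left (Real.sqrt_le_iff.2 ⟨hs0.le, hEm' i⟩) (by positivity)
  have hd : ‖a • m.d k.succ‖ = |a| := by
    rw [norm_smul, m.d_on.1, mul_one, Real.norm_eq_abs]
  have hdiff : ‖a • m.d k.succ - ∑ i, u i‖ ≤ |a| * (1 + 2 * C) * t := by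
    have hfb := BM.ofReal (I.f_meas k) hC
    have e1 : m.mul (fun x => (I.f k x : ℂ)) m.vac -
        ∑ i, m.P (E i) (m.mul (fun x => ((w i * Real.sign (x 0) : ℝ) : ℂ)) m.vac) =
        ∑ i, m.P (E i) (m.mul (fun x => ((I.f k x - w i * Real.sign (x 0) : ℝ) : ℂ)) m.vac) +
          m.P (⋃ i, E i)ᶜ (m.mul (fun x => (I.f k x : ℂ)) m.vac) := by
      have e2 : ∀ i, m.mul (fun x => ((I.f k x - w i * Real.sign (x 0) : ℝ) : ℂ)) =
          m.mul (fun x => (I.f k x : ℂ)) - m.mul (fun x => ((w i * Real.sign (x 0) : ℝ) : ℂ)) := by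
        intro i
        rw [← m.mul_sub hfb (BM.ofReal (hsm i) (hsb i))]
        congr 1
        funext x
        simp
      have e3 := congrArg (fun A : H →L[ℂ] H => A (m.mul (fun x => (I.f k x : ℂ)) m.vac))
        (m.Step_sum_P hEm h1)
      simp only [add_apply, sum_apply,
        one_apply_eq_self] at e3
      simp only [e2, sub_apply, map_sub, Finset.sum_sub_distrib]
      nth_rewrite 1 [← e3]
      abel
    simp only [hu']
    rw [← m.j_f k, ← Finset.smul_sum, ← smul_sub, ← map_sum, ← map_sub, norm_smul, Real.norm_eq_abs,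
      m.j.norm_map, e1, mul_assoc]
    refine mul_le_mul_of_nonneg_left ((norm_add_le _ _).trans ?_) (abs_nonneg a)
    have n1 := m.norm_sum_P_le Finset.univ hEm h1
      (fun i => m.mul (fun x => ((I.f k x - w i * Real.sign (x 0) : ℝ) : ℂ)) m.vac) (c := s ^ 2)
      (by positivity) fun i _ => m.Step_norm_P_mul (hEm i) ((I.f_meas k).sub (hsm i))
        (C := C + |w i|) (fun x => (abs_sub _ _).trans (add_le_add (hC x) (hsb i x)))
        (by positivity) (hw i)
    have n2 := m.Step_norm_P_mul hU.compl (I.f_meas k) hC hC0 fun x _ => hC x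
    have n3 := mul_le_mul_of_nonneg_left hout' hC0
    nlinarith
  have hun' : ‖∑ i, u i‖ ≤ |a| * (2 + 2 * C) := by
    have b1 := norm_sub_norm_le (∑ i, u i) (a • m.d k.succ)
    rw [norm_sub_rev, hd] at b1
    have b2 : |a| * (1 + 2 * C) * t ≤ |a| * (1 + 2 * C) :=
      mul_le_of_le_one_right (by positivity) ht1
    nlinarith
  refine ⟨_, hG, fun b z hz => ?_⟩
  have herr := m.Step_err hE h1 hρ bE' (y := fun i => ∑ i' ∈ Finset.univ.erase i, u i')
    (fun i => sum_mem fun i' _ => huR i') (u := ∑ i, u i) (sum_mem fun i _ => huR i)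
    (m.R.smul_mem a (m.d_mem k.succ)) (α := |a| * (C + 1) * s) (by positivity)
    (fun i => by
      rw [← Finset.add_sum_erase _ _ (Finset.mem_univ i), add_sub_cancel_right]; exact hun i) b hz
  refine herr.trans ?_
  rw [hd]
  have hz0 := norm_nonneg z
  have hsl : s * (lam + 2 * ‖z‖) ≤ (1 + 2 * ‖z‖) * t := by
    have : s * lam = t := div_mul_cancel₀ _ (by positivity)
    nlinarith
  have q1 : 2 * (1 + ‖∑ i, u i‖) * (|a| * (C + 1) * s) * (lam + 2 * ‖z‖) ≤
      2 * (1 + |a| * (2 + 2 * C)) * (|a| * (C + 1)) * ((1 + 2 * ‖z‖) * t) := by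
    calc _ = 2 * (1 + ‖∑ i, u i‖) * (|a| * (C + 1)) * (s * (lam + 2 * ‖z‖)) := by ring
      _ ≤ _ := by gcongr
  have q2 : 2 * (1 + |a|) * ‖a • m.d k.succ - ∑ i, u i‖ * (1 + 2 * ‖z‖) ≤
      2 * (1 + |a|) * (|a| * (1 + 2 * C) * t) * (1 + 2 * ‖z‖) := by gcongr
  have q3 : 0 ≤ ‖z‖ * t := by positivity
  nlinarith

/-- the gate of the new label.  For `ε`: mediator of measure `≤ ε`, cells from `exists_cells` for `f = I.f k`; the vector on the
cell `i` differs from `a d = a j (f Ω)` by `O(√ε' + η + √η)`; use the localised bound `nb_P_coh'` with `norm_sum_P_le`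
(note the order: `ρ` first, then `η`; the part of `f` outside the cells enters through the same localised bound, so choose the
cells for a tolerance `ε'` and bound the common vector `a j(f 1_{outside} Ω)` globally with `nb_coh`). -/
theorem lab_mem_RH {k : Fin K} {V : H →L[ℂ] H} (hV : V ∈ m.RH (k + 1)) (hF : m.Fz V ≠ 0) (a : ℝ) :
    m.D m.Z (a • m.d k.succ) * V ∈ m.SCl (m.RH (k + 1)) := by
  obtain ⟨C, hC⟩ := m.Step_approx hV hF a
  have hVf := m.RH_fib hV
  have hd : a • m.d k.succ ∈ m.R := m.R.smul_mem a (m.d_mem k.succ)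
  have hD := m.isAxis_Z.fib_D hd
  choose G hG hG' using fun n : ℕ => hC (1 / ((n : ℝ) + 1)) Nat.one_div_pos_of_nat
    (by rw [div_le_one (by positivity)]; linarith [(Nat.cast_nonneg n : (0 : ℝ) ≤ n)])
  have hGf : ∀ n, m.Fib (G n) := fun n => by
    have := Fib.mul (m.RH_fib (hG n)) hVf.star
    rwa [mul_assoc, hVf.mul_star_self, mul_one] at this
  have hst : STend atTop G (m.D m.Z (a • m.d k.succ)) := by
    refine m.stend_of_coh (Eventually.of_forall hGf) hD fun b z hz => ?_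
    rw [tendsto_iff_norm_sub_tendsto_zero]
    refine squeeze_zero (fun _ => norm_nonneg _) (fun n => hG' n b z hz) ?_
    simpa using (tendsto_one_div_add_atTop_nhds_zero_nat (𝕜 := ℝ)).const_mul (C * (1 + 2 * ‖z‖))
  exact m.mem_SCl_of_stend (l := atTop) (Us := fun n => G n * V)
    (Eventually.of_forall fun n => m.subset_SCl (fun U hU => m.RH_fib hU) (hG n))
    (Fib.mul hD hVf) fun v => hst (V v)

theorem Step_SCl {M : ℕ} (hM : 1 ≤ M) {V : H →L[ℂ] H} (hV : V ∈ m.SCl (m.RH M)) {L : Layer K}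
    (hL : Lev M [L]) : m.step V L ∈ m.SCl (m.RH M) :=
  m.SCl_map (fun _ hU => m.RH_fib hU) (fun U => m.step U L) hV (m.fib_step hV.1 L) fun _ hl hs =>
    ⟨m.stend_step hl hV.1 hs L.1 L.2.1 tendsto_const_nhds, Eventually.of_forall fun _ hU =>
      m.subset_SCl (fun _ hU => m.RH_fib hU) (m.step_mem_RH hM hU hL)⟩

theorem Step_split {U : H →L[ℂ] H} (hU : m.Fib U) (L : Layer K) (i : Fin (K + 1)) :
    m.step U L = m.step (m.D m.Z (L.1 i • m.d i) * U) (Function.update L.1 i 0, L.2) := by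
  have hd : L.1 i • m.d i ∈ m.R := m.R.smul_mem _ (m.d_mem i)
  have e1 : m.labv (Pi.single i (L.1 i)) = L.1 i • m.d i := by
    unfold labv
    rw [Finset.sum_eq_single i] <;> simp +contextual
  have e2 : m.labv L.1 = m.labv (Function.update L.1 i 0) + L.1 i • m.d i := by
    rw [← e1]
    unfold labv
    rw [← Finset.sum_add_distrib]
    refine Finset.sum_congr rfl fun j _ => ?_
    by_cases h : j = i
    · subst h; simp
    · simp [h]
  have hf := hU.fld_mem (Function.update L.1 i 0, L.2)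
  have ho : om (m.fld U (Function.update L.1 i 0, L.2)) (L.1 i • m.d i) = 0 := by
    rw [om_swap, ← e1, m.om_labv _ hf, neg_zero]
  have e3 := m.isAxis_Z.D_mul hf hd
  rw [ho] at e3
  simp only [Complex.ofReal_zero, mul_zero, neg_zero, Complex.exp_zero, one_smul] at e3
  have e4 : m.fld (m.D m.Z (L.1 i • m.d i) * U) (Function.update L.1 i 0, L.2) =
      m.fld U (Function.update L.1 i 0, L.2) := by
    unfold fld
    rw [m.xi_D hd]
  have e5 : m.fld U L = m.fld U (Function.update L.1 i 0, L.2) + L.1 i • m.d i := by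
    unfold fld
    rw [e2, add_assoc]
  unfold step
  rw [e4, e5, ← e3]
  simp only [mul_assoc]

theorem step_mem_SCl_RH {k : Fin K} {V : H →L[ℂ] H} (hV : V ∈ m.SCl (m.RH (k + 1))) {L : Layer K}
    (hL : Lev (k + 2) [L]) (hF : L.1 k.succ ≠ 0 → m.Fz V ≠ 0) : m.step V L ∈ m.SCl (m.RH (k + 1)) := by
  have hM : 1 ≤ (k : ℕ) + 1 := Nat.le_add_left _ _
  have hL' : Lev (k + 1) [(Function.update L.1 k.succ 0, L.2)] := by
    intro L' hm i hi
    obtain rfl := List.mem_singleton.1 hm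
    by_cases h : i = k.succ
    · subst h; simp
    · have : (i : ℕ) ≠ k + 1 := fun e => h (Fin.ext (by simpa using e))
      simp only [Function.update_of_ne h]
      exact hL L (List.mem_singleton_self L) i (by omega)
  refine m.SCl_map (fun U hU => m.RH_fib hU) (fun U => m.step U L) hV (m.fib_step hV.1 L)
    fun l hl hs => ⟨m.stend_step hl hV.1 hs L.1 L.2.1 tendsto_const_nhds, ?_⟩
  by_cases h0 : L.1 k.succ = 0
  · refine Eventually.of_forall fun U hU => ?_
    rw [m.Step_split (m.RH_fib hU) L k.succ, h0, zero_smul, m.D_zero, one_mul]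
    exact m.Step_SCl hM (m.subset_SCl (fun U hU => m.RH_fib hU) hU) hL'
  · filter_upwards [(m.tendsto_Fz hl hV.1 hs).eventually_ne (hF h0)] with U hU0 hU
    rw [m.Step_split (m.RH_fib hU) L k.succ]
    exact m.Step_SCl hM (m.lab_mem_RH hU hU0 _) hL'

/-- **one more label can be simulated** -/
theorem step_down {k : Fin K} {w : List (Layer K)} (hw : Lev (k + 2) w) {ε : ℝ} (hε : 0 < ε) :
    ∃ w', Lev (k + 1) w' ∧ m.En (m.run w) - ε ≤ m.En (m.run w') := by
  obtain ⟨w₁, hw₁, ⟨a, β₀, rest, he, hsh⟩, hE⟩ :=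
    m.exists_shape (M := k + 2) (by omega) hw (half_pos hε)
  have key : ∀ j, j ≤ w₁.length → m.run (w₁.take j) ∈ m.SCl (m.RH (k + 1)) := by
    intro j
    induction j with
    | zero => exact fun _ => m.subset_SCl (fun U hU => m.RH_fib hU) (m.one_mem_RH _)
    | succ j ih =>
      intro hj
      have hj' : j < w₁.length := hj
      rw [List.take_add_one, List.getElem?_eq_getElem hj', Option.toList_some, m.run_snoc]
      refine m.step_mem_SCl_RH (ih hj'.le) ?_ fun h0 => ?_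
      · intro L hm
        obtain rfl := List.mem_singleton.1 hm
        exact hw₁ _ (List.getElem_mem hj')
      · refine hsh j ?_ hj'
        by_contra hlt
        apply h0
        subst he
        have : j = 0 ∨ j = 1 := by omega
        rcases this with rfl | rfl
        · simp
        · simp [Fin.succ_ne_zero]
  have h := key _ le_rfl
  rw [List.take_length] at h
  obtain ⟨w', hw', hE'⟩ := m.En_le_of_mem_RH h (half_pos hε)
  exact ⟨w', hw', by linarith⟩

theorem down_to_one {ε : ℝ} (hε : 0 < ε) :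
    ∃ w, Lev 1 w ∧ m.Shape w ∧ I.value - ε ≤ m.En (m.run w) := by
  have key : ∀ i, i ≤ K → ∀ ε > (0 : ℝ), ∃ w, Lev (K - i + 1) w ∧ I.value - ε ≤ m.En (m.run w) := by
    intro i
    induction i with
    | zero =>
      intro _ ε hε
      obtain ⟨U, hU, hv⟩ := m.final_state
      obtain ⟨w, hw, h⟩ := m.En_le_of_mem_Cl hU hε
      exact ⟨w, hw, hv ▸ h⟩
    | succ i ih =>
      intro hi ε hε
      obtain ⟨w, hw, h⟩ := ih (by omega) _ (half_pos hε)
      have e : K - i + 1 = K - (i + 1) + 2 := by omega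
      rw [e] at hw
      obtain ⟨w', hw', h'⟩ := m.step_down (k := ⟨K - (i + 1), by omega⟩) hw (half_pos hε)
      exact ⟨w', hw', by linarith⟩
  obtain ⟨w, hw, h⟩ := key K le_rfl _ (half_pos hε)
  rw [Nat.sub_self, zero_add] at hw
  obtain ⟨w', hw', hs, h'⟩ := m.exists_shape le_rfl hw (half_pos hε)
  exact ⟨w', hw', hs, by linarith⟩

end Model

/-- part Q from the base case (`exists_model`, `down_to_one`, `isGram1_wG`, `En_run`, `Fz_run`) -/
theorem partQ_of_base (hB : BaseStmt) : PartQStmt := by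
  intro K I ε hε
  obtain ⟨H, KK, _, _, _, _, _, ⟨m⟩⟩ := exists_model I
  obtain ⟨w, hw, ⟨a, β₀, rest, he, hsh⟩, hv⟩ := m.down_to_one (half_pos hε)
  have hp : w.length = rest.length + 2 := by rw [he]; rfl
  obtain ⟨p', γ', β', G', hG', h⟩ := hB rest.length _ _ _ _ (m.isGram1_wG hw hp)
    (by rw [he]; rfl) (by rw [he]; rfl) (by rw [he]; rfl) (by rw [he]; rfl)
    (fun k hk h0 => hsh k hk (lt_of_lt_of_eq k.2 hp.symm) (by rw [m.Fz_run hw hp k, h0, mul_zero])) _ (half_pos hε)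
  rw [← m.En_run hw hp] at h
  exact ⟨p', γ', β', G', hG', by linarith⟩

end Crest.Agent.R339
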