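import Crest.Agent.R339.Q.BS2
import Crest.Agent.R339.Q.BS3
import Crest.Agent.R339.Q.Step

/-!
# Row 339, part Q: assembly
-/

set_option autoImplicit false

namespace Crest.Agent.R339

open MeasureTheory ProbabilityTheory Filter Topology Crest.MathPhysics.SpinGlass
open scoped InnerProductSpace ComplexConjugate

/-- the trivial scheme without labels -/
noncomputable def Iamp.triv : Iamp 0 where
  f := fun k => k.elim0
  M := fun _ => 0
  f_meas := fun k => k.elim0
  f_bdd := fun k => k.elim0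
  f_odd := fun k => k.elim0
  f_dep := fun k => k.elim0
  f_on := fun k => k.elim0
  M_meas := measurable_const
  M_odd := fun _ => by simp
  M_le := fun _ => by simp

/-- extend `a, γ, β` by zero, `P = p + 2`; `mc_ideal`, `tendsto_gram`, `pos_one`, `pos_later`, `all_layers`, `En_of_inv`,
`tendsto_energy`; a state in `Reach 0` is a phase times `run w` (`En_ph`, `isGram_wG`, `En_run`). -/
theorem base : BaseStmt := by
  intro p a γ β G hG ha0 hγ0 hβ0 _ hF ε hε
  obtain ⟨H, KK, _, _, _, _, _, ⟨m⟩⟩ := exists_model Iamp.triv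
  have hext : ∀ f : Fin (p + 2) → ℝ, ∃ f' : ℕ → ℝ, (∀ k : Fin (p + 2), f' k = f k) ∧
      ∀ k, |f' k| ≤ ∑ i, |f i| := fun f => by
    refine ⟨fun k => if h : k < p + 2 then f ⟨k, h⟩ else 0, fun k => by simp only [k.2, dif_pos],
      fun k => ?_⟩
    dsimp only
    split_ifs with h
    · exact Finset.single_le_sum (f := fun i => |f i|) (fun i _ => abs_nonneg _) (Finset.mem_univ _)
    · rw [abs_zero]
      exact Finset.sum_nonneg fun i _ => abs_nonneg _
  obtain ⟨a', ea, ba⟩ := hext a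
  obtain ⟨γ', eγ, bγ⟩ := hext γ
  obtain ⟨β', eβ, -⟩ := hext β
  have n1 : 0 ≤ ∑ i, |a i| := Finset.sum_nonneg fun i _ => abs_nonneg _
  have n2 : 0 ≤ ∑ i, |γ i| := Finset.sum_nonneg fun i _ => abs_nonneg _
  set A : ℝ := 1 + ∑ i, |a i| + ∑ i, |γ i| with hAdef
  have hA : 1 ≤ A := by linarith
  have ha : ∀ k, |a' k| ≤ A := fun k => by linarith [ba k]
  have hγ : ∀ k, |γ' k| ≤ A := fun k => by linarith [bγ k]
  have eγ' : (fun k : Fin (p + 2) => γ' k) = γ := funext eγ
  have hG' : IsGram1 (fun k : Fin (p + 2) => a' k) (fun k : Fin (p + 2) => γ' k)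
      (fun k : Fin (p + 2) => β' k) G := by
    rw [funext ea, eγ', funext eβ]
    exact hG
  have ha0' : a' 0 = 0 := (ea 0).trans ha0
  have hγ0' : γ' 0 = 0 := (eγ 0).trans hγ0
  have hβ0' : β' 0 = Real.pi / 4 := (eβ 0).trans hβ0
  obtain ⟨A₀, hA₀, hmc⟩ := m.mc_ideal a' γ' β' hA ha hγ (p + 2)
  have hk : ∀ k : Fin (p + 2), ∃ C₀ : ℝ, 1 ≤ (k : ℕ) → ∀ᶠ q in atTop, ∃ b ρ, 0 < b ∧ b ≤ 1 ∧
      1 ≤ ρ ∧ b * ρ ≤ C₀ / Real.sqrt q ∧ m.Pos q a' γ' β' k b ρ := by
    intro k
    rcases lt_or_ge (k : ℕ) 2 with h2 | h2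
    · refine ⟨2, fun h1 => ?_⟩
      rw [show (k : ℕ) = 1 by omega]
      exact m.pos_one a' γ' β' hβ0'
    · obtain ⟨C₀, hC⟩ := m.pos_later a' γ' β' ha hγ (k := k)
        (g := fun i => if h : i < p + 3 then G k.castSucc ⟨i, h⟩ else 0)
        (fun i hi => by
          have hi' : i < p + 3 := by omega
          simp only [hi', dif_pos]
          exact m.tendsto_gram a' γ' β' hA ha hγ hG' ha0' hγ0' k.castSucc ⟨i, hi'⟩)
        (by
          intro h0
          refine hF k h2 (Eq.trans ?_ h0)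
          have e1 : ∀ i : Fin (p + 2), (if i < k then a i * (G k.castSucc i.castSucc).im else 0) =
              (fun j : ℕ => if j < (k : ℕ) then a' j *
                (if h : j < p + 3 then G k.castSucc ⟨j, h⟩ else 0).im else 0) i := fun i => by
            have hi' : (i : ℕ) < p + 3 := by omega
            simp only [hi', dif_pos, ea, Fin.lt_def]
            rfl
          rw [Finset.sum_congr rfl fun i _ => e1 i, Fin.sum_univ_eq_sum_range (fun j : ℕ =>
            if j < (k : ℕ) then a' j *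
              (if h : j < p + 3 then G k.castSucc ⟨j, h⟩ else 0).im else 0), ← Finset.sum_filter]
          have e2 : (Finset.range (p + 2)).filter (fun j => j < (k : ℕ)) = Finset.Ico 0 (k : ℕ) := by
            ext j
            simp only [Finset.mem_filter, Finset.mem_range, Finset.mem_Ico]
            omega
          rw [e2, Finset.sum_eq_sum_Ico_succ_bot (by omega), ha0', zero_mul, zero_add])
      exact ⟨C₀, fun _ => hC⟩
  choose C hC using hk
  have hpos : ∀ᶠ q in atTop, ∀ k, 1 ≤ k → k < p + 2 → ∃ b ρ, 0 < b ∧ b ≤ 1 ∧ 1 ≤ ρ ∧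
      b * ρ ≤ (∑ i, |C i|) / Real.sqrt q ∧ m.Pos q a' γ' β' k b ρ := by
    have h1 : ∀ᶠ q in atTop, ∀ k : Fin (p + 2), 1 ≤ (k : ℕ) → ∃ b ρ, 0 < b ∧ b ≤ 1 ∧
        1 ≤ ρ ∧ b * ρ ≤ C k / Real.sqrt q ∧ m.Pos q a' γ' β' k b ρ := by
      refine eventually_all.2 fun k => ?_
      by_cases h : 1 ≤ (k : ℕ)
      · exact (hC k h).mono fun q hq _ => hq
      · exact Eventually.of_forall fun q hq => absurd hq h
    refine h1.mono fun q hq k hk1 hk2 => ?_
    obtain ⟨b, ρ, h1, h2, h3, h4, h5⟩ := hq ⟨k, hk2⟩ hk1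
    refine ⟨b, ρ, h1, h2, h3, h4.trans (div_le_div_of_nonneg_right ?_ (Real.sqrt_nonneg _)), h5⟩
    exact (le_abs_self _).trans (Finset.single_le_sum (f := fun i => |C i|)
      (fun i _ => abs_nonneg _) (Finset.mem_univ _))
  have hall := m.all_layers (p + 2) (by omega) a' γ' β' hβ0' hA ha hγ hA₀ hmc hpos
  have hen := m.tendsto_energy a' γ' β' hA ha hγ hG' ha0' hγ0'
  rw [eγ'] at hen
  have h1 := hen.eventually (lt_mem_nhds (show limE γ G - ε / 2 < limE γ G by linarith))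
  have h2 : ∀ᶠ q : ℝ in atTop, (20 * A₀ + 4) / q < ε / 2 :=
    (tendsto_const_nhds.div_atTop tendsto_id).eventually (gt_mem_nhds (half_pos hε))
  obtain ⟨q, ⟨U, hU⟩, hq1, hq2, hq⟩ := (hall.and (h1.and (h2.and (eventually_ge_atTop 1)))).exists
  have hq0 : 0 < q := by linarith
  have h3 := m.En_of_inv a' γ' β' hq (by positivity) (by rwa [div_le_one hq0]) hA₀ hU (hmc q hq).1
    ((hmc q hq).2 _ le_rfl).1
  obtain ⟨w, hw, κ, hκ, rfl⟩ := hU.1
  rw [m.En_ph hκ, m.En_run (hw.mono zero_le_one) rfl] at h3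
  refine ⟨w.length, _, _, _, m.isGram_wG hw rfl, ?_⟩
  have h4 : 20 * A₀ * (1 / q) + 4 / q = (20 * A₀ + 4) / q := by ring
  have h5 := (abs_le.1 h3).1
  linarith

theorem partQ : PartQStmt := partQ_of_base base

end Crest.Agent.R339
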