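import Crest.Agent.R339.Q.Fock2
import Crest.Agent.R339.B.Gauss

/-!
# Row 339, part Q: spin ⊗ bosons, Gaussian label integrals, the isometry `j`
-/

set_option autoImplicit false

namespace Crest.Agent.R339

open MeasureTheory ProbabilityTheory Filter Topology Crest.MathPhysics.SpinGlass
open scoped InnerProductSpace ComplexConjugate

/-- one spin coupled to the bosons -/
structure Weyl1 (F : Type) [NormedAddCommGroup F] [InnerProductSpace ℂ F] [CompleteSpace F] where
  vac : F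
  X : F →L[ℂ] F
  Z : F →L[ℂ] F
  W : K0 → (F →L[ℂ] F)
  one : K0 →ₗᵢ[ℂ] F
  norm_vac : ‖vac‖ = 1
  X_star : star X = X
  Z_star : star Z = Z
  X_sq : X * X = 1
  Z_sq : Z * Z = 1
  ZX : Z * X = -(X * Z)
  X_vac : X vac = vac
  X_W : ∀ y, X * W y = W y * X
  Z_W : ∀ y, Z * W y = W y * Z
  W_zero : W 0 = 1
  W_star : ∀ y, star (W y) = W (-y)
  W_W : ∀ y y', W y * W y' = Complex.exp (-(Complex.I * ((⟪y, y'⟫_ℂ).im : ℂ))) • W (y + y')
  vac_W : ∀ y, ⟪vac, W y vac⟫_ℂ = ((Real.exp (-‖y‖ ^ 2 / 2) : ℝ) : ℂ)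
  total : ∀ u, (∀ y, ⟪W y vac, u⟫_ℂ = 0) → (∀ y, ⟪Z (W y vac), u⟫_ℂ = 0) → u = 0
  inner_one : ∀ z y, ⟪W z vac, one y⟫_ℂ =
    -Complex.I * ((Real.exp (-‖z‖ ^ 2 / 2) : ℝ) : ℂ) * ⟪z, y⟫_ℂ
  X_one : ∀ y, X (one y) = one y

namespace ModelEx

section spin

variable {Γ : Type} [NormedAddCommGroup Γ] [InnerProductSpace ℂ Γ]

/-- two copies -/
abbrev Two (Γ : Type) := PiLp 2 fun _ : Bool => Γ

/-- operators on two copies -/
noncomputable def opF (σ : Bool → Bool) (T : Bool → Γ →L[ℂ] Γ) : Two Γ →L[ℂ] Two Γ :=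
  ((PiLp.continuousLinearEquiv 2 ℂ fun _ : Bool => Γ).symm : (Bool → Γ) →L[ℂ] Two Γ) ∘L
    ContinuousLinearMap.pi fun b => T b ∘L PiLp.proj 2 (fun _ : Bool => Γ) (σ b)

theorem opF_apply (σ : Bool → Bool) (T : Bool → Γ →L[ℂ] Γ) (v : Two Γ) (b : Bool) :
    opF σ T v b = T b (v (σ b)) := rfl

/-- `1/√2` -/
noncomputable def rr : ℂ := ((1 / Real.sqrt 2 : ℝ) : ℂ)

theorem rr_sq : rr * rr + rr * rr = 1 := by
  have : (1 / Real.sqrt 2) * (1 / Real.sqrt 2) + (1 / Real.sqrt 2) * (1 / Real.sqrt 2) = 1 := by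
    have h := Real.mul_self_sqrt (show (0 : ℝ) ≤ 2 by norm_num)
    have h0 : Real.sqrt 2 ≠ 0 := by positivity
    field_simp
    nlinarith
  rw [rr]
  exact_mod_cast this

theorem conj_rr : conj rr = rr := Complex.conj_ofReal _

theorem rr_ne : rr ≠ 0 := by
  intro h
  have := rr_sq
  rw [h] at this
  simp at this

/-- the diagonal embedding -/
noncomputable def dgL : Γ →ₗ[ℂ] Two Γ where
  toFun v := WithLp.toLp 2 fun _ => rr • v
  map_add' v v' := by ext b; simp
  map_smul' c v := by ext b; simp [smul_comm c rr]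

theorem dgL_apply (v : Γ) (b : Bool) : (dgL v : Two Γ) b = rr • v := rfl

theorem inner_dgL (v v' : Γ) : ⟪(dgL v : Two Γ), dgL v'⟫_ℂ = ⟪v, v'⟫_ℂ := by
  rw [PiLp.inner_apply, Fintype.sum_bool]
  simp only [dgL_apply, inner_smul_left, inner_smul_right, conj_rr]
  linear_combination ⟪v, v'⟫_ℂ * rr_sq

/-- the diagonal embedding as an isometry -/
noncomputable def dg : Γ →ₗᵢ[ℂ] Two Γ := dgL.isometryOfInner inner_dgL

theorem dg_apply (v : Γ) (b : Bool) : (dg v : Two Γ) b = rr • v := rfl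

theorem opF_dg (T : Γ →L[ℂ] Γ) (v : Γ) : opF id (fun _ => T) (dg v) = dg (T v) := by
  ext b
  simp [opF_apply, dg_apply]

variable [CompleteSpace Γ]

/-- the spin–boson structure on two copies of the Fock space -/
noncomputable def weyl1 (w : Weyl0 Γ) : Weyl1 (Two Γ) where
  vac := dg w.vac
  X := opF not fun _ => 1
  Z := opF id fun b => sg b • 1
  W y := opF id fun _ => w.W y
  one := dg.comp w.one
  norm_vac := by rw [dg.norm_map, w.norm_vac]
  X_star := by
    symm
    rw [ContinuousLinearMap.star_eq_adjoint, ContinuousLinearMap.eq_adjoint_iff]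
    intro u v
    simp only [PiLp.inner_apply, Fintype.sum_bool, opF_apply, Bool.not_true, Bool.not_false,
      one_apply_eq_self]
    ring
  Z_star := by
    symm
    rw [ContinuousLinearMap.star_eq_adjoint, ContinuousLinearMap.eq_adjoint_iff]
    intro u v
    simp [PiLp.inner_apply, opF_apply, sg, spinSign]
  X_sq := by ext v b; simp [opF_apply]
  Z_sq := by ext v b; cases b <;> simp [opF_apply, sg, spinSign]
  ZX := by ext v b; cases b <;> simp [opF_apply, sg, spinSign]
  X_vac := by ext b; simp [opF_apply, dg_apply]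
  X_W y := by ext v b; simp [opF_apply]
  Z_W y := by ext v b; simp [opF_apply]
  W_zero := by ext v b; simp [opF_apply, w.W_zero]
  W_star y := by
    symm
    rw [ContinuousLinearMap.star_eq_adjoint, ContinuousLinearMap.eq_adjoint_iff]
    intro u v
    simp only [PiLp.inner_apply, opF_apply, id, ← w.W_star, ContinuousLinearMap.star_eq_adjoint,
      ContinuousLinearMap.adjoint_inner_left]
  W_W y y' := by
    ext v b
    have := congrArg (fun T : Γ →L[ℂ] Γ => T (v b)) (w.W_W y y')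
    simpa [opF_apply] using this
  vac_W y := by
    rw [opF_dg]
    exact (dg.inner_map_map _ _).trans (w.vac_W y)
  total u h1 h2 := by
    have key : ∀ b y, ⟪w.W y w.vac, u b⟫_ℂ = 0 := by
      intro b y
      have a1 := h1 y
      have a2 := h2 y
      rw [opF_dg] at a1 a2
      simp only [PiLp.inner_apply, Fintype.sum_bool, opF_apply, dg_apply, id, sg, spinSign,
        inner_smul_left, conj_rr, smul_apply,
        one_apply_eq_self] at a1 a2
      simp at a2
      refine mul_left_cancel₀ rr_ne ?_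
      cases b
      · linear_combination (1 / 2 : ℂ) * a1 + (1 / 2 : ℂ) * a2
      · linear_combination (1 / 2 : ℂ) * a1 - (1 / 2 : ℂ) * a2
    ext b
    have hd := w.total
    rw [Submodule.dense_iff_topologicalClosure_eq_top, Submodule.topologicalClosure_eq_top_iff,
      Submodule.eq_bot_iff] at hd
    refine hd (u b) ?_
    rw [Submodule.mem_orthogonal]
    intro v hv
    induction hv using Submodule.span_induction with
    | mem x hx => obtain ⟨y, rfl⟩ := hx; exact key b y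
    | zero => simp
    | add x y _ _ hx hy => rw [inner_add_left, hx, hy, add_zero]
    | smul c x _ hx => rw [inner_smul_left, hx, mul_zero]
  inner_one z y := by
    rw [opF_dg]
    exact (dg.inner_map_map _ _).trans (w.inner_one z y)
  X_one y := by ext b; simp [opF_apply, dg_apply]

end spin

theorem exists_weyl1 : ∃ (F : Type) (_ : NormedAddCommGroup F) (_ : InnerProductSpace ℂ F)
    (_ : CompleteSpace F) (_ : TopologicalSpace.SeparableSpace F), Nonempty (Weyl1 F) := by
  obtain ⟨Γ, _, _, _, _, ⟨w⟩⟩ := exists_weyl0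
  have : SecondCountableTopology Γ := UniformSpace.secondCountable_of_separable Γ
  exact ⟨Two Γ, inferInstance, inferInstance, inferInstance, inferInstance, ⟨weyl1 w⟩⟩

/-- an isometry that sends a finite orthonormal family to a prescribed one -/
theorem exists_j {ι H E K' : Type} [Fintype ι] [NormedAddCommGroup H] [InnerProductSpace ℂ H]
    [NormedAddCommGroup E] [InnerProductSpace ℂ E] [NormedAddCommGroup K'] [InnerProductSpace ℂ K']
    {e : ι → H} {d : ι → E} (he : Orthonormal ℂ e) (hd : Orthonormal ℂ d) (j' : H →ₗᵢ[ℂ] K') :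
    ∃ j : H →ₗᵢ[ℂ] WithLp 2 (E × K'), (∀ k, j (e k) = WithLp.toLp 2 (d k, 0)) ∧
      ∀ ξ, (j ξ).fst = ∑ k, ⟪e k, ξ⟫_ℂ • d k := by
  classical
  let L : H →ₗ[ℂ] WithLp 2 (E × K') :=
    { toFun := fun ξ => WithLp.toLp 2 (∑ k, ⟪e k, ξ⟫_ℂ • d k, j' (ξ - ∑ k, ⟪e k, ξ⟫_ℂ • e k))
      map_add' := fun ξ η => by
        rw [← WithLp.toLp_add, Prod.mk_add_mk, ← map_add]
        simp only [inner_add_right, add_smul, Finset.sum_add_distrib]
        congr 3
        abel
      map_smul' := fun c ξ => by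
        rw [RingHom.id_apply, ← WithLp.toLp_smul, Prod.smul_mk, ← map_smul]
        simp only [inner_smul_right, mul_smul, ← Finset.smul_sum, smul_sub] }
  have hL : ∀ ξ η, ⟪L ξ, L η⟫_ℂ = ⟪ξ, η⟫_ℂ := by
    intro ξ η
    rw [WithLp.prod_inner_apply]
    change ⟪∑ k, ⟪e k, ξ⟫_ℂ • d k, ∑ k, ⟪e k, η⟫_ℂ • d k⟫_ℂ +
      ⟪j' (ξ - ∑ k, ⟪e k, ξ⟫_ℂ • e k), j' (η - ∑ k, ⟪e k, η⟫_ℂ • e k)⟫_ℂ = _
    rw [j'.inner_map_map, inner_sub_left, inner_sub_right, inner_sub_right, hd.inner_sum,
      he.inner_sum, inner_sum, sum_inner]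
    simp only [inner_smul_left, inner_smul_right, inner_conj_symm, mul_comm]
    ring
  refine ⟨L.isometryOfInner hL, fun k => ?_, fun ξ => rfl⟩
  change WithLp.toLp 2 (∑ i, ⟪e i, e k⟫_ℂ • d i, j' (e k - ∑ i, ⟪e i, e k⟫_ℂ • e i)) = _
  simp [orthonormal_iff_ite.1 he]

variable {K : ℕ}

theorem gl_prod (f : Fin (K + 1) → ℝ → ℂ) :
    ∫ x, ∏ i, f i (x i) ∂gL K = ∏ i, ∫ t, f i t ∂gaussianReal 0 1 :=
  integral_fintype_prod_eq_prod f

theorem gl_exp_eq (c : Fin (K + 1) → ℝ) (s : ℂ) (x : Lab K) :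
    Complex.exp (s * ((∑ i, c i * x i : ℝ) : ℂ)) = ∏ i, Complex.exp (s * c i * x i) := by
  rw [← Complex.exp_sum]
  congr 1
  push_cast
  rw [Finset.mul_sum]
  exact Finset.sum_congr rfl fun i _ => by ring

theorem gl_exp_eq' (c : Fin (K + 1) → ℝ) :
    ∏ i, Complex.exp ((-Complex.I * c i) ^ 2 / 2) = ((Real.exp (-(∑ i, c i ^ 2) / 2) : ℝ) : ℂ) := by
  rw [← Complex.exp_sum, Complex.ofReal_exp]
  congr 1
  push_cast
  rw [← Finset.sum_neg_distrib, Finset.sum_div]
  refine Finset.sum_congr rfl fun i _ => ?_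
  rw [mul_pow, neg_sq, Complex.I_sq]
  ring

theorem gl_exp (c : Fin (K + 1) → ℝ) :
    ∫ x, Complex.exp (-Complex.I * ((∑ i, c i * x i : ℝ) : ℂ)) ∂gL K
      = ((Real.exp (-(∑ i, c i ^ 2) / 2) : ℝ) : ℂ) := by
  simp only [gl_exp_eq]
  rw [gl_prod fun i t => Complex.exp (-Complex.I * c i * t), ← gl_exp_eq']
  simp only [B.Gauss_one]

theorem gl_ite (k : Fin (K + 1)) (a b : Fin (K + 1) → ℂ) :
    ∏ i, ((if i = k then a i else 1) * b i) = a k * ∏ i, b i := by
  rw [Finset.prod_mul_distrib, Finset.prod_ite_eq' Finset.univ k a, if_pos (Finset.mem_univ k)]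

theorem gl_x_exp (c : Fin (K + 1) → ℝ) (k : Fin (K + 1)) :
    ∫ x, Complex.exp (-Complex.I * ((∑ i, c i * x i : ℝ) : ℂ)) * (x k : ℂ) ∂gL K
      = -Complex.I * c k * ((Real.exp (-(∑ i, c i ^ 2) / 2) : ℝ) : ℂ) := by
  have e : ∀ x : Lab K, Complex.exp (-Complex.I * ((∑ i, c i * x i : ℝ) : ℂ)) * (x k : ℂ)
      = ∏ i, ((if i = k then (x i : ℂ) else 1) * Complex.exp (-Complex.I * c i * x i)) := by
    intro x
    rw [gl_exp_eq, gl_ite k fun i => (x i : ℂ), mul_comm]
  simp only [e]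
  rw [gl_prod fun i t => (if i = k then (t : ℂ) else 1) * Complex.exp (-Complex.I * c i * t),
    ← gl_exp_eq', ← gl_ite k fun i => -Complex.I * c i]
  refine Finset.prod_congr rfl fun i _ => ?_
  split_ifs
  · exact B.Gauss_one' _
  · simp only [one_mul]
    exact B.Gauss_one _

theorem gl_xx (k l : Fin (K + 1)) :
    ∫ x, (x k : ℂ) * (x l : ℂ) ∂gL K = if k = l then 1 else 0 := by
  have e : ∀ x : Lab K, (x k : ℂ) * (x l : ℂ)
      = ∏ i, ((if i = k then (x i : ℂ) else 1) * if i = l then (x i : ℂ) else 1) := by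
    intro x
    rw [gl_ite k fun i => (x i : ℂ), Finset.prod_ite_eq' Finset.univ l fun i => (x i : ℂ),
      if_pos (Finset.mem_univ l)]
  simp only [e]
  rw [gl_prod fun i t => (if i = k then (t : ℂ) else 1) * if i = l then (t : ℂ) else 1]
  split_ifs with h
  · subst h
    refine Finset.prod_eq_one fun i _ => ?_
    split_ifs
    · have h1 : ∫ t : ℝ, t * t ∂gaussianReal 0 1 = 1 := by
        have := variance_id_gaussianReal (μ := 0) (v := 1)
        rw [variance_eq_integral measurable_id.aemeasurable] at this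
        simpa [sq] using this
      simp only [← Complex.ofReal_mul]
      rw [integral_complex_ofReal, h1, Complex.ofReal_one]
    · simp
  · refine Finset.prod_eq_zero (Finset.mem_univ k) ?_
    simp only [if_true, if_neg h, mul_one]
    rw [integral_complex_ofReal]
    simp

theorem memLp_x (k : Fin (K + 1)) : MemLp (fun x : Lab K => (x k : ℂ)) 2 (gL K) := by
  have h1 : MeasurePreserving (fun x : Lab K => x k) (gL K) (gaussianReal 0 1) :=
    measurePreserving_eval (fun _ : Fin (K + 1) => gaussianReal 0 1) k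
  exact ((memLp_id_gaussianReal 2).comp_measurePreserving h1).ofReal

end ModelEx

end Crest.Agent.R339
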