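import Crest.Agent.R339.Q.Coh1
import Crest.Agent.R339.B.NuS

/-!
# Row 339, part Q: path sums
-/

set_option autoImplicit false

namespace Crest.Agent.R339

open MeasureTheory ProbabilityTheory Filter Topology Crest.MathPhysics.SpinGlass
open scoped InnerProductSpace ComplexConjugate

theorem path_psiGen_eq {p : ℕ} (β : Fin p → ℝ) (Γ : Fin p → Fin p → ℂ) (s t : Fin (p + 1)) :
    psiGen β Γ s t = ∑ b : B.Pth p,
      B.wt β b * (sg (b.1 s) * sg (b.2 t) * Complex.exp (quad Γ b.1 b.2)) := by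
  rw [psiGen, Fintype.sum_prod_type]
  refine Finset.sum_congr rfl fun a' _ => Finset.sum_congr rfl fun a _ => ?_
  simp only [B.wt]
  split_ifs
  · ring
  · simp

/-- causality of the path sum: only the fields before the later of the two times matter
(sum over the last spin; unitarity of the mixer forces the two branches to agree one step earlier) -/
theorem psiGen_congr {p : ℕ} (β : Fin p → ℝ) {Γ Γ' : Fin p → Fin p → ℂ} (s t : Fin (p + 1))
    (h : ∀ k l : Fin p, (k : ℕ) < max (s : ℕ) t → (l : ℕ) < max (s : ℕ) t → Γ k l = Γ' k l) :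
    psiGen β Γ s t = psiGen β Γ' s t := by
  have hd : B.Dep (max (s : ℕ) t + 1) fun b : B.Pth p => sg (b.1 s) * sg (b.2 t) :=
    fun b c hbc => by simp only [(hbc s (by omega)).1, (hbc t (by omega)).2]
  have h1 := B.sum_wt_eq_zero β (max (s : ℕ) t) (by have := s.2; have := t.2; omega)
    (fun b => sg (b.1 s) * sg (b.2 t) * (Complex.exp (quad Γ b.1 b.2) - Complex.exp (quad Γ' b.1 b.2)))
    (hd.causal.mul fun u _ b c h1 h2 h3 => by
      have e1 := B.causal_quad Γ u (Nat.zero_le _) b c h1 h2 h3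
      have e2 := B.causal_quad Γ' u (Nat.zero_le _) b c h1 h2 h3
      simp only at e1 e2 ⊢
      rw [e1, e2])
    fun b hb => by
      have e : quad Γ b.1 b.2 = quad Γ' b.1 b.2 := by
        simp only [B.NuS_quad_eq]
        refine Finset.sum_congr rfl fun l _ => ?_
        by_cases hl : (l : ℕ) < max (s : ℕ) t
        · simp only [B.NuS_Q, h l l hl hl]
          congr 1
          refine Finset.sum_congr rfl fun k _ => ?_
          split_ifs with hk
          · rw [h k l (lt_trans hk hl) hl, h l k hl (lt_trans hk hl)]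
          · rfl
        · simp [B.NuS_Q, hb l.castSucc (not_lt.1 hl), B.sg_mul_self]
      rw [e, sub_self, mul_zero]
  simpa only [path_psiGen_eq, mul_sub, Finset.sum_sub_distrib, sub_eq_zero] using h1

theorem continuous_psiGen {p : ℕ} (β : Fin p → ℝ) (s t : Fin (p + 1)) :
    Continuous fun Γ : Fin p → Fin p → ℂ => psiGen β Γ s t := by
  simp only [path_psiGen_eq, quad]
  refine continuous_finsetSum _ fun b _ => continuous_const.mul (continuous_const.mul
    (Complex.continuous_exp.comp (Continuous.add (Continuous.sub (by fun_prop) ?_) (by fun_prop))))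
  refine continuous_finsetSum _ fun k _ => continuous_finsetSum _ fun l _ => ?_
  split_ifs <;> fun_prop

theorem path_conj_sg (b : Bool) : conj (sg b) = sg b := Complex.conj_ofReal _

theorem path_sg_not (b : Bool) : sg (!b) = -sg b := by cases b <;> simp [sg, spinSign]

/-- the exponent of a product of Weyl operators (later factors on the left) -/
noncomputable def pathE {KK : Type} [NormedAddCommGroup KK] [InnerProductSpace ℂ KK] {p : ℕ}
    (z : Fin p → KK) : ℂ :=
  -(1 / 2 : ℂ) * ∑ k, ⟪z k, z k⟫_ℂ - ∑ k, ∑ l, if k < l then ⟪z l, z k⟫_ℂ else 0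

theorem pathE_succ {KK : Type} [NormedAddCommGroup KK] [InnerProductSpace ℂ KK] {p : ℕ}
    (z : Fin (p + 1) → KK) : pathE z = pathE (fun k : Fin p => z k.castSucc) +
      (-⟪z (Fin.last p), z (Fin.last p)⟫_ℂ / 2 - ⟪z (Fin.last p), ∑ k : Fin p, z k.castSucc⟫_ℂ) := by
  simp only [pathE, Fin.sum_univ_castSucc, Fin.castSucc_lt_castSucc_iff, Fin.castSucc_lt_last,
    if_true, lt_self_iff_false, if_false, (Fin.castSucc_lt_last _).not_gt, inner_sum,
    Finset.sum_add_distrib, Finset.sum_const_zero]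
  ring

namespace Model

variable {K : ℕ} {I : Iamp K} {H KK : Type} [NormedAddCommGroup H] [InnerProductSpace ℂ H]
  [CompleteSpace H] [NormedAddCommGroup KK] [InnerProductSpace ℂ KK] (m : Model I H KK)

/-- exponential vectors -/
noncomputable def pathCv (S : KK) : H := Complex.exp (⟪S, S⟫_ℂ / 2) • m.W S m.vac

theorem pathCv_zero : m.pathCv 0 = m.vac := by simp [pathCv, m.W_zero]

theorem W_pathCv {y S : KK} (hy : y ∈ m.R) (hS : S ∈ m.R) :
    m.W y (m.pathCv S) = Complex.exp (-⟪y, y⟫_ℂ / 2 - ⟪y, S⟫_ℂ) • m.pathCv (y + S) := by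
  rw [pathCv, pathCv, map_smul, ← mul_apply_eq_comp, m.W_mul_W hy hS,
    smul_apply, smul_smul, smul_smul, ← Complex.exp_add, ← Complex.exp_add]
  congr 2
  rw [inner_add_left, inner_add_right, inner_add_right, ← inner_conj_symm S y, om]
  have := Complex.sub_conj ⟪y, S⟫_ℂ
  push_cast at this
  linear_combination (1 / 2 : ℂ) * this

theorem inner_vac_pathCv {S : KK} (hS : S ∈ m.R) : ⟪m.vac, m.pathCv S⟫_ℂ = 1 := by
  rw [pathCv, inner_smul_right, m.inner_vac_W hS, inner_self_eq_norm_sq_to_K, Complex.ofReal_exp,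
    ← Complex.exp_add, ← Complex.exp_zero]
  congr 1
  push_cast
  change ((‖S‖ : ℝ) : ℂ) ^ 2 / 2 + _ = _
  ring

theorem inner_pathCv {S' S : KK} (hS' : S' ∈ m.R) (hS : S ∈ m.R) :
    ⟪m.pathCv S', m.pathCv S⟫_ℂ = Complex.exp ⟪S', S⟫_ℂ := by
  rw [show m.pathCv S' = Complex.exp (⟪S', S'⟫_ℂ / 2) • m.W S' m.vac from rfl, inner_smul_left,
    ← ContinuousLinearMap.adjoint_inner_right, ← ContinuousLinearMap.star_eq_adjoint, m.W_star,
    m.W_pathCv (neg_mem hS') hS, inner_smul_right, m.inner_vac_pathCv (add_mem (neg_mem hS') hS),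
    mul_one, ← Complex.exp_conj, ← Complex.exp_add]
  congr 1
  rw [map_div₀, inner_conj_symm, inner_neg_neg, inner_neg_left, map_ofNat]
  ring

theorem X_pathCv (S : KK) : m.X (m.pathCv S) = m.pathCv S := by
  rw [pathCv, map_smul, ← mul_apply_eq_comp, (m.X_W S).eq,
    mul_apply_eq_comp, m.X_vac]

theorem path_Z_Z (v : H) : m.Z (m.Z v) = v := by
  rw [← mul_apply_eq_comp, m.Z_sq, one_apply_eq_self]

theorem path_X_Z (v : H) : m.X (m.Z v) = -m.Z (m.X v) := by
  rw [← mul_apply_eq_comp m.Z, m.ZX]; simp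

theorem path_inner_Z (u v : H) : ⟪m.Z u, v⟫_ℂ = ⟪u, m.Z v⟫_ℂ := by
  rw [← ContinuousLinearMap.adjoint_inner_right, ← ContinuousLinearMap.star_eq_adjoint, m.Z_star]

theorem inner_pathCv_Z (S' S : KK) : ⟪m.pathCv S', m.Z (m.pathCv S)⟫_ℂ = 0 := by
  have h : ⟪m.X (m.pathCv S'), m.Z (m.pathCv S)⟫_ℂ = ⟪m.pathCv S', m.X (m.Z (m.pathCv S))⟫_ℂ := by
    rw [← ContinuousLinearMap.adjoint_inner_right, ← ContinuousLinearMap.star_eq_adjoint, m.X_star]
  rw [m.path_X_Z, m.X_pathCv, m.X_pathCv, inner_neg_right] at h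
  linear_combination (1 / 2 : ℂ) * h

/-- the part of an exponential vector with spin `b` -/
noncomputable def pathPv (b : Bool) (S : KK) : H :=
  (1 / 2 : ℂ) • (m.pathCv S + sg b • m.Z (m.pathCv S))

theorem Z_pathPv (b : Bool) (S : KK) : m.Z (m.pathPv b S) = sg b • m.pathPv b S := by
  rw [pathPv, map_smul, map_add, map_smul, m.path_Z_Z, smul_comm (sg b) (1 / 2 : ℂ), smul_add (sg b),
    smul_smul (sg b), B.sg_mul_self, one_smul, add_comm]

theorem X_pathPv (b : Bool) (S : KK) : m.X (m.pathPv b S) = m.pathPv (!b) S := by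
  rw [pathPv, pathPv, map_smul, map_add, map_smul, m.path_X_Z, m.X_pathCv, path_sg_not, smul_neg,
    neg_smul]

theorem W_pathPv (b : Bool) {y S : KK} (hy : y ∈ m.R) (hS : S ∈ m.R) :
    m.W y (m.pathPv b S) = Complex.exp (-⟪y, y⟫_ℂ / 2 - ⟪y, S⟫_ℂ) • m.pathPv b (y + S) := by
  rw [pathPv, pathPv, map_smul, map_add, map_smul, ← mul_apply_eq_comp (m.W y) m.Z,
    ← (m.Z_W y).eq, mul_apply_eq_comp, m.W_pathCv hy hS, map_smul, smul_comm (sg b),
    ← smul_add, smul_comm]

theorem path_D {v : H} {b : Bool} (hv : m.Z v = sg b • v) (y : KK) :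
    m.D m.Z y v = m.W ((-sg b) • y) v := by
  rw [D, (m.commute_sinW m.Z_W y).eq, m.W_eq]
  simp only [sub_apply, add_apply,
    smul_apply, mul_apply_eq_comp, hv, map_smul]
  cases b <;> simp [sg, spinSign, m.cosW_neg, m.sinW_neg, sub_eq_add_neg]

theorem B_pathPv (β : ℝ) (b : Bool) (S : KK) :
    m.B β (m.pathPv b S) = ∑ x, B.mix β x b • m.pathPv x S := by
  rw [Model.B, rot]
  simp only [sub_apply, smul_apply,
    one_apply_eq_self, m.X_pathPv, Fintype.sum_bool, B.mix]
  cases b <;> simp [sub_eq_add_neg, add_comm]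

theorem inner_pathPv (b' b : Bool) {S' S : KK} (hS' : S' ∈ m.R) (hS : S ∈ m.R) :
    ⟪m.pathPv b' S', m.pathPv b S⟫_ℂ =
      if b' = b then (1 / 2 : ℂ) * Complex.exp ⟪S', S⟫_ℂ else 0 := by
  simp only [pathPv, inner_smul_left, inner_smul_right, inner_add_left, inner_add_right,
    m.path_inner_Z, m.path_Z_Z, m.inner_pathCv_Z, m.inner_pathCv hS' hS, path_conj_sg, map_div₀,
    map_one, map_ofNat]
  cases b <;> cases b' <;> simp [sg, spinSign] <;> ring

theorem path_prod (l : List KK) (hl : ∀ y ∈ l, y ∈ m.R) : (l.map m.W).prod m.vac =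
    Complex.exp (-(1 / 2 : ℂ) * ∑ i : Fin l.length, ⟪l[i], l[i]⟫_ℂ
      - ∑ i : Fin l.length, ∑ k : Fin l.length, if i < k then ⟪l[i], l[k]⟫_ℂ else 0) •
      m.pathCv l.sum := by
  induction l with
  | nil => simp [m.pathCv_zero]
  | cons y l ih =>
    have h1 : ∀ z ∈ l, z ∈ m.R := fun z hz => hl z (List.mem_cons_of_mem _ hz)
    rw [List.map_cons, List.prod_cons, mul_apply_eq_comp, ih h1, map_smul,
      m.W_pathCv (hl y List.mem_cons_self) (list_sum_mem h1), smul_smul, ← Complex.exp_add,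
      List.sum_cons]
    congr 2
    have e : ⟪y, l.sum⟫_ℂ = ∑ i : Fin l.length, ⟪y, l[i]⟫_ℂ := by
      rw [← inner_sum]
      congr 1
      exact (Fin.sum_univ_getElem l).symm
    simp only [List.length_cons, Fin.sum_univ_succ, Fin.getElem_fin, Fin.val_zero, Fin.val_succ,
      List.getElem_cons_zero, List.getElem_cons_succ, if_false, Fin.succ_pos,
      if_true, Fin.not_lt_zero, Fin.succ_lt_succ_iff, zero_add, e]
    ring

/-- vacuum expectation of a product of Weyl operators -/
theorem inner_vac_prod_W (l : List KK) (hl : ∀ y ∈ l, y ∈ m.R) :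
    ⟪m.vac, (l.map m.W).prod m.vac⟫_ℂ =
      Complex.exp (-(1 / 2 : ℂ) * ∑ i : Fin l.length, ⟪l[i], l[i]⟫_ℂ
        - ∑ i : Fin l.length, ∑ k : Fin l.length, if i < k then ⟪l[i], l[k]⟫_ℂ else 0) := by
  rw [m.path_prod l hl, inner_smul_right, m.inner_vac_pathCv (list_sum_mem hl), mul_one]

/-- the state with an insertion of `Z` at time `t` -/
noncomputable def pathV (y : ℕ → KK) (β : ℕ → ℝ) (t : ℕ) : ℕ → H
  | 0 => m.zp (decide (0 = t)) m.vac
  | k + 1 => m.zp (decide (k + 1 = t)) (m.B (β k) (m.D m.Z (y k) (pathV y β t k)))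

theorem pathV_eq {y : ℕ → KK} (hy : ∀ k, y k ∈ m.R) (β : ℕ → ℝ) (t p : ℕ) :
    m.pathV y β t p = m.genU y β p (if t ≤ p then m.xi (m.genU y β t) else m.vac) := by
  have key : ∀ k, m.genU y β k (m.xi (m.genU y β k)) = m.Z (m.genU y β k m.vac) := fun k => by
    rw [xi, heis, ← mul_apply_eq_comp, ← mul_assoc, ← mul_assoc,
      Unitary.mul_star_self_of_mem (m.fib_genU hy β k).1, one_mul, mul_apply_eq_comp]
  induction p with
  | zero =>
    rcases Nat.eq_zero_or_pos t with rfl | h
    · rw [if_pos le_rfl, key]; simp [pathV, zp, genU]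
    · rw [if_neg h.not_ge]; simp [pathV, zp, genU, h.ne]
  | succ p ih =>
    rw [pathV, ih]
    rcases lt_trichotomy (p + 1) t with h | rfl | h
    · rw [if_neg (by omega), if_neg (by omega)]; simp [zp, genU, h.ne]
    · rw [if_neg (by omega), if_pos le_rfl, key]; simp [zp, genU]
    · rw [if_pos (by omega), if_pos (by omega)]; simp [zp, genU, h.ne']

theorem zp_pathPv (c b : Bool) (S : KK) :
    m.zp c (m.pathPv b S) = (if c then sg b else 1) • m.pathPv b S := by
  cases c <;> simp [zp, m.Z_pathPv]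

theorem path_mem {y : KK} (hy : y ∈ m.R) (b : Bool) : (-sg b) • y ∈ m.R := by
  cases b <;> simp [sg, spinSign, hy]

theorem path_sum_mem {y : ℕ → KK} (hy : ∀ k, y k ∈ m.R) {p : ℕ} (a : Fin (p + 1) → Bool) :
    ∑ k : Fin p, (-sg (a k.castSucc)) • y k ∈ m.R := sum_mem fun k _ => m.path_mem (hy k) _

theorem pathV_sum {y : ℕ → KK} (hy : ∀ k, y k ∈ m.R) (β : ℕ → ℝ) (t p : ℕ) :
    m.pathV y β t p = ∑ a : Fin (p + 1) → Bool,
      (((√2 : ℝ) : ℂ) * amp (fun k : Fin p => β k) a *
        (∏ k : Fin (p + 1), if decide ((k : ℕ) = t) then sg (a k) else 1) *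
        Complex.exp (pathE fun k : Fin p => (-sg (a k.castSucc)) • y k)) •
      m.pathPv (a (Fin.last p)) (∑ k : Fin p, (-sg (a k.castSucc)) • y k) := by
  induction p with
  | zero =>
    have h2 : ((√2 : ℝ) : ℂ) ≠ 0 := by simp
    have h3 : m.vac = ∑ b, m.pathPv b 0 := by
      simp only [Fintype.sum_bool, pathPv, m.pathCv_zero, sg, spinSign]
      simp
      module
    rw [pathV, h3, map_sum, ← (Equiv.funUnique (Fin 1) Bool).symm.sum_comp]
    refine Finset.sum_congr rfl fun b _ => ?_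
    rw [m.zp_pathPv]
    simp [amp, pathE, h2]
  | succ p ih =>
    have hs : ∀ (F : (Fin (p + 1 + 1) → Bool) → H), ∑ a, F a =
        ∑ u : Fin (p + 1) → Bool, ∑ x : Bool, F (Fin.snoc (α := fun _ => Bool) u x) := fun F => by
      rw [← (Fin.snocEquiv fun _ : Fin (p + 1 + 1) => Bool).sum_comp, Fintype.sum_prod_type,
        Finset.sum_comm]
      rfl
    rw [pathV, ih, hs, map_sum, map_sum, map_sum]
    refine Finset.sum_congr rfl fun u _ => ?_
    rw [map_smul, map_smul, map_smul, m.path_D (m.Z_pathPv _ _), m.W_pathPv _ (m.path_mem (hy p) _)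
      (m.path_sum_mem hy u), map_smul, map_smul, m.B_pathPv, map_sum,
      Finset.smul_sum, Finset.smul_sum]
    refine Finset.sum_congr rfl fun x _ => ?_
    rw [map_smul, m.zp_pathPv, B.amp_snoc, Fin.prod_univ_castSucc (n := p + 1), pathE_succ,
      Complex.exp_add, Fin.sum_univ_castSucc]
    simp only [Fin.snoc_castSucc, Fin.snoc_last, Fin.val_castSucc, Fin.val_last, smul_smul,
      add_comm (_ • y p)]
    congr 1
    rw [show Fin.init (fun k : Fin (p + 1) => β k) = fun k : Fin p => β k from rfl]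
    ring

/-- path sum for the two-time correlation.  Expand `U_p U_t† Z U_t Ω` over spin paths with the projections
`(1 ± Z)/2`: on `Z = s` the gate `D Z y` is `W (-s y)`. -/
theorem inner_xi_genU {p : ℕ} {y : ℕ → KK} (hy : ∀ k, y k ∈ m.R) (β : ℕ → ℝ) (s t : Fin (p + 1)) :
    ⟪m.xi (m.genU y β s), m.xi (m.genU y β t)⟫_ℂ =
      psiGen (fun k : Fin p => β k) (fun k l : Fin p => ⟪y k, y l⟫_ℂ) s t := by
  have h1 : ⟪m.pathV y β s p, m.pathV y β t p⟫_ℂ =
      ⟪m.xi (m.genU y β s), m.xi (m.genU y β t)⟫_ℂ := by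
    rw [m.pathV_eq hy, m.pathV_eq hy, if_pos (Nat.lt_succ_iff.1 s.2), if_pos (Nat.lt_succ_iff.1 t.2),
      ← ContinuousLinearMap.adjoint_inner_right, ← ContinuousLinearMap.star_eq_adjoint,
      ← mul_apply_eq_comp, Unitary.star_mul_self_of_mem (m.fib_genU hy β p).1,
      one_apply_eq_self]
  have h2 : ((√2 : ℝ) : ℂ) * ((√2 : ℝ) : ℂ) = 2 := by
    rw [← Complex.ofReal_mul, Real.mul_self_sqrt zero_le_two]; norm_num
  have h3 : ∀ (a : Fin (p + 1) → Bool) (r : Fin (p + 1)),
      (∏ k : Fin (p + 1), if decide ((k : ℕ) = r) then sg (a k) else 1) = sg (a r) := fun a r => by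
    simp [Fin.val_inj]
  rw [← h1, m.pathV_sum hy, m.pathV_sum hy, psiGen, sum_inner]
  refine Finset.sum_congr rfl fun a' _ => ?_
  rw [inner_sum]
  refine Finset.sum_congr rfl fun a _ => ?_
  rw [inner_smul_left, inner_smul_right, m.inner_pathPv _ _ (m.path_sum_mem hy a')
    (m.path_sum_mem hy a), h3, h3]
  split_ifs
  · have e : quad (fun k l : Fin p => ⟪y k, y l⟫_ℂ) a' a =
        conj (pathE fun k : Fin p => (-sg (a' k.castSucc)) • y k) +
          (pathE fun k : Fin p => (-sg (a k.castSucc)) • y k) +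
          ⟪∑ k : Fin p, (-sg (a' k.castSucc)) • y k, ∑ k : Fin p, (-sg (a k.castSucc)) • y k⟫_ℂ := by
      have hz : ∀ (b b' : Bool) (u v : KK),
          ⟪(-sg b) • u, (-sg b') • v⟫_ℂ = sg b * sg b' * ⟪u, v⟫_ℂ := fun b b' u v => by
        rw [inner_smul_left, inner_smul_right, map_neg, path_conj_sg]; ring
      simp only [quad, pathE, sum_inner]
      simp only [inner_sum, hz, map_neg, path_conj_sg, map_sub, map_mul, map_sum, apply_ite conj,
        inner_conj_symm, map_zero, B.sg_mul_self, one_mul, map_div₀, map_one, map_ofNat,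
        ite_add_zero, Finset.sum_add_distrib]
      have hc : ∀ (c : Fin (p + 1) → Bool) (G : Fin p → Fin p → ℂ),
          (∑ k, ∑ l, if k < l then sg (c l.castSucc) * sg (c k.castSucc) * G k l else 0) =
            ∑ k, ∑ l, if k < l then sg (c k.castSucc) * sg (c l.castSucc) * G k l else 0 :=
        fun c G => Finset.sum_congr rfl fun k _ => Finset.sum_congr rfl fun l _ => by
          rw [mul_comm (sg (c l.castSucc))]
      rw [hc a' fun k l => ⟪y k, y l⟫_ℂ, hc a fun k l => ⟪y l, y k⟫_ℂ]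
      ring
    rw [e, Complex.exp_add, Complex.exp_add, Complex.exp_conj]
    simp only [map_mul, path_conj_sg, Complex.conj_ofReal]
    linear_combination (conj (amp (fun k : Fin p => β k) a') * amp (fun k : Fin p => β k) a *
      sg (a' s) * sg (a t) * conj (Complex.exp (pathE fun k : Fin p => (-sg (a' k.castSucc)) • y k)) *
      Complex.exp (pathE fun k : Fin p => (-sg (a k.castSucc)) • y k) * Complex.exp
        ⟪∑ k : Fin p, (-sg (a' k.castSucc)) • y k, ∑ k : Fin p, (-sg (a k.castSucc)) • y k⟫_ℂ / 2) * h2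
  · simp

end Model

end Crest.Agent.R339
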